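-- KEEP
import Claimed.Agent.R256.Base.Cyl

/-!
# Row 256 (LS paper), CYL, file 1 : TEST ALGEBRA AND THE PAPER-FREE GEOMETRY          (chief helper255; prefix `cy_`)

Pure real algebra / Lebesgue measure on `Cy5` (instantaneous coordinates) and `CyT` (tests) of `Base/Cyl.lean`.   No state, no operator, no model.
Every theorem with a hole is ONE LEAF `L-256-CYL-<name>`; the docstring contains the complete proof.   Prove IN PLACE, statement verbatim (defect: one line to helper255);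
auxiliary lemmas directly above your theorem, prefix `cy_<leaf>_`; pull before landing and splice only your hunk.

* `cyFlow t z`      free flow of the instantaneous coordinates (cyl:base-flow)
* `cyExt Q t`       the shear coefficients of `Q` at the time `T + t`: `β(t) = β + tK`, `d(t) = d + tc`      (02 l.88-92)
* `cyP Q z`         `P(F) = α + 2βX - 2KB`  (cyl:derivative);     `cyPc Q` the same at the base centre of `Q`
* `cySucc t a q z z'`   `z'` (time `T + t`) is a geometric successor of `z` (time `T`): same base ray, `|N'-N| ≤ a`, `|D'-D-tN| ≤ q`      (cyl:correspondence)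
* `cyBack Q t x' ρ φ`   the test at the time `T - t`, base centre on the ray of slope `x'` through the base centre of `Q`, widths `ρ, φ`, the shear of `Q`
* `cyM Q Q' l`      `max(1, r|ΔP(centre of Q)|/f, r²|Δβ|/f, l r²|ΔK|/f)`      (the number `M` of Lemma cyl:intersection, in the units of `Q`)
LEAVES:  FLOW (done) | BACK `cy_back_mem` | COV `cy_back_cover` (= G2 with gain `1 + η/2`, 02 l.323-345) | PROJ `cy_proj` | ENL `cy_enl`, `cy_wt_scale` |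
I-A, I-B, I `cy_I_coverA`, `cy_I_coverB`, `cy_I_cover` (= E7 of report 874, 02 l.525-585) | TWO `cy_two_shear` | Q1D `cy_quad_sublevel` | SUB `cy_sub_vel`, `cy_sub_pos` (cyl:sublevel) | EXTD `cy_diff_extend`.
-/

set_option autoImplicit false

namespace Claimed.Agent.R256

open MeasureTheory

/-- free flow of the instantaneous coordinates -/
def cyFlow (t : ℝ) (z : Cy5) : Cy5 := ⟨z.X, z.B + t * z.X, z.Y + t * z.X ^ 2, z.N, z.D + t * z.N⟩

/-- the shear coefficients at the time `T + t` -/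
def cyExt (Q : CyT) (t : ℝ) : CyT := { Q with be := Q.be + t * Q.K, d := Q.d + t * Q.c }

/-- `P(F)` -/
def cyP (Q : CyT) (z : Cy5) : ℝ := Q.al + 2 * Q.be * z.X - 2 * Q.K * z.B

/-- `P` at the base point `(x, b)` -/
def cyPat (Q : CyT) (x b : ℝ) : ℝ := Q.al + 2 * Q.be * x - 2 * Q.K * b

/-- geometric successor -/
def cySucc (t a q : ℝ) (z z' : Cy5) : Prop :=
  z'.X = z.X ∧ z'.B = z.B + t * z.X ∧ z'.Y = z.Y + t * z.X ^ 2 ∧ |z'.N - z.N| ≤ a ∧ |z'.D - z.D - t * z.N| ≤ q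

/-- the test `Q` moved back by the time `t` along the base ray of slope `x'`, with new widths -/
def cyBack (Q : CyT) (t x' ρ φ : ℝ) : CyT where
  x := x'
  b := Q.b - t * x'
  y := Q.y - t * x' ^ 2
  r := ρ
  f := φ
  c := Q.c
  d := Q.d - t * Q.c
  al := Q.al
  be := Q.be - t * Q.K
  K := Q.K

/-- the number `M` of Lemma cyl:intersection, in the units `(r, l r, l r², f, l f)` of the first test -/
noncomputable def cyM (Q Q' : CyT) (l : ℝ) : ℝ :=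
  max 1 (max (Q.r * |cyPat Q' Q.x Q.b - cyPat Q Q.x Q.b| / Q.f) (max (Q.r ^ 2 * |Q'.be - Q.be| / Q.f) (l * Q.r ^ 2 * |Q'.K - Q.K| / Q.f)))

/-- Heisenberg cell of width `ρ` (unit length) -/
def cyHeis (x b y ρ X B Y : ℝ) : Prop := |X - x| ≤ ρ ∧ |B - b| ≤ ρ ∧ |Y - y - 2 * x * (B - b)| ≤ ρ ^ 2

theorem cy_alg_eqns_cite : True := by
  have := @cyFlow.eq_1
  have := @cyExt.eq_1
  have := @cyP.eq_1
  have := @cyPat.eq_1
  have := @cySucc.eq_1
  have := @cyBack.eq_1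
  have := @cyM.eq_1
  have := @cyHeis.eq_1
  trivial

/-! ## FLOW: the invariants (02 l.96-106) -/

theorem cy_vel_flow (Q : CyT) (t : ℝ) (z : Cy5) : cyVel (cyExt Q t) (cyFlow t z) = cyVel Q z := by
  simp only [cyVel, cyExt, cyFlow]; ring

theorem cy_pos_flow (Q : CyT) (t : ℝ) (z : Cy5) : cyPos (cyExt Q t) (cyFlow t z) = cyPos Q z + t * cyVel Q z := by
  simp only [cyPos, cyVel, cyExt, cyFlow]; ring

theorem cy_P_flow (Q : CyT) (t : ℝ) (z : Cy5) : cyP (cyExt Q t) (cyFlow t z) = cyP Q z := by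
  simp only [cyP, cyExt, cyFlow]; ring

theorem cy_flow_add (t t' : ℝ) (z : Cy5) : cyFlow t (cyFlow t' z) = cyFlow (t + t') z := by
  simp only [cyFlow, Cy5.mk.injEq]; refine ⟨trivial, ?_, ?_, trivial, ?_⟩ <;> ring

theorem cy_succ_flow (t : ℝ) (z : Cy5) : cySucc t 0 0 z (cyFlow t z) := by
  simp [cySucc, cyFlow]

/-! ## BACK, COV, PROJ: backflow of a test (02 l.323-345, l.630-640) -/

/-- **L-256-CYL-BACK**.   `X = x' + ξ`, `|ξ| ≤ ρ0`.   With `B' = B + tX`, `Y' = Y + tX²`, `τ = cyTilt Q z'`: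
`B - (b - t x') = (B' - b) - tξ`;     `cyTilt (cyBack ..) z = 2 (x - x')(B' - b) + τ - tξ²`;
`cyVel (cyBack ..) z = cyVel Q z' - (N' - N)`;     `cyPos (cyBack ..) z = cyPos Q z' - (D' - D - tN) - t * cyVel (cyBack ..) z`.      (all four: `ring` after substituting the three equations of `cySucc`) -/
theorem cy_back_mem (Q : CyT) (l l' t a q x' ρ0 ρ φ : ℝ) (z z' : Cy5) (ht0 : 0 ≤ t) (hr : 0 ≤ Q.r) (hl' : 0 ≤ l')
    (hz' : cyIn Q l' z') (hs : cySucc t a q z z') (hx : |z.X - x'| ≤ ρ0) (hxx : |Q.x - x'| ≤ Q.r)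
    (h1 : ρ0 ≤ ρ) (h2 : l' * Q.r + t * ρ0 ≤ l * ρ) (h3 : 3 * (l' * Q.r ^ 2) + t * ρ0 ^ 2 ≤ l * ρ ^ 2)
    (h4 : Q.f + a ≤ φ) (h5 : l' * Q.f + q + t * (Q.f + a) ≤ l * φ) :
    cyIn (cyBack Q t x' ρ φ) l z := by
  obtain ⟨z1, z2, z3, z4, z5⟩ := hz'
  obtain ⟨s1, s2, s3, s4, s5⟩ := hs
  have eB : z.B - (Q.b - t * x') = (z'.B - Q.b) - t * (z.X - x') := by rw [s2]; ring
  have eT : cyTilt (cyBack Q t x' ρ φ) z
      = 2 * ((Q.x - x') * (z'.B - Q.b)) + cyTilt Q z' - t * (z.X - x') ^ 2 := by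
    simp only [cyTilt, cyBack]; rw [s2, s3]; ring
  have eV : cyVel (cyBack Q t x' ρ φ) z = cyVel Q z' - (z'.N - z.N) := by
    simp only [cyVel, cyBack]; rw [s1, s2, s3]; ring
  have eP : cyPos (cyBack Q t x' ρ φ) z
      = cyPos Q z' - (z'.D - z.D - t * z.N) - t * cyVel (cyBack Q t x' ρ φ) z := by
    simp only [cyPos, cyVel, cyBack]; rw [s2, s3]; ring
  have hV : |cyVel (cyBack Q t x' ρ φ) z| ≤ Q.f + a := by
    rw [eV]
    exact (abs_sub _ _).trans (add_le_add z4 s4)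
  have hρ0 : 0 ≤ ρ0 := (abs_nonneg _).trans hx
  refine ⟨hx.trans h1, ?_, ?_, hV.trans h4, ?_⟩
  · show |z.B - (Q.b - t * x')| ≤ l * ρ
    rw [eB]
    refine le_trans ((abs_sub _ _).trans (add_le_add z2 ?_)) h2
    rw [abs_mul, abs_of_nonneg ht0]
    exact mul_le_mul_of_nonneg_left hx ht0
  · show |cyTilt (cyBack Q t x' ρ φ) z| ≤ l * ρ ^ 2
    rw [eT]
    refine le_trans ?_ h3
    have hA : |2 * ((Q.x - x') * (z'.B - Q.b))| ≤ 2 * (l' * Q.r ^ 2) := by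
      rw [abs_mul, abs_mul, abs_of_pos (by norm_num : (0:ℝ) < 2)]
      have : |Q.x - x'| * |z'.B - Q.b| ≤ Q.r * (l' * Q.r) :=
        mul_le_mul hxx z2 (abs_nonneg _) hr
      nlinarith
    have hB : |t * (z.X - x') ^ 2| ≤ t * ρ0 ^ 2 := by
      rw [abs_mul, abs_of_nonneg ht0, abs_pow]
      exact mul_le_mul_of_nonneg_left (pow_le_pow_left₀ (abs_nonneg _) hx 2) ht0
    calc |2 * ((Q.x - x') * (z'.B - Q.b)) + cyTilt Q z' - t * (z.X - x') ^ 2|
        ≤ |2 * ((Q.x - x') * (z'.B - Q.b)) + cyTilt Q z'| + |t * (z.X - x') ^ 2| := abs_sub _ _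
      _ ≤ |2 * ((Q.x - x') * (z'.B - Q.b))| + |cyTilt Q z'| + |t * (z.X - x') ^ 2| := by
          gcongr; exact abs_add_le _ _
      _ ≤ 2 * (l' * Q.r ^ 2) + l' * Q.r ^ 2 + t * ρ0 ^ 2 := by gcongr
      _ = 3 * (l' * Q.r ^ 2) + t * ρ0 ^ 2 := by ring
  · show |cyPos (cyBack Q t x' ρ φ) z| ≤ l * φ
    rw [eP]
    refine le_trans ?_ h5
    have hC : |t * cyVel (cyBack Q t x' ρ φ) z| ≤ t * (Q.f + a) := by
      rw [abs_mul, abs_of_nonneg ht0]
      exact mul_le_mul_of_nonneg_left hV ht0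
    calc |cyPos Q z' - (z'.D - z.D - t * z.N) - t * cyVel (cyBack Q t x' ρ φ) z|
        ≤ |cyPos Q z' - (z'.D - z.D - t * z.N)| + |t * cyVel (cyBack Q t x' ρ φ) z| := abs_sub _ _
      _ ≤ |cyPos Q z'| + |z'.D - z.D - t * z.N| + |t * cyVel (cyBack Q t x' ρ φ) z| := by
          gcongr; exact abs_sub _ _
      _ ≤ l' * Q.f + q + t * (Q.f + a) := by gcongr

/-- **L-256-CYL-PROJ** (02 l.630-640): the projected test `Q⁻`.   `cy_back_mem` with `x' = Q.x`, `ρ0 = Q.r`. -/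
theorem cy_proj (Q : CyT) (l l' t Λ : ℝ) (z z' : Cy5) (ht0 : 0 ≤ t) (ht : t ≤ l) (hr : 0 ≤ Q.r) (hf : 0 ≤ Q.f) (hl' : 0 ≤ l') (hll : l' ≤ l) (hΛ : 1 ≤ Λ)
    (hz' : cyIn Q l' z') (hs : cySucc t (Λ * Q.f) (Λ * (l * Q.f)) z z') :
    cyIn (cyBack Q t Q.x (2 * Q.r) (4 * Λ * Q.f)) l z := by
  have hl : 0 ≤ l := hl'.trans hll
  have hlr : 0 ≤ l * Q.r := mul_nonneg hl hr
  have hlf : 0 ≤ l * Q.f := mul_nonneg hl hf
  have hr2 : 0 ≤ Q.r ^ 2 := sq_nonneg _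
  have hΛf : Q.f ≤ Λ * Q.f := by nlinarith
  have hΛlf : l * Q.f ≤ Λ * (l * Q.f) := by nlinarith
  refine cy_back_mem Q l l' t (Λ * Q.f) (Λ * (l * Q.f)) Q.x Q.r (2 * Q.r) (4 * Λ * Q.f) z z' ht0 hr hl' hz' hs
    ?_ ?_ ?_ ?_ ?_ ?_ ?_
  · rw [← hs.1]; exact hz'.1
  · simpa using hr
  · linarith
  · have a1 : l' * Q.r ≤ l * Q.r := mul_le_mul_of_nonneg_right hll hr
    have a2 : t * Q.r ≤ l * Q.r := mul_le_mul_of_nonneg_right ht hr
    linarith
  · have a1 : l' * Q.r ^ 2 ≤ l * Q.r ^ 2 := mul_le_mul_of_nonneg_right hll hr2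
    have a2 : t * Q.r ^ 2 ≤ l * Q.r ^ 2 := mul_le_mul_of_nonneg_right ht hr2
    have e : l * (2 * Q.r) ^ 2 = 4 * (l * Q.r ^ 2) := by ring
    rw [e]; linarith
  · have : 0 ≤ Λ * Q.f := by positivity
    linarith
  · have a1 : l' * Q.f ≤ l * Q.f := mul_le_mul_of_nonneg_right hll hf
    have a2 : t * (Q.f + Λ * Q.f) ≤ l * (Q.f + Λ * Q.f) :=
      mul_le_mul_of_nonneg_right ht (by positivity)
    have e : l * (4 * Λ * Q.f) = 4 * (Λ * (l * Q.f)) := by ring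
    have e2 : l * (Q.f + Λ * Q.f) = l * Q.f + Λ * (l * Q.f) := by ring
    rw [e]; rw [e2] at a2; linarith

theorem cy_COV_idx (m : ℕ) (y : ℝ) (h0 : 0 ≤ y) (h1 : y ≤ m) (hm : 0 < m) : ∃ j : Fin m, |y - (((j : ℕ) : ℝ) + 1 / 2)| ≤ 1 / 2 := by
  by_cases h : y < m
  · refine ⟨⟨⌊y⌋₊, (Nat.floor_lt h0).mpr h⟩, ?_⟩
    have h2 := Nat.floor_le h0
    have h3 := Nat.lt_floor_add_one y
    simp only
    rw [abs_le]; constructor <;> linarith
  · have hy : y = m := le_antisymm h1 (not_lt.mp h)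
    refine ⟨⟨m - 1, Nat.sub_lt hm one_pos⟩, ?_⟩
    simp only
    have hc : (((m - 1 : ℕ) : ℕ) : ℝ) = (m : ℝ) - 1 := by
      rw [Nat.cast_sub (Nat.succ_le_of_lt hm)]; simp
    rw [hc, hy]
    rw [abs_le]; constructor <;> linarith

/-- **L-256-CYL-COV** = G2 with the gain `1 + η/2` (Lemma cyl:one-time, 02 l.323-345).   `δ = l'/l`, `ρ = r √δ`, `m = ⌈δ^(-1/2)⌉ ≤ 2 δ^(-1/2)`, `x_i = x - r + (2i+1)ρ` clipped to `[x-r, x+r]`,
`Qs i = cyBack Q t x_i (2ρ) (4Λf)`;   `cy_back_mem` with `ρ0 = ρ`:  `l' r + tρ ≤ l(δ r + ρ) ≤ 2lρ`,  `3 l' r² + tρ² ≤ 4 l ρ²`.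
Weights: `m (2ρ)^(3+η) (4Λf)^(1-η) ≤ 2 δ^(-1/2) · 16 δ^((3+η)/2) r^(3+η) · 4Λ f^(1-η)`. -/
theorem cy_back_cover {η : ℝ} (h0 : 0 < η) (h1 : η < 1) (Q : CyT) (hr : 0 < Q.r) (hf : 0 < Q.f) (l l' t Λ : ℝ) (hl' : 0 < l') (hll : l' ≤ l)
    (ht0 : 0 ≤ t) (ht : t ≤ l) (hΛ : 1 ≤ Λ) :
    ∃ (m : ℕ) (Qs : Fin m → CyT), (∀ i, (Qs i).r = 2 * (Q.r * Real.sqrt (l' / l)) ∧ (Qs i).f = 4 * Λ * Q.f) ∧
      (∀ z z', cyIn Q l' z' → cySucc t (Λ * Q.f) (Λ * (l * Q.f)) z z' → ∃ i, cyIn (Qs i) l z) ∧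
      ∑ i, cyWt η (Qs i) ≤ 128 * Λ * (l' / l) ^ (1 + η / 2) * cyWt η Q := by
  have hl : 0 < l := lt_of_lt_of_le hl' hll
  have hδ0 : 0 < l' / l := by positivity
  have hδ1 : l' / l ≤ 1 := by rw [div_le_one hl]; exact hll
  set σ : ℝ := Real.sqrt (l' / l) with hσ
  have hσ0 : 0 < σ := Real.sqrt_pos.mpr hδ0
  have hσ1 : σ ≤ 1 := Real.sqrt_le_one.mpr hδ1
  have hσ2 : σ ^ 2 = l' / l := Real.sq_sqrt hδ0.le
  have hlσ : l * σ ^ 2 = l' := by rw [hσ2]; field_simp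
  set ρ : ℝ := Q.r * σ with hρ
  have hρ0 : 0 < ρ := by positivity
  set m : ℕ := ⌈1 / σ⌉₊ with hm
  have hm0 : 0 < m := Nat.ceil_pos.mpr (by positivity)
  have hm1 : 1 / σ ≤ m := Nat.le_ceil _
  have hm2 : (m : ℝ) ≤ 2 / σ := by
    have h2 := Nat.ceil_lt_add_one (a := 1 / σ) (by positivity)
    have h3 : 1 ≤ 1 / σ := by rw [le_div_iff₀ hσ0]; linarith
    have h4 : 2 / σ = 1 / σ + 1 / σ := by ring
    rw [h4]
    linarith
  refine ⟨m, fun i => cyBack Q t (min (Q.x - Q.r + (2 * ((i : ℕ) : ℝ) + 1) * ρ) (Q.x + Q.r)) (2 * ρ) (4 * Λ * Q.f),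
    fun i => ⟨rfl, rfl⟩, ?_, ?_⟩
  · intro z z' hz' hs
    have hX : z'.X = z.X := hs.1
    have hzX := abs_le.mp hz'.1
    rw [hX] at hzX
    have hy0 : 0 ≤ (z.X - (Q.x - Q.r)) / (2 * ρ) := div_nonneg (by linarith) (by positivity)
    have hy1 : (z.X - (Q.x - Q.r)) / (2 * ρ) ≤ m := by
      refine le_trans ?_ hm1
      rw [div_le_div_iff₀ (by positivity) hσ0, hρ]
      nlinarith
    obtain ⟨j, hj⟩ := cy_COV_idx m _ hy0 hy1 hm0
    have hj2 : |z.X - (Q.x - Q.r + (2 * ((j : ℕ) : ℝ) + 1) * ρ)| ≤ ρ := by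
      have e1 : z.X - (Q.x - Q.r + (2 * ((j : ℕ) : ℝ) + 1) * ρ) = ((z.X - (Q.x - Q.r)) / (2 * ρ) - (((j : ℕ) : ℝ) + 1 / 2)) * (2 * ρ) := by
        field_simp
        ring
      rw [e1, abs_mul, abs_of_pos (by positivity : 0 < 2 * ρ)]
      nlinarith
    have hj3 := abs_le.mp hj2
    have hjn : (0 : ℝ) ≤ ((j : ℕ) : ℝ) := Nat.cast_nonneg _
    have hjρ : 0 ≤ (2 * ((j : ℕ) : ℝ) + 1) * ρ := by positivity
    refine ⟨j, cy_back_mem Q l l' t (Λ * Q.f) (Λ * (l * Q.f)) _ ρ (2 * ρ) (4 * Λ * Q.f) z z' ht0 hr.le hl'.le hz' hs ?_ ?_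
      (by linarith) ?_ ?_ ?_ ?_⟩
    · rcases le_total (Q.x - Q.r + (2 * ((j : ℕ) : ℝ) + 1) * ρ) (Q.x + Q.r) with hc | hc
      · rw [min_eq_left hc]; exact hj2
      · rw [min_eq_right hc, abs_le]; constructor <;> linarith
    · rcases le_total (Q.x - Q.r + (2 * ((j : ℕ) : ℝ) + 1) * ρ) (Q.x + Q.r) with hc | hc
      · rw [min_eq_left hc, abs_le]; constructor <;> linarith
      · rw [min_eq_right hc, abs_le]; constructor <;> linarith
    · -- l' r + t ρ ≤ l (2ρ)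
      have g1 : l' * Q.r ≤ l * ρ := by
        rw [← hlσ, hρ]
        have : σ ^ 2 ≤ σ := by nlinarith
        have h5 : l * Q.r * σ ^ 2 ≤ l * Q.r * σ := mul_le_mul_of_nonneg_left this (by positivity)
        linarith
      have g2 : t * ρ ≤ l * ρ := mul_le_mul_of_nonneg_right ht hρ0.le
      linarith
    · have g1 : l' * Q.r ^ 2 = l * ρ ^ 2 := by rw [← hlσ, hρ]; ring
      have g2 : t * ρ ^ 2 ≤ l * ρ ^ 2 := mul_le_mul_of_nonneg_right ht (by positivity)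
      rw [g1]
      linarith
    · have : Q.f ≤ Λ * Q.f := le_mul_of_one_le_left hf.le hΛ
      linarith
    · have g0 : Q.f ≤ Λ * Q.f := le_mul_of_one_le_left hf.le hΛ
      have g1 : l' * Q.f ≤ l * Q.f := mul_le_mul_of_nonneg_right hll hf.le
      have g2 : t * (Q.f + Λ * Q.f) ≤ l * (Q.f + Λ * Q.f) := mul_le_mul_of_nonneg_right ht (by positivity)
      have g3 : l * Q.f ≤ l * (Λ * Q.f) := mul_le_mul_of_nonneg_left g0 hl.le
      linarith
  · have hw : ∀ i : Fin m, cyWt η (cyBack Q t (min (Q.x - Q.r + (2 * ((i : ℕ) : ℝ) + 1) * ρ) (Q.x + Q.r)) (2 * ρ) (4 * Λ * Q.f))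
        = (2 * ρ) ^ (3 + η) * (4 * Λ * Q.f) ^ (1 - η) := fun i => rfl
    simp only [hw]
    rw [Finset.sum_const, Finset.card_univ, Fintype.card_fin, nsmul_eq_mul]
    have e1 : (2 * ρ) ^ (3 + η) = 2 ^ (3 + η) * (Q.r ^ (3 + η) * (σ * σ ^ (2 + η))) := by
      rw [hρ, Real.mul_rpow (by norm_num) (by positivity), Real.mul_rpow hr.le hσ0.le]
      congr 2
      rw [show (3 : ℝ) + η = 1 + (2 + η) by ring, Real.rpow_add hσ0, Real.rpow_one]
    have e2 : (4 * Λ * Q.f) ^ (1 - η) = (4 * Λ) ^ (1 - η) * Q.f ^ (1 - η) := Real.mul_rpow (by positivity) hf.le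
    have e3 : (l' / l) ^ (1 + η / 2) = σ ^ (2 + η) := by
      rw [← hσ2, ← Real.rpow_natCast, ← Real.rpow_mul hσ0.le]
      congr 1
      push_cast
      ring
    have b1 : (2 : ℝ) ^ (3 + η) ≤ 16 := by
      have : (2 : ℝ) ^ (3 + η) ≤ 2 ^ ((4 : ℕ) : ℝ) := Real.rpow_le_rpow_of_exponent_le (by norm_num) (by push_cast; linarith)
      rw [Real.rpow_natCast] at this
      linarith
    have b2 : (4 * Λ) ^ (1 - η) ≤ 4 * Λ := by
      have : (4 * Λ) ^ (1 - η) ≤ (4 * Λ) ^ (1 : ℝ) := Real.rpow_le_rpow_of_exponent_le (by linarith) (by linarith)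
      rwa [Real.rpow_one] at this
    have b3 : (m : ℝ) * σ ≤ 2 := by
      have := mul_le_mul_of_nonneg_right hm2 hσ0.le
      rwa [div_mul_cancel₀ _ hσ0.ne'] at this
    have p1 : 0 ≤ Q.r ^ (3 + η) := Real.rpow_nonneg hr.le _
    have p2 : 0 ≤ Q.f ^ (1 - η) := Real.rpow_nonneg hf.le _
    have p3 : 0 ≤ σ ^ (2 + η) := Real.rpow_nonneg hσ0.le _
    have p4 : 0 ≤ (2 : ℝ) ^ (3 + η) := Real.rpow_nonneg (by norm_num) _
    have p5 : 0 ≤ (4 * Λ) ^ (1 - η) := Real.rpow_nonneg (by positivity) _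
    rw [e1, e2, e3, cyWt]
    calc (m : ℝ) * (2 ^ (3 + η) * (Q.r ^ (3 + η) * (σ * σ ^ (2 + η))) * ((4 * Λ) ^ (1 - η) * Q.f ^ (1 - η)))
        = ((m : ℝ) * σ) * 2 ^ (3 + η) * (4 * Λ) ^ (1 - η) * (σ ^ (2 + η) * (Q.r ^ (3 + η) * Q.f ^ (1 - η))) := by ring
      _ ≤ 2 * 16 * (4 * Λ) * (σ ^ (2 + η) * (Q.r ^ (3 + η) * Q.f ^ (1 - η))) := by
          gcongr
      _ = 128 * Λ * σ ^ (2 + η) * (Q.r ^ (3 + η) * Q.f ^ (1 - η)) := by ring

/-! ## ENL: enlargements (02 l.116-118) -/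

/-- **L-256-CYL-ENL**: scaling of the weight -/
theorem cy_wt_scale (η : ℝ) (Q : CyT) (hr : 0 < Q.r) (hf : 0 < Q.f) (a b : ℝ) (ha : 0 < a) (hb : 0 < b) :
    cyWt η { Q with r := a * Q.r, f := b * Q.f } = a ^ (3 + η) * b ^ (1 - η) * cyWt η Q := by
  simp only [cyWt]
  rw [Real.mul_rpow ha.le hr.le, Real.mul_rpow hb.le hf.le]; ring

/-- **L-256-CYL-ENL**: larger widths give a larger cell -/
theorem cy_enl (Q : CyT) (l a b : ℝ) (z : Cy5) (hl : 0 ≤ l) (hr : 0 ≤ Q.r) (hf : 0 ≤ Q.f) (ha : 1 ≤ a) (hb : 1 ≤ b) (hz : cyIn Q l z) :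
    cyIn { Q with r := a * Q.r, f := b * Q.f } l z := by
  obtain ⟨z1, z2, z3, z4, z5⟩ := hz
  have h1 : Q.r ≤ a * Q.r := by nlinarith
  have h2 : Q.f ≤ b * Q.f := by nlinarith
  refine ⟨z1.trans h1, z2.trans (mul_le_mul_of_nonneg_left h1 hl), ?_, ?_, ?_⟩
  · show |cyTilt Q z| ≤ l * (a * Q.r) ^ 2
    exact z3.trans (mul_le_mul_of_nonneg_left (pow_le_pow_left₀ hr h1 2) hl)
  · show |cyVel Q z| ≤ b * Q.f
    exact z4.trans h2
  · show |cyPos Q z| ≤ l * (b * Q.f)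
    exact z5.trans (mul_le_mul_of_nonneg_left h2 hl)

/-! ## (I): the two-shear covering (Lemma cyl:intersection, 02 l.525-585; E7 of report 874) -/

/-- a finite family of Heisenberg cells of widths in `[ρ0, 1]` covering `S`, of total weight `≤ W` -/
def CyICov (η ρ0 : ℝ) (S : Set (ℝ × ℝ × ℝ)) (W : ℝ) : Prop :=
  ∃ (m : ℕ) (cx cb cy ρ : Fin m → ℝ), (∀ i, ρ0 ≤ ρ i ∧ ρ i ≤ 1) ∧
    (∀ p ∈ S, ∃ i, cyHeis (cx i) (cb i) (cy i) (ρ i) p.1 p.2.1 p.2.2) ∧ ∑ i, ρ i ^ (3 + η) ≤ W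

theorem cy_IA_cov_mono {η ρ0 ρ0' : ℝ} {S S' : Set (ℝ × ℝ × ℝ)} {W W' : ℝ} (h : CyICov η ρ0 S W) (hρ : ρ0' ≤ ρ0) (hS : S' ⊆ S)
    (hW : W ≤ W') : CyICov η ρ0' S' W' := by
  obtain ⟨m, cx, cb, cy, ρ, h1, h2, h3⟩ := h
  exact ⟨m, cx, cb, cy, ρ, fun i => ⟨hρ.trans (h1 i).1, (h1 i).2⟩, fun p hp => h2 p (hS hp), h3.trans hW⟩

theorem cy_IA_cov_union {η ρ0 : ℝ} {S S' : Set (ℝ × ℝ × ℝ)} {W W' : ℝ} (h : CyICov η ρ0 S W) (h' : CyICov η ρ0 S' W') :
    CyICov η ρ0 (S ∪ S') (W + W') := by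
  obtain ⟨m, cx, cb, cy, ρ, h1, h2, h3⟩ := h
  obtain ⟨m', cx', cb', cy', ρ', h1', h2', h3'⟩ := h'
  refine ⟨m + m', Fin.append cx cx', Fin.append cb cb', Fin.append cy cy', Fin.append ρ ρ', ?_, ?_, ?_⟩
  · intro i
    refine Fin.addCases (fun i => ?_) (fun i => ?_) i
    · simpa using h1 i
    · simpa using h1' i
  · rintro p (hp | hp)
    · obtain ⟨i, hi⟩ := h2 p hp
      exact ⟨Fin.castAdd m' i, by simpa using hi⟩
    · obtain ⟨i, hi⟩ := h2' p hp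
      exact ⟨Fin.natAdd m i, by simpa using hi⟩
  · rw [Fin.sum_univ_add]
    simp only [Fin.append_left, Fin.append_right]
    exact add_le_add h3 h3'

theorem cy_IA_cov_range {η ρ0 : ℝ} (S : ℕ → Set (ℝ × ℝ × ℝ)) (W : ℕ → ℝ) (J : ℕ) (h : ∀ j < J, CyICov η ρ0 (S j) (W j)) :
    CyICov η ρ0 {p | ∃ j < J, p ∈ S j} (∑ j ∈ Finset.range J, W j) := by
  induction J with
  | zero =>
    exact ⟨0, Fin.elim0, Fin.elim0, Fin.elim0, Fin.elim0, fun i => i.elim0,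
      fun p ⟨j, hj, _⟩ => absurd hj (Nat.not_lt_zero _), by simp⟩
  | succ J ih =>
    rw [Finset.sum_range_succ]
    refine cy_IA_cov_mono (cy_IA_cov_union (ih fun j hj => h j (hj.trans (Nat.lt_succ_self _))) (h J (Nat.lt_succ_self _)))
      le_rfl ?_ le_rfl
    rintro p ⟨j, hj, hp⟩
    rcases Nat.lt_succ_iff_lt_or_eq.mp hj with h' | rfl
    · exact Or.inl ⟨j, h', hp⟩
    · exact Or.inr hp

/-- one more integer index: the number of index values is multiplied by the size of the fibres -/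
theorem cy_IA_cnt {P α : Type*} (T : Set P) (g : P → α) (f : P → ℤ) (n L : ℝ) (hL : 0 ≤ L)
    (hfin : (g '' T).Finite) (hn : ((g '' T).ncard : ℝ) ≤ n)
    (hf : ∀ p ∈ T, ∀ q ∈ T, g p = g q → |(f p : ℝ) - f q| ≤ L) :
    ((fun p => (g p, f p)) '' T).Finite ∧ (((fun p => (g p, f p)) '' T).ncard : ℝ) ≤ n * (2 * L + 1) := by
  classical
  have hch : ∀ x : α, ∃ z : ℤ, ∀ p ∈ T, g p = x → |(f p : ℝ) - z| ≤ L := by
    intro x
    by_cases hx : ∃ q ∈ T, g q = x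
    · obtain ⟨q, hq, hqx⟩ := hx
      exact ⟨f q, fun p hp hpx => hf p hp q hq (hpx.trans hqx.symm)⟩
    · exact ⟨0, fun p hp hpx => absurd ⟨p, hp, hpx⟩ hx⟩
  choose z hz using hch
  set F : Finset (α × ℤ) := (hfin.toFinset ×ˢ Finset.Icc (-⌊L⌋) ⌊L⌋).image (fun w => (w.1, z w.1 + w.2)) with hF
  have hsub : ((fun p => (g p, f p)) '' T) ⊆ (F : Set (α × ℤ)) := by
    rintro _ ⟨p, hp, rfl⟩
    simp only [hF, Finset.coe_image, Set.mem_image, Finset.mem_coe, Finset.mem_product, Set.Finite.mem_toFinset,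
      Finset.mem_Icc]
    have h1 := abs_le.mp (hz (g p) p hp rfl)
    have h2 : f p - z (g p) ≤ ⌊L⌋ := Int.le_floor.mpr (by push_cast; linarith [h1.2])
    have h3 : z (g p) - f p ≤ ⌊L⌋ := Int.le_floor.mpr (by push_cast; linarith [h1.1])
    refine ⟨(g p, f p - z (g p)), ⟨⟨p, hp, rfl⟩, by linarith, h2⟩, ?_⟩
    simp
  have hfl : 0 ≤ ⌊L⌋ := Int.floor_nonneg.mpr hL
  have hcard : (F.card : ℝ) ≤ n * (2 * L + 1) := by
    have h1 : F.card ≤ hfin.toFinset.card * (Finset.Icc (-⌊L⌋) ⌊L⌋).card := by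
      rw [← Finset.card_product]
      exact Finset.card_image_le
    have h2 : ((Finset.Icc (-⌊L⌋) ⌊L⌋).card : ℝ) ≤ 2 * L + 1 := by
      rw [Int.card_Icc]
      have h3 : (((⌊L⌋ + 1 - -⌊L⌋).toNat : ℤ) : ℝ) = ((⌊L⌋ + 1 - -⌊L⌋ : ℤ) : ℝ) := by
        rw [Int.toNat_of_nonneg (by linarith)]
      have h4 : (((⌊L⌋ + 1 - -⌊L⌋).toNat : ℕ) : ℝ) = (((⌊L⌋ + 1 - -⌊L⌋).toNat : ℤ) : ℝ) := by
        rw [Int.cast_natCast]
      rw [h4, h3]
      push_cast
      linarith [Int.floor_le L]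
    have h5 : (hfin.toFinset.card : ℝ) ≤ n := by
      rw [← Set.ncard_eq_toFinset_card _ hfin]; exact hn
    calc (F.card : ℝ) ≤ (hfin.toFinset.card : ℝ) * ((Finset.Icc (-⌊L⌋) ⌊L⌋).card : ℝ) := by exact_mod_cast h1
      _ ≤ n * (2 * L + 1) := mul_le_mul h5 h2 (Nat.cast_nonneg _) ((Nat.cast_nonneg _).trans h5)
  refine ⟨F.finite_toSet.subset hsub, le_trans ?_ hcard⟩
  have := Set.ncard_le_ncard hsub F.finite_toSet
  rw [Set.ncard_coe_finset] at this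
  exact_mod_cast this

theorem cy_IA_of_image {ι : Type*} (η : ℝ) (S : Set (ℝ × ℝ × ℝ)) (idx : ℝ × ℝ × ℝ → ι) (cx cb cy : ι → ℝ) (ρ n : ℝ)
    (hρ : 0 < ρ) (hρ1 : ρ ≤ 1) (hfin : (idx '' S).Finite) (hn : ((idx '' S).ncard : ℝ) ≤ n)
    (hc : ∀ p ∈ S, cyHeis (cx (idx p)) (cb (idx p)) (cy (idx p)) ρ p.1 p.2.1 p.2.2) :
    CyICov η ρ S (n * ρ ^ (3 + η)) := by
  classical
  set F := hfin.toFinset with hF
  let e := F.equivFin
  refine ⟨F.card, fun i => cx (e.symm i).1, fun i => cb (e.symm i).1, fun i => cy (e.symm i).1, fun _ => ρ,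
    fun _ => ⟨le_rfl, hρ1⟩, ?_, ?_⟩
  · intro p hp
    have hm : idx p ∈ F := by rw [hF, Set.Finite.mem_toFinset]; exact ⟨p, hp, rfl⟩
    refine ⟨e ⟨idx p, hm⟩, ?_⟩
    simp only [Equiv.symm_apply_apply]
    exact hc p hp
  · rw [Finset.sum_const, Finset.card_univ, Fintype.card_fin, nsmul_eq_mul]
    have : (F.card : ℝ) ≤ n := by rw [hF, ← Set.ncard_eq_toFinset_card _ hfin]; exact hn
    exact mul_le_mul_of_nonneg_right this (Real.rpow_nonneg hρ.le _)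

theorem cy_IA_floor_sub (x y : ℝ) : |((⌊x⌋ : ℤ) : ℝ) - ((⌊y⌋ : ℤ) : ℝ)| ≤ |x - y| + 1 := by
  have h1 := Int.floor_le x
  have h2 := Int.lt_floor_add_one x
  have h3 := Int.floor_le y
  have h4 := Int.lt_floor_add_one y
  have h5 := le_abs_self (x - y)
  have h6 := neg_abs_le (x - y)
  rw [abs_le]; constructor <;> linarith

theorem cy_IA_floor_eq {x y R : ℝ} (hR : 0 < R) (h : ⌊x * R⌋ = ⌊y * R⌋) : |x - y| * R ≤ 1 := by
  have h1 := Int.floor_le (x * R)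
  have h2 := Int.lt_floor_add_one (x * R)
  have h3 := Int.floor_le (y * R)
  have h4 := Int.lt_floor_add_one (y * R)
  rw [h] at h1 h2
  have : |x - y| * R = |x * R - y * R| := by rw [← sub_mul, abs_mul, abs_of_pos hR]
  rw [this, abs_le]; constructor <;> linarith

theorem cy_IA_floor_near (x : ℝ) {R : ℝ} (hR : 0 < R) : |x - ((⌊x * R⌋ : ℤ) : ℝ) / R| ≤ 1 / R := by
  have h1 := Int.floor_le (x * R)
  have h2 := Int.lt_floor_add_one (x * R)
  have : x - ((⌊x * R⌋ : ℤ) : ℝ) / R = (x * R - ((⌊x * R⌋ : ℤ) : ℝ)) / R := by field_simp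
  rw [this, abs_div, abs_of_pos hR]
  apply div_le_div_of_nonneg_right _ hR.le
  rw [abs_le]; constructor <;> linarith

/-- the lattice of cells of width `1/R`: the last index -/
theorem cy_IA_cells {α : Type*} (η R n L : ℝ) (hR : 1 ≤ R) (hL : 0 ≤ L) (S : Set (ℝ × ℝ × ℝ))
    (g : ℝ × ℝ × ℝ → α) (πX πB : α → ℤ) (hX : ∀ p, πX (g p) = ⌊p.1 * R⌋) (hB : ∀ p, πB (g p) = ⌊p.2.1 * R⌋)
    (hfin : (g '' S).Finite) (hn : ((g '' S).ncard : ℝ) ≤ n)
    (hv : ∀ p ∈ S, ∀ q ∈ S, g p = g q →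
      |(p.2.2 - 2 * (((⌊p.1 * R⌋ : ℤ) : ℝ) / R) * p.2.1) - (q.2.2 - 2 * (((⌊p.1 * R⌋ : ℤ) : ℝ) / R) * q.2.1)| * R ^ 2 ≤ L) :
    CyICov η (1 / R) S (n * (2 * (L + 1) + 1) * (1 / R) ^ (3 + η)) := by
  have hR0 : 0 < R := lt_of_lt_of_le one_pos hR
  have hR2 : 0 < R ^ 2 := by positivity
  set l : ℝ × ℝ × ℝ → ℤ := fun p => ⌊(p.2.2 - 2 * (((⌊p.1 * R⌋ : ℤ) : ℝ) / R) * p.2.1) * R ^ 2⌋ with hl
  obtain ⟨hf2, hn2⟩ := cy_IA_cnt S g l n (L + 1) (by linarith) hfin hn (by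
    intro p hp q hq hpq
    have h1 : ⌊q.1 * R⌋ = ⌊p.1 * R⌋ := by rw [← hX, ← hX, hpq]
    have h2 := hv p hp q hq hpq
    have h3 := cy_IA_floor_sub ((p.2.2 - 2 * (((⌊p.1 * R⌋ : ℤ) : ℝ) / R) * p.2.1) * R ^ 2)
      ((q.2.2 - 2 * (((⌊q.1 * R⌋ : ℤ) : ℝ) / R) * q.2.1) * R ^ 2)
    simp only [hl]
    refine h3.trans ?_
    rw [h1, ← sub_mul, abs_mul, abs_of_pos hR2]
    linarith)
  refine cy_IA_of_image η S (fun p => (g p, l p)) (fun w => (πX w.1 : ℝ) / R) (fun w => (πB w.1 : ℝ) / R)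
    (fun w => (w.2 : ℝ) / R ^ 2 + 2 * ((πX w.1 : ℝ) / R) * ((πB w.1 : ℝ) / R)) (1 / R) _ (by positivity)
    (by rw [div_le_one hR0]; exact hR) hf2 hn2 ?_
  intro p _
  simp only [hX, hB]
  refine ⟨cy_IA_floor_near _ hR0, cy_IA_floor_near _ hR0, ?_⟩
  have h1 := cy_IA_floor_near (p.2.2 - 2 * (((⌊p.1 * R⌋ : ℤ) : ℝ) / R) * p.2.1) hR2
  have h2 : (1 / R) ^ 2 = 1 / R ^ 2 := by rw [div_pow, one_pow]
  rw [h2]
  refine le_trans (le_of_eq ?_) h1
  congr 1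
  simp only [hl]
  ring
/-- flat case: `B` is determined up to `3Λ/M` by the second expression and a `Y`-interval of length `1/M` -/
theorem cy_IB_bgap {Λ a b k d' M B Y B' Y' : ℝ} (hΛ : 1 ≤ Λ) (hM : 1 ≤ M) (ha : |a| = M) (hb : 8 * |b| ≤ M) (hk : 8 * |k| ≤ M)
    (hB : |B| ≤ 1) (hB' : |B'| ≤ 1) (h2 : |a * B + b * Y - k * B ^ 2 + d'| ≤ Λ) (h2' : |a * B' + b * Y' - k * B' ^ 2 + d'| ≤ Λ)
    (hY : |Y - Y'| * M ≤ 1) : |B - B'| * M ≤ 3 * Λ := by
  have e1 : (B - B') * (a - k * (B + B')) = (a * B + b * Y - k * B ^ 2 + d') - (a * B' + b * Y' - k * B' ^ 2 + d') - b * (Y - Y') := by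
    ring
  have e2 : |(B - B') * (a - k * (B + B'))| ≤ 2 * Λ + 1 / 8 := by
    rw [e1]
    have h3 : |b * (Y - Y')| ≤ 1 / 8 := by
      rw [abs_mul]
      nlinarith [abs_nonneg b, abs_nonneg (Y - Y')]
    have h4 := abs_sub (a * B + b * Y - k * B ^ 2 + d' - (a * B' + b * Y' - k * B' ^ 2 + d')) (b * (Y - Y'))
    have h5 := abs_sub (a * B + b * Y - k * B ^ 2 + d') (a * B' + b * Y' - k * B' ^ 2 + d')
    linarith
  have e3 : 3 / 4 * M ≤ |a - k * (B + B')| := by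
    have h3 : |k * (B + B')| ≤ M / 4 := by
      rw [abs_mul]
      have h4 : |B + B'| ≤ 2 := (abs_add_le _ _).trans (by linarith)
      nlinarith [abs_nonneg k, abs_nonneg (B + B')]
    have h5 := abs_sub_abs_le_abs_sub a (k * (B + B'))
    linarith
  rw [abs_mul] at e2
  nlinarith [abs_nonneg (B - B')]

/-- flat case: `X` is determined up to `5Λ/M` by the first expression -/
theorem cy_IB_xgap {Λ a b k c' M X B Y X' B' Y' : ℝ} (hΛ : 1 ≤ Λ) (hM : 1 ≤ M) (ha : |a| = M) (hb : 8 * |b| ≤ M) (hk : 8 * |k| ≤ M)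
    (hX : |X| ≤ 1) (hX' : |X'| ≤ 1) (hB : |B| ≤ 1)
    (h1 : |a * X + b * X ^ 2 + k * (Y - 2 * X * B) + c'| ≤ Λ) (h1' : |a * X' + b * X' ^ 2 + k * (Y' - 2 * X' * B') + c'| ≤ Λ)
    (hY : |Y - Y'| * M ≤ 1) (hBB : |B - B'| * M ≤ 1) : |X - X'| * M ≤ 5 * Λ := by
  have e1 : (X - X') * (a + b * (X + X') - 2 * k * B) = (a * X + b * X ^ 2 + k * (Y - 2 * X * B) + c')
      - (a * X' + b * X' ^ 2 + k * (Y' - 2 * X' * B') + c') - k * (Y - Y') + 2 * k * X' * (B - B') := by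
    ring
  have e2 : |(X - X') * (a + b * (X + X') - 2 * k * B)| ≤ 2 * Λ + 3 / 8 := by
    rw [e1]
    have h3 : |k * (Y - Y')| ≤ 1 / 8 := by
      rw [abs_mul]
      nlinarith [abs_nonneg k, abs_nonneg (Y - Y')]
    have h3' : |2 * k * X' * (B - B')| ≤ 1 / 4 := by
      rw [abs_mul, abs_mul, abs_mul, abs_two]
      have h6 : |k| * |X'| ≤ M / 8 := by nlinarith [abs_nonneg k, abs_nonneg X']
      have h7 : 0 ≤ |k| * |X'| := by positivity
      nlinarith [abs_nonneg (B - B')]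
    have h4 := abs_add_le (a * X + b * X ^ 2 + k * (Y - 2 * X * B) + c'
      - (a * X' + b * X' ^ 2 + k * (Y' - 2 * X' * B') + c') - k * (Y - Y')) (2 * k * X' * (B - B'))
    have h4' := abs_sub (a * X + b * X ^ 2 + k * (Y - 2 * X * B) + c'
      - (a * X' + b * X' ^ 2 + k * (Y' - 2 * X' * B') + c')) (k * (Y - Y'))
    have h5 := abs_sub (a * X + b * X ^ 2 + k * (Y - 2 * X * B) + c') (a * X' + b * X' ^ 2 + k * (Y' - 2 * X' * B') + c')
    linarith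
  have e3 : 1 / 2 * M ≤ |a + b * (X + X') - 2 * k * B| := by
    have h3 : |b * (X + X')| ≤ M / 4 := by
      rw [abs_mul]
      have h4 : |X + X'| ≤ 2 := (abs_add_le _ _).trans (by linarith)
      nlinarith [abs_nonneg b, abs_nonneg (X + X')]
    have h3' : |2 * k * B| ≤ M / 4 := by
      rw [abs_mul, abs_mul, abs_two]
      nlinarith [abs_nonneg k, abs_nonneg B]
    have e4 : a + b * (X + X') - 2 * k * B = a - (2 * k * B - b * (X + X')) := by ring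
    have h5 := abs_sub_abs_le_abs_sub a (2 * k * B - b * (X + X'))
    have h6 := abs_sub (2 * k * B) (b * (X + X'))
    rw [e4]
    linarith
  rw [abs_mul] at e2
  nlinarith [abs_nonneg (X - X')]

/-- curved case: in the strip, one base coordinate is determined up to `72Λ/R` by the other -/
theorem cy_IA_xgap {Λ b k M R δX δB Δ : ℝ} (hΛ : 1 ≤ Λ) (hM : 0 < M) (hR : 0 < R) (hbM : M ≤ 8 * |b|) (hk : |k| ≤ M)
    (hΔ : Δ = 2 * b * δX - 2 * k * δB) (hu : |Δ| * R ≤ 16 * M * Λ) (hB : |δB| * R ≤ 1) : |δX| * R ≤ 72 * Λ := by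
  have e1 : 2 * b * δX = Δ + 2 * k * δB := by rw [hΔ]; ring
  have e2 : |2 * b * δX| ≤ |Δ| + 2 * |k| * |δB| := by
    rw [e1]
    refine (abs_add_le _ _).trans ?_
    rw [abs_mul, abs_mul, abs_two]
  rw [abs_mul, abs_mul, abs_two] at e2
  have e3 : 2 * |b| * |δX| * R ≤ 16 * M * Λ + 2 * M := by
    have h1 : |k| * (|δB| * R) ≤ M * 1 := mul_le_mul hk hB (by positivity) hM.le
    have h2 : 2 * |b| * |δX| * R ≤ (|Δ| + 2 * |k| * |δB|) * R := mul_le_mul_of_nonneg_right e2 hR.le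
    nlinarith
  have e4 : M * (|δX| * R) ≤ 8 * |b| * (|δX| * R) := mul_le_mul_of_nonneg_right hbM (by positivity)
  have e5 : M * (|δX| * R) ≤ M * (72 * Λ) := by nlinarith
  exact le_of_mul_le_mul_left e5 hM

/-- curved case: in a square of side `r = 1/R` of a shell, `v = Y - 2 x_c B` is determined up to `48Λ/M` -/
theorem cy_IA_vgap {Λ a b k c' d' M R r X B Y X' B' Y' xc : ℝ} (hΛ : 1 ≤ Λ) (hM : 0 < M) (hb : |b| ≤ M) (hk : |k| ≤ M)
    (hbk : M ≤ 8 * max |b| |k|) (hr0 : 0 ≤ r) (hrR : r * R ≤ 1) (hMr : M * r ^ 2 ≤ 1)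
    (h1 : |a * X + b * X ^ 2 + k * (Y - 2 * X * B) + c'| ≤ Λ) (h1' : |a * X' + b * X' ^ 2 + k * (Y' - 2 * X' * B') + c'| ≤ Λ)
    (h2 : |a * B + b * Y - k * B ^ 2 + d'| ≤ Λ) (h2' : |a * B' + b * Y' - k * B' ^ 2 + d'| ≤ Λ)
    (hu : |a + 2 * (b * X - k * B)| ≤ R) (hX : |X - X'| ≤ r) (hB : |B - B'| ≤ r) (hxc : |xc - X| ≤ r) (hxc' : |xc - X'| ≤ r) :
    |(Y - 2 * xc * B) - (Y' - 2 * xc * B')| * M ≤ 48 * Λ := by
  set u : ℝ := a + 2 * (b * X - k * B) with hudef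
  set Δv : ℝ := (Y - 2 * xc * B) - (Y' - 2 * xc * B') with hΔv
  have hMrr : M * r * r ≤ 1 := by nlinarith
  have hMr0 : 0 ≤ M * r := by positivity
  have key : max |b| |k| * |Δv| ≤ 6 * Λ := by
    rcases le_total |k| |b| with hmax | hmax
    · rw [max_eq_left hmax]
      have e1 : b * Δv = (a * B + b * Y - k * B ^ 2 + d') - (a * B' + b * Y' - k * B' ^ 2 + d')
          - (B - B') * (u + 2 * b * (xc - X) + k * (B - B')) := by
        rw [hΔv, hudef]; ring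
      have e2 : |u + 2 * b * (xc - X) + k * (B - B')| ≤ R + 2 * (M * r) + M * r := by
        refine (abs_add_three _ _ _).trans ?_
        have g1 : |2 * b * (xc - X)| ≤ 2 * (M * r) := by
          rw [abs_mul, abs_mul, abs_two, mul_assoc]
          exact mul_le_mul_of_nonneg_left (mul_le_mul hb hxc (abs_nonneg _) hM.le) (by norm_num)
        have g2 : |k * (B - B')| ≤ M * r := by
          rw [abs_mul]
          exact mul_le_mul hk hB (abs_nonneg _) hM.le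
        linarith
      have e3 : |(B - B') * (u + 2 * b * (xc - X) + k * (B - B'))| ≤ r * (R + 2 * (M * r) + M * r) := by
        rw [abs_mul]
        exact mul_le_mul hB e2 (abs_nonneg _) hr0
      rw [← abs_mul, e1]
      have g3 := abs_sub ((a * B + b * Y - k * B ^ 2 + d') - (a * B' + b * Y' - k * B' ^ 2 + d'))
        ((B - B') * (u + 2 * b * (xc - X) + k * (B - B')))
      have g4 := abs_sub (a * B + b * Y - k * B ^ 2 + d') (a * B' + b * Y' - k * B' ^ 2 + d')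
      nlinarith
    · rw [max_eq_right hmax]
      have e1 : k * Δv = (a * X + b * X ^ 2 + k * (Y - 2 * X * B) + c') - (a * X' + b * X' ^ 2 + k * (Y' - 2 * X' * B') + c')
          - ((X - X') * (u - b * (X - X')) + (B - B') * (2 * k * (xc - X'))) := by
        rw [hΔv, hudef]; ring
      have e2 : |u - b * (X - X')| ≤ R + M * r := by
        refine (abs_sub _ _).trans ?_
        have g2 : |b * (X - X')| ≤ M * r := by
          rw [abs_mul]
          exact mul_le_mul hb hX (abs_nonneg _) hM.le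
        linarith
      have e3 : |(X - X') * (u - b * (X - X'))| ≤ r * (R + M * r) := by
        rw [abs_mul]
        exact mul_le_mul hX e2 (abs_nonneg _) hr0
      have e4 : |(B - B') * (2 * k * (xc - X'))| ≤ r * (2 * (M * r)) := by
        rw [abs_mul]
        refine mul_le_mul hB ?_ (abs_nonneg _) hr0
        rw [abs_mul, abs_mul, abs_two, mul_assoc]
        exact mul_le_mul_of_nonneg_left (mul_le_mul hk hxc' (abs_nonneg _) hM.le) (by norm_num)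
      rw [← abs_mul, e1]
      have g3 := abs_sub ((a * X + b * X ^ 2 + k * (Y - 2 * X * B) + c') - (a * X' + b * X' ^ 2 + k * (Y' - 2 * X' * B') + c'))
        ((X - X') * (u - b * (X - X')) + (B - B') * (2 * k * (xc - X')))
      have g4 := abs_sub (a * X + b * X ^ 2 + k * (Y - 2 * X * B) + c') (a * X' + b * X' ^ 2 + k * (Y' - 2 * X' * B') + c')
      have g5 := abs_add_le ((X - X') * (u - b * (X - X'))) ((B - B') * (2 * k * (xc - X')))
      nlinarith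
  have h3 : M * |Δv| ≤ 8 * max |b| |k| * |Δv| := mul_le_mul_of_nonneg_right hbk (abs_nonneg _)
  nlinarith

/-- the square of `u = a + 2t` is determined up to `16MΛ` -/
theorem cy_IA_usq {Λ a b k c' d' M X B Y X' B' Y' : ℝ} (hb : |b| ≤ M) (hk : |k| ≤ M)
    (h1 : |a * X + b * X ^ 2 + k * (Y - 2 * X * B) + c'| ≤ Λ) (h1' : |a * X' + b * X' ^ 2 + k * (Y' - 2 * X' * B') + c'| ≤ Λ)
    (h2 : |a * B + b * Y - k * B ^ 2 + d'| ≤ Λ) (h2' : |a * B' + b * Y' - k * B' ^ 2 + d'| ≤ Λ) :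
    |(a + 2 * (b * X - k * B)) ^ 2 - (a + 2 * (b * X' - k * B')) ^ 2| ≤ 16 * M * Λ := by
  have e1 : (a + 2 * (b * X - k * B)) ^ 2 - (a + 2 * (b * X' - k * B')) ^ 2
      = 4 * (b * ((a * X + b * X ^ 2 + k * (Y - 2 * X * B) + c') - (a * X' + b * X' ^ 2 + k * (Y' - 2 * X' * B') + c'))
        - k * ((a * B + b * Y - k * B ^ 2 + d') - (a * B' + b * Y' - k * B' ^ 2 + d'))) := by ring
  have g1 := abs_sub (a * X + b * X ^ 2 + k * (Y - 2 * X * B) + c') (a * X' + b * X' ^ 2 + k * (Y' - 2 * X' * B') + c')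
  have g2 := abs_sub (a * B + b * Y - k * B ^ 2 + d') (a * B' + b * Y' - k * B' ^ 2 + d')
  have hM : 0 ≤ M := (abs_nonneg b).trans hb
  rw [e1, abs_mul, abs_of_pos (by norm_num : (0 : ℝ) < 4)]
  have g3 := abs_sub (b * ((a * X + b * X ^ 2 + k * (Y - 2 * X * B) + c') - (a * X' + b * X' ^ 2 + k * (Y' - 2 * X' * B') + c')))
    (k * ((a * B + b * Y - k * B ^ 2 + d') - (a * B' + b * Y' - k * B' ^ 2 + d')))
  rw [abs_mul, abs_mul] at g3
  have g4 : |b| * |(a * X + b * X ^ 2 + k * (Y - 2 * X * B) + c') - (a * X' + b * X' ^ 2 + k * (Y' - 2 * X' * B') + c')| ≤ M * (2 * Λ) :=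
    mul_le_mul hb (by linarith) (abs_nonneg _) hM
  have g5 : |k| * |(a * B + b * Y - k * B ^ 2 + d') - (a * B' + b * Y' - k * B' ^ 2 + d')| ≤ M * (2 * Λ) :=
    mul_le_mul hk (by linarith) (abs_nonneg _) hM
  linarith

theorem cy_IA_gap {w w' R G : ℝ} (hR : 0 < R) (h0 : 0 ≤ w) (h0' : 0 ≤ w') (h1 : w ≤ R) (h1' : w' ≤ R)
    (h2 : R ^ 2 ≤ G ∨ (R / 2 < w ∧ R / 2 < w')) (h3 : |w ^ 2 - w' ^ 2| ≤ G) : |w - w'| * R ≤ G := by
  rcases h2 with h2 | ⟨h2, h2'⟩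
  · have h4 : |w - w'| ≤ R := by rw [abs_le]; constructor <;> linarith
    nlinarith
  · have e1 : w ^ 2 - w' ^ 2 = (w - w') * (w + w') := by ring
    rw [e1, abs_mul, abs_of_pos (by linarith : 0 < w + w')] at h3
    have h4 : |w - w'| * R ≤ |w - w'| * (w + w') := mul_le_mul_of_nonneg_left (by linarith) (abs_nonneg _)
    linarith

/-- curved case: one shell `|u| ≤ R`, one branch -/
theorem cy_IA_shell (η Λ a b k c' d' M R : ℝ) (hΛ : 1 ≤ Λ) (hM1 : 1 ≤ M) (hb : |b| ≤ M) (hk : |k| ≤ M) (hbk : M ≤ 8 * max |b| |k|)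
    (hR0 : 0 < R) (hR : M ≤ R ^ 2) (S : Set (ℝ × ℝ × ℝ))
    (hS : ∀ p ∈ S, |p.1| ≤ 1 ∧ |p.2.1| ≤ 1 ∧ |p.2.2| ≤ 1 ∧ |a * p.1 + b * p.1 ^ 2 + k * (p.2.2 - 2 * p.1 * p.2.1) + c'| ≤ Λ ∧
      |a * p.2.1 + b * p.2.2 - k * p.2.1 ^ 2 + d'| ≤ Λ ∧ |a + 2 * (b * p.1 - k * p.2.1)| ≤ R)
    (hS2 : ∀ p ∈ S, ∀ q ∈ S, |(a + 2 * (b * p.1 - k * p.2.1)) - (a + 2 * (b * q.1 - k * q.2.1))| * R ≤ 16 * M * Λ) :
    CyICov η (1 / R) S (101871 * Λ ^ 2 / M * (R ^ η)⁻¹) := by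
  have hM0 : 0 < M := lt_of_lt_of_le one_pos hM1
  have hR1 : 1 ≤ R := by nlinarith
  have hL0 : 0 ≤ 48 * Λ * R ^ 2 / M := by positivity
  -- the last index
  have hv : ∀ p ∈ S, ∀ q ∈ S, ⌊p.1 * R⌋ = ⌊q.1 * R⌋ → ⌊p.2.1 * R⌋ = ⌊q.2.1 * R⌋ →
      |(p.2.2 - 2 * (((⌊p.1 * R⌋ : ℤ) : ℝ) / R) * p.2.1) - (q.2.2 - 2 * (((⌊p.1 * R⌋ : ℤ) : ℝ) / R) * q.2.1)| * R ^ 2
        ≤ 48 * Λ * R ^ 2 / M := by
    intro p hp q hq hX hB
    have hr : ∀ x : ℝ, x * R ≤ 1 → x ≤ 1 / R := fun x hx => by rw [le_div_iff₀ hR0]; exact hx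
    have h1 : |((⌊p.1 * R⌋ : ℤ) : ℝ) / R - p.1| ≤ 1 / R := by rw [abs_sub_comm]; exact cy_IA_floor_near _ hR0
    have h2 : |((⌊p.1 * R⌋ : ℤ) : ℝ) / R - q.1| ≤ 1 / R := by rw [abs_sub_comm, hX]; exact cy_IA_floor_near _ hR0
    have h3 := cy_IA_vgap (r := 1 / R) (xc := ((⌊p.1 * R⌋ : ℤ) : ℝ) / R) hΛ hM0 hb hk hbk (by positivity)
      (by rw [one_div, inv_mul_cancel₀ hR0.ne']) (by rw [div_pow, one_pow, mul_one_div, div_le_one (by positivity)]; exact hR)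
      (hS p hp).2.2.2.1 (hS q hq).2.2.2.1 (hS p hp).2.2.2.2.1 (hS q hq).2.2.2.2.1 (hS p hp).2.2.2.2.2
      (hr _ (cy_IA_floor_eq hR0 hX)) (hr _ (cy_IA_floor_eq hR0 hB)) h1 h2
    rw [le_div_iff₀ hM0]
    have hR2 : 0 ≤ R ^ 2 := by positivity
    nlinarith
  have hrange : ∀ x y : ℝ, |x| ≤ 1 → |y| ≤ 1 → |((⌊x * R⌋ : ℤ) : ℝ) - ((⌊y * R⌋ : ℤ) : ℝ)| ≤ 2 * R + 1 := by
    intro x y hx hy
    refine (cy_IA_floor_sub _ _).trans ?_
    have h1 : |x * R - y * R| ≤ 2 * R := by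
      rw [← sub_mul, abs_mul, abs_of_pos hR0]
      have := abs_sub x y
      nlinarith
    linarith
  -- the arithmetic
  have harith : 1 * (2 * (2 * R + 1) + 1) * (2 * (72 * Λ + 1) + 1) * (2 * (48 * Λ * R ^ 2 / M + 1) + 1) * (1 / R) ^ (3 + η)
      ≤ 101871 * Λ ^ 2 / M * (R ^ η)⁻¹ := by
    have hp1 : (1 / R) ^ (3 + η) = (1 / R) ^ 3 * (R ^ η)⁻¹ := by
      rw [Real.rpow_add (by positivity), one_div, Real.inv_rpow hR0.le η]
      congr 1
      exact_mod_cast Real.rpow_natCast R⁻¹ 3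
    have hw : 0 ≤ (R ^ η)⁻¹ := inv_nonneg.mpr (Real.rpow_nonneg hR0.le _)
    have q1 : 1 * (2 * (2 * R + 1) + 1) ≤ 7 * R := by linarith
    have q2 : 2 * (72 * Λ + 1) + 1 ≤ 147 * Λ := by linarith
    have q0 : 1 ≤ Λ * R ^ 2 / M := by
      rw [le_div_iff₀ hM0]
      nlinarith
    have q3 : 2 * (48 * Λ * R ^ 2 / M + 1) + 1 ≤ 99 * (Λ * R ^ 2 / M) := by
      have : 48 * Λ * R ^ 2 / M = 48 * (Λ * R ^ 2 / M) := by ring
      rw [this]; linarith
    rw [hp1, ← mul_assoc]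
    refine mul_le_mul_of_nonneg_right ?_ hw
    calc 1 * (2 * (2 * R + 1) + 1) * (2 * (72 * Λ + 1) + 1) * (2 * (48 * Λ * R ^ 2 / M + 1) + 1) * (1 / R) ^ 3
        ≤ (7 * R) * (147 * Λ) * (99 * (Λ * R ^ 2 / M)) * (1 / R) ^ 3 := by
          gcongr
      _ = 101871 * Λ ^ 2 / M := by
          field_simp
          ring
  rcases le_total |k| |b| with hmax | hmax
  · rw [max_eq_left hmax] at hbk
    obtain ⟨f1, n1⟩ := cy_IA_cnt S (fun _ => ()) (fun p => ⌊p.2.1 * R⌋) 1 (2 * R + 1) (by linarith) (Set.toFinite _)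
      (by exact_mod_cast Set.ncard_le_one_of_subsingleton _)
      (fun p hp q hq _ => hrange _ _ (hS p hp).2.1 (hS q hq).2.1)
    obtain ⟨f2, n2⟩ := cy_IA_cnt S (fun p => ((), ⌊p.2.1 * R⌋)) (fun p => ⌊p.1 * R⌋) _ (72 * Λ + 1) (by linarith) f1 n1 (by
        intro p hp q hq hpq
        simp only [Prod.mk.injEq, true_and] at hpq
        refine (cy_IA_floor_sub _ _).trans ?_
        have h1 := cy_IA_xgap (δX := p.1 - q.1) (δB := p.2.1 - q.2.1) hΛ hM0 hR0 hbk hk (by ring) (hS2 p hp q hq)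
          (cy_IA_floor_eq hR0 hpq)
        rw [← sub_mul, abs_mul, abs_of_pos hR0]
        linarith)
    have hc := cy_IA_cells η R _ (48 * Λ * R ^ 2 / M) hR1 hL0 S (fun p => (((), ⌊p.2.1 * R⌋), ⌊p.1 * R⌋))
      (fun w => w.2) (fun w => w.1.2) (fun _ => rfl) (fun _ => rfl) f2 n2 (by
        intro p hp q hq hpq
        simp only [Prod.mk.injEq, true_and] at hpq
        exact hv p hp q hq hpq.2 hpq.1)
    exact cy_IA_cov_mono hc le_rfl subset_rfl harith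
  · rw [max_eq_right hmax] at hbk
    obtain ⟨f1, n1⟩ := cy_IA_cnt S (fun _ => ()) (fun p => ⌊p.1 * R⌋) 1 (2 * R + 1) (by linarith) (Set.toFinite _)
      (by exact_mod_cast Set.ncard_le_one_of_subsingleton _)
      (fun p hp q hq _ => hrange _ _ (hS p hp).1 (hS q hq).1)
    obtain ⟨f2, n2⟩ := cy_IA_cnt S (fun p => ((), ⌊p.1 * R⌋)) (fun p => ⌊p.2.1 * R⌋) _ (72 * Λ + 1) (by linarith) f1 n1 (by
        intro p hp q hq hpq
        simp only [Prod.mk.injEq, true_and] at hpq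
        refine (cy_IA_floor_sub _ _).trans ?_
        have h1 := cy_IA_xgap (b := -k) (k := -b) (δX := p.2.1 - q.2.1) (δB := p.1 - q.1) hΛ hM0 hR0 (by rwa [abs_neg])
          (by rwa [abs_neg]) (by ring) (hS2 p hp q hq) (cy_IA_floor_eq hR0 hpq)
        rw [← sub_mul, abs_mul, abs_of_pos hR0]
        linarith)
    have hc := cy_IA_cells η R _ (48 * Λ * R ^ 2 / M) hR1 hL0 S (fun p => (((), ⌊p.1 * R⌋), ⌊p.2.1 * R⌋))
      (fun w => w.1.2) (fun w => w.2) (fun _ => rfl) (fun _ => rfl) f2 n2 (by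
        intro p hp q hq hpq
        simp only [Prod.mk.injEq, true_and] at hpq
        exact hv p hp q hq hpq.1 hpq.2)
    exact cy_IA_cov_mono hc le_rfl subset_rfl harith

/-- every `w ∈ [0, 2^J s]` lies in a dyadic shell -/
theorem cy_IA_dyadic (s w : ℝ) (J : ℕ) (hw : w ≤ 2 ^ J * s) : ∃ j ≤ J, w ≤ 2 ^ j * s ∧ (j = 0 ∨ 2 ^ j * s / 2 < w) := by
  induction J with
  | zero => exact ⟨0, le_rfl, hw, Or.inl rfl⟩
  | succ J ih =>
    rcases le_or_gt w (2 ^ J * s) with h | h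
    · obtain ⟨j, hj, h1, h2⟩ := ih h
      exact ⟨j, hj.trans (Nat.le_succ _), h1, h2⟩
    · refine ⟨J + 1, le_rfl, hw, Or.inr ?_⟩
      rw [pow_succ]
      linarith

/-- **L-256-CYL-IA**, curved case `max(|b|,|k|) ≥ M/8`  (`M = max(1,|a|,|b|,|k|)`).      PROOF (02 l.545-572).   `t = bX - kB`:   `b·(first) - k·(second) = t² + a t + const`, so `|t² + a t + c''| ≤ 2MΛ`.
Dyadic shells `R = 2^j √M`, `j = 0..J`, `2^J √M ≥ 5M`:  shell 0: `|2t + a| ≤ √M`;  shell `j ≥ 1`: `R/2 < |2t + a| ≤ R`.   In the shell `R` the admissible `t` lie in at most two intervals of length `≤ 8MΛ/R`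
(the function `t² + a t` is monotone with slope `≥ R/2` on each side of the vertex; shell 0: an interval of length `√M = M/R`).   As `max(|b|,|k|) ≥ M/8`, the strip `{(X,B) ∈ [-1,1]² : t ∈ interval}` has width `≤ 64Λ/R` in one of the two
coordinate directions: it is covered by `≤ C Λ R` squares of side `1/R`.   In a square with centre `(x_c, b_c)` put `v = Y - 2 x_c B`.   First expression `= aX + bX² + kv + 2k(x_c - X)B`, second `= aB + bv + 2b x_c B - kB²`; their `(X,B)`-gradients at fixed `v` are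
`(a + 2t, 2k(x_c - X))`, `(0, a + 2t + 2b(x_c - X))`, all `≤ R + 2M/R ≤ 3R`; so they oscillate by `≤ 6` on the square.   One of `|k|, |b|` is `≥ M/8`: `v` lies in an interval of length `≤ 16(Λ + 6)/M`, covered by `≤ C Λ R²/M` intervals of length `R⁻²` (`R² ≥ M`).
Total `≤ C Λ² R³/M` cells of width `1/R`:  `Σ ρ^(3+η) ≤ C Λ² R^(-η)/M`, geometric in `j`. -/
theorem cy_I_coverA {η : ℝ} (h0 : 0 < η) : ∃ C : ℝ, 0 < C ∧ ∀ (Λ a b k c' d' : ℝ), 1 ≤ Λ → max 1 (max |a| (max |b| |k|)) ≤ 8 * max |b| |k| →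
    ∃ (m : ℕ) (cx cb cy ρ : Fin m → ℝ), (∀ i, 1 / (C * max 1 (max |a| (max |b| |k|))) ≤ ρ i ∧ ρ i ≤ 1) ∧
      (∀ X B Y : ℝ, |X| ≤ 1 → |B| ≤ 1 → |Y| ≤ 1 → |a * X + b * X ^ 2 + k * (Y - 2 * X * B) + c'| ≤ Λ → |a * B + b * Y - k * B ^ 2 + d'| ≤ Λ →
        ∃ i, cyHeis (cx i) (cb i) (cy i) (ρ i) X B Y) ∧
      ∑ i, ρ i ^ (3 + η) ≤ C * Λ ^ 2 / max 1 (max |a| (max |b| |k|)) := by
  set r : ℝ := ((2 : ℝ) ^ η)⁻¹ with hr
  have h2η : (1 : ℝ) < 2 ^ η := Real.one_lt_rpow (by norm_num) h0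
  have hr0 : 0 < r := by positivity
  have hr1 : r < 1 := inv_lt_one_of_one_lt₀ h2η
  have hC10 : 10 ≤ 2 * 101871 / (1 - r) := by
    rw [le_div_iff₀ (by linarith)]
    linarith
  refine ⟨2 * 101871 / (1 - r), by linarith, fun Λ a b k c' d' hΛ hcase => ?_⟩
  set M : ℝ := max 1 (max |a| (max |b| |k|)) with hM
  have hM1 : 1 ≤ M := le_max_left _ _
  have hM0 : 0 < M := lt_of_lt_of_le one_pos hM1
  have ha : |a| ≤ M := (le_max_left _ _).trans (le_max_right _ _)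
  have hb : |b| ≤ M := (le_max_left _ _).trans ((le_max_right _ _).trans (le_max_right _ _))
  have hk : |k| ≤ M := (le_max_right _ _).trans ((le_max_right _ _).trans (le_max_right _ _))
  set T : Set (ℝ × ℝ × ℝ) := {p | |p.1| ≤ 1 ∧ |p.2.1| ≤ 1 ∧ |p.2.2| ≤ 1 ∧
    |a * p.1 + b * p.1 ^ 2 + k * (p.2.2 - 2 * p.1 * p.2.1) + c'| ≤ Λ ∧ |a * p.2.1 + b * p.2.2 - k * p.2.1 ^ 2 + d'| ≤ Λ} with hT
  suffices hcov : CyICov η (1 / (2 * 101871 / (1 - r) * M)) T (2 * 101871 / (1 - r) * Λ ^ 2 / M) by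
    obtain ⟨m, cx, cb, cy, ρ, h1, h2, h3⟩ := hcov
    exact ⟨m, cx, cb, cy, ρ, h1, fun X B Y hX hB hY hE1 hE2 => h2 (X, B, Y) ⟨hX, hB, hY, hE1, hE2⟩, h3⟩
  set s : ℝ := Real.sqrt M with hs
  have hs1 : 1 ≤ s := Real.one_le_sqrt.mpr hM1
  have hs0 : 0 < s := lt_of_lt_of_le one_pos hs1
  have hs2 : s ^ 2 = M := Real.sq_sqrt hM0.le
  set Sh : ℝ → ℕ → Set (ℝ × ℝ × ℝ) := fun σ j => {p | p ∈ T ∧ 0 ≤ σ * (a + 2 * (b * p.1 - k * p.2.1)) ∧
    σ * (a + 2 * (b * p.1 - k * p.2.1)) ≤ 2 ^ j * s ∧ (j = 0 ∨ 2 ^ j * s / 2 < σ * (a + 2 * (b * p.1 - k * p.2.1)))} with hSh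
  have hsh : ∀ σ : ℝ, (σ = 1 ∨ σ = -1) → ∀ j, CyICov η (1 / (2 ^ j * s)) (Sh σ j) (101871 * Λ ^ 2 / M * ((2 ^ j * s) ^ η)⁻¹) := by
    intro σ hσ j
    have hσ1 : |σ| = 1 := by rcases hσ with rfl | rfl <;> simp
    have hσ2 : σ ^ 2 = 1 := by rcases hσ with rfl | rfl <;> norm_num
    have hR0 : 0 < 2 ^ j * s := by positivity
    have hRM : M ≤ (2 ^ j * s) ^ 2 := by
      rw [mul_pow, hs2]
      have : (1 : ℝ) ≤ (2 ^ j) ^ 2 := one_le_pow₀ (one_le_pow₀ (by norm_num))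
      nlinarith
    refine cy_IA_shell η Λ a b k c' d' M (2 ^ j * s) hΛ hM1 hb hk hcase hR0 hRM _ ?_ ?_
    · rintro p ⟨hp, h1, h2, _⟩
      refine ⟨hp.1, hp.2.1, hp.2.2.1, hp.2.2.2.1, hp.2.2.2.2, ?_⟩
      have e1 : |a + 2 * (b * p.1 - k * p.2.1)| = σ * (a + 2 * (b * p.1 - k * p.2.1)) := by
        rw [← abs_of_nonneg h1, abs_mul, hσ1, one_mul]
      rw [e1]; exact h2
    · rintro p ⟨hp, h1, h2, h3⟩ q ⟨hq, h1', h2', h3'⟩
      have hsq := cy_IA_usq hb hk hp.2.2.2.1 hq.2.2.2.1 hp.2.2.2.2 hq.2.2.2.2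
      have g := cy_IA_gap (G := 16 * M * Λ) hR0 h1 h1' h2 h2' (by
        rcases h3 with rfl | h3
        · left
          rw [pow_zero, one_mul, hs2]
          nlinarith
        · rcases h3' with rfl | h3'
          · left
            rw [pow_zero, one_mul, hs2]
            nlinarith
          · exact Or.inr ⟨h3, h3'⟩) (by
        rw [mul_pow, mul_pow, hσ2, one_mul, one_mul]
        exact hsq)
      rwa [← mul_sub, abs_mul, hσ1, one_mul] at g
  obtain ⟨J, hJ, hJ10⟩ : ∃ J : ℕ, 5 * M ≤ 2 ^ J * s ∧ 2 ^ J * s ≤ 10 * M := by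
    obtain ⟨J, hJ⟩ := pow_unbounded_of_one_lt (5 * M) (by norm_num : (1 : ℝ) < 2)
    have hJ' : 5 * M ≤ 2 ^ J * s := by
      refine hJ.le.trans ?_
      have : (0 : ℝ) < 2 ^ J := by positivity
      nlinarith
    obtain ⟨j, _, h1, h2⟩ := cy_IA_dyadic s (5 * M) J hJ'
    refine ⟨j, h1, ?_⟩
    rcases h2 with rfl | h2
    · rw [pow_zero, one_mul]
      nlinarith
    · linarith
  have hlow : ∀ j < J + 1, 1 / (2 * 101871 / (1 - r) * M) ≤ 1 / (2 ^ j * s) := by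
    intro j hj
    have h1 : (2 : ℝ) ^ j ≤ 2 ^ J := pow_le_pow_right₀ (by norm_num) (Nat.le_of_lt_succ hj)
    have h2 : (2 : ℝ) ^ j * s ≤ 2 ^ J * s := mul_le_mul_of_nonneg_right h1 hs0.le
    have h3 : 10 * M ≤ 2 * 101871 / (1 - r) * M := mul_le_mul_of_nonneg_right hC10 hM0.le
    exact one_div_le_one_div_of_le (by positivity) (by linarith)
  have hU := cy_IA_cov_range (ρ0 := 1 / (2 * 101871 / (1 - r) * M)) (fun j => Sh 1 j ∪ Sh (-1) j) _ (J + 1)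
    (fun j hj => cy_IA_cov_union (cy_IA_cov_mono (hsh 1 (Or.inl rfl) j) (hlow j hj) subset_rfl le_rfl)
      (cy_IA_cov_mono (hsh (-1) (Or.inr rfl) j) (hlow j hj) subset_rfl le_rfl))
  refine cy_IA_cov_mono hU le_rfl ?_ ?_
  · intro p hp
    have hu5 : |a + 2 * (b * p.1 - k * p.2.1)| ≤ 5 * M := by
      have g1 : |b * p.1| ≤ M * 1 := by rw [abs_mul]; exact mul_le_mul hb hp.1 (abs_nonneg _) hM0.le
      have g2 : |k * p.2.1| ≤ M * 1 := by rw [abs_mul]; exact mul_le_mul hk hp.2.1 (abs_nonneg _) hM0.le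
      have g3 := abs_add_le a (2 * (b * p.1 - k * p.2.1))
      have g4 := abs_sub (b * p.1) (k * p.2.1)
      rw [abs_mul, abs_two] at g3
      linarith
    rcases le_total 0 (a + 2 * (b * p.1 - k * p.2.1)) with hpos | hneg
    · obtain ⟨j, hj, h1, h2⟩ := cy_IA_dyadic s (a + 2 * (b * p.1 - k * p.2.1)) J (((le_abs_self _).trans hu5).trans hJ)
      refine ⟨j, Nat.lt_succ_of_le hj, Or.inl ⟨hp, ?_, ?_, ?_⟩⟩
      · rwa [one_mul]
      · rwa [one_mul]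
      · rwa [one_mul]
    · obtain ⟨j, hj, h1, h2⟩ := cy_IA_dyadic s (-(a + 2 * (b * p.1 - k * p.2.1))) J (((neg_le_abs _).trans hu5).trans hJ)
      refine ⟨j, Nat.lt_succ_of_le hj, Or.inr ⟨hp, ?_, ?_, ?_⟩⟩
      · rw [neg_one_mul]; linarith
      · rwa [neg_one_mul]
      · rwa [neg_one_mul]
  · have hW : ∀ j : ℕ, ((2 ^ j * s) ^ η)⁻¹ ≤ r ^ j := by
      intro j
      have h1 : ((2 : ℝ) ^ η) ^ j ≤ (2 ^ j * s) ^ η := by
        have e1 : ((2 : ℝ) ^ η) ^ j = (2 ^ j) ^ η := by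
          rw [← Real.rpow_natCast, ← Real.rpow_mul (by norm_num), mul_comm, Real.rpow_mul (by norm_num), Real.rpow_natCast]
        rw [e1]
        have : (0 : ℝ) < 2 ^ j := by positivity
        exact Real.rpow_le_rpow this.le (by nlinarith) h0.le
      rw [hr, inv_pow]
      exact inv_anti₀ (by positivity) h1
    have hgeo : ∑ j ∈ Finset.range (J + 1), r ^ j ≤ 1 / (1 - r) := by
      rw [geom_sum_eq hr1.ne, le_div_iff₀ (by linarith)]
      have e1 : (r ^ (J + 1) - 1) / (r - 1) * (1 - r) = 1 - r ^ (J + 1) := by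
        have : r - 1 ≠ 0 := by linarith
        field_simp
        ring
      rw [e1]
      have : 0 ≤ r ^ (J + 1) := by positivity
      linarith
    have hK : 0 ≤ 101871 * Λ ^ 2 / M := by positivity
    calc ∑ j ∈ Finset.range (J + 1), (101871 * Λ ^ 2 / M * ((2 ^ j * s) ^ η)⁻¹ + 101871 * Λ ^ 2 / M * ((2 ^ j * s) ^ η)⁻¹)
        ≤ ∑ j ∈ Finset.range (J + 1), 2 * (101871 * Λ ^ 2 / M) * r ^ j := by
          refine Finset.sum_le_sum fun j _ => ?_
          have := mul_le_mul_of_nonneg_left (hW j) hK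
          linarith
      _ = 2 * (101871 * Λ ^ 2 / M) * ∑ j ∈ Finset.range (J + 1), r ^ j := by rw [Finset.mul_sum]
      _ ≤ 2 * (101871 * Λ ^ 2 / M) * (1 / (1 - r)) := mul_le_mul_of_nonneg_left hgeo (by positivity)
      _ = 2 * 101871 / (1 - r) * Λ ^ 2 / M := by ring

/-- **L-256-CYL-IB**, flat case `8 max(|b|,|k|) < M`, hence `M = max(1,|a|)`.      PROOF (02 l.574-583).   If `M ≤ 8` (say): one cell of width `1`... in general cells of width `ρ = 1/M`: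
cover `[-1,1]` in `Y`-direction: for a lattice of `(x_c, b_c)` of mesh `1/M` and `v = Y - 2 x_c B` in a lattice of mesh `M⁻²`.   On a cell both expressions oscillate by `≤ C`.   Second expression: `∂_B = a + 2b x_c - 2kB`, `|∂_B| ≥ M/2` if `|a| = M`:
for fixed `v`-cell the admissible `b_c` are `≤ C Λ`; first expression: `∂_X = a + 2bX - 2kB`, `|∂_X| ≥ M/2`: for fixed `(v, b_c)` the admissible `x_c` are `≤ C Λ`.   `≤ C M²` values of `v`.   Total `C Λ² M²` cells: `Σ ρ^(3+η) ≤ C Λ² M^(-1-η)`.   If `|a| < M` then `M = 1`: `≤ C` cells of width `1`. -/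
theorem cy_I_coverB {η : ℝ} (h0 : 0 < η) : ∃ C : ℝ, 0 < C ∧ ∀ (Λ a b k c' d' : ℝ), 1 ≤ Λ → 8 * max |b| |k| < max 1 (max |a| (max |b| |k|)) →
    ∃ (m : ℕ) (cx cb cy ρ : Fin m → ℝ), (∀ i, 1 / (C * max 1 (max |a| (max |b| |k|))) ≤ ρ i ∧ ρ i ≤ 1) ∧
      (∀ X B Y : ℝ, |X| ≤ 1 → |B| ≤ 1 → |Y| ≤ 1 → |a * X + b * X ^ 2 + k * (Y - 2 * X * B) + c'| ≤ Λ → |a * B + b * Y - k * B ^ 2 + d'| ≤ Λ →
        ∃ i, cyHeis (cx i) (cb i) (cy i) (ρ i) X B Y) ∧
      ∑ i, ρ i ^ (3 + η) ≤ C * Λ ^ 2 / max 1 (max |a| (max |b| |k|)) := by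
  refine ⟨10647, by norm_num, fun Λ a b k c' d' hΛ hcase => ?_⟩
  set M : ℝ := max 1 (max |a| (max |b| |k|)) with hM
  have hM1 : 1 ≤ M := le_max_left _ _
  have hM0 : 0 < M := lt_of_lt_of_le one_pos hM1
  have hmb : 0 ≤ max |b| |k| := le_max_of_le_left (abs_nonneg b)
  have hMa : M ≤ max 1 |a| := by
    refine max_le (le_max_left _ _) (max_le (le_max_right _ _) ?_)
    by_contra hcon
    rw [not_le] at hcon
    have h1 : M ≤ max |b| |k| :=
      max_le ((le_max_left _ _).trans hcon.le) (max_le ((le_max_right _ _).trans hcon.le) le_rfl)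
    linarith
  have hb : 8 * |b| ≤ M := by linarith [le_max_left |b| |k|]
  have hk : 8 * |k| ≤ M := by linarith [le_max_right |b| |k|]
  set T : Set (ℝ × ℝ × ℝ) := {p | |p.1| ≤ 1 ∧ |p.2.1| ≤ 1 ∧ |p.2.2| ≤ 1 ∧
    |a * p.1 + b * p.1 ^ 2 + k * (p.2.2 - 2 * p.1 * p.2.1) + c'| ≤ Λ ∧ |a * p.2.1 + b * p.2.2 - k * p.2.1 ^ 2 + d'| ≤ Λ} with hT
  suffices hcov : CyICov η (1 / (10647 * M)) T (10647 * Λ ^ 2 / M) by
    obtain ⟨m, cx, cb, cy, ρ, h1, h2, h3⟩ := hcov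
    exact ⟨m, cx, cb, cy, ρ, h1, fun X B Y hX hB hY hE1 hE2 => h2 (X, B, Y) ⟨hX, hB, hY, hE1, hE2⟩, h3⟩
  rcases le_or_gt |a| 1 with ha | ha
  · -- `M = 1`: one cell
    have hMe : M = 1 := le_antisymm (hMa.trans (max_le le_rfl ha)) hM1
    refine ⟨1, fun _ => 0, fun _ => 0, fun _ => 0, fun _ => 1, fun _ => ⟨by rw [hMe]; norm_num, le_rfl⟩, ?_, ?_⟩
    · intro p hp
      refine ⟨0, ?_, ?_, ?_⟩
      · simpa using hp.1
      · simpa using hp.2.1
      · simpa using hp.2.2.1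
    · rw [hMe]
      simp only [Finset.univ_unique, Finset.sum_const, Finset.card_singleton, one_smul, Real.one_rpow, div_one]
      nlinarith
  · have hae : |a| = M := le_antisymm ((le_max_left _ _).trans (le_max_right _ _)) (hMa.trans (max_le ha.le le_rfl))
    -- the indices
    obtain ⟨f1, n1⟩ := cy_IA_cnt T (fun _ => ()) (fun p => ⌊p.2.2 * M⌋) 1 (2 * M + 1) (by linarith) (Set.toFinite _)
      (by exact_mod_cast Set.ncard_le_one_of_subsingleton _) (by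
        intro p hp q hq _
        refine (cy_IA_floor_sub _ _).trans ?_
        have h1 : |p.2.2 * M - q.2.2 * M| ≤ 2 * M := by
          rw [← sub_mul, abs_mul, abs_of_pos hM0]
          have := abs_sub p.2.2 q.2.2
          have h2 := hp.2.2.1
          have h3 := hq.2.2.1
          nlinarith
        linarith)
    obtain ⟨f2, n2⟩ := cy_IA_cnt T (fun p => ((), ⌊p.2.2 * M⌋)) (fun p => ⌊p.2.1 * M⌋) _ (3 * Λ + 1) (by linarith) f1 n1 (by
        intro p hp q hq hpq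
        simp only [Prod.mk.injEq, true_and] at hpq
        refine (cy_IA_floor_sub _ _).trans ?_
        have h1 := cy_IB_bgap hΛ hM1 hae hb hk hp.2.1 hq.2.1 hp.2.2.2.2 hq.2.2.2.2 (cy_IA_floor_eq hM0 hpq)
        rw [← sub_mul, abs_mul, abs_of_pos hM0]
        linarith)
    obtain ⟨f3, n3⟩ := cy_IA_cnt T (fun p => (((), ⌊p.2.2 * M⌋), ⌊p.2.1 * M⌋)) (fun p => ⌊p.1 * M⌋) _ (5 * Λ + 1) (by linarith) f2 n2 (by
        intro p hp q hq hpq
        simp only [Prod.mk.injEq, true_and] at hpq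
        refine (cy_IA_floor_sub _ _).trans ?_
        have h1 := cy_IB_xgap hΛ hM1 hae hb hk hp.1 hq.1 hp.2.1 hp.2.2.2.1 hq.2.2.2.1 (cy_IA_floor_eq hM0 hpq.1)
          (cy_IA_floor_eq hM0 hpq.2)
        rw [← sub_mul, abs_mul, abs_of_pos hM0]
        linarith)
    have hc := cy_IA_cells η M _ (5 * M) hM1 (by linarith) T (fun p => ((((), ⌊p.2.2 * M⌋), ⌊p.2.1 * M⌋), ⌊p.1 * M⌋))
      (fun w => w.2) (fun w => w.1.2) (fun _ => rfl) (fun _ => rfl) f3 n3 (by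
        intro p hp q hq hpq
        simp only [Prod.mk.injEq, true_and] at hpq
        have hY := cy_IA_floor_eq hM0 hpq.1.1
        have hB := cy_IA_floor_eq hM0 hpq.1.2
        have hx := cy_IA_floor_near p.1 hM0
        set xc : ℝ := ((⌊p.1 * M⌋ : ℤ) : ℝ) / M with hxc
        have hx1 : |xc| ≤ 2 := by
          have h1 : 1 / M ≤ 1 := by rw [div_le_one hM0]; exact hM1
          have h2 : xc = p.1 - (p.1 - xc) := by ring
          rw [h2]
          have h3 := abs_sub p.1 (p.1 - xc)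
          have h4 := hp.1
          linarith
        have e1 : p.2.2 - 2 * xc * p.2.1 - (q.2.2 - 2 * xc * q.2.1) = (p.2.2 - q.2.2) - 2 * xc * (p.2.1 - q.2.1) := by ring
        rw [e1]
        have h5 := abs_sub (p.2.2 - q.2.2) (2 * xc * (p.2.1 - q.2.1))
        have h6 : |2 * xc * (p.2.1 - q.2.1)| ≤ 4 * |p.2.1 - q.2.1| := by
          rw [abs_mul, abs_mul, abs_two]
          nlinarith [abs_nonneg (p.2.1 - q.2.1)]
        have h7 : |p.2.2 - q.2.2 - 2 * xc * (p.2.1 - q.2.1)| * M ≤ 5 := by nlinarith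
        nlinarith)
    refine cy_IA_cov_mono hc (one_div_le_one_div_of_le hM0 (by linarith)) subset_rfl ?_
    have hp1 : (1 / M) ^ (3 + η) ≤ (1 / M) ^ 3 := by
      have h1 : (1 / M) ^ (3 + η) ≤ (1 / M) ^ ((3 : ℕ) : ℝ) :=
        Real.rpow_le_rpow_of_exponent_ge (by positivity) (by rw [div_le_one hM0]; exact hM1) (by push_cast; linarith)
      rwa [Real.rpow_natCast] at h1
    have hp0 : 0 ≤ (1 / M) ^ (3 + η) := Real.rpow_nonneg (by positivity) _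
    have q1 : 1 * (2 * (2 * M + 1) + 1) ≤ 7 * M := by linarith
    have q2 : 2 * (3 * Λ + 1) + 1 ≤ 9 * Λ := by linarith
    have q3 : 2 * (5 * Λ + 1) + 1 ≤ 13 * Λ := by linarith
    have q4 : 2 * (5 * M + 1) + 1 ≤ 13 * M := by linarith
    calc 1 * (2 * (2 * M + 1) + 1) * (2 * (3 * Λ + 1) + 1) * (2 * (5 * Λ + 1) + 1) * (2 * (5 * M + 1) + 1) * (1 / M) ^ (3 + η)
        ≤ (7 * M) * (9 * Λ) * (13 * Λ) * (13 * M) * (1 / M) ^ 3 := by
          gcongr
      _ = 10647 * Λ ^ 2 / M := by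
          field_simp
          ring

/-- **(I), scale free** (E7 of report 874): no logarithm, no setup -/
theorem cy_I_cover {η : ℝ} (h0 : 0 < η) : ∃ C : ℝ, 0 < C ∧ ∀ (Λ a b k c' d' : ℝ), 1 ≤ Λ →
    ∃ (m : ℕ) (cx cb cy ρ : Fin m → ℝ), (∀ i, 1 / (C * max 1 (max |a| (max |b| |k|))) ≤ ρ i ∧ ρ i ≤ 1) ∧
      (∀ X B Y : ℝ, |X| ≤ 1 → |B| ≤ 1 → |Y| ≤ 1 → |a * X + b * X ^ 2 + k * (Y - 2 * X * B) + c'| ≤ Λ → |a * B + b * Y - k * B ^ 2 + d'| ≤ Λ →
        ∃ i, cyHeis (cx i) (cb i) (cy i) (ρ i) X B Y) ∧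
      ∑ i, ρ i ^ (3 + η) ≤ C * Λ ^ 2 / max 1 (max |a| (max |b| |k|)) := by
  obtain ⟨CA, hCA, hA⟩ := cy_I_coverA h0
  obtain ⟨CB, hCB, hB⟩ := cy_I_coverB h0
  refine ⟨max CA CB, lt_max_of_lt_left hCA, fun Λ a b k c' d' hΛ => ?_⟩
  have hM : 0 < max 1 (max |a| (max |b| |k|)) := lt_of_lt_of_le one_pos (le_max_left _ _)
  have hL : 0 ≤ Λ ^ 2 / max 1 (max |a| (max |b| |k|)) := by positivity
  rcases le_or_gt (max 1 (max |a| (max |b| |k|))) (8 * max |b| |k|) with h | h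
  · obtain ⟨m, cx, cb, cy, ρ, h1, h2, h3⟩ := hA Λ a b k c' d' hΛ h
    refine ⟨m, cx, cb, cy, ρ, fun i => ⟨le_trans ?_ (h1 i).1, (h1 i).2⟩, h2, h3.trans ?_⟩
    · exact one_div_le_one_div_of_le (by positivity) (mul_le_mul_of_nonneg_right (le_max_left _ _) hM.le)
    · rw [mul_div_assoc, mul_div_assoc]
      exact mul_le_mul_of_nonneg_right (le_max_left _ _) hL
  · obtain ⟨m, cx, cb, cy, ρ, h1, h2, h3⟩ := hB Λ a b k c' d' hΛ h
    refine ⟨m, cx, cb, cy, ρ, fun i => ⟨le_trans ?_ (h1 i).1, (h1 i).2⟩, h2, h3.trans ?_⟩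
    · exact one_div_le_one_div_of_le (by positivity) (mul_le_mul_of_nonneg_right (le_max_right _ _) hM.le)
    · rw [mul_div_assoc, mul_div_assoc]
      exact mul_le_mul_of_nonneg_right (le_max_right _ _) hL

/-- **L-256-CYL-TWO**: (I) for two tests at the same cut.      PROOF.   Centred normalised coordinates of `Q`:  `X = x + r X̃`, `B = b + l r B̃`, `Y = y + 2x(B - b) + l r² Ỹ`, all in `[-1,1]` on the cell of `Q`.   Then
`cyVel Q z - cyVel Q' z = const + r ΔP X̃ + r² Δβ X̃² + l r² ΔK (Ỹ - 2 X̃ B̃)`,      `cyPos Q z - cyPos Q' z = const + l (r ΔP B̃ + r² Δβ Ỹ - l r² ΔK B̃²)`      (`ΔP = cyPat Q' x b - cyPat Q x b`, `Δβ = Q'.be - Q.be`, `ΔK = Q'.K - Q.K`),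
bounded by `f + f' ≤ Λ f`, resp. `l (f + f') ≤ l Λ f`.   Divide by `f`, resp. `l f`: `cy_I_cover` with `(a,b,k) = (r ΔP, r² Δβ, l r² ΔK)/f`.   The cell `cyHeis x̃ b̃ ỹ ρ` is the base cell of the test with centre
`(x + r x̃, b + l r b̃, y + 2 x l r b̃ + l r² ỹ)` and width `ρ r`;  shear and `f` of `Q`. -/
theorem cy_two_shear_lb {η : ℝ} (h0 : 0 < η) : ∃ C : ℝ, 0 < C ∧ ∀ (Q Q' : CyT) (l Λ : ℝ), 0 < l → 0 < Q.r → 0 < Q.f → 1 ≤ Λ → Q.f + Q'.f ≤ Λ * Q.f →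
    ∃ (m : ℕ) (Qs : Fin m → CyT), (∀ i, Q.r / (C * cyM Q Q' l) ≤ (Qs i).r ∧ (Qs i).r ≤ Q.r ∧ (Qs i).f = Q.f) ∧
      (∀ z, cyIn Q l z → cyIn Q' l z → ∃ i, cyIn (Qs i) l z) ∧
      ∑ i, cyWt η (Qs i) ≤ C * Λ ^ 2 / cyM Q Q' l * cyWt η Q := by
  obtain ⟨C, hC0, hC⟩ := cy_I_cover h0
  refine ⟨C, hC0, fun Q Q' l Λ hl hr hf hΛ hff => ?_⟩
  set ΔP : ℝ := cyPat Q' Q.x Q.b - cyPat Q Q.x Q.b with hΔP
  obtain ⟨m, cx, cb, cy, ρ, h1, h2, h3⟩ := hC Λ (Q.r * ΔP / Q.f) (Q.r ^ 2 * (Q'.be - Q.be) / Q.f) (l * Q.r ^ 2 * (Q'.K - Q.K) / Q.f)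
    (((Q'.c - Q.c) + (Q'.al - Q.al) * Q.x + (Q'.be - Q.be) * Q.x ^ 2 + (Q'.K - Q.K) * (Q.y - 2 * Q.x * Q.b)) / Q.f)
    (((Q'.d - Q.d) + (Q'.al - Q.al) * Q.b + (Q'.be - Q.be) * Q.y - (Q'.K - Q.K) * Q.b ^ 2) / (l * Q.f)) hΛ
  have hMe : max 1 (max |Q.r * ΔP / Q.f| (max |Q.r ^ 2 * (Q'.be - Q.be) / Q.f| |l * Q.r ^ 2 * (Q'.K - Q.K) / Q.f|)) = cyM Q Q' l := by
    have e1 : |Q.r * ΔP / Q.f| = Q.r * |ΔP| / Q.f := by
      rw [abs_div, abs_mul, abs_of_pos hr, abs_of_pos hf]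
    have e2 : |Q.r ^ 2 * (Q'.be - Q.be) / Q.f| = Q.r ^ 2 * |Q'.be - Q.be| / Q.f := by
      rw [abs_div, abs_mul, abs_of_pos (by positivity : 0 < Q.r ^ 2), abs_of_pos hf]
    have e3 : |l * Q.r ^ 2 * (Q'.K - Q.K) / Q.f| = l * Q.r ^ 2 * |Q'.K - Q.K| / Q.f := by
      rw [abs_div, abs_mul, abs_of_pos (by positivity : 0 < l * Q.r ^ 2), abs_of_pos hf]
    rw [e1, e2, e3, cyM]
  rw [hMe] at h3 h1
  have hM0 : 0 < cyM Q Q' l := lt_of_lt_of_le one_pos (le_max_left _ _)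
  have hρ0 : ∀ i, 0 < ρ i := fun i => lt_of_lt_of_le (by positivity) (h1 i).1
  refine ⟨m, fun i => ⟨Q.x + Q.r * cx i, Q.b + l * Q.r * cb i, Q.y + 2 * Q.x * (l * Q.r * cb i) + l * Q.r ^ 2 * cy i, ρ i * Q.r,
    Q.f, Q.c, Q.d, Q.al, Q.be, Q.K⟩, ?_, ?_, ?_⟩
  · intro i
    refine ⟨?_, ?_, rfl⟩
    · have := mul_le_mul_of_nonneg_right (h1 i).1 hr.le
      rwa [one_div_mul_eq_div] at this
    · have := mul_le_mul_of_nonneg_right (h1 i).2 hr.le
      simpa using this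
  · intro z hz hz'
    obtain ⟨z1, z2, z3, z4, z5⟩ := hz
    obtain ⟨_, _, _, z4', z5'⟩ := hz'
    have hlr : 0 < l * Q.r := by positivity
    have hlr2 : 0 < l * Q.r ^ 2 := by positivity
    have hlf : 0 < l * Q.f := by positivity
    have b1 : |(z.X - Q.x) / Q.r| ≤ 1 := by rw [abs_div, abs_of_pos hr, div_le_one hr]; exact z1
    have b2 : |(z.B - Q.b) / (l * Q.r)| ≤ 1 := by rw [abs_div, abs_of_pos hlr, div_le_one hlr]; exact z2
    have b3 : |cyTilt Q z / (l * Q.r ^ 2)| ≤ 1 := by rw [abs_div, abs_of_pos hlr2, div_le_one hlr2]; exact z3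
    have b4 : |Q.r * ΔP / Q.f * ((z.X - Q.x) / Q.r) + Q.r ^ 2 * (Q'.be - Q.be) / Q.f * ((z.X - Q.x) / Q.r) ^ 2
        + l * Q.r ^ 2 * (Q'.K - Q.K) / Q.f * (cyTilt Q z / (l * Q.r ^ 2) - 2 * ((z.X - Q.x) / Q.r) * ((z.B - Q.b) / (l * Q.r)))
        + ((Q'.c - Q.c) + (Q'.al - Q.al) * Q.x + (Q'.be - Q.be) * Q.x ^ 2 + (Q'.K - Q.K) * (Q.y - 2 * Q.x * Q.b)) / Q.f| ≤ Λ := by
      have e1 : Q.r * ΔP / Q.f * ((z.X - Q.x) / Q.r) + Q.r ^ 2 * (Q'.be - Q.be) / Q.f * ((z.X - Q.x) / Q.r) ^ 2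
        + l * Q.r ^ 2 * (Q'.K - Q.K) / Q.f * (cyTilt Q z / (l * Q.r ^ 2) - 2 * ((z.X - Q.x) / Q.r) * ((z.B - Q.b) / (l * Q.r)))
        + ((Q'.c - Q.c) + (Q'.al - Q.al) * Q.x + (Q'.be - Q.be) * Q.x ^ 2 + (Q'.K - Q.K) * (Q.y - 2 * Q.x * Q.b)) / Q.f
          = (cyVel Q z - cyVel Q' z) / Q.f := by
        rw [hΔP]
        simp only [cyPat, cyTilt, cyVel]
        field_simp
        ring
      rw [e1, abs_div, abs_of_pos hf, div_le_iff₀ hf]
      have := abs_sub (cyVel Q z) (cyVel Q' z)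
      linarith
    have b5 : |Q.r * ΔP / Q.f * ((z.B - Q.b) / (l * Q.r)) + Q.r ^ 2 * (Q'.be - Q.be) / Q.f * (cyTilt Q z / (l * Q.r ^ 2))
        - l * Q.r ^ 2 * (Q'.K - Q.K) / Q.f * ((z.B - Q.b) / (l * Q.r)) ^ 2
        + ((Q'.d - Q.d) + (Q'.al - Q.al) * Q.b + (Q'.be - Q.be) * Q.y - (Q'.K - Q.K) * Q.b ^ 2) / (l * Q.f)| ≤ Λ := by
      have e1 : Q.r * ΔP / Q.f * ((z.B - Q.b) / (l * Q.r)) + Q.r ^ 2 * (Q'.be - Q.be) / Q.f * (cyTilt Q z / (l * Q.r ^ 2))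
        - l * Q.r ^ 2 * (Q'.K - Q.K) / Q.f * ((z.B - Q.b) / (l * Q.r)) ^ 2
        + ((Q'.d - Q.d) + (Q'.al - Q.al) * Q.b + (Q'.be - Q.be) * Q.y - (Q'.K - Q.K) * Q.b ^ 2) / (l * Q.f)
          = (cyPos Q z - cyPos Q' z) / (l * Q.f) := by
        rw [hΔP]
        simp only [cyPat, cyTilt, cyPos]
        field_simp
        ring
      rw [e1, abs_div, abs_of_pos hlf, div_le_iff₀ hlf]
      have := abs_sub (cyPos Q z) (cyPos Q' z)
      nlinarith
    obtain ⟨i, c1, c2, c3⟩ := h2 _ _ _ b1 b2 b3 b4 b5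
    refine ⟨i, ?_, ?_, ?_, z4, z5⟩
    · show |z.X - (Q.x + Q.r * cx i)| ≤ ρ i * Q.r
      have e1 : z.X - (Q.x + Q.r * cx i) = ((z.X - Q.x) / Q.r - cx i) * Q.r := by
        field_simp
        ring
      rw [e1, abs_mul, abs_of_pos hr]
      exact mul_le_mul_of_nonneg_right c1 hr.le
    · show |z.B - (Q.b + l * Q.r * cb i)| ≤ l * (ρ i * Q.r)
      have e1 : z.B - (Q.b + l * Q.r * cb i) = ((z.B - Q.b) / (l * Q.r) - cb i) * (l * Q.r) := by
        field_simp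
        ring
      rw [e1, abs_mul, abs_of_pos hlr]
      have := mul_le_mul_of_nonneg_right c2 hlr.le
      linarith
    · show |z.Y - (Q.y + 2 * Q.x * (l * Q.r * cb i) + l * Q.r ^ 2 * cy i) - 2 * (Q.x + Q.r * cx i) * (z.B - (Q.b + l * Q.r * cb i))|
        ≤ l * (ρ i * Q.r) ^ 2
      have e1 : z.Y - (Q.y + 2 * Q.x * (l * Q.r * cb i) + l * Q.r ^ 2 * cy i) - 2 * (Q.x + Q.r * cx i) * (z.B - (Q.b + l * Q.r * cb i))
          = (cyTilt Q z / (l * Q.r ^ 2) - cy i - 2 * cx i * ((z.B - Q.b) / (l * Q.r) - cb i)) * (l * Q.r ^ 2) := by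
        simp only [cyTilt]
        field_simp
        ring
      rw [e1, abs_mul, abs_of_pos hlr2]
      have := mul_le_mul_of_nonneg_right c3 hlr2.le
      nlinarith
  · have hw : ∀ i, cyWt η ⟨Q.x + Q.r * cx i, Q.b + l * Q.r * cb i, Q.y + 2 * Q.x * (l * Q.r * cb i) + l * Q.r ^ 2 * cy i, ρ i * Q.r,
        Q.f, Q.c, Q.d, Q.al, Q.be, Q.K⟩ = ρ i ^ (3 + η) * cyWt η Q := by
      intro i
      simp only [cyWt]
      rw [Real.mul_rpow (hρ0 i).le hr.le, mul_assoc]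
    simp only [hw]
    rw [← Finset.sum_mul]
    exact mul_le_mul_of_nonneg_right h3 (by unfold cyWt; positivity)

/-- (I) for two tests at the same cut, without the lower bound of the widths -/
theorem cy_two_shear {η : ℝ} (h0 : 0 < η) : ∃ C : ℝ, ∀ (Q Q' : CyT) (l Λ : ℝ), 0 < l → 0 < Q.r → 0 < Q.f → 1 ≤ Λ → Q.f + Q'.f ≤ Λ * Q.f →
    ∃ (m : ℕ) (Qs : Fin m → CyT), (∀ i, 0 < (Qs i).r ∧ (Qs i).r ≤ Q.r ∧ (Qs i).f = Q.f) ∧
      (∀ z, cyIn Q l z → cyIn Q' l z → ∃ i, cyIn (Qs i) l z) ∧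
      ∑ i, cyWt η (Qs i) ≤ C * Λ ^ 2 / cyM Q Q' l * cyWt η Q := by
  obtain ⟨C, hC0, hC⟩ := cy_two_shear_lb h0
  refine ⟨C, fun Q Q' l Λ hl hr hf hΛ hff => ?_⟩
  obtain ⟨m, Qs, h1, h2, h3⟩ := hC Q Q' l Λ hl hr hf hΛ hff
  have hM0 : 0 < cyM Q Q' l := lt_of_lt_of_le one_pos (le_max_left _ _)
  exact ⟨m, Qs, fun i => ⟨lt_of_lt_of_le (by positivity) (h1 i).1, (h1 i).2⟩, h2, h3⟩

/-- **L-256-CYL-EXTD** (02 l.587-592, first half of the partner count): if two tests at the same cut with comparable base widths meet, the second lies in the enlargement of the first with normal width `C Λ M f`.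
PROOF: the difference polynomials of `cy_two_shear` at a common point `z0` are `≤ Λ f`, `≤ l Λ f`; at any other point of the base cell of `Q'` (contained in the `3`-fold... base enlargement: `|X̃|, |B̃| ≤ 3`, `|Ỹ| ≤ 9`) they change by `≤ C M f`, resp. `C M l f`. -/
theorem cy_diff_extend : ∃ C : ℝ, ∀ (Q Q' : CyT) (l Λ : ℝ) (z0 : Cy5), 0 < l → 0 < Q.r → 0 < Q.f → 1 ≤ Λ → Q'.r = Q.r → Q.f + Q'.f ≤ Λ * Q.f →
    cyIn Q l z0 → cyIn Q' l z0 → ∀ z, cyIn Q' l z → cyIn { Q with r := 4 * Q.r, f := C * Λ * cyM Q Q' l * Q.f } l z := by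
  refine ⟨48, fun Q Q' l Λ z0 hl hr hf hΛ hrr hff h0 h0' z hz => ?_⟩
  obtain ⟨a1, a2, a3, a4, a5⟩ := h0
  obtain ⟨b1, b2, b3, b4, b5⟩ := h0'
  obtain ⟨c1, c2, c3, c4, c5⟩ := hz
  rw [hrr] at b1 b2 b3 c1 c2 c3
  set M : ℝ := cyM Q Q' l with hM
  set ΔP : ℝ := cyPat Q' Q.x Q.b - cyPat Q Q.x Q.b with hΔP
  have hM1 : 1 ≤ M := le_max_left _ _
  have hMP : Q.r * |ΔP| ≤ M * Q.f := by
    rw [← div_le_iff₀ hf]
    exact (le_max_left _ _).trans (le_max_right _ _)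
  have hMb : Q.r ^ 2 * |Q'.be - Q.be| ≤ M * Q.f := by
    rw [← div_le_iff₀ hf]
    exact (le_max_left _ _).trans ((le_max_right _ _).trans (le_max_right _ _))
  have hMK : l * Q.r ^ 2 * |Q'.K - Q.K| ≤ M * Q.f := by
    rw [← div_le_iff₀ hf]
    exact (le_max_right _ _).trans ((le_max_right _ _).trans (le_max_right _ _))
  have hMf : 0 < M * Q.f := by positivity
  have hlr : 0 < l * Q.r := by positivity
  have hlr2 : 0 < l * Q.r ^ 2 := by positivity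
  -- centred coordinates
  set ξ : ℝ := z.X - Q.x with hξ
  set ξ0 : ℝ := z0.X - Q.x with hξ0
  set β : ℝ := z.B - Q.b with hβ
  set β0 : ℝ := z0.B - Q.b with hβ0
  set τ : ℝ := cyTilt Q z with hτ
  set τ0 : ℝ := cyTilt Q z0 with hτ0
  have dξ : |ξ - ξ0| ≤ 2 * Q.r := by
    have e1 : ξ - ξ0 = (z.X - Q'.x) - (z0.X - Q'.x) := by rw [hξ, hξ0]; ring
    rw [e1]
    exact (abs_sub _ _).trans (by linarith)
  have dβ : |β - β0| ≤ 2 * (l * Q.r) := by
    have e1 : β - β0 = (z.B - Q'.b) - (z0.B - Q'.b) := by rw [hβ, hβ0]; ring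
    rw [e1]
    exact (abs_sub _ _).trans (by linarith)
  have dx : |Q'.x - Q.x| ≤ 2 * Q.r := by
    have e1 : Q'.x - Q.x = (z0.X - Q.x) - (z0.X - Q'.x) := by ring
    rw [e1]
    exact (abs_sub _ _).trans (by linarith)
  have dτ : |τ - τ0| ≤ 10 * (l * Q.r ^ 2) := by
    have e1 : τ - τ0 = (cyTilt Q' z - cyTilt Q' z0) + 2 * (Q'.x - Q.x) * (β - β0) := by
      rw [hτ, hτ0, hβ, hβ0]
      simp only [cyTilt]
      ring
    rw [e1]
    have g1 := abs_add_le (cyTilt Q' z - cyTilt Q' z0) (2 * (Q'.x - Q.x) * (β - β0))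
    have g2 := abs_sub (cyTilt Q' z) (cyTilt Q' z0)
    have g3 : |2 * (Q'.x - Q.x) * (β - β0)| ≤ 2 * ((2 * Q.r) * (2 * (l * Q.r))) := by
      rw [abs_mul, abs_mul, abs_two, mul_assoc]
      exact mul_le_mul_of_nonneg_left (mul_le_mul dx dβ (abs_nonneg _) (by positivity)) (by norm_num)
    linarith
  have bξ : |ξ| ≤ 3 * Q.r := by
    have e1 : ξ = (ξ - ξ0) + ξ0 := by ring
    rw [e1]
    exact (abs_add_le _ _).trans (by linarith)
  have bβ : |β| ≤ 3 * (l * Q.r) := by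
    have e1 : β = (β - β0) + β0 := by ring
    rw [e1]
    exact (abs_add_le _ _).trans (by linarith)
  have bτ : |τ| ≤ 11 * (l * Q.r ^ 2) := by
    have e1 : τ = (τ - τ0) + τ0 := by ring
    rw [e1]
    exact (abs_add_le _ _).trans (by linarith)
  -- the difference polynomials
  have eV : ∀ w : Cy5, cyVel Q w - cyVel Q' w = ((Q'.c - Q.c) + (Q'.al - Q.al) * Q.x + (Q'.be - Q.be) * Q.x ^ 2 + (Q'.K - Q.K) * (Q.y - 2 * Q.x * Q.b))
      + ΔP * (w.X - Q.x) + (Q'.be - Q.be) * (w.X - Q.x) ^ 2 + (Q'.K - Q.K) * (cyTilt Q w - 2 * (w.X - Q.x) * (w.B - Q.b)) := by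
    intro w
    rw [hΔP]
    simp only [cyVel, cyPat, cyTilt]
    ring
  have eP : ∀ w : Cy5, cyPos Q w - cyPos Q' w = ((Q'.d - Q.d) + (Q'.al - Q.al) * Q.b + (Q'.be - Q.be) * Q.y - (Q'.K - Q.K) * Q.b ^ 2)
      + ΔP * (w.B - Q.b) + (Q'.be - Q.be) * cyTilt Q w - (Q'.K - Q.K) * (w.B - Q.b) ^ 2 := by
    intro w
    rw [hΔP]
    simp only [cyPos, cyPat, cyTilt]
    ring
  have hV : |(cyVel Q z - cyVel Q' z) - (cyVel Q z0 - cyVel Q' z0)| ≤ 46 * (M * Q.f) := by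
    have e1 : (cyVel Q z - cyVel Q' z) - (cyVel Q z0 - cyVel Q' z0)
        = ΔP * (ξ - ξ0) + (Q'.be - Q.be) * ((ξ - ξ0) * (ξ + ξ0)) + (Q'.K - Q.K) * ((τ - τ0) - 2 * ((ξ - ξ0) * β + ξ0 * (β - β0))) := by
      rw [eV z, eV z0]
      ring
    rw [e1]
    refine (abs_add_three _ _ _).trans ?_
    have g1 : |ΔP * (ξ - ξ0)| ≤ 2 * (M * Q.f) := by
      rw [abs_mul]
      have := mul_le_mul_of_nonneg_left dξ (abs_nonneg ΔP)
      linarith
    have g2 : |(Q'.be - Q.be) * ((ξ - ξ0) * (ξ + ξ0))| ≤ 8 * (M * Q.f) := by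
      rw [abs_mul, abs_mul]
      have h1 : |ξ + ξ0| ≤ 4 * Q.r := (abs_add_le _ _).trans (by linarith)
      have h2 : |ξ - ξ0| * |ξ + ξ0| ≤ (2 * Q.r) * (4 * Q.r) := mul_le_mul dξ h1 (abs_nonneg _) (by positivity)
      have := mul_le_mul_of_nonneg_left h2 (abs_nonneg (Q'.be - Q.be))
      linarith
    have g3 : |(Q'.K - Q.K) * ((τ - τ0) - 2 * ((ξ - ξ0) * β + ξ0 * (β - β0)))| ≤ 26 * (M * Q.f) := by
      rw [abs_mul]
      have h1 : |(ξ - ξ0) * β| ≤ (2 * Q.r) * (3 * (l * Q.r)) := by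
        rw [abs_mul]; exact mul_le_mul dξ bβ (abs_nonneg _) (by positivity)
      have h2 : |ξ0 * (β - β0)| ≤ Q.r * (2 * (l * Q.r)) := by
        rw [abs_mul]; exact mul_le_mul a1 dβ (abs_nonneg _) hr.le
      have h3 : |(τ - τ0) - 2 * ((ξ - ξ0) * β + ξ0 * (β - β0))| ≤ 26 * (l * Q.r ^ 2) := by
        refine (abs_sub _ _).trans ?_
        rw [abs_mul, abs_two]
        have := abs_add_le ((ξ - ξ0) * β) (ξ0 * (β - β0))
        linarith
      have := mul_le_mul_of_nonneg_left h3 (abs_nonneg (Q'.K - Q.K))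
      linarith
    linarith
  have hP : |(cyPos Q z - cyPos Q' z) - (cyPos Q z0 - cyPos Q' z0)| ≤ l * (46 * (M * Q.f)) := by
    have e1 : (cyPos Q z - cyPos Q' z) - (cyPos Q z0 - cyPos Q' z0)
        = ΔP * (β - β0) + (Q'.be - Q.be) * (τ - τ0) + (-(Q'.K - Q.K)) * ((β - β0) * (β + β0)) := by
      rw [eP z, eP z0]
      ring
    rw [e1]
    refine (abs_add_three _ _ _).trans ?_
    have g1 : |ΔP * (β - β0)| ≤ l * (2 * (M * Q.f)) := by
      rw [abs_mul]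
      have := mul_le_mul_of_nonneg_left dβ (abs_nonneg ΔP)
      have h2 := mul_le_mul_of_nonneg_left hMP hl.le
      linarith
    have g2 : |(Q'.be - Q.be) * (τ - τ0)| ≤ l * (10 * (M * Q.f)) := by
      rw [abs_mul]
      have := mul_le_mul_of_nonneg_left dτ (abs_nonneg (Q'.be - Q.be))
      have h2 := mul_le_mul_of_nonneg_left hMb hl.le
      linarith
    have g3 : |(-(Q'.K - Q.K)) * ((β - β0) * (β + β0))| ≤ l * (8 * (M * Q.f)) := by
      rw [abs_mul, abs_neg, abs_mul]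
      have h1 : |β + β0| ≤ 4 * (l * Q.r) := (abs_add_le _ _).trans (by linarith)
      have h2 : |β - β0| * |β + β0| ≤ (2 * (l * Q.r)) * (4 * (l * Q.r)) := mul_le_mul dβ h1 (abs_nonneg _) (by positivity)
      have := mul_le_mul_of_nonneg_left h2 (abs_nonneg (Q'.K - Q.K))
      have h3 := mul_le_mul_of_nonneg_left hMK hl.le
      linarith
    have hlM : 0 < l * (M * Q.f) := by positivity
    linarith
  have hΛM : Λ * Q.f ≤ Λ * (M * Q.f) := by
    have : Q.f ≤ M * Q.f := le_mul_of_one_le_left hf.le hM1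
    exact mul_le_mul_of_nonneg_left this (by linarith)
  have hMΛ : M * Q.f ≤ Λ * (M * Q.f) := le_mul_of_one_le_left hMf.le hΛ
  have hf' : 0 ≤ Q'.f := (abs_nonneg _).trans b4
  refine ⟨?_, ?_, ?_, ?_, ?_⟩
  · show |z.X - Q.x| ≤ 4 * Q.r
    linarith
  · show |z.B - Q.b| ≤ l * (4 * Q.r)
    linarith
  · show |cyTilt Q z| ≤ l * (4 * Q.r) ^ 2
    linarith
  · show |cyVel Q z| ≤ 48 * Λ * M * Q.f
    have e1 : cyVel Q z = ((cyVel Q z - cyVel Q' z) - (cyVel Q z0 - cyVel Q' z0)) + (cyVel Q z0 - cyVel Q' z0) + cyVel Q' z := by ring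
    rw [e1]
    refine (abs_add_three _ _ _).trans ?_
    have := abs_sub (cyVel Q z0) (cyVel Q' z0)
    linarith
  · show |cyPos Q z| ≤ l * (48 * Λ * M * Q.f)
    have e1 : cyPos Q z = ((cyPos Q z - cyPos Q' z) - (cyPos Q z0 - cyPos Q' z0)) + (cyPos Q z0 - cyPos Q' z0) + cyPos Q' z := by ring
    rw [e1]
    refine (abs_add_three _ _ _).trans ?_
    have := abs_sub (cyPos Q z0) (cyPos Q' z0)
    have h1 : l * (Q.f + Q'.f) ≤ l * (Λ * (M * Q.f)) := mul_le_mul_of_nonneg_left (hff.trans hΛM) hl.le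
    have h2 : l * (M * Q.f) ≤ l * (Λ * (M * Q.f)) := mul_le_mul_of_nonneg_left hMΛ hl.le
    have h3 : l * Q'.f ≤ l * (Q.f + Q'.f) := mul_le_mul_of_nonneg_left (by linarith) hl.le
    linarith

/-! ## SUB: sublevel sets (cyl:sublevel, 02 l.236-256) -/

/-- one monotone branch: on a measurable set where `φ` is injective and `|φ| ≤ q`, the integral of `|φ'|` is at most `2q` -/
theorem cy_Q1D_branch (a0 a1 a2 q : ℝ) (s : Set ℝ) (hs : MeasurableSet s) (hinj : Set.InjOn (fun t : ℝ => a0 + a1 * t + a2 * t ^ 2) s)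
    (hse : ∀ t ∈ s, |a0 + a1 * t + a2 * t ^ 2| ≤ q) : ∫⁻ t in s, ENNReal.ofReal |a1 + 2 * a2 * t| ≤ ENNReal.ofReal (2 * q) := by
  have hd : ∀ t ∈ s, HasDerivWithinAt (fun t : ℝ => a0 + a1 * t + a2 * t ^ 2) (a1 + 2 * a2 * t) s t := by
    intro t _
    have h1 : HasDerivAt (fun t : ℝ => a0 + a1 * t + a2 * t ^ 2) (a1 * 1 + a2 * (2 * t)) t := by
      have h2 : HasDerivAt (fun t : ℝ => t ^ 2) (2 * t) t := by simpa using hasDerivAt_pow 2 t
      exact (((hasDerivAt_id t).const_mul a1).const_add a0).add (h2.const_mul a2)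
    have e1 : a1 * 1 + a2 * (2 * t) = a1 + 2 * a2 * t := by ring
    rw [e1] at h1
    exact h1.hasDerivWithinAt
  have h := lintegral_image_eq_lintegral_abs_deriv_mul hs hd hinj (fun _ => 1)
  simp only [mul_one, lintegral_const, Measure.restrict_apply MeasurableSet.univ, Set.univ_inter, one_mul] at h
  rw [← h]
  calc volume ((fun t : ℝ => a0 + a1 * t + a2 * t ^ 2) '' s) ≤ volume (Set.Icc (-q) q) := by
        apply measure_mono
        rintro _ ⟨t, ht, rfl⟩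
        exact abs_le.mp (hse t ht)
    _ = ENNReal.ofReal (2 * q) := by
        rw [Real.volume_Icc]
        congr 1
        ring

/-- sublevel set of a quadratic where the derivative is large -/
theorem cy_Q1D_sub1 (a0 a1 a2 : ℝ) {c q : ℝ} (hc : 0 < c) (hq : 0 ≤ q) :
    volume {s : ℝ | |a0 + a1 * s + a2 * s ^ 2| ≤ q ∧ c ≤ |a1 + 2 * a2 * s|} ≤ ENNReal.ofReal (4 * q / c) := by
  have hcφ : Continuous fun t : ℝ => |a0 + a1 * t + a2 * t ^ 2| := by fun_prop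
  have hcd : Continuous fun t : ℝ => a1 + 2 * a2 * t := by fun_prop
  set P : Set ℝ := {s : ℝ | |a0 + a1 * s + a2 * s ^ 2| ≤ q ∧ c ≤ a1 + 2 * a2 * s} with hP
  set N : Set ℝ := {s : ℝ | |a0 + a1 * s + a2 * s ^ 2| ≤ q ∧ a1 + 2 * a2 * s ≤ -c} with hN
  have hPm : MeasurableSet P :=
    (isClosed_le hcφ continuous_const).measurableSet.inter (isClosed_le continuous_const hcd).measurableSet
  have hNm : MeasurableSet N :=
    (isClosed_le hcφ continuous_const).measurableSet.inter (isClosed_le hcd continuous_const).measurableSet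
  have hfac : ∀ x y : ℝ, (a0 + a1 * x + a2 * x ^ 2) - (a0 + a1 * y + a2 * y ^ 2)
      = (x - y) * (((a1 + 2 * a2 * x) + (a1 + 2 * a2 * y)) / 2) := by
    intro x y; ring
  have hPi := cy_Q1D_branch a0 a1 a2 q P hPm (by
    intro x hx y hy hxy
    have h1 : c ≤ a1 + 2 * a2 * x := hx.2
    have h2 : c ≤ a1 + 2 * a2 * y := hy.2
    have h3 := hfac x y
    simp only at hxy
    rw [hxy, sub_self] at h3
    have h4 : ((a1 + 2 * a2 * x) + (a1 + 2 * a2 * y)) / 2 ≠ 0 := by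
      have : 0 < ((a1 + 2 * a2 * x) + (a1 + 2 * a2 * y)) / 2 := by linarith
      exact this.ne'
    rcases mul_eq_zero.mp h3.symm with h5 | h5
    · linarith
    · exact absurd h5 h4) (fun t ht => ht.1)
  have hNi := cy_Q1D_branch a0 a1 a2 q N hNm (by
    intro x hx y hy hxy
    have h1 : a1 + 2 * a2 * x ≤ -c := hx.2
    have h2 : a1 + 2 * a2 * y ≤ -c := hy.2
    have h3 := hfac x y
    simp only at hxy
    rw [hxy, sub_self] at h3
    have h4 : ((a1 + 2 * a2 * x) + (a1 + 2 * a2 * y)) / 2 ≠ 0 := by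
      have : ((a1 + 2 * a2 * x) + (a1 + 2 * a2 * y)) / 2 < 0 := by linarith
      exact this.ne
    rcases mul_eq_zero.mp h3.symm with h5 | h5
    · linarith
    · exact absurd h5 h4) (fun t ht => ht.1)
  have hmk : ∀ (Q : Set ℝ), MeasurableSet Q → (∀ t ∈ Q, c ≤ |a1 + 2 * a2 * t|) →
      ∫⁻ t in Q, ENNReal.ofReal |a1 + 2 * a2 * t| ≤ ENNReal.ofReal (2 * q) → volume Q ≤ ENNReal.ofReal (2 * q / c) := by
    intro Q hQm hQ hI
    rw [ENNReal.ofReal_div_of_pos hc, ENNReal.le_div_iff_mul_le (Or.inl (by simpa using hc)) (Or.inl ENNReal.ofReal_ne_top)]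
    calc volume Q * ENNReal.ofReal c = ∫⁻ _t in Q, ENNReal.ofReal c := by rw [setLIntegral_const, mul_comm]
      _ ≤ ∫⁻ t in Q, ENNReal.ofReal |a1 + 2 * a2 * t| := setLIntegral_mono' hQm fun t ht => ENNReal.ofReal_le_ofReal (hQ t ht)
      _ ≤ _ := hI
  have hPv := hmk P hPm (fun t ht => le_trans ht.2 (le_abs_self _)) hPi
  have hNv := hmk N hNm (fun t ht => by
    have : a1 + 2 * a2 * t ≤ -c := ht.2
    have h2 := neg_abs_le (a1 + 2 * a2 * t)
    linarith) hNi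
  calc volume {s : ℝ | |a0 + a1 * s + a2 * s ^ 2| ≤ q ∧ c ≤ |a1 + 2 * a2 * s|} ≤ volume (P ∪ N) := by
        apply measure_mono
        intro t ht
        rcases le_abs.mp ht.2 with h | h
        · exact Or.inl ⟨ht.1, h⟩
        · exact Or.inr ⟨ht.1, by linarith⟩
    _ ≤ volume P + volume N := measure_union_le _ _
    _ ≤ ENNReal.ofReal (2 * q / c) + ENNReal.ofReal (2 * q / c) := add_le_add hPv hNv
    _ = ENNReal.ofReal (4 * q / c) := by
        rw [← ENNReal.ofReal_add (by positivity) (by positivity)]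
        congr 1
        ring

/-- the set where an affine function with slope `2 a2` is small -/
theorem cy_Q1D_aff (a1 a2 g : ℝ) (ha2 : a2 ≠ 0) :
    volume {s : ℝ | |a1 + 2 * a2 * s| ≤ g} ≤ ENNReal.ofReal (g / |a2|) := by
  have hpos : 0 < |a2| := abs_pos.mpr ha2
  calc volume {s : ℝ | |a1 + 2 * a2 * s| ≤ g}
      ≤ volume (Set.Icc (-a1 / (2 * a2) - g / (2 * |a2|)) (-a1 / (2 * a2) + g / (2 * |a2|))) := by
        apply measure_mono
        intro s hs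
        have h1 : |a1 + 2 * a2 * s| ≤ g := hs
        have e : a1 + 2 * a2 * s = 2 * a2 * (s - -a1 / (2 * a2)) := by field_simp; ring
        rw [e, abs_mul, abs_mul, abs_two] at h1
        have h2 : |s - -a1 / (2 * a2)| ≤ g / (2 * |a2|) := by
          rw [le_div_iff₀ (by positivity)]
          linarith
        have := abs_le.mp h2
        exact ⟨by linarith [this.1], by linarith [this.2]⟩
    _ = ENNReal.ofReal (g / |a2|) := by
        rw [Real.volume_Icc]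
        congr 1
        field_simp
        ring

/-- **L-256-CYL-Q1D**: quadratic polynomials in one variable.   PROOF: let `S` be the sublevel set, `μ = vol S`.   If `μ > 0` choose `x0 < x1 < x2` in `S` with gaps `≥ μ/4` (`S ∩ [-1, u]`, quantiles); Lagrange interpolation expresses
`a2 = Σ q(x_i)/Π(x_i - x_j)`, so `|a2| ≤ 3 ε /(μ/4)²`, then `a1`, `a0` similarly (`|x_i| ≤ 1`): `max|a_i| ≤ C ε/μ²` with `ε = ρ max|a_i|`.   ALTERNATIVE without quantiles: complete the square / case distinction on which coefficient is maximal. -/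
theorem cy_quad_sublevel : ∃ C : ℝ, ∀ (a0 a1 a2 ρ : ℝ), 0 < ρ → 0 < max |a0| (max |a1| |a2|) →
    volume {x : ℝ | |x| ≤ 1 ∧ |a0 + a1 * x + a2 * x ^ 2| ≤ ρ * max |a0| (max |a1| |a2|)} ≤ ENNReal.ofReal (C * Real.sqrt ρ) := by
  refine ⟨16, ?_⟩
  intro a0 a1 a2 ρ hρ hm
  set m : ℝ := max |a0| (max |a1| |a2|) with hmdef
  have hs0 : 0 < Real.sqrt ρ := Real.sqrt_pos.mpr hρ
  have hss : Real.sqrt ρ * Real.sqrt ρ = ρ := Real.mul_self_sqrt hρ.le
  rcases le_or_gt (1 / 4) ρ with hbig | hsmall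
  · -- trivial bound
    have h12 : 1 / 2 ≤ Real.sqrt ρ := by
      rw [show (1 / 2 : ℝ) = Real.sqrt (1 / 4) by
        rw [show (1 / 4 : ℝ) = (1 / 2) ^ 2 by norm_num, Real.sqrt_sq (by norm_num)]]
      exact Real.sqrt_le_sqrt hbig
    calc volume {x : ℝ | |x| ≤ 1 ∧ |a0 + a1 * x + a2 * x ^ 2| ≤ ρ * m} ≤ volume (Set.Icc (-1 : ℝ) 1) :=
          measure_mono fun x hx => abs_le.mp hx.1
      _ = ENNReal.ofReal 2 := by rw [Real.volume_Icc]; norm_num
      _ ≤ ENNReal.ofReal (16 * Real.sqrt ρ) := ENNReal.ofReal_le_ofReal (by linarith)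
  · have h12 : Real.sqrt ρ < 1 / 2 := by
      rw [show (1 / 2 : ℝ) = Real.sqrt (1 / 4) by
        rw [show (1 / 4 : ℝ) = (1 / 2) ^ 2 by norm_num, Real.sqrt_sq (by norm_num)]]
      exact Real.sqrt_lt_sqrt hρ.le hsmall
    have hq0 : 0 ≤ ρ * m := by positivity
    rcases le_or_gt (m / 8) |a2| with hA | hA
    · -- the leading coefficient is large
      have ha2 : a2 ≠ 0 := by
        intro h0
        rw [h0, abs_zero] at hA
        linarith
      have hg : 0 < m * Real.sqrt ρ := by positivity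
      calc volume {x : ℝ | |x| ≤ 1 ∧ |a0 + a1 * x + a2 * x ^ 2| ≤ ρ * m}
          ≤ volume ({s : ℝ | |a0 + a1 * s + a2 * s ^ 2| ≤ ρ * m ∧ m * Real.sqrt ρ ≤ |a1 + 2 * a2 * s|}
              ∪ {s : ℝ | |a1 + 2 * a2 * s| ≤ m * Real.sqrt ρ}) := by
            apply measure_mono
            intro x hx
            rcases le_total (m * Real.sqrt ρ) |a1 + 2 * a2 * x| with h | h
            · exact Or.inl ⟨hx.2, h⟩
            · exact Or.inr h
        _ ≤ ENNReal.ofReal (4 * (ρ * m) / (m * Real.sqrt ρ)) + ENNReal.ofReal (m * Real.sqrt ρ / |a2|) :=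
            (measure_union_le _ _).trans (add_le_add (cy_Q1D_sub1 a0 a1 a2 hg hq0) (cy_Q1D_aff a1 a2 _ ha2))
        _ = ENNReal.ofReal (4 * (ρ * m) / (m * Real.sqrt ρ) + m * Real.sqrt ρ / |a2|) :=
            (ENNReal.ofReal_add (by positivity) (by positivity)).symm
        _ ≤ ENNReal.ofReal (16 * Real.sqrt ρ) := by
            apply ENNReal.ofReal_le_ofReal
            have e1 : 4 * (ρ * m) / (m * Real.sqrt ρ) = 4 * Real.sqrt ρ := by
              rw [div_eq_iff (by positivity)]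
              calc 4 * (ρ * m) = 4 * (Real.sqrt ρ * Real.sqrt ρ * m) := by rw [hss]
                _ = _ := by ring
            have e2 : m * Real.sqrt ρ / |a2| ≤ 8 * Real.sqrt ρ := by
              rw [div_le_iff₀ (abs_pos.mpr ha2)]
              nlinarith
            linarith
    · rcases le_or_gt (m / 2) |a1| with hB | hB
      · -- the derivative is large on `[-1, 1]`
        have hg : 0 < m / 4 := by positivity
        calc volume {x : ℝ | |x| ≤ 1 ∧ |a0 + a1 * x + a2 * x ^ 2| ≤ ρ * m}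
            ≤ volume {s : ℝ | |a0 + a1 * s + a2 * s ^ 2| ≤ ρ * m ∧ m / 4 ≤ |a1 + 2 * a2 * s|} := by
              apply measure_mono
              intro x hx
              refine ⟨hx.2, ?_⟩
              have h1 : |2 * a2 * x| ≤ m / 4 := by
                rw [abs_mul, abs_mul, abs_two]
                have hx1 : |x| ≤ 1 := hx.1
                nlinarith [abs_nonneg a2, abs_nonneg x]
              have h2 : |a1| - |2 * a2 * x| ≤ |a1 + 2 * a2 * x| := by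
                have := abs_sub_abs_le_abs_sub a1 (-(2 * a2 * x))
                rw [abs_neg, sub_neg_eq_add] at this
                exact this
              linarith
          _ ≤ ENNReal.ofReal (4 * (ρ * m) / (m / 4)) := cy_Q1D_sub1 a0 a1 a2 hg hq0
          _ ≤ ENNReal.ofReal (16 * Real.sqrt ρ) := by
              apply ENNReal.ofReal_le_ofReal
              have e1 : 4 * (ρ * m) / (m / 4) = 16 * ρ := by field_simp; ring
              rw [e1]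
              nlinarith
      · -- the constant coefficient dominates: the set is empty
        have ha0 : |a0| = m := by
          refine le_antisymm (le_max_left _ _) (not_lt.mp fun hlt => ?_)
          have h1 : |a1| < m := by linarith
          have h2 : |a2| < m := by linarith
          exact lt_irrefl m (max_lt hlt (max_lt h1 h2))
        have hempty : {x : ℝ | |x| ≤ 1 ∧ |a0 + a1 * x + a2 * x ^ 2| ≤ ρ * m} = ∅ := by
          ext x
          simp only [Set.mem_ofPred_eq, Set.mem_empty_iff_false, iff_false, not_and, not_le]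
          intro hx
          have h1 : |a1 * x| ≤ m / 2 := by
            rw [abs_mul]
            nlinarith [abs_nonneg a1, abs_nonneg x]
          have h2 : |a2 * x ^ 2| ≤ m / 8 := by
            rw [abs_mul, abs_pow]
            have : |x| ^ 2 ≤ 1 := pow_le_one₀ (abs_nonneg x) hx
            nlinarith [abs_nonneg a2, sq_nonneg |x|]
          have h3 : |a0| ≤ |a0 + a1 * x + a2 * x ^ 2| + |a1 * x| + |a2 * x ^ 2| := by
            have e : a0 = (a0 + a1 * x + a2 * x ^ 2) + -(a1 * x) + -(a2 * x ^ 2) := by ring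
            calc |a0| = |(a0 + a1 * x + a2 * x ^ 2) + -(a1 * x) + -(a2 * x ^ 2)| := by rw [← e]
              _ ≤ |(a0 + a1 * x + a2 * x ^ 2) + -(a1 * x)| + |-(a2 * x ^ 2)| := abs_add_le _ _
              _ ≤ |a0 + a1 * x + a2 * x ^ 2| + |-(a1 * x)| + |-(a2 * x ^ 2)| := by gcongr; exact abs_add_le _ _
              _ = _ := by rw [abs_neg, abs_neg]
          nlinarith
        rw [hempty]
        simp

/-- the one-variable statement with a nonnegative constant -/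
def CySubQ (C1 : ℝ) : Prop := 0 ≤ C1 ∧ ∀ (a0 a1 a2 ρ : ℝ), 0 < ρ → 0 < max |a0| (max |a1| |a2|) →
    volume {x : ℝ | |x| ≤ 1 ∧ |a0 + a1 * x + a2 * x ^ 2| ≤ ρ * max |a0| (max |a1| |a2|)} ≤ ENNReal.ofReal (C1 * Real.sqrt ρ)

theorem cy_SUB_Q : ∃ C1 : ℝ, CySubQ C1 := by
  obtain ⟨C, hC⟩ := cy_quad_sublevel
  refine ⟨max C 0, le_max_right _ _, fun a0 a1 a2 ρ hρ hm => (hC a0 a1 a2 ρ hρ hm).trans (ENNReal.ofReal_le_ofReal ?_)⟩
  exact mul_le_mul_of_nonneg_right (le_max_left _ _) (Real.sqrt_nonneg _)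

theorem cy_SUB_sqrt_sqrt (ρ : ℝ) (hρ : 0 < ρ) : Real.sqrt (Real.sqrt ρ) = ρ ^ (1 / 4 : ℝ) := by
  rw [Real.sqrt_eq_rpow, Real.sqrt_eq_rpow, ← Real.rpow_mul hρ.le]
  norm_num

/-- the sublevel set of an affine function on `[-1, 1]` -/
theorem cy_SUB_aff {C1 : ℝ} (hQ : CySubQ C1) (p q ρ : ℝ) (hρ : 0 < ρ) (hpq : 0 < max |p| |q|) :
    MeasurableSet {y : ℝ | |y| ≤ 1 ∧ |p + q * y| ≤ Real.sqrt ρ * max |p| |q|} ∧
    volume {y : ℝ | |y| ≤ 1 ∧ |p + q * y| ≤ Real.sqrt ρ * max |p| |q|} ≤ ENNReal.ofReal (C1 * ρ ^ (1 / 4 : ℝ)) := by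
  constructor
  · have c1 : Continuous fun y : ℝ => |y| := by fun_prop
    have c2 : Continuous fun y : ℝ => |p + q * y| := by fun_prop
    exact (isClosed_le c1 continuous_const).measurableSet.inter (isClosed_le c2 continuous_const).measurableSet
  · have e : max |p| (max |q| |(0 : ℝ)|) = max |p| |q| := by
      rw [abs_zero, max_eq_left (abs_nonneg q)]
    have h := hQ.2 p q 0 (Real.sqrt ρ) (Real.sqrt_pos.mpr hρ) (by rw [e]; exact hpq)
    rw [e, cy_SUB_sqrt_sqrt ρ hρ] at h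
    refine le_trans (measure_mono ?_) h
    intro y hy
    refine ⟨hy.1, ?_⟩
    have : p + q * y + 0 * y ^ 2 = p + q * y := by ring
    rw [this]
    exact hy.2

/-- Fubini: quadratic in the last variable with coefficients depending on the first two -/
theorem cy_SUB_core {C1 : ℝ} (hQ : CySubQ C1) (A0 A1 A2 : ℝ × ℝ → ℝ) (h0 : Measurable A0) (h1 : Measurable A1) (h2 : Measurable A2)
    (m ρ : ℝ) (hm : 0 < m) (hρ : 0 < ρ) (Bad : Set (ℝ × ℝ)) (hBm : MeasurableSet Bad)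
    (hBv : volume Bad ≤ ENNReal.ofReal (2 * (C1 * ρ ^ (1 / 4 : ℝ))))
    (hgood : ∀ w : ℝ × ℝ, |w.1| ≤ 1 → |w.2| ≤ 1 → w ∉ Bad → Real.sqrt ρ * m ≤ max |A0 w| (max |A1 w| |A2 w|)) :
    (volume : Measure ((ℝ × ℝ) × ℝ)) {v | |v.1.1| ≤ 1 ∧ |v.1.2| ≤ 1 ∧ |v.2| ≤ 1 ∧ |A0 v.1 + A1 v.1 * v.2 + A2 v.1 * v.2 ^ 2| ≤ ρ * m}
      ≤ ENNReal.ofReal (8 * (C1 * ρ ^ (1 / 4 : ℝ))) := by
  have hC1 := hQ.1
  set cc : ℝ := C1 * ρ ^ (1 / 4 : ℝ) with hcc
  have hcc0 : 0 ≤ cc := by positivity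
  set E : Set ((ℝ × ℝ) × ℝ) := {v | |v.1.1| ≤ 1 ∧ |v.1.2| ≤ 1 ∧ |v.2| ≤ 1 ∧ |A0 v.1 + A1 v.1 * v.2 + A2 v.1 * v.2 ^ 2| ≤ ρ * m} with hE
  have hEm : MeasurableSet E := by
    have m1 : MeasurableSet {v : (ℝ × ℝ) × ℝ | |v.1.1| ≤ 1} := measurableSet_le (by fun_prop) measurable_const
    have m2 : MeasurableSet {v : (ℝ × ℝ) × ℝ | |v.1.2| ≤ 1} := measurableSet_le (by fun_prop) measurable_const
    have m3 : MeasurableSet {v : (ℝ × ℝ) × ℝ | |v.2| ≤ 1} := measurableSet_le (by fun_prop) measurable_const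
    have m4 : MeasurableSet {v : (ℝ × ℝ) × ℝ | |A0 v.1 + A1 v.1 * v.2 + A2 v.1 * v.2 ^ 2| ≤ ρ * m} := by
      refine measurableSet_le ?_ measurable_const
      exact (((h0.comp measurable_fst).add ((h1.comp measurable_fst).mul measurable_snd)).add
        ((h2.comp measurable_fst).mul (measurable_snd.pow_const 2))).abs
    exact m1.inter (m2.inter (m3.inter m4))
  set Box : Set (ℝ × ℝ) := Set.Icc (-1 : ℝ) 1 ×ˢ Set.Icc (-1 : ℝ) 1 with hBox
  have hBoxm : MeasurableSet Box := measurableSet_Icc.prod measurableSet_Icc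
  have hBoxv : volume Box = 4 := by
    rw [hBox, Measure.volume_eq_prod, Measure.prod_prod, Real.volume_Icc]
    rw [← ENNReal.ofReal_mul (by norm_num)]
    norm_num
  have hss : Real.sqrt ρ * Real.sqrt ρ = ρ := Real.mul_self_sqrt hρ.le
  have hs0 : 0 < Real.sqrt ρ := Real.sqrt_pos.mpr hρ
  rw [Measure.volume_eq_prod, Measure.prod_apply hEm]
  calc ∫⁻ w, volume (Prod.mk w ⁻¹' E)
      ≤ ∫⁻ w, (Box.indicator (fun _ => ENNReal.ofReal cc) w + Bad.indicator (fun _ => 2) w) := by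
        refine lintegral_mono fun w => ?_
        by_cases hw : w ∈ Box
        · have hw1 : |w.1| ≤ 1 := abs_le.mpr hw.1
          have hw2 : |w.2| ≤ 1 := abs_le.mpr hw.2
          rw [Set.indicator_of_mem hw]
          by_cases hb : w ∈ Bad
          · rw [Set.indicator_of_mem hb]
            refine le_trans ?_ le_add_self
            calc volume (Prod.mk w ⁻¹' E) ≤ volume (Set.Icc (-1 : ℝ) 1) :=
                  measure_mono fun x hx => abs_le.mp hx.2.2.1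
              _ = 2 := by rw [Real.volume_Icc]; norm_num
          · rw [Set.indicator_of_notMem hb, add_zero]
            have hg := hgood w hw1 hw2 hb
            have hpos : 0 < max |A0 w| (max |A1 w| |A2 w|) := lt_of_lt_of_le (by positivity) hg
            have h := hQ.2 (A0 w) (A1 w) (A2 w) (Real.sqrt ρ) hs0 hpos
            rw [cy_SUB_sqrt_sqrt ρ hρ] at h
            refine le_trans (measure_mono ?_) h
            intro x hx
            refine ⟨hx.2.2.1, le_trans hx.2.2.2 ?_⟩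
            calc ρ * m = Real.sqrt ρ * (Real.sqrt ρ * m) := by rw [← mul_assoc, hss]
              _ ≤ Real.sqrt ρ * max |A0 w| (max |A1 w| |A2 w|) := by gcongr
        · have : Prod.mk w ⁻¹' E = ∅ := by
            ext x
            simp only [Set.mem_preimage, Set.mem_empty_iff_false, iff_false]
            intro hx
            exact hw ⟨abs_le.mp hx.1, abs_le.mp hx.2.1⟩
          rw [this]
          simp
    _ = ENNReal.ofReal cc * 4 + 2 * volume Bad := by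
        rw [lintegral_add_left (measurable_const.indicator hBoxm), lintegral_indicator_const hBoxm,
          lintegral_indicator_const hBm, hBoxv]
    _ ≤ ENNReal.ofReal cc * 4 + 2 * ENNReal.ofReal (2 * cc) := by gcongr
    _ = ENNReal.ofReal (8 * cc) := by
        have e4 : (4 : ENNReal) = ENNReal.ofReal 4 := by norm_num
        have e2 : (2 : ENNReal) = ENNReal.ofReal 2 := by norm_num
        rw [e4, e2, ← ENNReal.ofReal_mul hcc0, ← ENNReal.ofReal_mul (by norm_num), ← ENNReal.ofReal_add (by positivity) (by positivity)]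
        congr 1
        ring

/-- the trivial bound by the volume of the cube -/
theorem cy_SUB_cube (E : Set (ℝ × ℝ × ℝ)) (hE : ∀ u ∈ E, |u.1| ≤ 1 ∧ |u.2.1| ≤ 1 ∧ |u.2.2| ≤ 1) : volume E ≤ 8 := by
  calc volume E ≤ volume (Set.Icc (-1 : ℝ) 1 ×ˢ (Set.Icc (-1 : ℝ) 1 ×ˢ Set.Icc (-1 : ℝ) 1)) :=
        measure_mono fun u hu => ⟨abs_le.mp (hE u hu).1, abs_le.mp (hE u hu).2.1, abs_le.mp (hE u hu).2.2⟩
    _ = 8 := by
        rw [Measure.volume_eq_prod, Measure.prod_prod, Measure.volume_eq_prod, Measure.prod_prod, Real.volume_Icc,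
          ← ENNReal.ofReal_mul (by norm_num), ← ENNReal.ofReal_mul (by norm_num)]
        norm_num

/-- **L-256-CYL-SUB** (velocity polynomial).   `c + αX + βX² + K(Y - 2XB) = (c + KY) + (α - 2KB) X + β X²`.   `m = max(|c|,|α|,|β|,|K|)`.   The coefficient (`c + KY`, `α - 2KB` or `β`) that contains a coefficient of size `m` is, as a polynomial of degree `≤ 1`
in `Y` resp. `B`, `≥ √ρ m` outside a set of measure `C ρ^(1/4)` (`cy_quad_sublevel` with `√ρ`); there `cy_quad_sublevel` in `X` with `√ρ`.   Fubini (`Measure.prod`, `measure_prod_le`-type bound by sections; the set is closed, hence measurable). -/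
theorem cy_sub_vel : ∃ C : ℝ, ∀ (c al be K ρ : ℝ), 0 < ρ → 0 < max |c| (max |al| (max |be| |K|)) →
    volume {u : ℝ × ℝ × ℝ | |u.1| ≤ 1 ∧ |u.2.1| ≤ 1 ∧ |u.2.2| ≤ 1 ∧
      |c + al * u.1 + be * u.1 ^ 2 + K * (u.2.2 - 2 * u.1 * u.2.1)| ≤ ρ * max |c| (max |al| (max |be| |K|))} ≤ ENNReal.ofReal (C * ρ ^ (1 / 4 : ℝ)) := by
  obtain ⟨C1, hQ⟩ := cy_SUB_Q
  have hC1 := hQ.1
  refine ⟨8 * C1 + 8, ?_⟩
  intro c al be K ρ hρ hm
  set m : ℝ := max |c| (max |al| (max |be| |K|)) with hmdef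
  set E : Set (ℝ × ℝ × ℝ) := {u | |u.1| ≤ 1 ∧ |u.2.1| ≤ 1 ∧ |u.2.2| ≤ 1 ∧
      |c + al * u.1 + be * u.1 ^ 2 + K * (u.2.2 - 2 * u.1 * u.2.1)| ≤ ρ * m} with hE
  have hr0 : 0 ≤ ρ ^ (1 / 4 : ℝ) := by positivity
  rcases lt_or_ge 1 ρ with hbig | hsmall
  · have h1 : 1 ≤ ρ ^ (1 / 4 : ℝ) := Real.one_le_rpow hbig.le (by norm_num)
    refine (cy_SUB_cube E fun u hu => ⟨hu.1, hu.2.1, hu.2.2.1⟩).trans ?_
    rw [show (8 : ENNReal) = ENNReal.ofReal 8 by norm_num]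
    apply ENNReal.ofReal_le_ofReal
    nlinarith
  · have hs1 : Real.sqrt ρ ≤ 1 := Real.sqrt_le_one.mpr hsmall
    have hs0 : 0 ≤ Real.sqrt ρ := Real.sqrt_nonneg _
    have hEm : MeasurableSet E := by
      have m1 : MeasurableSet {u : ℝ × ℝ × ℝ | |u.1| ≤ 1} := measurableSet_le (by fun_prop) measurable_const
      have m2 : MeasurableSet {u : ℝ × ℝ × ℝ | |u.2.1| ≤ 1} := measurableSet_le (by fun_prop) measurable_const
      have m3 : MeasurableSet {u : ℝ × ℝ × ℝ | |u.2.2| ≤ 1} := measurableSet_le (by fun_prop) measurable_const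
      have m4 : MeasurableSet {u : ℝ × ℝ × ℝ | |c + al * u.1 + be * u.1 ^ 2 + K * (u.2.2 - 2 * u.1 * u.2.1)| ≤ ρ * m} :=
        measurableSet_le (by fun_prop) measurable_const
      exact m1.inter (m2.inter (m3.inter m4))
    have hΨ : MeasurePreserving (Prod.swap : (ℝ × ℝ) × ℝ → ℝ × (ℝ × ℝ)) volume volume := Measure.measurePreserving_swap
    rw [← hΨ.measure_preimage hEm.nullMeasurableSet]
    have hsub : Prod.swap ⁻¹' E ⊆ {v : (ℝ × ℝ) × ℝ | |v.1.1| ≤ 1 ∧ |v.1.2| ≤ 1 ∧ |v.2| ≤ 1 ∧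
        |(c + K * v.1.2) + (al + -(2 * K) * v.1.1) * v.2 + be * v.2 ^ 2| ≤ ρ * m} := by
      intro v hv
      obtain ⟨a1, a2, a3, a4⟩ := hv
      refine ⟨a2, a3, a1, ?_⟩
      simp only [Prod.fst_swap, Prod.snd_swap] at a4
      have : (c + K * v.1.2) + (al + -(2 * K) * v.1.1) * v.2 + be * v.2 ^ 2
          = c + al * v.2 + be * v.2 ^ 2 + K * (v.1.2 - 2 * v.2 * v.1.1) := by ring
      rw [this]
      exact a4
    have hfin : ENNReal.ofReal (8 * (C1 * ρ ^ (1 / 4 : ℝ))) ≤ ENNReal.ofReal ((8 * C1 + 8) * ρ ^ (1 / 4 : ℝ)) := by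
      apply ENNReal.ofReal_le_ofReal
      nlinarith
    refine le_trans (measure_mono hsub) (le_trans ?_ hfin)
    have hcase : m ≤ max |c| |K| ∨ m ≤ |al| ∨ m ≤ |be| := by
      have h := le_refl m
      nth_rewrite 2 [hmdef] at h
      rcases le_max_iff.mp h with h | h
      · exact Or.inl (h.trans (le_max_left _ _))
      · rcases le_max_iff.mp h with h | h
        · exact Or.inr (Or.inl h)
        · rcases le_max_iff.mp h with h | h
          · exact Or.inr (Or.inr h)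
          · exact Or.inl (h.trans (le_max_right _ _))
    rcases hcase with hc | hc | hc
    · -- the constant coefficient `c + K Y`
      obtain ⟨hSm, hSv⟩ := cy_SUB_aff hQ c K ρ hρ (lt_of_lt_of_le hm hc)
      refine cy_SUB_core hQ (fun w => c + K * w.2) (fun w => al + -(2 * K) * w.1) (fun _ => be) (by fun_prop) (by fun_prop)
        measurable_const m ρ hm hρ (Set.Icc (-1 : ℝ) 1 ×ˢ {y : ℝ | |y| ≤ 1 ∧ |c + K * y| ≤ Real.sqrt ρ * max |c| |K|})
        (measurableSet_Icc.prod hSm) ?_ ?_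
      · rw [Measure.volume_eq_prod, Measure.prod_prod, Real.volume_Icc, ENNReal.ofReal_mul (by norm_num)]
        gcongr
        norm_num
      · intro w hw1 hw2 hb
        have : ¬ |c + K * w.2| ≤ Real.sqrt ρ * max |c| |K| := fun hh => hb ⟨abs_le.mp hw1, hw2, hh⟩
        refine le_trans ?_ (le_max_left _ _)
        calc Real.sqrt ρ * m ≤ Real.sqrt ρ * max |c| |K| := by gcongr
          _ ≤ |c + K * w.2| := (not_le.mp this).le
    · -- the linear coefficient `α - 2 K B`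
      have hpos : 0 < max |al| |-(2 * K)| := lt_of_lt_of_le hm (hc.trans (le_max_left _ _))
      obtain ⟨hSm, hSv⟩ := cy_SUB_aff hQ al (-(2 * K)) ρ hρ hpos
      refine cy_SUB_core hQ (fun w => c + K * w.2) (fun w => al + -(2 * K) * w.1) (fun _ => be) (by fun_prop) (by fun_prop)
        measurable_const m ρ hm hρ ({y : ℝ | |y| ≤ 1 ∧ |al + -(2 * K) * y| ≤ Real.sqrt ρ * max |al| |-(2 * K)|} ×ˢ Set.Icc (-1 : ℝ) 1)
        (hSm.prod measurableSet_Icc) ?_ ?_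
      · rw [Measure.volume_eq_prod, Measure.prod_prod, Real.volume_Icc, ENNReal.ofReal_mul (by norm_num), mul_comm]
        gcongr
        norm_num
      · intro w hw1 hw2 hb
        have : ¬ |al + -(2 * K) * w.1| ≤ Real.sqrt ρ * max |al| |-(2 * K)| := fun hh => hb ⟨⟨hw1, hh⟩, abs_le.mp hw2⟩
        refine le_trans ?_ (le_trans (le_max_left _ _) (le_max_right _ _))
        calc Real.sqrt ρ * m ≤ Real.sqrt ρ * max |al| |-(2 * K)| := by
              gcongr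
              exact hc.trans (le_max_left _ _)
          _ ≤ |al + -(2 * K) * w.1| := (not_le.mp this).le
    · -- the leading coefficient `β`
      refine cy_SUB_core hQ (fun w => c + K * w.2) (fun w => al + -(2 * K) * w.1) (fun _ => be) (by fun_prop) (by fun_prop)
        measurable_const m ρ hm hρ ∅ MeasurableSet.empty (by simp) ?_
      intro w _ _ _
      refine le_trans ?_ (le_trans (le_max_right _ _) (le_max_right _ _))
      calc Real.sqrt ρ * m ≤ 1 * m := by gcongr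
        _ = m := one_mul m
        _ ≤ |be| := hc

/-- **L-256-CYL-SUB** (position polynomial).   `d + αB + βY - KB² = (d + βY) + αB - KB²`: the same proof -/
theorem cy_sub_pos : ∃ C : ℝ, ∀ (d al be K ρ : ℝ), 0 < ρ → 0 < max |d| (max |al| (max |be| |K|)) →
    volume {u : ℝ × ℝ × ℝ | |u.1| ≤ 1 ∧ |u.2.1| ≤ 1 ∧ |u.2.2| ≤ 1 ∧
      |d + al * u.2.1 + be * u.2.2 - K * u.2.1 ^ 2| ≤ ρ * max |d| (max |al| (max |be| |K|))} ≤ ENNReal.ofReal (C * ρ ^ (1 / 4 : ℝ)) := by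
  obtain ⟨C1, hQ⟩ := cy_SUB_Q
  have hC1 := hQ.1
  refine ⟨8 * C1 + 8, ?_⟩
  intro d al be K ρ hρ hm
  set m : ℝ := max |d| (max |al| (max |be| |K|)) with hmdef
  set E : Set (ℝ × ℝ × ℝ) := {u | |u.1| ≤ 1 ∧ |u.2.1| ≤ 1 ∧ |u.2.2| ≤ 1 ∧
      |d + al * u.2.1 + be * u.2.2 - K * u.2.1 ^ 2| ≤ ρ * m} with hE
  have hr0 : 0 ≤ ρ ^ (1 / 4 : ℝ) := by positivity
  rcases lt_or_ge 1 ρ with hbig | hsmall
  · have h1 : 1 ≤ ρ ^ (1 / 4 : ℝ) := Real.one_le_rpow hbig.le (by norm_num)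
    refine (cy_SUB_cube E fun u hu => ⟨hu.1, hu.2.1, hu.2.2.1⟩).trans ?_
    rw [show (8 : ENNReal) = ENNReal.ofReal 8 by norm_num]
    apply ENNReal.ofReal_le_ofReal
    nlinarith
  · have hs1 : Real.sqrt ρ ≤ 1 := Real.sqrt_le_one.mpr hsmall
    have hs0 : 0 ≤ Real.sqrt ρ := Real.sqrt_nonneg _
    have hEm : MeasurableSet E := by
      have m1 : MeasurableSet {u : ℝ × ℝ × ℝ | |u.1| ≤ 1} := measurableSet_le (by fun_prop) measurable_const
      have m2 : MeasurableSet {u : ℝ × ℝ × ℝ | |u.2.1| ≤ 1} := measurableSet_le (by fun_prop) measurable_const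
      have m3 : MeasurableSet {u : ℝ × ℝ × ℝ | |u.2.2| ≤ 1} := measurableSet_le (by fun_prop) measurable_const
      have m4 : MeasurableSet {u : ℝ × ℝ × ℝ | |d + al * u.2.1 + be * u.2.2 - K * u.2.1 ^ 2| ≤ ρ * m} :=
        measurableSet_le (by fun_prop) measurable_const
      exact m1.inter (m2.inter (m3.inter m4))
    have hA := measurePreserving_prodAssoc (volume : Measure ℝ) (volume : Measure ℝ) (volume : Measure ℝ)
    have hsw : MeasurePreserving (Prod.map (id : ℝ → ℝ) (Prod.swap : ℝ × ℝ → ℝ × ℝ)) (volume : Measure (ℝ × ℝ × ℝ)) volume :=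
      (MeasurePreserving.id volume).prod Measure.measurePreserving_swap
    have hΨ : MeasurePreserving (fun v : (ℝ × ℝ) × ℝ => (v.1.1, v.2, v.1.2)) volume (volume : Measure (ℝ × ℝ × ℝ)) :=
      hsw.comp hA
    rw [← hΨ.measure_preimage hEm.nullMeasurableSet]
    have hsub : (fun v : (ℝ × ℝ) × ℝ => (v.1.1, v.2, v.1.2)) ⁻¹' E ⊆ {v : (ℝ × ℝ) × ℝ | |v.1.1| ≤ 1 ∧ |v.1.2| ≤ 1 ∧ |v.2| ≤ 1 ∧
        |(d + be * v.1.2) + al * v.2 + -K * v.2 ^ 2| ≤ ρ * m} := by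
      intro v hv
      obtain ⟨a1, a2, a3, a4⟩ := hv
      refine ⟨a1, a3, a2, ?_⟩
      simp only at a4
      have : (d + be * v.1.2) + al * v.2 + -K * v.2 ^ 2 = d + al * v.2 + be * v.1.2 - K * v.2 ^ 2 := by ring
      rw [this]
      exact a4
    have hfin : ENNReal.ofReal (8 * (C1 * ρ ^ (1 / 4 : ℝ))) ≤ ENNReal.ofReal ((8 * C1 + 8) * ρ ^ (1 / 4 : ℝ)) := by
      apply ENNReal.ofReal_le_ofReal
      nlinarith
    refine le_trans (measure_mono hsub) (le_trans ?_ hfin)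
    have hcase : m ≤ max |d| |be| ∨ m ≤ |al| ∨ m ≤ |K| := by
      have h := le_refl m
      nth_rewrite 2 [hmdef] at h
      rcases le_max_iff.mp h with h | h
      · exact Or.inl (h.trans (le_max_left _ _))
      · rcases le_max_iff.mp h with h | h
        · exact Or.inr (Or.inl h)
        · rcases le_max_iff.mp h with h | h
          · exact Or.inl (h.trans (le_max_right _ _))
          · exact Or.inr (Or.inr h)
    rcases hcase with hc | hc | hc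
    · obtain ⟨hSm, hSv⟩ := cy_SUB_aff hQ d be ρ hρ (lt_of_lt_of_le hm hc)
      refine cy_SUB_core hQ (fun w => d + be * w.2) (fun _ => al) (fun _ => -K) (by fun_prop) measurable_const
        measurable_const m ρ hm hρ (Set.Icc (-1 : ℝ) 1 ×ˢ {y : ℝ | |y| ≤ 1 ∧ |d + be * y| ≤ Real.sqrt ρ * max |d| |be|})
        (measurableSet_Icc.prod hSm) ?_ ?_
      · rw [Measure.volume_eq_prod, Measure.prod_prod, Real.volume_Icc, ENNReal.ofReal_mul (by norm_num)]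
        gcongr
        norm_num
      · intro w hw1 hw2 hb
        have : ¬ |d + be * w.2| ≤ Real.sqrt ρ * max |d| |be| := fun hh => hb ⟨abs_le.mp hw1, hw2, hh⟩
        refine le_trans ?_ (le_max_left _ _)
        calc Real.sqrt ρ * m ≤ Real.sqrt ρ * max |d| |be| := by gcongr
          _ ≤ |d + be * w.2| := (not_le.mp this).le
    · refine cy_SUB_core hQ (fun w => d + be * w.2) (fun _ => al) (fun _ => -K) (by fun_prop) measurable_const
        measurable_const m ρ hm hρ ∅ MeasurableSet.empty (by simp) ?_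
      intro w _ _ _
      refine le_trans ?_ (le_trans (le_max_left _ _) (le_max_right _ _))
      calc Real.sqrt ρ * m ≤ 1 * m := by gcongr
        _ = m := one_mul m
        _ ≤ |al| := hc
    · refine cy_SUB_core hQ (fun w => d + be * w.2) (fun _ => al) (fun _ => -K) (by fun_prop) measurable_const
        measurable_const m ρ hm hρ ∅ MeasurableSet.empty (by simp) ?_
      intro w _ _ _
      refine le_trans ?_ (le_trans (le_max_right _ _) (le_max_right _ _))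
      calc Real.sqrt ρ * m ≤ 1 * m := by gcongr
        _ = m := one_mul m
        _ ≤ |-K| := by rw [abs_neg]; exact hc

end Claimed.Agent.R256
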