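-- KEEP
import Claimed.Agent.R256.Cyl.Alg
import Claimed.Agent.R256.Soft.Model

/-!
# Row 256 (LS paper), CYL, unit STEP, post SG1 = THE CHART SYSTEM (02 l.655-670), file 1 : DEFINITIONS          (architect helper202; prefix `cy_ch_`)

PURE REAL / INTEGER ALGEBRA on `Cy5`, `CyT`.   No state, no operator, no model.      `l` = length of the cut, `ρ` = base width of the labels, `u` = rounding unit of the normal data (`u = fs / 16`).
* `cyChx ρ c`, `cyChb l ρ c`, `cyChy l ρ c`   the centre `(x_c, b_c, y_c) = (c₁ ρ, c₂ lρ, c₃ lρ²)` of the lattice cell `c : ℤ³`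
* `cyChCell l ρ z`      the lattice cell of a point;      `CyChAt l ρ x b y z`  = `z` lies in the Heisenberg cell of width `ρ` with the centre `(x,b,y)`
* `cyPat Q x b`, `cyChA Q x b y`, `cyChS Q x b y`, `Q.be`, `Q.K`    THE FIVE SHEAR DATA of a test at a centre:
      `V_Q(z) = A + P ξ + β ξ² + K (ν - 2ξμ)`,   `W_Q(z) = S + P μ + β ν - K μ²`      (`ξ = X - x`, `μ = B - b`, `ν = Y - y - 2x(B-b)`;   `cyVel Q z = N - V_Q(z)`, `cyPos Q z = D - W_Q(z)`)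
* `CyChNear l ρ a x b y Q Q'`     the five data of `Q`, `Q'` differ by `≤ a` in the units `(1/ρ², 1/(lρ²), 1/ρ, 1, l)`
* `cyChDat l ρ u Q c`   the five data at the centre of `c`, rounded (floor) in the units `u × (1/ρ², 1/(lρ²), 1/ρ, 1, l)`
* `cyChFr l ρ u fs G`   the frame of the index `G = (cell, five integers)`: centre of the cell, widths `(ρ, fs)`, shear = triangular solution of the five integers
* `cyChBox l ρ u Q`     the finite window of indices around a test (`7·7·35·5⁵` indices)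
-/

set_option autoImplicit false

namespace Claimed.Agent.R256

/-- a chart index: lattice cell, five rounded shear data -/
abbrev CyIx : Type := (ℤ × ℤ × ℤ) × (ℤ × ℤ × ℤ × ℤ × ℤ)

/-- the centre of a lattice cell: `x` -/
def cyChx (ρ : ℝ) (c : ℤ × ℤ × ℤ) : ℝ := c.1 * ρ
/-- the centre of a lattice cell: `b` -/
def cyChb (l ρ : ℝ) (c : ℤ × ℤ × ℤ) : ℝ := c.2.1 * (l * ρ)
/-- the centre of a lattice cell: `y` -/
def cyChy (l ρ : ℝ) (c : ℤ × ℤ × ℤ) : ℝ := c.2.2 * (l * ρ ^ 2)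

/-- the third lattice index of the base point `(B, Y)` in the column `(c1, c2)` -/
noncomputable def cyCh3 (l ρ : ℝ) (c1 c2 : ℤ) (B Y : ℝ) : ℤ := ⌊(Y - 2 * (c1 * ρ) * (B - c2 * (l * ρ))) / (l * ρ ^ 2)⌋

/-- the lattice cell of a point -/
noncomputable def cyChCell (l ρ : ℝ) (z : Cy5) : ℤ × ℤ × ℤ :=
  (⌊z.X / ρ⌋, ⌊z.B / (l * ρ)⌋, cyCh3 l ρ ⌊z.X / ρ⌋ ⌊z.B / (l * ρ)⌋ z.B z.Y)

/-- `z` lies in the Heisenberg cell of width `ρ` (length `l`) with the centre `(x, b, y)` -/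
def CyChAt (l ρ x b y : ℝ) (z : Cy5) : Prop := |z.X - x| ≤ ρ ∧ |z.B - b| ≤ l * ρ ∧ |z.Y - y - 2 * x * (z.B - b)| ≤ l * ρ ^ 2

/-- the velocity shear at the centre -/
def cyChA (Q : CyT) (x b y : ℝ) : ℝ := Q.c + Q.al * x + Q.be * x ^ 2 + Q.K * (y - 2 * x * b)
/-- the position shear at the centre -/
def cyChS (Q : CyT) (_x b y : ℝ) : ℝ := Q.d + Q.al * b + Q.be * y - Q.K * b ^ 2

/-- the five shear data of `Q` and `Q'` at the centre `(x, b, y)` differ by at most `a` -/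
def CyChNear (l ρ a x b y : ℝ) (Q Q' : CyT) : Prop :=
  |Q'.be - Q.be| * ρ ^ 2 ≤ a ∧ |Q'.K - Q.K| * (l * ρ ^ 2) ≤ a ∧ |cyPat Q' x b - cyPat Q x b| * ρ ≤ a ∧
    |cyChA Q' x b y - cyChA Q x b y| ≤ a ∧ |cyChS Q' x b y - cyChS Q x b y| ≤ l * a

/-- the five rounded data of a test at the centre of a cell -/
noncomputable def cyChDat (l ρ u : ℝ) (Q : CyT) (c : ℤ × ℤ × ℤ) : ℤ × ℤ × ℤ × ℤ × ℤ :=
  (⌊Q.be * ρ ^ 2 / u⌋, ⌊Q.K * (l * ρ ^ 2) / u⌋, ⌊cyPat Q (cyChx ρ c) (cyChb l ρ c) * ρ / u⌋,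
    ⌊cyChA Q (cyChx ρ c) (cyChb l ρ c) (cyChy l ρ c) / u⌋, ⌊cyChS Q (cyChx ρ c) (cyChb l ρ c) (cyChy l ρ c) / (l * u)⌋)

/-- the coefficient `β` of the frame -/
noncomputable def cyChFbe (ρ u : ℝ) (G : CyIx) : ℝ := G.2.1 * u / ρ ^ 2
/-- the coefficient `K` of the frame -/
noncomputable def cyChFK (l ρ u : ℝ) (G : CyIx) : ℝ := G.2.2.1 * u / (l * ρ ^ 2)
/-- the coefficient `α` of the frame -/
noncomputable def cyChFal (l ρ u : ℝ) (G : CyIx) : ℝ :=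
  G.2.2.2.1 * u / ρ - 2 * cyChFbe ρ u G * cyChx ρ G.1 + 2 * cyChFK l ρ u G * cyChb l ρ G.1

/-- the frame of a chart index -/
noncomputable def cyChFr (l ρ u fs : ℝ) (G : CyIx) : CyT where
  x := cyChx ρ G.1
  b := cyChb l ρ G.1
  y := cyChy l ρ G.1
  r := ρ
  f := fs
  c := G.2.2.2.2.1 * u - cyChFal l ρ u G * cyChx ρ G.1 - cyChFbe ρ u G * cyChx ρ G.1 ^ 2
        - cyChFK l ρ u G * (cyChy l ρ G.1 - 2 * cyChx ρ G.1 * cyChb l ρ G.1)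
  d := G.2.2.2.2.2 * (l * u) - cyChFal l ρ u G * cyChb l ρ G.1 - cyChFbe ρ u G * cyChy l ρ G.1 + cyChFK l ρ u G * cyChb l ρ G.1 ^ 2
  al := cyChFal l ρ u G
  be := cyChFbe ρ u G
  K := cyChFK l ρ u G

/-- the cell at the offset `w` from the cell of the centre of `Q` (triangular: the third reference index is read in the shifted column) -/
noncomputable def cyChShC (l ρ : ℝ) (Q : CyT) (w : ℤ × ℤ × ℤ) : ℤ × ℤ × ℤ :=
  (⌊Q.x / ρ⌋ + w.1, ⌊Q.b / (l * ρ)⌋ + w.2.1, cyCh3 l ρ (⌊Q.x / ρ⌋ + w.1) (⌊Q.b / (l * ρ)⌋ + w.2.1) Q.b Q.y + w.2.2)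

/-- the index at the offset `w` from the index of `Q` -/
noncomputable def cyChSh (l ρ u : ℝ) (Q : CyT) (w : CyIx) : CyIx :=
  (cyChShC l ρ Q w.1, cyChDat l ρ u Q (cyChShC l ρ Q w.1) + w.2)

/-- the window of offsets      (made IRREDUCIBLE below: `whnf` of `w ∈ cyChWin` would enumerate the window; use `cy_ch_win_mem`, `cy_ch_win_card`) -/
noncomputable def cyChWin : Finset CyIx :=
  (Finset.Icc (-3) 3 ×ˢ Finset.Icc (-3) 3 ×ˢ Finset.Icc (-17) 17) ×ˢ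
    (Finset.Icc (-2) 2 ×ˢ Finset.Icc (-2) 2 ×ˢ Finset.Icc (-2) 2 ×ˢ Finset.Icc (-2) 2 ×ˢ Finset.Icc (-2) 2)

theorem cy_ch_win_def : cyChWin = (Finset.Icc (-3) 3 ×ˢ Finset.Icc (-3) 3 ×ˢ Finset.Icc (-17) 17) ×ˢ
    (Finset.Icc (-2) 2 ×ˢ Finset.Icc (-2) 2 ×ˢ Finset.Icc (-2) 2 ×ˢ Finset.Icc (-2) 2 ×ˢ Finset.Icc (-2) 2) := rfl

theorem cy_ch_win_eqns_cite : True := by
  have := @cyChWin.eq_1
  trivial

attribute [irreducible] cyChWin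

theorem cy_ch_win_mem (w : CyIx) : w ∈ cyChWin ↔
    ((-3 ≤ w.1.1 ∧ w.1.1 ≤ 3) ∧ (-3 ≤ w.1.2.1 ∧ w.1.2.1 ≤ 3) ∧ (-17 ≤ w.1.2.2 ∧ w.1.2.2 ≤ 17)) ∧
      ((-2 ≤ w.2.1 ∧ w.2.1 ≤ 2) ∧ (-2 ≤ w.2.2.1 ∧ w.2.2.1 ≤ 2) ∧ (-2 ≤ w.2.2.2.1 ∧ w.2.2.2.1 ≤ 2) ∧ (-2 ≤ w.2.2.2.2.1 ∧ w.2.2.2.2.1 ≤ 2) ∧
        (-2 ≤ w.2.2.2.2.2 ∧ w.2.2.2.2.2 ≤ 2)) := by
  simp only [cy_ch_win_def, Finset.mem_product, Finset.mem_Icc]

theorem cy_ch_win_card : cyChWin.card = 7 * 7 * 35 * 5 ^ 5 := by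
  simp only [cy_ch_win_def, Finset.card_product, Int.card_Icc]
  rfl

/-- the indices near a test -/
noncomputable def cyChBox (l ρ u : ℝ) (Q : CyT) : Finset CyIx := cyChWin.image (cyChSh l ρ u Q)

theorem cy_ch_defs_eqns_cite : True := by
  have := @CyIx.eq_1
  have := @cyChx.eq_1
  have := @cyChb.eq_1
  have := @cyChy.eq_1
  have := @cyCh3.eq_1
  have := @cyChCell.eq_1
  have := @CyChAt.eq_1
  have := @cyChA.eq_1
  have := @cyChS.eq_1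
  have := @CyChNear.eq_1
  have := @cyChDat.eq_1
  have := @cyChFbe.eq_1
  have := @cyChFK.eq_1
  have := @cyChFal.eq_1
  have := @cyChFr.eq_1
  have := @cyChShC.eq_1
  have := @cyChSh.eq_1
  have := @cyChBox.eq_1
  trivial

end Claimed.Agent.R256
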