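-- KEEP
import Claimed.Agent.R256.Cyl.ChDefs

/-!
# Row 256, CYL, post SG1 (chart system), file 3 : CLOSE SHEAR DATA          (architect helper202; prefix `cy_ch_`)
-/

set_option autoImplicit false

namespace Claimed.Agent.R256

/-- expansion of the velocity shear at a centre -/
theorem cy_ch_vel_exp (Q : CyT) (x b y : ℝ) (z : Cy5) :
    cyVel Q z = z.N - (cyChA Q x b y + cyPat Q x b * (z.X - x) + Q.be * (z.X - x) ^ 2
      + Q.K * ((z.Y - y - 2 * x * (z.B - b)) - 2 * (z.X - x) * (z.B - b))) := by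
  unfold cyVel cyChA cyPat
  ring

/-- expansion of the position shear at a centre -/
theorem cy_ch_pos_exp (Q : CyT) (x b y : ℝ) (z : Cy5) :
    cyPos Q z = z.D - (cyChS Q x b y + cyPat Q x b * (z.B - b) + Q.be * (z.Y - y - 2 * x * (z.B - b)) - Q.K * (z.B - b) ^ 2) := by
  unfold cyPos cyChS cyPat
  ring

/-- weighted triangle inequality -/
theorem cy_ch_tri {p p' p'' w a a' : ℝ} (hw : 0 ≤ w) (h : |p' - p| * w ≤ a) (h' : |p'' - p'| * w ≤ a') : |p'' - p| * w ≤ a + a' := by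
  have h1 := mul_le_mul_of_nonneg_right (abs_sub_le p'' p' p) hw
  rw [add_mul] at h1
  linarith

/-- **L-256-CYL-CH-TRANS**.   PLAN: five triangle inequalities (`abs_sub_le`), `add_mul`, `mul_add`. -/
theorem cy_ch_near_trans {l ρ a a' x b y : ℝ} {Q Q' Q'' : CyT} (hl : 0 < l) (hρ : 0 < ρ) (h : CyChNear l ρ a x b y Q Q') (h' : CyChNear l ρ a' x b y Q' Q'') :
    CyChNear l ρ (a + a') x b y Q Q'' := by
  obtain ⟨h1, h2, h3, h4, h5⟩ := h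
  obtain ⟨h1', h2', h3', h4', h5'⟩ := h'
  refine ⟨cy_ch_tri (by positivity) h1 h1', cy_ch_tri (by positivity) h2 h2', cy_ch_tri hρ.le h3 h3', ?_, ?_⟩
  · have := abs_sub_le (cyChA Q'' x b y) (cyChA Q' x b y) (cyChA Q x b y)
    linarith
  · have := abs_sub_le (cyChS Q'' x b y) (cyChS Q' x b y) (cyChS Q x b y)
    rw [mul_add]
    linarith

theorem cy_ch_near_mono {l ρ a a' x b y : ℝ} {Q Q' : CyT} (hl : 0 < l) (h : CyChNear l ρ a x b y Q Q') (ha : a ≤ a') : CyChNear l ρ a' x b y Q Q' :=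
  ⟨h.1.trans ha, h.2.1.trans ha, h.2.2.1.trans ha, h.2.2.2.1.trans ha, h.2.2.2.2.trans (mul_le_mul_of_nonneg_left ha hl.le)⟩

/-- **L-256-CYL-CH-NOR**.   Close data: the two normal coordinates of a point of the cell differ by `6a`, `4la`.
PLAN: `cy_ch_vel_exp`, `cy_ch_pos_exp` for `Q`, `Q'` at `(x,b,y)`; with `ξ = X - x`, `μ = B - b`, `ν = Y - y - 2x(B-b)`, `Δ = Q' - Q`:
`cyVel Q' z - cyVel Q z = -(ΔA + ΔP ξ + Δβ ξ² + ΔK (ν - 2ξμ))`: `|ΔP ξ| ≤ |ΔP| ρ ≤ a`, `|Δβ| ξ² ≤ |Δβ| ρ² ≤ a`, `|ΔK| |ν - 2ξμ| ≤ 3 |ΔK| lρ² ≤ 3a`.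
`cyPos Q' z - cyPos Q z = -(ΔS + ΔP μ + Δβ ν - ΔK μ²)`: `|ΔP μ| ≤ l |ΔP| ρ`, `|Δβ ν| ≤ l |Δβ| ρ²`, `|ΔK| μ² ≤ l (|ΔK| lρ²)`. -/
theorem cy_ch_near_nor (l ρ a x b y : ℝ) (hl : 0 < l) (hρ : 0 < ρ) (Q Q' : CyT) (z : Cy5) (h : CyChNear l ρ a x b y Q Q') (hz : CyChAt l ρ x b y z) :
    |cyVel Q' z - cyVel Q z| ≤ 6 * a ∧ |cyPos Q' z - cyPos Q z| ≤ l * (4 * a) := by
  obtain ⟨h1, h2, h3, h4, h5⟩ := h
  obtain ⟨z1, z2, z3⟩ := hz
  rw [cy_ch_vel_exp Q' x b y z, cy_ch_vel_exp Q x b y z, cy_ch_pos_exp Q' x b y z, cy_ch_pos_exp Q x b y z]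
  set ξ := z.X - x with hξ
  set μ := z.B - b with hμ
  set ν := z.Y - y - 2 * x * μ with hν
  set dβ := Q'.be - Q.be with hdβ
  set dK := Q'.K - Q.K with hdK
  set dP := cyPat Q' x b - cyPat Q x b with hdP
  set dA := cyChA Q' x b y - cyChA Q x b y with hdA
  set dS := cyChS Q' x b y - cyChS Q x b y with hdS
  have nβ := abs_nonneg dβ
  have nK := abs_nonneg dK
  have nP := abs_nonneg dP
  have hξ2 : ξ ^ 2 ≤ ρ ^ 2 := by
    rw [← sq_abs ξ]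
    exact pow_le_pow_left₀ (abs_nonneg _) z1 2
  have hμ2 : μ ^ 2 ≤ (l * ρ) ^ 2 := by
    rw [← sq_abs μ]
    exact pow_le_pow_left₀ (abs_nonneg _) z2 2
  have hξμ : |ξ * μ| ≤ ρ * (l * ρ) := by
    rw [abs_mul]
    exact mul_le_mul z1 z2 (abs_nonneg _) hρ.le
  constructor
  · have e : z.N - (cyChA Q' x b y + cyPat Q' x b * ξ + Q'.be * ξ ^ 2 + Q'.K * (ν - 2 * ξ * μ))
        - (z.N - (cyChA Q x b y + cyPat Q x b * ξ + Q.be * ξ ^ 2 + Q.K * (ν - 2 * ξ * μ)))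
        = -(dA + dP * ξ + dβ * ξ ^ 2 + dK * (ν - 2 * ξ * μ)) := by
      rw [hdA, hdP, hdβ, hdK]
      ring
    rw [e, abs_neg]
    have t1 : |dP * ξ| ≤ a := by
      rw [abs_mul]
      exact (mul_le_mul_of_nonneg_left z1 nP).trans h3
    have t2 : |dβ * ξ ^ 2| ≤ a := by
      rw [abs_mul, abs_of_nonneg (sq_nonneg ξ)]
      exact (mul_le_mul_of_nonneg_left hξ2 nβ).trans h1
    have t3 : |dK * (ν - 2 * ξ * μ)| ≤ 3 * a := by
      rw [abs_mul]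
      have : |ν - 2 * ξ * μ| ≤ 3 * (l * ρ ^ 2) := by
        refine (abs_sub _ _).trans ?_
        rw [mul_assoc, abs_mul, abs_two]
        nlinarith
      calc |dK| * |ν - 2 * ξ * μ| ≤ |dK| * (3 * (l * ρ ^ 2)) := mul_le_mul_of_nonneg_left this nK
        _ = 3 * (|dK| * (l * ρ ^ 2)) := by ring
        _ ≤ 3 * a := by linarith
    calc |dA + dP * ξ + dβ * ξ ^ 2 + dK * (ν - 2 * ξ * μ)|
        ≤ |dA| + |dP * ξ| + |dβ * ξ ^ 2| + |dK * (ν - 2 * ξ * μ)| := by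
          refine (abs_add_le _ _).trans ?_
          gcongr
          refine (abs_add_le _ _).trans ?_
          gcongr
          exact abs_add_le _ _
      _ ≤ 6 * a := by linarith
  · have e : z.D - (cyChS Q' x b y + cyPat Q' x b * μ + Q'.be * ν - Q'.K * μ ^ 2)
        - (z.D - (cyChS Q x b y + cyPat Q x b * μ + Q.be * ν - Q.K * μ ^ 2))
        = -(dS + dP * μ + dβ * ν - dK * μ ^ 2) := by
      rw [hdS, hdP, hdβ, hdK]
      ring
    rw [e, abs_neg]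
    have t1 : |dP * μ| ≤ l * a := by
      rw [abs_mul]
      calc |dP| * |μ| ≤ |dP| * (l * ρ) := mul_le_mul_of_nonneg_left z2 nP
        _ = l * (|dP| * ρ) := by ring
        _ ≤ l * a := mul_le_mul_of_nonneg_left h3 hl.le
    have t2 : |dβ * ν| ≤ l * a := by
      rw [abs_mul]
      calc |dβ| * |ν| ≤ |dβ| * (l * ρ ^ 2) := mul_le_mul_of_nonneg_left z3 nβ
        _ = l * (|dβ| * ρ ^ 2) := by ring
        _ ≤ l * a := mul_le_mul_of_nonneg_left h1 hl.le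
    have t3 : |dK * μ ^ 2| ≤ l * a := by
      rw [abs_mul, abs_of_nonneg (sq_nonneg μ)]
      calc |dK| * μ ^ 2 ≤ |dK| * (l * ρ) ^ 2 := mul_le_mul_of_nonneg_left hμ2 nK
        _ = l * (|dK| * (l * ρ ^ 2)) := by ring
        _ ≤ l * a := mul_le_mul_of_nonneg_left h2 hl.le
    calc |dS + dP * μ + dβ * ν - dK * μ ^ 2|
        ≤ |dS| + |dP * μ| + |dβ * ν| + |dK * μ ^ 2| := by
          refine (abs_sub _ _).trans ?_
          gcongr
          refine (abs_add_le _ _).trans ?_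
          gcongr
          exact abs_add_le _ _
      _ ≤ l * (4 * a) := by linarith

/-- rounding by a floor -/
theorem cy_ch_floor_abs (v w : ℝ) (hw : 0 < w) : |v - (⌊v / w⌋ : ℝ) * w| ≤ w := by
  have h1 := Int.floor_le (v / w)
  have h2 := Int.lt_floor_add_one (v / w)
  rw [le_div_iff₀ hw] at h1
  rw [div_lt_iff₀ hw] at h2
  rw [abs_le]
  constructor <;> linarith

/-- **L-256-CYL-CH-ROUND**.   The frame of the rounded data of `Q` is `u`-close to `Q`.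
PLAN: for `F = cyChFr l ρ u fs (c, cyChDat l ρ u Q c)` and the centre `(x,b,y)` of `c`:   `F.be ρ² = n₁ u`, `F.K lρ² = n₂ u`, `cyPat F x b ρ = n₃ u`, `cyChA F x b y = n₄ u`, `cyChS F x b y = n₅ l u` (unfold, `field_simp`, `ring`),
`n = ⌊v / w⌋` gives `|v - n w| ≤ w` (`Int.floor_le`, `Int.lt_floor_add_one`, `div_le_iff₀`). -/
theorem cy_ch_round (l ρ u fs : ℝ) (hl : 0 < l) (hρ : 0 < ρ) (hu : 0 < u) (Q : CyT) (c : ℤ × ℤ × ℤ) :
    CyChNear l ρ u (cyChx ρ c) (cyChb l ρ c) (cyChy l ρ c) (cyChFr l ρ u fs (c, cyChDat l ρ u Q c)) Q := by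
  have hρ2 : 0 < ρ ^ 2 := by positivity
  have hlρ2 : 0 < l * ρ ^ 2 := by positivity
  have hlu : 0 < l * u := by positivity
  have f1 := cy_ch_floor_abs (Q.be * ρ ^ 2) u hu
  have f2 := cy_ch_floor_abs (Q.K * (l * ρ ^ 2)) u hu
  have f3 := cy_ch_floor_abs (cyPat Q (cyChx ρ c) (cyChb l ρ c) * ρ) u hu
  have f4 := cy_ch_floor_abs (cyChA Q (cyChx ρ c) (cyChb l ρ c) (cyChy l ρ c)) u hu
  have f5 := cy_ch_floor_abs (cyChS Q (cyChx ρ c) (cyChb l ρ c) (cyChy l ρ c)) (l * u) hlu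
  unfold CyChNear cyChDat
  generalize ⌊Q.be * ρ ^ 2 / u⌋ = n1 at *
  generalize ⌊Q.K * (l * ρ ^ 2) / u⌋ = n2 at *
  generalize ⌊cyPat Q (cyChx ρ c) (cyChb l ρ c) * ρ / u⌋ = n3 at *
  generalize ⌊cyChA Q (cyChx ρ c) (cyChb l ρ c) (cyChy l ρ c) / u⌋ = n4 at *
  generalize ⌊cyChS Q (cyChx ρ c) (cyChb l ρ c) (cyChy l ρ c) / (l * u)⌋ = n5 at *
  have e1 : (Q.be - (cyChFr l ρ u fs (c, n1, n2, n3, n4, n5)).be) * ρ ^ 2 = Q.be * ρ ^ 2 - n1 * u := by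
    simp only [cyChFr, cyChFbe]
    field_simp
  have e2 : (Q.K - (cyChFr l ρ u fs (c, n1, n2, n3, n4, n5)).K) * (l * ρ ^ 2) = Q.K * (l * ρ ^ 2) - n2 * u := by
    simp only [cyChFr, cyChFK]
    field_simp
  have e3 : (cyPat Q (cyChx ρ c) (cyChb l ρ c) - cyPat (cyChFr l ρ u fs (c, n1, n2, n3, n4, n5)) (cyChx ρ c) (cyChb l ρ c)) * ρ
      = cyPat Q (cyChx ρ c) (cyChb l ρ c) * ρ - n3 * u := by
    generalize cyPat Q (cyChx ρ c) (cyChb l ρ c) = P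
    simp only [cyPat, cyChFr, cyChFal]
    field_simp
    ring
  have e4 : cyChA Q (cyChx ρ c) (cyChb l ρ c) (cyChy l ρ c) - cyChA (cyChFr l ρ u fs (c, n1, n2, n3, n4, n5)) (cyChx ρ c) (cyChb l ρ c) (cyChy l ρ c)
      = cyChA Q (cyChx ρ c) (cyChb l ρ c) (cyChy l ρ c) - n4 * u := by
    generalize cyChA Q (cyChx ρ c) (cyChb l ρ c) (cyChy l ρ c) = P
    simp only [cyChA, cyChFr]
    ring
  have e5 : cyChS Q (cyChx ρ c) (cyChb l ρ c) (cyChy l ρ c) - cyChS (cyChFr l ρ u fs (c, n1, n2, n3, n4, n5)) (cyChx ρ c) (cyChb l ρ c) (cyChy l ρ c)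
      = cyChS Q (cyChx ρ c) (cyChb l ρ c) (cyChy l ρ c) - n5 * (l * u) := by
    generalize cyChS Q (cyChx ρ c) (cyChb l ρ c) (cyChy l ρ c) = P
    simp only [cyChS, cyChFr]
    ring
  refine ⟨?_, ?_, ?_, ?_, ?_⟩
  · rw [← e1, abs_mul, abs_of_pos hρ2] at f1
    exact f1
  · rw [← e2, abs_mul, abs_of_pos hlρ2] at f2
    exact f2
  · rw [← e3, abs_mul, abs_of_pos hρ] at f3
    exact f3
  · rw [e4]
    exact f4
  · rw [e5]
    exact f5

end Claimed.Agent.R256
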