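-- KEEP
import Claimed.Agent.R256.Cyl.ChNear

/-!
# Row 256, CYL, post SG1 (chart system), file 4 : TWO TESTS THROUGH ONE POINT          (architect helper202; prefix `cy_ch_`)
-/

set_option autoImplicit false

namespace Claimed.Agent.R256

/-- **L-256-CYL-CH-CTR**.   The centre of a test of base width `2ρ` through a point of the cell.
PLAN: triangle inequality for the first two.   Third: with `ν_c = Y - y - 2x(B-b)`, `ν_Q = cyTilt Q z = Y - Q.y - 2 Q.x (B - Q.b)`: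
`Q.y - y - 2x(Q.b - b) = ν_c - ν_Q - 2 (Q.x - x)(B - Q.b)` (`ring`), `≤ lρ² + l(2ρ)² + 2·3ρ·2lρ = 17 lρ²`. -/
theorem cy_ch_ctr (l ρ x b y : ℝ) (hl : 0 < l) (hρ : 0 < ρ) (Q : CyT) (z : Cy5) (hr : Q.r = 2 * ρ) (hz : cyIn Q l z) (hc : CyChAt l ρ x b y z) :
    |Q.x - x| ≤ 3 * ρ ∧ |Q.b - b| ≤ l * (3 * ρ) ∧ |Q.y - y - 2 * x * (Q.b - b)| ≤ l * (17 * ρ ^ 2) := by
  obtain ⟨q1, q2, q3, -, -⟩ := hz
  obtain ⟨c1, c2, c3⟩ := hc
  rw [hr] at q1 q2 q3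
  have a1 : |Q.x - x| ≤ 3 * ρ := by
    have := abs_sub_le Q.x z.X x
    rw [abs_sub_comm Q.x z.X] at this
    linarith
  have a2 : |Q.b - b| ≤ l * (3 * ρ) := by
    have := abs_sub_le Q.b z.B b
    rw [abs_sub_comm Q.b z.B] at this
    linarith
  refine ⟨a1, a2, ?_⟩
  have e : Q.y - y - 2 * x * (Q.b - b) = (z.Y - y - 2 * x * (z.B - b)) - cyTilt Q z - 2 * ((Q.x - x) * (z.B - Q.b)) := by
    unfold cyTilt
    ring
  rw [e]
  have t : |(Q.x - x) * (z.B - Q.b)| ≤ 3 * ρ * (l * (2 * ρ)) := by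
    rw [abs_mul]
    exact mul_le_mul a1 q2 (abs_nonneg _) (by positivity)
  calc |(z.Y - y - 2 * x * (z.B - b)) - cyTilt Q z - 2 * ((Q.x - x) * (z.B - Q.b))|
      ≤ |z.Y - y - 2 * x * (z.B - b)| + |cyTilt Q z| + |2 * ((Q.x - x) * (z.B - Q.b))| := by
        refine (abs_sub _ _).trans ?_
        gcongr
        exact abs_sub _ _
    _ ≤ l * ρ ^ 2 + l * (2 * ρ) ^ 2 + 2 * (3 * ρ * (l * (2 * ρ))) := by
        rw [abs_mul, abs_two]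
        gcongr
    _ = l * (17 * ρ ^ 2) := by ring

/-- a product with a bounded factor -/
theorem cy_ch_amb_mul {a t c : ℝ} (h : |t| ≤ c) : |a * t| ≤ |a| * c := by
  rw [abs_mul]
  exact mul_le_mul_of_nonneg_left h (abs_nonneg a)

/-- **L-256-CYL-CH-AMB**.   Two tests of the widths `(2ρ, φ)` through one point `z` of the cell, `cyM ≤ M`: the five data at the centre of the cell differ by `≤ 7 M φ`.
PLAN (`Δ = Q' - Q`).   `cyM Q Q' l ≤ M` (unfold, `le_max_*`, `div_le_iff₀`):  `2ρ |ΔP₀| ≤ Mφ` (`ΔP₀` = difference of `cyPat` at `(Q.x, Q.b)`), `4ρ² |Δβ| ≤ Mφ`, `4lρ² |ΔK| ≤ Mφ`.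
`ΔP(x,b) = ΔP₀ + 2 Δβ (x - Q.x) - 2 ΔK (b - Q.b)`, `|x - Q.x| ≤ 3ρ`, `|b - Q.b| ≤ 3lρ` (`cy_ch_ctr`):  `|ΔP| ρ ≤ (1/2 + 3/2 + 3/2) Mφ`.
`|cyVel Q' z - cyVel Q z| ≤ 2φ`, `= |ΔA + ΔP ξ + Δβ ξ² + ΔK (ν - 2ξμ)|` (`cy_ch_vel_exp`):  `|ΔA| ≤ 2φ + (7/2 + 1/4 + 3/4) Mφ ≤ 13/2 Mφ`.
`|cyPos Q' z - cyPos Q z| ≤ 2lφ` (`cy_ch_pos_exp`):  `|ΔS| ≤ l (2φ + (7/2 + 1/4 + 1/4) Mφ) ≤ 6 l Mφ`. -/
theorem cy_ch_near_amb (l ρ φ M x b y : ℝ) (hl : 0 < l) (hρ : 0 < ρ) (hφ : 0 < φ) (hM : 1 ≤ M) (Q Q' : CyT) (z : Cy5)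
    (hr : Q.r = 2 * ρ) (hf : Q.f = φ) (hr' : Q'.r = 2 * ρ) (hf' : Q'.f = φ) (hz : cyIn Q l z) (hz' : cyIn Q' l z) (hc : CyChAt l ρ x b y z)
    (hQ : cyM Q Q' l ≤ M) : CyChNear l ρ (7 * (M * φ)) x b y Q Q' := by
  obtain ⟨c1, c2, -⟩ := cy_ch_ctr l ρ x b y hl hρ Q z hr hz hc
  obtain ⟨hξ, hμ, hν⟩ := hc
  have hMφ : 0 < M * φ := by positivity
  have hφM : φ ≤ M * φ := le_mul_of_one_le_left hφ.le hM
  -- the three bounds contained in `cyM`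
  unfold cyM at hQ
  rw [hr, hf] at hQ
  have m1 : 2 * ρ * |cyPat Q' Q.x Q.b - cyPat Q Q.x Q.b| ≤ M * φ :=
    (div_le_iff₀ hφ).1 (le_trans (le_trans (le_max_left _ _) (le_max_right _ _)) hQ)
  have m2 : (2 * ρ) ^ 2 * |Q'.be - Q.be| ≤ M * φ :=
    (div_le_iff₀ hφ).1 (le_trans (le_trans (le_trans (le_max_left _ _) (le_max_right _ _)) (le_max_right _ _)) hQ)
  have m3 : l * (2 * ρ) ^ 2 * |Q'.K - Q.K| ≤ M * φ :=
    (div_le_iff₀ hφ).1 (le_trans (le_trans (le_trans (le_max_right _ _) (le_max_right _ _)) (le_max_right _ _)) hQ)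
  set pP0 : ℝ := |cyPat Q' Q.x Q.b - cyPat Q Q.x Q.b| with hpP0
  set pβ : ℝ := |Q'.be - Q.be| with hpβ
  set pK : ℝ := |Q'.K - Q.K| with hpK
  have hpβ0 : 0 ≤ pβ := abs_nonneg _
  have hpK0 : 0 ≤ pK := abs_nonneg _
  have b2 : pβ * ρ ^ 2 ≤ M * φ / 4 := by
    have e : (2 * ρ) ^ 2 * pβ = 4 * (pβ * ρ ^ 2) := by ring
    linarith only [m2, e]
  have b3 : pK * (l * ρ ^ 2) ≤ M * φ / 4 := by
    have e : l * (2 * ρ) ^ 2 * pK = 4 * (pK * (l * ρ ^ 2)) := by ring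
    linarith only [m3, e]
  have b1 : pP0 * ρ ≤ M * φ / 2 := by
    have e : 2 * ρ * pP0 = 2 * (pP0 * ρ) := by ring
    linarith only [m1, e]
  -- the derivative at the centre of the cell
  have eP : cyPat Q' x b - cyPat Q x b = (cyPat Q' Q.x Q.b - cyPat Q Q.x Q.b) + 2 * ((Q'.be - Q.be) * (x - Q.x)) - 2 * ((Q'.K - Q.K) * (b - Q.b)) := by
    unfold cyPat
    ring
  have c1' : |x - Q.x| ≤ 3 * ρ := by rw [abs_sub_comm]; exact c1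
  have c2' : |b - Q.b| ≤ l * (3 * ρ) := by rw [abs_sub_comm]; exact c2
  have t1 := cy_ch_amb_mul (a := Q'.be - Q.be) c1'
  have t2 := cy_ch_amb_mul (a := Q'.K - Q.K) c2'
  have hP : |cyPat Q' x b - cyPat Q x b| * ρ ≤ 7 / 2 * (M * φ) := by
    have h1 : |cyPat Q' x b - cyPat Q x b| ≤ pP0 + 2 * (pβ * (3 * ρ)) + 2 * (pK * (l * (3 * ρ))) := by
      rw [eP]
      have a1 := abs_le.1 t1
      have a2 := abs_le.1 t2
      have a0 := abs_le.1 (le_refl pP0)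
      rw [abs_le]
      constructor <;> linarith only [a1.1, a1.2, a2.1, a2.2, a0.1, a0.2]
    calc |cyPat Q' x b - cyPat Q x b| * ρ ≤ (pP0 + 2 * (pβ * (3 * ρ)) + 2 * (pK * (l * (3 * ρ)))) * ρ := mul_le_mul_of_nonneg_right h1 hρ.le
      _ = pP0 * ρ + 6 * (pβ * ρ ^ 2) + 6 * (pK * (l * ρ ^ 2)) := by ring
      _ ≤ 7 / 2 * (M * φ) := by linarith only [b1, b2, b3]
  set pP : ℝ := |cyPat Q' x b - cyPat Q x b| with hpP
  have hpP0' : 0 ≤ pP := abs_nonneg _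
  -- the point in the coordinates of the cell
  set ξ : ℝ := z.X - x with hξd
  set μ : ℝ := z.B - b with hμd
  set ν : ℝ := z.Y - y - 2 * x * (z.B - b) with hνd
  have hξ2 : |ξ ^ 2| ≤ ρ ^ 2 := by
    rw [abs_pow]
    exact pow_le_pow_left₀ (abs_nonneg _) hξ 2
  have hμ2 : |μ ^ 2| ≤ l * (l * ρ ^ 2) := by
    rw [abs_pow]
    calc |μ| ^ 2 ≤ (l * ρ) ^ 2 := pow_le_pow_left₀ (abs_nonneg _) hμ 2
      _ = l * (l * ρ ^ 2) := by ring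
  have hξμ : |ξ * μ| ≤ l * ρ ^ 2 := by
    rw [abs_mul]
    calc |ξ| * |μ| ≤ ρ * (l * ρ) := mul_le_mul hξ hμ (abs_nonneg _) hρ.le
      _ = l * ρ ^ 2 := by ring
  have hνξμ : |ν - 2 * ξ * μ| ≤ 3 * (l * ρ ^ 2) := by
    have a1 := abs_le.1 hν
    have a2 := abs_le.1 hξμ
    have e : ν - 2 * ξ * μ = ν - 2 * (ξ * μ) := by ring
    rw [e, abs_le]
    constructor <;> linarith only [a1.1, a1.2, a2.1, a2.2]
  have v1 := abs_le.1 hz.2.2.2.1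
  have v2 := abs_le.1 hz'.2.2.2.1
  have w1 := abs_le.1 hz.2.2.2.2
  have w2 := abs_le.1 hz'.2.2.2.2
  rw [hf] at v1 w1
  rw [hf'] at v2 w2
  have eV := cy_ch_vel_exp Q x b y z
  have eV' := cy_ch_vel_exp Q' x b y z
  have eW := cy_ch_pos_exp Q x b y z
  have eW' := cy_ch_pos_exp Q' x b y z
  refine ⟨by linarith only [b2, hMφ], by linarith only [b3, hMφ], by linarith only [hP, hMφ], ?_, ?_⟩
  · have eA : cyChA Q' x b y - cyChA Q x b y = (cyVel Q z - cyVel Q' z) - (cyPat Q' x b - cyPat Q x b) * ξ - (Q'.be - Q.be) * ξ ^ 2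
        - (Q'.K - Q.K) * (ν - 2 * ξ * μ) := by
      rw [eV, eV']
      ring
    have s1 := abs_le.1 (cy_ch_amb_mul (a := cyPat Q' x b - cyPat Q x b) hξ)
    have s2 := abs_le.1 (cy_ch_amb_mul (a := Q'.be - Q.be) hξ2)
    have s3 := abs_le.1 (cy_ch_amb_mul (a := Q'.K - Q.K) hνξμ)
    rw [eA, abs_le]
    constructor <;> linarith only [s1.1, s1.2, s2.1, s2.2, s3.1, s3.2, v1.1, v1.2, v2.1, v2.2, hP, b2, b3, hφM]
  · have eS : cyChS Q' x b y - cyChS Q x b y = (cyPos Q z - cyPos Q' z) - (cyPat Q' x b - cyPat Q x b) * μ - (Q'.be - Q.be) * ν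
        + (Q'.K - Q.K) * μ ^ 2 := by
      rw [eW, eW']
      ring
    have s1 := abs_le.1 (cy_ch_amb_mul (a := cyPat Q' x b - cyPat Q x b) hμ)
    have s2 := abs_le.1 (cy_ch_amb_mul (a := Q'.be - Q.be) hν)
    have s3 := abs_le.1 (cy_ch_amb_mul (a := Q'.K - Q.K) hμ2)
    have k1 : pP * (l * ρ) ≤ l * (7 / 2 * (M * φ)) := by
      calc pP * (l * ρ) = l * (pP * ρ) := by ring
        _ ≤ l * (7 / 2 * (M * φ)) := mul_le_mul_of_nonneg_left hP hl.le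
    have k2 : pβ * (l * ρ ^ 2) ≤ l * (M * φ / 4) := by
      calc pβ * (l * ρ ^ 2) = l * (pβ * ρ ^ 2) := by ring
        _ ≤ l * (M * φ / 4) := mul_le_mul_of_nonneg_left b2 hl.le
    have k3 : pK * (l * (l * ρ ^ 2)) ≤ l * (M * φ / 4) := by
      calc pK * (l * (l * ρ ^ 2)) = l * (pK * (l * ρ ^ 2)) := by ring
        _ ≤ l * (M * φ / 4) := mul_le_mul_of_nonneg_left b3 hl.le
    have k4 : l * φ ≤ l * (M * φ) := mul_le_mul_of_nonneg_left hφM hl.le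
    rw [eS, abs_le]
    constructor <;> linarith only [s1.1, s1.2, s2.1, s2.2, s3.1, s3.2, w1.1, w1.2, w2.1, w2.2, k1, k2, k3, k4]

end Claimed.Agent.R256
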