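-- KEEP
import Claimed.Agent.R256.Gen.Contract
import Claimed.Agent.R256.Soft.Model
import Claimed.Agent.R256.Cyl.Alg

/-!
# Row 256 (LS paper), CYL = sec. 2A (02-cylinder.tex l.135-762) : DEFINITIONS OF THE CONTRACT (all units import THIS file; `Cyl/Contract.lean` = the exit theorems, imports the units)          (chief helper255; prefix `cy_`; reading reports 874, 883, 845)

## ENTRY
 (E-base) `Base/Sys`, `Base/Cyl` (helper207), `Gen/Hyp`, `Gen/Contract` (helper207/11): `Gen`, `Loc`, OPS, TRI/SPLIT, PEEL, PREFIX, TAIL, MIN (`p0`, `d0`), EXT, CNT, SS1-SS3.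
 (E-soft) `Soft/Model`, `Soft/Frame` (helper19): `SfCy`, `sfCl`, `sfHy`, `SfMD`, `SfMD.Ext`, `sfCn`, `sfFrameOf`, `SfFrame.tst`   (VOCABULARY only).
 (E-hyb)  R256/Hyb (helper82): the hybrid operator facts I1-I6  ⟹  `cyHypHy`, `cy_jit_hy`.
## THE BUNDLE `CyHyp Y`  (`Y : SfCy`)
 everything sec. 2A knows about a cylinder model: `Gen (1+η/2)`, a `Loc (1+η/2)` whose correspondence is (cyl:correspondence), cells = `cyIn`, weights = `cyWt`, `ok` = Planck floor, exact base rays, `af` = `adm` in an explicit frame.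
 ALL model-level units of this folder are proved ONCE for `Y` with `H : CyHyp Y` (+ `CyJit Y` for FCR).     No unit below INST ever unfolds `cylCl`, `cylHyb`.
## EXIT   (consumers: Soft 19 (M3 EX/DOC, M4 RES, M6 GE, M7 PL), Hz 82, Rt 216 (only `cy_I_cover`))
 `cyHypCl`, `cyHypHy`      the two instances            | `cy_extr : CyExtr Y`      homogeneous extremisers with COMMON WIDTHS (02 l.352-372)
 `CyHyp.poly : CyPoly Y`   a test that is heavy at a polynomial floor has polynomial parameters in the frame (Lemma cyl:polynomial-tests)      | `cy_frm : CyFrm Y`   polynomial change of the widths of the frame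
 `cy_matched : CyMatched Y`   Prop. cyl:matched-chain, transformation form D6 of report 874         | `cy_forward : CyForward Y`   forward (re-)preparation of the gates after `is`
 `cy_trrate : CyTrRate Y`  the rate for inputs that are regular only on a TRUNCATED family of tests in a chart frame ("full chart regularity", 02 l.672-722 = UPGRADE of report 883)
 `Cyl/Kit.lean`: generic complements of Gen (mask splitting, peel of a restricted measure on a family of tests, preserving ordinary split, transfer along stacks).      `Cyl/Alg.lean`: geometry.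
## UNITS (lines = estimate; BP = needs a sub-architect, L = leaf)
 ALG    `Cyl/Alg.lean`  7 leaves, open                                                                  3k
 INST-CL  BP  `cyHypCl`, `cy_jit_cl` (trivial operators; TailAdm, Floor, AdmScale, AdmRoot; VOL)           2.5k     `Cyl/InstCl.lean`
 INST-HY  BP  `cyHypHy`, `cy_jit_hy` with helper82 (R256/Hyb)                                             4k
 KIT    BP  `Cyl/Kit.lean`                                                                              2.5k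
 FRM    L   `cy_frm` (inspection of `CySet`)                                                              0.4k      (POLY = field of the bundle: volume bound + SUB + tails, 1.2k per instance)
 EXTR   L   `cy_extr` (`gn_ext` + dyadic rounding of the widths `cy_enl` + pigeonhole on `O(n²)` classes by POLY)      0.6k
 FCR    BP  `cy_trrate` from `CyJit` (jitter, density, volume, sublevel, pull-back of tests)              2.5k     `Cyl/Fcr.lean`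
 STEP   BP  `cy_step` = one backward step (S0 split, S1 light labels, S2 ambiguity, S3 charts, S4 truncated peel, S5 chart upper bound, S6 conclusion)      6k     `Cyl/Step*.lean`
 FWD    BP  `cy_forward` (KIT `cy_osplit` + SS2 + Rep + SS3; end point `i = 1`)                            1.2k     `Cyl/Fwd.lean`
 TOP    L   `cy_matched` from `cy_step`, `cy_forward`, CNT, SS1, `H.poly`, `cy_frm` (induction on the mesh)      0.7k
 Serial depth: ALG, KIT, INST, FCR in parallel → STEP, FWD → TOP.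
-/

set_option autoImplicit false

namespace Claimed.Agent.R256

open MeasureTheory

/-! ## vocabulary -/

/-- `E'` carries a sub-family of the labels of `E`, with RESTRICTED weights (a deleted label may survive with the weight `0`) -/
def CySubLab {P : PkSys} (E E' : Xp P) : Prop :=
  ∃ φ : Fin E'.L → Fin E.L, Function.Injective φ ∧ ∀ l, E'.iv l = E.iv (φ l) ∧ E'.ts l = E.ts (φ l) ∧ ∀ x, E'.th l x = E.th (φ l) x ∨ E'.th l x = 0

/-- the five coordinates as a vector -/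
def cyVec (z : Cy5) : ℝ × ℝ × ℝ × ℝ × ℝ := (z.X, z.B, z.Y, z.N, z.D)

/-- the Heisenberg action on the base coordinates, `N`, `D` unchanged -/
def cyJitB (a z : Cy5) : Cy5 := ⟨z.X + a.X, z.B + a.B, z.Y + a.Y + 2 * a.X * z.B, z.N, z.D⟩

/-- **the jitter relative to the shear of `Qs`** (exact symmetry, Lemma cyl:localization: boost, base translations, normal translations AFTER subtraction of the common shear).   Characterisation: base part = `cyJitB`,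
`cyVel Qs z' = cyVel Qs z + a.N`, `cyPos Qs z' = cyPos Qs z + a.D`.      `cyFlow t (cyJit Qs a z) = cyJit (cyExt Qs t) (cyFlow t a) (cyFlow t z)`. -/
def cyJit (Qs : CyT) (a z : Cy5) : Cy5 :=
  ⟨z.X + a.X, z.B + a.B, z.Y + a.Y + 2 * a.X * z.B, z.N + a.N + (cyVel Qs z - cyVel Qs (cyJitB a z)), z.D + a.D + (cyPos Qs z - cyPos Qs (cyJitB a z))⟩

/-- the jitter of normalised size `ζ` in the frame `Qs` (length `l`) with the parameter `θ`:  in the normalised coordinates `u = (cyBase Qs l z, cyNor Qs l z)` it is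
`u ↦ (u₁ + ζθ₁, u₂ + ζθ₂, u₃ + ζθ₃ + 2ζθ₁u₂, u₄ + ζθ₄, u₅ + ζθ₅)` -/
def cyJitPar (Qs : CyT) (l ζ : ℝ) (θ : ℝ × ℝ × ℝ × ℝ × ℝ) : Cy5 :=
  ⟨Qs.r * (ζ * θ.1), l * Qs.r * (ζ * θ.2.1),
    l * Qs.r ^ 2 * (ζ * θ.2.2.1) + 2 * Qs.x * (l * Qs.r * (ζ * θ.2.1)) - 2 * (Qs.r * (ζ * θ.1)) * Qs.b,
    Qs.f * (ζ * θ.2.2.2.1), l * Qs.f * (ζ * θ.2.2.2.2)⟩

/-- the unit cube of jitter parameters -/
def cyCube : Set (ℝ × ℝ × ℝ × ℝ × ℝ) := Set.Icc 0 1 ×ˢ Set.Icc 0 1 ×ˢ Set.Icc 0 1 ×ˢ Set.Icc 0 1 ×ˢ Set.Icc 0 1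

/-- the parameters of the test `Q`, used at the time `T`, in the frame `Qs` of the cut `(T0, k0)` -/
noncomputable def cyNrm (T0 : ℝ) (k0 : ℕ) (Qs : CyT) (T : ℝ) (Q : CyT) : SfTest :=
  (sfFrameOf T0 ((2 : ℝ)⁻¹ ^ k0) Qs).tst (sfTestAt T Q)

/-- the truncated family of a chart frame `Qs` (02 l.679-682): normalised widths in `[ρ,1]`, normalised shear coefficients `≤ 1/ρ`, ALL centres (base and normal) unrestricted -/
def CyTr (T0 : ℝ) (k0 : ℕ) (Qs : CyT) (ρ : ℝ) (Q : CyT) : Prop :=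
  ρ ≤ (cyNrm T0 k0 Qs T0 Q).r ∧ (cyNrm T0 k0 Qs T0 Q).r ≤ 1 ∧ ρ ≤ (cyNrm T0 k0 Qs T0 Q).f ∧ (cyNrm T0 k0 Qs T0 Q).f ≤ 1 ∧
    |(cyNrm T0 k0 Qs T0 Q).al| ≤ ρ⁻¹ ∧ |(cyNrm T0 k0 Qs T0 Q).be| ≤ ρ⁻¹ ∧ |(cyNrm T0 k0 Qs T0 Q).K| ≤ ρ⁻¹

/-- all parameters and widths are `≤ 1/ρ`, widths `≥ ρ` -/
def CyBdd (ρ : ℝ) (Q : SfTest) : Prop := Q.size ≤ ρ⁻¹ ∧ ρ ≤ Q.r ∧ Q.r ≤ ρ⁻¹ ∧ ρ ≤ Q.f ∧ Q.f ≤ ρ⁻¹

/-- **(i), (iv) of Prop. cyl:matched-chain**: the part of `SfMD.Ext` that speaks only about the FIXED row sets and tests of the gates -/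
structure SfMD.Pre (Y : SfCy) (p : Y.M.Par) (W : SfMD (Y.M.sys p)) (pe de Ls ε a : ℝ) : Prop where
  str : W.Str (Y.tq p)
  depth : ∀ i ∈ W.G, |((W.k i : ℝ) - W.E.k0) - i * W.E.n| ≤ a * W.E.n
  cnt : ∀ i ∈ W.G, ∑ l, (Y.M.sys p).wt (W.ts i l) ≤ W.E.s ^ (-a) * (W.E.e / W.E.ka) * W.E.s ^ (-((pe + de) * i))
  wr : ∀ i j, sfNext W.G i j → W.E.s ^ (Ls * (j - i) + a) ≤ W.r i / W.r j ∧ W.r i / W.r j ≤ 1 ∧
    W.E.s ^ (Ls * (j - i) + a) ≤ W.f i / W.f j ∧ W.f i / W.f j ≤ W.E.s ^ (-(Ls * (j - i) + a))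
  mm : ∀ i j, sfNext W.G i j → ∀ (l : W.Lb i) (l' : W.Lb j) (x x' : (Y.M.sys p).X), W.th i l x ≠ 0 → W.th j l' x' ≠ 0 →
    sfCn Y p (W.E.s ^ (-ε)) (W.T i l) (W.k i) (W.T j l') (W.k j) x x' →
    |(sfTestAt (W.T i l) (Y.tq p (W.ts i l))).be - (sfTestAt (W.T j l') (Y.tq p (W.ts j l'))).beAt (W.T i l)|
        + (2 : ℝ)⁻¹ ^ W.k i * |(Y.tq p (W.ts i l)).K - (Y.tq p (W.ts j l')).K| ≤ W.f j / W.r j ^ 2 * W.E.s ^ (-(Ls * (j - i) + a)) ∧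
    |(sfTestAt (W.T i l) (Y.tq p (W.ts i l))).Pd (sfRayAt (W.T i l) (Y.co p (W.T i l) x))
        - (sfTestAt (W.T j l') (Y.tq p (W.ts j l'))).Pd (sfRayAt (W.T i l) (Y.co p (W.T i l) x))| ≤ W.f j / W.r j * W.E.s ^ (-(Ls * (j - i) + a))

/-- (ii) of Prop. cyl:matched-chain at the gate `i` -/
def SfMD.Prep (Y : SfCy) (p : Y.M.Par) (W : SfMD (Y.M.sys p)) (pe de a i : ℝ) : Prop :=
  ∑ m ∈ W.ivs i, ‖W.pre i m‖ ^ 2 ≤ W.E.s ^ (-a) * W.E.e * W.E.s ^ (-(de * i)) ∧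
  ∀ m ∈ W.ivs i, (Y.M.sys p).Reg (tmL (W.k i) m) (W.k i) (W.gb i) (W.E.s ^ (-a) * W.E.ka * W.E.s ^ (pe * i)) (W.pre i m)

/-- the mesh `G` has gaps `≥ h` and no point in `(0, h)` -/
def CyGap (G : Finset ℝ) (h : ℝ) : Prop := (∀ i ∈ G, ∀ j ∈ G, i < j → h ≤ j - i) ∧ ∀ i ∈ G, i = 0 ∨ h ≤ i

theorem cy_contract_eqns_cite : True := by
  have := @CySubLab.eq_1
  have := @cyVec.eq_1
  have := @cyJitB.eq_1
  have := @cyJit.eq_1
  have := @cyJitPar.eq_1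
  have := @cyCube.eq_1
  have := @cyNrm.eq_1
  have := @CyTr.eq_1
  have := @CyBdd.eq_1
  have := @SfMD.Prep.eq_1
  have := @CyGap.eq_1
  trivial

/-! ## POLY -/

/-- **POLY** (Lemma cyl:polynomial-tests): the hypotheses of `Mdl.Floor`; conclusion: ALL parameters of the heavy test are polynomial in the frame -/
def CyPoly (Y : SfCy) : Prop :=
  ∀ C D : ℕ, ∃ D' A n0 : ℕ, ∀ (p : Y.M.Par) (E : Xp (Y.M.sys p)) (Q0 : CyT), n0 ≤ E.n → Y.M.Cls C A p E → Y.af C A p E Q0 →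
    ∀ (k i b : ℕ) (st' : List (Stg (Y.M.sys p))) (Q : (Y.M.sys p).Tst), E.k0 ≤ k → k ≤ E.kf → ancI k E.k0 i = E.i0 → b ≤ C →
      StOk E.k0 k C C st' → (Y.M.sys p).ok Q k →
      E.s ^ (D : ℝ) * (E.ka * (Y.M.sys p).wt Q) < (Y.M.sys p).ms (tmL k i) k b ((Y.M.sys p).cell Q (tmL k i) k) (Xp.run k i st' E.v) →
      CyBdd (E.s ^ (D' : ℝ)) (cyNrm (tmL E.k0 E.i0) E.k0 Q0 (tmL k i) (Y.tq p Q))

theorem cy_poly_eqns_cite : True := by
  have := @CyPoly.eq_1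
  trivial

/-! ## the bundle -/

/-- **what sec. 2A knows about a cylinder model** -/
structure CyHyp (Y : SfCy) where
  eta : 0 < Y.η ∧ Y.η < 1
  gen : Y.M.Gen (1 + Y.η / 2)
  L : Y.M.Loc (1 + Y.η / 2)
  /-- every `CyT` is a test -/
  mkT : (p : Y.M.Par) → CyT → (Y.M.sys p).Tst
  tq_mk : ∀ p Q, Y.tq p (mkT p Q) = Q
  cell : ∀ p Q T k, (Y.M.sys p).cell Q T k = {x | cyIn (Y.tq p Q) ((2 : ℝ)⁻¹ ^ k) (Y.co p T x)}
  wt : ∀ p Q, (Y.M.sys p).wt Q = cyWt Y.η (Y.tq p Q)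
  ok : ∀ p Q k, (Y.M.sys p).ok Q k ↔ 0 < (Y.tq p Q).r ∧ 0 < (Y.tq p Q).f ∧ Y.dl p k ≤ (Y.tq p Q).f
  /-- `d_ℓ ≥ 0` increases, `q_ℓ = ℓ d_ℓ` decreases with the depth -/
  dl_nn : ∀ p k, 0 ≤ Y.dl p k
  dl_mono : ∀ p k k', k ≤ k' → Y.dl p k ≤ Y.dl p k'
  ql_mono : ∀ p k k', k ≤ k' → (2 : ℝ)⁻¹ ^ k' * Y.dl p k' ≤ (2 : ℝ)⁻¹ ^ k * Y.dl p k
  /-- the correspondence of `L` is (cyl:correspondence) -/
  cn : ∀ p Λ T k T' k' x x', L.cn p Λ T k T' k' x x' ↔ (Y.ix p x = Y.ix p x' ∧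
    |(Y.co p T' x').N - (Y.co p T x).N| ≤ Λ * Y.dl p k' ∧
    |(Y.co p T' x').D - (Y.co p T x).D - (T' - T) * (Y.co p T x).N| ≤ Λ * ((2 : ℝ)⁻¹ ^ k * Y.dl p k))
  /-- rows with the same exact index lie on the same base ray -/
  base : ∀ p T T' x x', Y.ix p x = Y.ix p x' → (Y.co p T' x').X = (Y.co p T x).X ∧
    (Y.co p T' x').B = (Y.co p T x).B + (T' - T) * (Y.co p T x).X ∧ (Y.co p T' x').Y = (Y.co p T x).Y + (T' - T) * (Y.co p T x).X ^ 2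
  co_meas : ∀ p, Y.M.gd p → ∀ T, Measurable fun x => cyVec (Y.co p T x)
  /-- `af` = `adm` in an explicit frame = `CySet` + the range of the Planck parameter -/
  af_iff : ∀ C A p E, Y.M.gd p → (Y.M.adm C A p E ↔ ∃ Q0, Y.af C A p E Q0)
  af_def : ∀ (C A : ℕ) p (E : Xp (Y.M.sys p)) Q0, Y.af C A p E Q0 ↔ (Y.M.gd p ∧ CySet (Y.M.sys p) (Y.co p) Y.η (Y.hyb = false) C A E Q0 ∧
    (Y.hyb = true → E.s ^ (C : ℝ) ≤ Y.H p * 2 ^ E.k0 / Q0.f ^ 2 ∧ Y.H p * 2 ^ E.k0 / Q0.f ^ 2 ≤ E.s ^ (-(C : ℝ))))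
  /-- `d_ℓ² = H/ℓ` -/
  dl_sq : ∀ p, Y.M.gd p → ∀ k, Y.dl p k ^ 2 = Y.H p * 2 ^ k
  /-- polynomial test reduction (instance level: exact base indices, fibrewise contraction, pointwise packet bound, propagation of the normal tails) -/
  poly : CyPoly Y
  /-- the state does not see the generation -/
  pl_univ : ∀ p, Y.M.gd p → ∀ b, (Y.M.sys p).Pl b = Set.univ
  /-- no Planck parameter in the classical model (FCR: the unit tests of a chart frame are admissible) -/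
  H_cl : Y.hyb = false → ∀ p, Y.H p = 0

/-- **jitter closure** (02 l.690-700; H5 of report 874).   For an experiment `E` over `p`, a frame `Qs` at the root cut and a normalised jitter size `ζ` there is a parameter `p'` (exact index `Om × cube`) and a copy `E'` of `E` over `p'`:
same tree, same energy, same masses on any prescribed tests `tsq l` containing all jittered copies of the old cells;  the root row measure of `E'` is the average of the jittered copies of the root row measure of `E`.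
`E'` is valid as soon as its root state is regular.      (classical: relabelling of the five coordinates on `Om × cube`;  hybrid: relabelling of `X, B, Y` + fibrewise Weyl shifts with measurable parameters.) -/
def CyJit (Y : SfCy) : Prop :=
  ∀ (p : Y.M.Par), Y.M.gd p → ∀ (E : Xp (Y.M.sys p)), E.Valid → ∀ (Qs : CyT) (ζ : ℝ), 0 < Qs.r → 0 < Qs.f → 0 < ζ →
    ∀ tsq : Fin E.L → CyT, (∀ l, 0 < (tsq l).r ∧ 0 < (tsq l).f ∧ Y.dl p E.kf ≤ (tsq l).f) →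
    (∀ l, ∀ θ ∈ cyCube, ∀ z, cyIn (Y.tq p (E.ts l)) ((2 : ℝ)⁻¹ ^ E.kf) z →
      cyIn (tsq l) ((2 : ℝ)⁻¹ ^ E.kf) (cyJit (cyExt Qs (tmL E.kf (E.iv l) - tmL E.k0 E.i0))
        (cyFlow (tmL E.kf (E.iv l) - tmL E.k0 E.i0) (cyJitPar Qs ((2 : ℝ)⁻¹ ^ E.k0) ζ θ)) z)) →
    ∃ (p' : Y.M.Par) (E' : Xp (Y.M.sys p')), Y.M.gd p' ∧ Y.H p' = Y.H p ∧ (∀ k, Y.dl p' k = Y.dl p k) ∧
      E'.k0 = E.k0 ∧ E'.i0 = E.i0 ∧ E'.n = E.n ∧ E'.e = E.e ∧ E'.b0 = E.b0 ∧ E'.bT = E.bT ∧ E'.st.length = E.st.length ∧ (∀ bm, E.GenLe bm → E'.GenLe bm) ∧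
      (∃ hL : E'.L = E.L, ∀ l : Fin E'.L, Y.tq p' (E'.ts l) = tsq (Fin.cast hL l) ∧ E'.m l = E.m (Fin.cast hL l)) ∧
      (∀ κ' : ℝ, 0 < κ' → (Y.M.sys p').Reg (tmL E'.k0 E'.i0) E'.k0 E'.b0 κ' E'.v → Xp.Valid { E' with ka := κ' }) ∧
      ∀ U : Set (ℝ × ℝ × ℝ × ℝ × ℝ), MeasurableSet U →
        (Y.M.sys p').ms (tmL E.k0 E.i0) E.k0 E.b0 {x | cyVec (Y.co p' (tmL E.k0 E.i0) x) ∈ U} E'.v
          = ∫ θ in cyCube, (Y.M.sys p).ms (tmL E.k0 E.i0) E.k0 E.b0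
              {x | cyVec (cyJit Qs (cyJitPar Qs ((2 : ℝ)⁻¹ ^ E.k0) ζ θ) (Y.co p (tmL E.k0 E.i0) x)) ∈ U} E.v

/-! ## the exits as `Prop`s -/

/-- **EXTR**: homogeneous extremisers with common widths (02 l.352-372) -/
def CyExtr (Y : SfCy) : Prop :=
  ∀ ξ τ : ℝ, 0 < ξ → 0 < τ → ∃ C : ℕ, ∀ A n0 : ℕ, ∃ (p : Y.M.Par) (E : Xp (Y.M.sys p)) (r1 f1 : ℝ), n0 ≤ E.n ∧ Y.M.Cls C A p E ∧
    E.Hom (Y.M.p0 - ξ) (Y.M.p0 + ξ) ∧ 2 ^ ((Y.M.Gam - τ) * E.n) ≤ E.val ∧ ∀ l, (Y.tq p (E.ts l)).r = r1 ∧ (Y.tq p (E.ts l)).f = f1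

/-- **FRM**: polynomial change of the widths of the frame -/
def CyFrm (Y : SfCy) : Prop :=
  ∀ C D : ℕ, ∃ C' : ℕ, ∀ (A : ℕ) (p : Y.M.Par) (E : Xp (Y.M.sys p)) (Q0 : CyT) (r f : ℝ), Y.af C A p E Q0 →
    E.s ^ (D : ℝ) * Q0.r ≤ r → r ≤ E.s ^ (-(D : ℝ)) * Q0.r → E.s ^ (D : ℝ) * Q0.f ≤ f → f ≤ E.s ^ (-(D : ℝ)) * Q0.f →
    Y.af C' A p E { Q0 with r := r, f := f }

/-- **FCR = TRUNCATED RATE** ("full chart regularity", 02 l.672-722).   `E` = a chart piece: root `(k0,i0)`, relative scale `δ = E.s`; `Qs` = the chart frame.   The root state is `b`-regular only on the truncated family `CyTr .. (δ^D1)`; its base support lies in the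
unit box of the frame, its normal support in the box of size `δ^-ε1` up to `δ^A e`; the labels have parameters `≤ δ^-Ds` in the frame.   Then the readout obeys the rate with the regularity `b`.
`D1` DEPENDS ONLY ON `Ds` (and `η`): this is what makes `L_*` independent of the mesh and of the accuracy (trap T1 of report 874). -/
def CyTrRate (Y : SfCy) : Prop :=
  ∀ Ds : ℝ, 0 < Ds → ∃ D1 : ℝ, 0 < D1 ∧ ∀ (C : ℕ) (ε : ℝ), 0 < ε → ∃ (ε1 : ℝ) (A n0 : ℕ), 0 < ε1 ∧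
    ∀ (p : Y.M.Par) (E : Xp (Y.M.sys p)) (Qs : CyT) (b : ℝ), Y.M.gd p → n0 ≤ E.n → E.Valid → E.st.length ≤ C → E.GenLe C →
      0 < Qs.r → 0 < Qs.f → 0 < b →
      E.s ^ (C : ℝ) * (b * cyWt Y.η Qs) ≤ E.e → E.e ≤ E.s ^ (-(C : ℝ)) * (b * cyWt Y.η Qs) →
      (Y.hyb = true → E.s ^ (C : ℝ) ≤ Y.H p * 2 ^ E.k0 / Qs.f ^ 2 ∧ Y.H p * 2 ^ E.k0 / Qs.f ^ 2 ≤ 1) →
      (Y.M.sys p).ms (tmL E.k0 E.i0) E.k0 E.b0 {x | 1 < cyBaseSz Qs ((2 : ℝ)⁻¹ ^ E.k0) (Y.co p (tmL E.k0 E.i0) x)} E.v = 0 →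
      (Y.M.sys p).ms (tmL E.k0 E.i0) E.k0 E.b0 {x | E.s ^ (-ε1) < cyNorSz Qs ((2 : ℝ)⁻¹ ^ E.k0) (Y.co p (tmL E.k0 E.i0) x)} E.v ≤ E.s ^ (A : ℝ) * E.e →
      (∀ Q, (Y.M.sys p).ok Q E.k0 → CyTr (tmL E.k0 E.i0) E.k0 Qs (E.s ^ D1) (Y.tq p Q) →
        (Y.M.sys p).ms (tmL E.k0 E.i0) E.k0 E.b0 ((Y.M.sys p).cell Q (tmL E.k0 E.i0) E.k0) E.v ≤ b * (Y.M.sys p).wt Q) →
      (∀ l, CyBdd (E.s ^ Ds) (cyNrm (tmL E.k0 E.i0) E.k0 Qs (tmL E.kf (E.iv l)) (Y.tq p (E.ts l)))) →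
      E.rd ≤ 2 ^ (-((1 / 2 - Y.M.Gam - ε) * E.n)) * E.e * Real.sqrt b

/-- the old gates keep their depths; their labels are a sub-family of the old labels      (helper129, for `SfDocMat` of helper39) -/
def CyKeep {P : PkSys} (W W' : SfMD P) : Prop :=
  ∀ g ∈ W.G, W'.k g = W.k g ∧ ∀ l' : W'.Lb g, ∃ l : W.Lb g, W'.iv g l' = W.iv g l ∧ W'.ts g l' = W.ts g l

/-- the labels of the gate `i` are heavy at the floor `s^D κ` on the state entering the gate (so that POLY applies to them) -/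
def CyHv {P : PkSys} (W : SfMD P) (i : ℝ) (D : ℕ) : Prop :=
  ∀ l : W.Lb i, W.E.s ^ (D : ℝ) * (W.E.ka * P.wt (W.ts i l)) < P.ms (W.T i l) (W.k i) (W.gb i) (P.cell (W.ts i l) (W.T i l) (W.k i)) (W.pre i (W.iv i l))

theorem cy_keep_eqns_cite : True := by
  have := @CyKeep.eq_1
  have := @CyHv.eq_1
  trivial

theorem cy_keep_refl {P : PkSys} (W : SfMD P) : CyKeep W W := fun _ _ => ⟨rfl, fun l => ⟨l, rfl, rfl⟩⟩

theorem cy_keep_trans {P : PkSys} {W W1 W2 : SfMD P} (h1 : CyKeep W W1) (hG : W.G ⊆ W1.G) (h2 : CyKeep W1 W2) : CyKeep W W2 := by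
  intro g hg
  obtain ⟨a1, a2⟩ := h1 g hg
  obtain ⟨b1, b2⟩ := h2 g (hG hg)
  refine ⟨b1.trans a1, fun l'' => ?_⟩
  obtain ⟨l', c1, c2⟩ := b2 l''
  obtain ⟨l, d1, d2⟩ := a2 l'
  exact ⟨l, c1.trans d1, c2.trans d2⟩

/-- **STEP**: one backward step of the construction of the matched chain (02 l.612-745): a new gate at `i` below the first gate `j`.   `Ls` = `L_*(η)`. -/
def CyStep (Y : SfCy) (Ls : ℝ) : Prop :=
  ∀ h : ℝ, 0 < h → ∃ ε0 : ℝ, 0 < ε0 ∧ ∀ a' : ℝ, 0 < a' → ∃ a τ : ℝ, 0 < a ∧ 0 < τ ∧ ∀ C : ℕ, ∃ C' : ℕ, ∀ A' : ℕ, ∃ A n0 : ℕ,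
    ∀ (p : Y.M.Par) (W : SfMD (Y.M.sys p)) (i j ε : ℝ), n0 ≤ W.E.n → Y.M.Cls C A p W.E → W.G.card ≤ C → 0 < ε → ε ≤ ε0 →
      0 ≤ i → i < j → j ∈ W.G → (∀ k ∈ W.G, j ≤ k) → CyGap (insert i W.G) h →
      W.Pre Y p Y.M.p0 Y.M.d0 Ls ε a → 2 ^ ((Y.M.Gam - τ) * W.E.n) ≤ W.E.val →
      ∃ W' : SfMD (Y.M.sys p), W'.G = insert i W.G ∧ W'.Q0 = W.Q0 ∧ Y.M.Cls C' A' p W'.E ∧ Mdl.SameRoot W.E W'.E ∧ W'.E.n = W.E.n ∧
        CySubLab W.E W'.E ∧ W.E.s ^ a' * W.E.val ≤ W'.E.val ∧ W'.Pre Y p Y.M.p0 Y.M.d0 Ls ε a' ∧ CyKeep W W' ∧ CyHv W' i C'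

/-- **FWD**: forward (re-)preparation (02 l.747-760, (ii)+(iii)): ordinary regularisations are inserted immediately before the gates `> is`, in forward order; gates, labels, row sets are untouched; nothing changes up to the gate `is` -/
def CyForward (Y : SfCy) : Prop :=
  ∀ h a : ℝ, 0 < h → 0 < a → ∃ a1 τ : ℝ, 0 < a1 ∧ 0 < τ ∧ ∀ C : ℕ, ∃ C' : ℕ, ∀ A' : ℕ, ∃ A n0 : ℕ,
    ∀ (p : Y.M.Par) (W : SfMD (Y.M.sys p)) (Ls ε is : ℝ), n0 ≤ W.E.n → Y.M.Cls C A p W.E → W.G.card ≤ C → CyGap W.G h →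
      W.Pre Y p Y.M.p0 Y.M.d0 Ls ε a1 → 2 ^ ((Y.M.Gam - τ) * W.E.n) ≤ W.E.val →
      (∀ i ∈ W.G, i ≤ is → W.Prep Y p Y.M.p0 Y.M.d0 a1 i) →
      ∃ (st' : List (Stg (Y.M.sys p))) (pos' : ℝ → ℕ), W.E.st.Sublist st' ∧
        (∀ i ∈ W.G, i ≤ is → pos' i = W.pos i ∧ st'.take (W.pos i + 1) = W.E.st.take (W.pos i + 1)) ∧
        Y.M.Cls C' A' p (W.E.withSt st') ∧ W.E.s ^ a * W.E.val ≤ (W.E.withSt st').val ∧
        SfMD.Ext Y p { W with E := W.E.withSt st', pos := pos' } Y.M.p0 Y.M.d0 Ls ε a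

/-- **Prop. cyl:matched-chain**, transformation form (D6 of report 874).   `Ls` depends only on the model;  `ε0` only on the mesh;  `τ` is package free. -/
def CyMatched (Y : SfCy) : Prop :=
  ∃ Ls : ℝ, 0 < Ls ∧ ∀ F : Finset ℝ, (∀ i ∈ F, 0 ≤ i ∧ i ≤ 1) → ∃ ε0 : ℝ, 0 < ε0 ∧ ∀ a : ℝ, 0 < a → ∃ τ : ℝ, 0 < τ ∧
    ∀ C : ℕ, ∃ C' : ℕ, ∀ A' : ℕ, ∃ A n0 : ℕ, ∀ (p : Y.M.Par) (E : Xp (Y.M.sys p)) (r1 f1 : ℝ), n0 ≤ E.n → Y.M.Cls C A p E →
      (∀ l, (Y.tq p (E.ts l)).r = r1 ∧ (Y.tq p (E.ts l)).f = f1) →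
      E.tw ≤ E.e / E.ka * E.s ^ (-(Y.M.p0 + Y.M.d0) - τ) → 2 ^ ((Y.M.Gam - τ) * E.n) ≤ E.val →
      ∃ W : SfMD (Y.M.sys p), W.G = insert 1 F ∧ Y.M.Cls C' A' p W.E ∧ Y.af C' A' p W.E W.Q0 ∧ Mdl.SameRoot E W.E ∧ W.E.n = E.n ∧
        CySubLab E W.E ∧ E.s ^ a * E.val ≤ W.E.val ∧ W.Ext Y p Y.M.p0 Y.M.d0 Ls ε0 a

theorem cy_exit_eqns_cite : True := by
  have := @CyJit.eq_1
  have := @CyExtr.eq_1
  have := @CyFrm.eq_1
  have := @CyTrRate.eq_1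
  have := @CyStep.eq_1
  have := @CyForward.eq_1
  have := @CyMatched.eq_1
  trivial

/-- **FWD with hidden gates** (request of helper19, 22:00Z): only the gates of `V ⊆ W.G` are prepared; the other gates are ordinary stages.   No `wr`, `mm`.   `CyForward` = the case `V = W.G`. -/
def CyForwardV (Y : SfCy) : Prop :=
  ∀ h a : ℝ, 0 < h → 0 < a → ∃ a1 τ : ℝ, 0 < a1 ∧ 0 < τ ∧ ∀ C : ℕ, ∃ C' : ℕ, ∀ A' : ℕ, ∃ A n0 : ℕ,
    ∀ (p : Y.M.Par) (W : SfMD (Y.M.sys p)) (V : Finset ℝ) (is : ℝ), n0 ≤ W.E.n → Y.M.Cls C A p W.E → W.G.card ≤ C → (1 : ℝ) ∈ V → V ⊆ W.G → CyGap V h →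
      W.Str (Y.tq p) → (∀ i ∈ V, |((W.k i : ℝ) - W.E.k0) - i * W.E.n| ≤ a1 * W.E.n) →
      (∀ i ∈ V, ∑ l, (Y.M.sys p).wt (W.ts i l) ≤ W.E.s ^ (-a1) * (W.E.e / W.E.ka) * W.E.s ^ (-((Y.M.p0 + Y.M.d0) * i))) →
      2 ^ ((Y.M.Gam - τ) * W.E.n) ≤ W.E.val → (∀ i ∈ V, i ≤ is → W.Prep Y p Y.M.p0 Y.M.d0 a1 i) →
      ∃ (st' : List (Stg (Y.M.sys p))) (pos' : ℝ → ℕ), W.E.st.Sublist st' ∧
        (∀ i ∈ W.G, i ≤ is → pos' i = W.pos i ∧ st'.take (W.pos i + 1) = W.E.st.take (W.pos i + 1)) ∧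
        Y.M.Cls C' A' p (W.E.withSt st') ∧ W.E.s ^ a * W.E.val ≤ (W.E.withSt st').val ∧
        SfMD.Str { W with E := W.E.withSt st', pos := pos' } (Y.tq p) ∧
        ∀ i ∈ V, SfMD.Prep Y p { W with E := W.E.withSt st', pos := pos' } Y.M.p0 Y.M.d0 a i ∧
          W.E.s ^ a * W.E.e * W.E.s ^ (-(Y.M.d0 * i)) ≤ SfMD.tot { W with E := W.E.withSt st', pos := pos' } i

theorem cy_exitV_eqns_cite : True := by
  have := @CyForwardV.eq_1
  trivial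

theorem cy_ext_of {Y : SfCy} {p : Y.M.Par} {W : SfMD (Y.M.sys p)} {pe de Ls ε a : ℝ} (h : W.Pre Y p pe de Ls ε a)
    (h2 : ∀ i ∈ W.G, W.Prep Y p pe de a i) (h3 : ∀ i ∈ W.G, W.E.s ^ a * W.E.e * W.E.s ^ (-(de * i)) ≤ W.tot i) : W.Ext Y p pe de Ls ε a :=
  ⟨h.str, h.depth, h.cnt, fun i hi => (h2 i hi).1, fun i hi => (h2 i hi).2, h3, h.wr, h.mm⟩

theorem cy_pre_of {Y : SfCy} {p : Y.M.Par} {W : SfMD (Y.M.sys p)} {pe de Ls ε a : ℝ} (h : W.Ext Y p pe de Ls ε a) : W.Pre Y p pe de Ls ε a :=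
  ⟨h.str, h.depth, h.cnt, h.wr, h.mm⟩

end Claimed.Agent.R256
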