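-- KEEP
import Claimed.Agent.R256.Cyl.Defs

/-!
# Row 256 (LS paper), CYL : FRM = polynomial change of the widths of the frame          (proved by helper152; moved verbatim from `Cyl/Contract.lean`)
-/

set_option autoImplicit false

namespace Claimed.Agent.R256

open MeasureTheory

theorem cy_frm_wt {η u r0 f0 r f : ℝ} (hη : 0 < η ∧ η < 1) (hu : 0 < u) (hr0 : 0 < r0) (hf0 : 0 < f0) (hr : 0 < r) (hf : 0 < f)
    (h1 : r ≤ u * r0) (h3 : f ≤ u * f0) : r ^ (3 + η) * f ^ (1 - η) ≤ u ^ 4 * (r0 ^ (3 + η) * f0 ^ (1 - η)) := by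
  have e1 : r ^ (3 + η) ≤ (u * r0) ^ (3 + η) := Real.rpow_le_rpow hr.le h1 (by linarith [hη.1])
  have e2 : f ^ (1 - η) ≤ (u * f0) ^ (1 - η) := Real.rpow_le_rpow hf.le h3 (by linarith [hη.2])
  rw [Real.mul_rpow hu.le hr0.le] at e1
  rw [Real.mul_rpow hu.le hf0.le] at e2
  have e3 : u ^ (3 + η) * u ^ (1 - η) = u ^ 4 := by
    rw [← Real.rpow_add hu, ← Real.rpow_natCast]
    congr 1
    push_cast
    ring
  calc r ^ (3 + η) * f ^ (1 - η) ≤ (u ^ (3 + η) * r0 ^ (3 + η)) * (u ^ (1 - η) * f0 ^ (1 - η)) :=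
        mul_le_mul e1 e2 (by positivity) (by positivity)
    _ = (u ^ (3 + η) * u ^ (1 - η)) * (r0 ^ (3 + η) * f0 ^ (1 - η)) := by ring
    _ = _ := by rw [e3]

theorem cy_frm_map1 {c : ℝ} (hc : 0 < c) :
    Measure.map (fun x : ℝ => c * x) volume = ENNReal.ofReal c⁻¹ • (volume : Measure ℝ) := by
  rw [Real.map_volume_mul_left hc.ne', abs_of_pos (inv_pos.mpr hc)]

theorem cy_frm_mapP {α β : Type} [MeasurableSpace α] [MeasurableSpace β] {μ : Measure α} {ν : Measure β} [SFinite μ] [SFinite ν]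
    {f : α → α} {g : β → β} (hf : Measurable f) (hg : Measurable g) {a b : ENNReal} (h1 : Measure.map f μ = a • μ)
    (h2 : Measure.map g ν = b • ν) : Measure.map (Prod.map f g) (μ.prod ν) = (a * b) • μ.prod ν := by
  rw [← Measure.map_prod_map μ ν hf hg, h1, h2, Measure.prod_smul_left, Measure.prod_smul_right, smul_smul]

theorem cy_frm_map3 {c1 c2 c3 : ℝ} (h1 : 0 < c1) (h2 : 0 < c2) (h3 : 0 < c3) :
    Measure.map (Prod.map (fun x : ℝ => c1 * x) (Prod.map (fun x : ℝ => c2 * x) (fun x : ℝ => c3 * x))) (volume : Measure (ℝ × ℝ × ℝ))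
      = (ENNReal.ofReal c1⁻¹ * (ENNReal.ofReal c2⁻¹ * ENNReal.ofReal c3⁻¹)) • (volume : Measure (ℝ × ℝ × ℝ)) := by
  rw [Measure.volume_eq_prod, Measure.volume_eq_prod]
  exact cy_frm_mapP (measurable_const_mul _) ((measurable_const_mul _).prodMap (measurable_const_mul _)) (cy_frm_map1 h1)
    (cy_frm_mapP (measurable_const_mul _) (measurable_const_mul _) (cy_frm_map1 h2) (cy_frm_map1 h3))

theorem cy_frm_map2 {c1 c2 : ℝ} (h1 : 0 < c1) (h2 : 0 < c2) :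
    Measure.map (Prod.map (fun x : ℝ => c1 * x) (fun x : ℝ => c2 * x)) (volume : Measure (ℝ × ℝ))
      = (ENNReal.ofReal c1⁻¹ * ENNReal.ofReal c2⁻¹) • (volume : Measure (ℝ × ℝ)) := by
  rw [Measure.volume_eq_prod]
  exact cy_frm_mapP (measurable_const_mul _) (measurable_const_mul _) (cy_frm_map1 h1) (cy_frm_map1 h2)

theorem cy_frm_map5 {c1 c2 c3 c4 c5 : ℝ} (h1 : 0 < c1) (h2 : 0 < c2) (h3 : 0 < c3) (h4 : 0 < c4) (h5 : 0 < c5) :
    Measure.map (Prod.map (Prod.map (fun x : ℝ => c1 * x) (Prod.map (fun x : ℝ => c2 * x) (fun x : ℝ => c3 * x)))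
        (Prod.map (fun x : ℝ => c4 * x) (fun x : ℝ => c5 * x))) (volume : Measure ((ℝ × ℝ × ℝ) × (ℝ × ℝ)))
      = ((ENNReal.ofReal c1⁻¹ * (ENNReal.ofReal c2⁻¹ * ENNReal.ofReal c3⁻¹)) * (ENNReal.ofReal c4⁻¹ * ENNReal.ofReal c5⁻¹)) •
        (volume : Measure ((ℝ × ℝ × ℝ) × (ℝ × ℝ))) := by
  rw [Measure.volume_eq_prod]
  exact cy_frm_mapP ((measurable_const_mul _).prodMap ((measurable_const_mul _).prodMap (measurable_const_mul _)))
    ((measurable_const_mul _).prodMap (measurable_const_mul _)) (cy_frm_map3 h1 h2 h3) (cy_frm_map2 h4 h5)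

theorem cy_frm_meas {α : Type} [MeasurableSpace α] {g : α → Cy5} (hm : Measurable fun x => cyVec (g x)) :
    Measurable (fun x => (g x).X) ∧ Measurable (fun x => (g x).B) ∧ Measurable (fun x => (g x).Y) ∧
      Measurable (fun x => (g x).N) ∧ Measurable (fun x => (g x).D) :=
  ⟨measurable_fst.comp hm, measurable_fst.comp (measurable_snd.comp hm), measurable_fst.comp (measurable_snd.comp (measurable_snd.comp hm)),
    measurable_fst.comp (measurable_snd.comp (measurable_snd.comp (measurable_snd.comp hm))),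
    measurable_snd.comp (measurable_snd.comp (measurable_snd.comp (measurable_snd.comp hm)))⟩

theorem cy_frm_meas_base {α : Type} [MeasurableSpace α] {g : α → Cy5} (hm : Measurable fun x => cyVec (g x)) (Q : CyT) (l : ℝ) :
    Measurable fun x => cyBaseSz Q l (g x) := by
  obtain ⟨hX, hB, hY, hN, hD⟩ := cy_frm_meas hm
  unfold cyBaseSz cyBase cyTilt
  fun_prop

theorem cy_frm_meas_nor {α : Type} [MeasurableSpace α] {g : α → Cy5} (hm : Measurable fun x => cyVec (g x)) (Q : CyT) (l : ℝ) :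
    Measurable fun x => cyNorSz Q l (g x) := by
  obtain ⟨hX, hB, hY, hN, hD⟩ := cy_frm_meas hm
  unfold cyNorSz cyNor cyVel cyPos
  fun_prop

theorem cy_frm_div {a d d0 K : ℝ} (hd : 0 < d) (hd0 : 0 < d0) (h : d0 ≤ K * d) : |a / d| ≤ K * |a / d0| := by
  rw [abs_div, abs_div, abs_of_pos hd, abs_of_pos hd0, div_le_iff₀ hd]
  have e : K * (|a| / d0) * d = |a| * (K * d) / d0 := by ring
  rw [e, le_div_iff₀ hd0]
  exact mul_le_mul_of_nonneg_left h (abs_nonneg a)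

theorem cy_frm_base_le {Q0 : CyT} {r f v l : ℝ} (hl : 0 < l) (hv : 1 ≤ v) (hr0 : 0 < Q0.r) (hr : 0 < r) (h1 : Q0.r ≤ v * r) (z : Cy5) :
    cyBaseSz { Q0 with r := r, f := f } l z ≤ v ^ 2 * cyBaseSz Q0 l z := by
  have hv0 : 0 < v := by linarith
  have hvv : v ≤ v ^ 2 := by nlinarith
  have a1 : Q0.r ≤ v ^ 2 * r := h1.trans (mul_le_mul_of_nonneg_right hvv hr.le)
  have a2 : l * Q0.r ≤ v ^ 2 * (l * r) := by
    have := mul_le_mul_of_nonneg_left a1 hl.le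
    linarith
  have a3 : l * Q0.r ^ 2 ≤ v ^ 2 * (l * r ^ 2) := by
    have e : Q0.r ^ 2 ≤ (v * r) ^ 2 := pow_le_pow_left₀ hr0.le h1 2
    have := mul_le_mul_of_nonneg_left e hl.le
    nlinarith
  have hp : (0 : ℝ) ≤ v ^ 2 := by positivity
  unfold cyBaseSz cyBase
  refine max_le ?_ (max_le ?_ ?_)
  · exact (cy_frm_div hr hr0 a1).trans (mul_le_mul_of_nonneg_left (le_max_left _ _) hp)
  · exact (cy_frm_div (mul_pos hl hr) (mul_pos hl hr0) a2).trans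
      (mul_le_mul_of_nonneg_left ((le_max_left _ _).trans (le_max_right _ _)) hp)
  · exact (cy_frm_div (a := cyTilt Q0 z) (mul_pos hl (pow_pos hr 2)) (mul_pos hl (pow_pos hr0 2)) a3).trans
      (mul_le_mul_of_nonneg_left ((le_max_right _ _).trans (le_max_right _ _)) hp)

theorem cy_frm_nor_le {Q0 : CyT} {r f v l : ℝ} (hl : 0 < l) (hv : 1 ≤ v) (hf0 : 0 < Q0.f) (hf : 0 < f) (h1 : Q0.f ≤ v * f) (z : Cy5) :
    cyNorSz { Q0 with r := r, f := f } l z ≤ v * cyNorSz Q0 l z := by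
  have hv0 : 0 < v := by linarith
  have a2 : l * Q0.f ≤ v * (l * f) := by
    have := mul_le_mul_of_nonneg_left h1 hl.le
    linarith
  unfold cyNorSz cyNor
  refine max_le ?_ ?_
  · exact (cy_frm_div (a := cyVel Q0 z) hf hf0 h1).trans (mul_le_mul_of_nonneg_left (le_max_left _ _) hv0.le)
  · exact (cy_frm_div (a := cyPos Q0 z) (mul_pos hl hf) (mul_pos hl hf0) a2).trans (mul_le_mul_of_nonneg_left (le_max_right _ _) hv0.le)

theorem cy_frm_base_eq {Q0 : CyT} {r f l : ℝ} (hl : 0 < l) (hr0 : 0 < Q0.r) (hr : 0 < r) (z : Cy5) :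
    cyBase { Q0 with r := r, f := f } l z = Prod.map (fun x : ℝ => (r / Q0.r)⁻¹ * x)
      (Prod.map (fun x : ℝ => (r / Q0.r)⁻¹ * x) (fun x : ℝ => ((r / Q0.r) ^ 2)⁻¹ * x)) (cyBase Q0 l z) := by
  unfold cyBase
  simp only [Prod.map_apply]
  refine Prod.ext ?_ (Prod.ext ?_ ?_)
  · show (z.X - Q0.x) / r = _
    field_simp
  · show (z.B - Q0.b) / (l * r) = _
    field_simp
  · show cyTilt Q0 z / (l * r ^ 2) = _
    field_simp

theorem cy_frm_nor_eq {Q0 : CyT} {r f l : ℝ} (hl : 0 < l) (hf0 : 0 < Q0.f) (hf : 0 < f) (z : Cy5) :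
    cyNor { Q0 with r := r, f := f } l z = Prod.map (fun x : ℝ => (f / Q0.f)⁻¹ * x) (fun x : ℝ => (f / Q0.f)⁻¹ * x) (cyNor Q0 l z) := by
  unfold cyNor
  simp only [Prod.map_apply]
  refine Prod.ext ?_ ?_
  · show cyVel Q0 z / f = _
    field_simp
  · show cyPos Q0 z / (l * f) = _
    field_simp

theorem cy_frm_set {P : PkSys} {co : ℝ → P.X → Cy5} {η : ℝ} {jt : Prop} {C D A : ℕ} {E : Xp P} {Q0 : CyT} {r f : ℝ}
    (hη : 0 < η ∧ η < 1) (hm : Measurable fun x => cyVec (co (tmL E.k0 E.i0) x)) (h : CySet P co η jt C A E Q0)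
    (h1 : E.s ^ (D : ℝ) * Q0.r ≤ r) (h2 : r ≤ E.s ^ (-(D : ℝ)) * Q0.r) (h3 : E.s ^ (D : ℝ) * Q0.f ≤ f)
    (h4 : f ≤ E.s ^ (-(D : ℝ)) * Q0.f) : CySet P co η jt (C + 6 * D) A E { Q0 with r := r, f := f } := by
  have hs0 : 0 < E.s := by
    unfold Xp.s
    positivity
  have hs1 : E.s ≤ 1 := by
    unfold Xp.s
    exact pow_le_one₀ (by norm_num) (by norm_num)
  have hl : (0 : ℝ) < (2 : ℝ)⁻¹ ^ E.k0 := by positivity
  obtain ⟨v, hvdef⟩ : ∃ v, v = (E.s ^ D)⁻¹ := ⟨_, rfl⟩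
  obtain ⟨W, hWdef⟩ : ∃ W, W = (E.s ^ C)⁻¹ := ⟨_, rfl⟩
  have hv1 : 1 ≤ v := by
    rw [hvdef]
    exact (one_le_inv₀ (by positivity)).mpr (pow_le_one₀ hs0.le hs1)
  have hW1 : 1 ≤ W := by
    rw [hWdef]
    exact (one_le_inv₀ (by positivity)).mpr (pow_le_one₀ hs0.le hs1)
  have hv0 : 0 < v := by linarith
  have hW0 : 0 < W := by linarith
  have eD : E.s ^ (-(D : ℝ)) = v := by rw [Real.rpow_neg hs0.le, Real.rpow_natCast, hvdef]
  have eDi : E.s ^ (D : ℝ) = v⁻¹ := by rw [Real.rpow_natCast, hvdef, inv_inv]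
  have eC : E.s ^ (-(C : ℝ)) = W := by rw [Real.rpow_neg hs0.le, Real.rpow_natCast, hWdef]
  have eCi : E.s ^ (C : ℝ) = W⁻¹ := by rw [Real.rpow_natCast, hWdef, inv_inv]
  have eN : E.s ^ (C + 6 * D) = (W * v ^ 6)⁻¹ := by
    rw [hvdef, hWdef, pow_add, mul_comm 6 D, pow_mul, inv_pow, ← mul_inv, inv_inv]
  have eC' : E.s ^ (-((C + 6 * D : ℕ) : ℝ)) = W * v ^ 6 := by rw [Real.rpow_neg hs0.le, Real.rpow_natCast, eN, inv_inv]
  have eCi' : E.s ^ ((C + 6 * D : ℕ) : ℝ) = (W * v ^ 6)⁻¹ := by rw [Real.rpow_natCast, eN]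
  rw [eD] at h2 h4
  rw [eDi] at h1 h3
  have hr0 := h.r_pos
  have hf0 := h.f_pos
  have hr : 0 < r := lt_of_lt_of_le (by positivity) h1
  have hf : 0 < f := lt_of_lt_of_le (by positivity) h3
  have h1' : Q0.r ≤ v * r := by
    rw [inv_mul_le_iff₀ hv0] at h1
    exact h1
  have h3' : Q0.f ≤ v * f := by
    rw [inv_mul_le_iff₀ hv0] at h3
    exact h3
  have he : 0 ≤ E.e := by
    have t := (gn_ms_nonneg _ _ _ _ _).trans h.tail
    have : 0 < E.s ^ (A : ℝ) := Real.rpow_pos_of_pos hs0 _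
    exact nonneg_of_mul_nonneg_right t this
  have hw0 : 0 < cyWt η Q0 := by
    unfold cyWt
    positivity
  have hka : 0 ≤ E.ka := by
    have t := he.trans h.ek_hi
    rw [eC] at t
    have t2 := nonneg_of_mul_nonneg_right t hW0
    exact nonneg_of_mul_nonneg_left t2 hw0
  have hwa : cyWt η { Q0 with r := r, f := f } ≤ v ^ 4 * cyWt η Q0 := cy_frm_wt hη hv0 hr0 hf0 hr hf h2 h4
  have hwb : cyWt η Q0 ≤ v ^ 4 * cyWt η { Q0 with r := r, f := f } := cy_frm_wt hη hv0 hr hf hr0 hf0 h1' h3'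
  have hw1 : 0 < cyWt η { Q0 with r := r, f := f } := by
    show 0 < r ^ (3 + η) * f ^ (1 - η)
    positivity
  have hv46 : v ^ 4 ≤ v ^ 6 := pow_le_pow_right₀ hv1 (by norm_num)
  have hv26 : v ^ 2 ≤ v ^ 6 := pow_le_pow_right₀ hv1 (by norm_num)
  have hv16 : v ≤ v ^ 6 := by
    calc v = v ^ 1 := (pow_one v).symm
      _ ≤ v ^ 6 := pow_le_pow_right₀ hv1 (by norm_num)
  have ha0 : 0 < r / Q0.r := div_pos hr hr0
  have hc0 : 0 < f / Q0.f := div_pos hf hf0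
  have hav : r / Q0.r ≤ v := by
    rw [div_le_iff₀ hr0]
    exact h2
  have hcv : f / Q0.f ≤ v := by
    rw [div_le_iff₀ hf0]
    exact h4
  refine ⟨hr, hf, ?_, ?_, ?_, ?_, ?_, ?_⟩
  · rw [eCi']
    have t := h.ek_lo
    rw [eCi] at t
    refine le_trans ?_ t
    rw [mul_inv, mul_assoc]
    refine mul_le_mul_of_nonneg_left ?_ (by positivity)
    rw [inv_mul_le_iff₀ (by positivity)]
    have : E.ka * cyWt η { Q0 with r := r, f := f } ≤ E.ka * (v ^ 6 * cyWt η Q0) :=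
      mul_le_mul_of_nonneg_left (hwa.trans (mul_le_mul_of_nonneg_right hv46 hw0.le)) hka
    linarith
  · rw [eC']
    have t := h.ek_hi
    rw [eC] at t
    refine t.trans ?_
    rw [mul_assoc]
    refine mul_le_mul_of_nonneg_left ?_ hW0.le
    have : E.ka * cyWt η Q0 ≤ E.ka * (v ^ 6 * cyWt η { Q0 with r := r, f := f }) :=
      mul_le_mul_of_nonneg_left (hwb.trans (mul_le_mul_of_nonneg_right hv46 hw1.le)) hka
    linarith
  · refine le_antisymm ?_ (gn_ms_nonneg _ _ _ _ _)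
    rw [← h.supp]
    refine gn_ms_mono _ _ _ (measurableSet_lt measurable_const (cy_frm_meas_base hm _ _))
      (measurableSet_lt measurable_const (cy_frm_meas_base hm _ _)) ?_ _
    intro x hx
    simp only [Set.mem_ofPred_eq] at hx ⊢
    rw [eC'] at hx
    rw [eC]
    have t := cy_frm_base_le (f := f) hl hv1 hr0 hr h1' (co (tmL E.k0 E.i0) x)
    by_contra hcon
    push Not at hcon
    have t2 : v ^ 2 * cyBaseSz Q0 ((2 : ℝ)⁻¹ ^ E.k0) (co (tmL E.k0 E.i0) x) ≤ v ^ 6 * W :=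
      mul_le_mul hv26 hcon (le_max_of_le_left (abs_nonneg _)) (by positivity)
    linarith
  · refine le_trans ?_ h.tail
    refine gn_ms_mono _ _ _ (measurableSet_lt measurable_const (cy_frm_meas_nor hm _ _))
      (measurableSet_lt measurable_const (cy_frm_meas_nor hm _ _)) ?_ _
    intro x hx
    simp only [Set.mem_ofPred_eq] at hx ⊢
    rw [eC'] at hx
    rw [eC]
    have t := cy_frm_nor_le (r := r) hl hv1 hf0 hf h3' (co (tmL E.k0 E.i0) x)
    by_contra hcon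
    push Not at hcon
    have t2 : v * cyNorSz Q0 ((2 : ℝ)⁻¹ ^ E.k0) (co (tmL E.k0 E.i0) x) ≤ v ^ 6 * W :=
      mul_le_mul hv16 hcon (le_max_of_le_left (abs_nonneg _)) (by positivity)
    linarith
  · intro S hS
    have hΛ : Measurable (Prod.map (fun x : ℝ => (r / Q0.r)⁻¹ * x)
        (Prod.map (fun x : ℝ => (r / Q0.r)⁻¹ * x) (fun x : ℝ => ((r / Q0.r) ^ 2)⁻¹ * x))) :=
      (measurable_const_mul _).prodMap ((measurable_const_mul _).prodMap (measurable_const_mul _))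
    have t := h.dens _ (hΛ hS)
    rw [← Measure.map_apply hΛ hS, cy_frm_map3 (inv_pos.mpr ha0) (inv_pos.mpr ha0) (inv_pos.mpr (pow_pos ha0 2)), Measure.smul_apply,
      smul_eq_mul, ← mul_assoc, inv_inv, inv_inv, ← ENNReal.ofReal_mul ha0.le, ← ENNReal.ofReal_mul ha0.le, eC,
      ← ENNReal.ofReal_mul (by positivity)] at t
    simp only [cy_frm_base_eq hl hr0 hr]
    refine t.trans ?_
    rw [eC']
    refine mul_le_mul' (ENNReal.ofReal_le_ofReal ?_) le_rfl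
    have e4 : r / Q0.r * (r / Q0.r * (r / Q0.r) ^ 2) ≤ v ^ 6 := by
      have : (r / Q0.r) ^ 4 ≤ v ^ 4 := pow_le_pow_left₀ ha0.le hav 4
      calc r / Q0.r * (r / Q0.r * (r / Q0.r) ^ 2) = (r / Q0.r) ^ 4 := by ring
        _ ≤ v ^ 6 := this.trans hv46
    calc W * E.e * (r / Q0.r * (r / Q0.r * (r / Q0.r) ^ 2)) ≤ W * E.e * v ^ 6 := mul_le_mul_of_nonneg_left e4 (by positivity)
      _ = W * v ^ 6 * E.e := by ring
  · intro hj S hS
    have hΛ : Measurable (Prod.map (Prod.map (fun x : ℝ => (r / Q0.r)⁻¹ * x)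
        (Prod.map (fun x : ℝ => (r / Q0.r)⁻¹ * x) (fun x : ℝ => ((r / Q0.r) ^ 2)⁻¹ * x)))
        (Prod.map (fun x : ℝ => (f / Q0.f)⁻¹ * x) (fun x : ℝ => (f / Q0.f)⁻¹ * x))) :=
      ((measurable_const_mul _).prodMap ((measurable_const_mul _).prodMap (measurable_const_mul _))).prodMap
        ((measurable_const_mul _).prodMap (measurable_const_mul _))
    have t := h.densJ hj _ (hΛ hS)
    rw [← Measure.map_apply hΛ hS, cy_frm_map5 (inv_pos.mpr ha0) (inv_pos.mpr ha0) (inv_pos.mpr (pow_pos ha0 2)) (inv_pos.mpr hc0)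
      (inv_pos.mpr hc0), Measure.smul_apply,
      smul_eq_mul, ← mul_assoc, inv_inv, inv_inv, inv_inv, ← ENNReal.ofReal_mul ha0.le, ← ENNReal.ofReal_mul ha0.le,
      ← ENNReal.ofReal_mul hc0.le, ← ENNReal.ofReal_mul (by positivity), eC,
      ← ENNReal.ofReal_mul (by positivity)] at t
    simp only [cy_frm_base_eq hl hr0 hr, cy_frm_nor_eq hl hf0 hf]
    refine t.trans ?_
    rw [eC']
    refine mul_le_mul' (ENNReal.ofReal_le_ofReal ?_) le_rfl
    have e4 : r / Q0.r * (r / Q0.r * (r / Q0.r) ^ 2) * (f / Q0.f * (f / Q0.f)) ≤ v ^ 6 := by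
      have a4 : (r / Q0.r) ^ 4 ≤ v ^ 4 := pow_le_pow_left₀ ha0.le hav 4
      have a2 : (f / Q0.f) ^ 2 ≤ v ^ 2 := pow_le_pow_left₀ hc0.le hcv 2
      calc r / Q0.r * (r / Q0.r * (r / Q0.r) ^ 2) * (f / Q0.f * (f / Q0.f)) = (r / Q0.r) ^ 4 * (f / Q0.f) ^ 2 := by ring
        _ ≤ v ^ 4 * v ^ 2 := mul_le_mul a4 a2 (by positivity) (by positivity)
        _ = v ^ 6 := by ring
    calc W * E.e * (r / Q0.r * (r / Q0.r * (r / Q0.r) ^ 2) * (f / Q0.f * (f / Q0.f))) ≤ W * E.e * v ^ 6 :=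
          mul_le_mul_of_nonneg_left e4 (by positivity)
      _ = W * v ^ 6 * E.e := by ring

/-- **FRM** -/
theorem cy_frm (Y : SfCy) (H : CyHyp Y) : CyFrm Y := by
  intro C D
  refine ⟨C + 6 * D, ?_⟩
  intro A p E Q0 r f haf h1 h2 h3 h4
  obtain ⟨hgd, hset, hhy⟩ := (H.af_def C A p E Q0).mp haf
  refine (H.af_def (C + 6 * D) A p E _).mpr ⟨hgd, cy_frm_set H.eta (H.co_meas p hgd _) hset h1 h2 h3 h4, ?_⟩
  intro hb
  obtain ⟨g1, g2⟩ := hhy hb
  show E.s ^ ((C + 6 * D : ℕ) : ℝ) ≤ Y.H p * 2 ^ E.k0 / f ^ 2 ∧ Y.H p * 2 ^ E.k0 / f ^ 2 ≤ E.s ^ (-((C + 6 * D : ℕ) : ℝ))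
  have hs0 : 0 < E.s := by
    unfold Xp.s
    positivity
  have hs1 : E.s ≤ 1 := by
    unfold Xp.s
    exact pow_le_one₀ (by norm_num) (by norm_num)
  obtain ⟨v, hvdef⟩ : ∃ v, v = (E.s ^ D)⁻¹ := ⟨_, rfl⟩
  obtain ⟨W, hWdef⟩ : ∃ W, W = (E.s ^ C)⁻¹ := ⟨_, rfl⟩
  have hv1 : 1 ≤ v := by
    rw [hvdef]
    exact (one_le_inv₀ (by positivity)).mpr (pow_le_one₀ hs0.le hs1)
  have hW1 : 1 ≤ W := by
    rw [hWdef]
    exact (one_le_inv₀ (by positivity)).mpr (pow_le_one₀ hs0.le hs1)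
  have hv0 : 0 < v := by linarith
  have hW0 : 0 < W := by linarith
  have eD : E.s ^ (-(D : ℝ)) = v := by rw [Real.rpow_neg hs0.le, Real.rpow_natCast, hvdef]
  have eDi : E.s ^ (D : ℝ) = v⁻¹ := by rw [Real.rpow_natCast, hvdef, inv_inv]
  have eC : E.s ^ (-(C : ℝ)) = W := by rw [Real.rpow_neg hs0.le, Real.rpow_natCast, hWdef]
  have eCi : E.s ^ (C : ℝ) = W⁻¹ := by rw [Real.rpow_natCast, hWdef, inv_inv]
  have eN : E.s ^ (C + 6 * D) = (W * v ^ 6)⁻¹ := by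
    rw [hvdef, hWdef, pow_add, mul_comm 6 D, pow_mul, inv_pow, ← mul_inv, inv_inv]
  have eC' : E.s ^ (-((C + 6 * D : ℕ) : ℝ)) = W * v ^ 6 := by rw [Real.rpow_neg hs0.le, Real.rpow_natCast, eN, inv_inv]
  have eCi' : E.s ^ ((C + 6 * D : ℕ) : ℝ) = (W * v ^ 6)⁻¹ := by rw [Real.rpow_natCast, eN]
  rw [eD] at h4
  rw [eDi] at h3
  rw [eC] at g2
  rw [eCi] at g1
  rw [eC', eCi']
  have hf0 := hset.f_pos
  have hf : 0 < f := lt_of_lt_of_le (by positivity) h3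
  have h3' : Q0.f ≤ v * f := by
    rw [inv_mul_le_iff₀ hv0] at h3
    exact h3
  have hv26 : v ^ 2 ≤ v ^ 6 := pow_le_pow_right₀ hv1 (by norm_num)
  obtain ⟨h, hh⟩ : ∃ h, h = Y.H p * 2 ^ E.k0 := ⟨_, rfl⟩
  rw [← hh] at g1 g2 ⊢
  have hh0 : 0 < h := by
    have t : 0 < h / Q0.f ^ 2 := lt_of_lt_of_le (by positivity) g1
    have := mul_pos t (pow_pos hf0 2)
    rwa [div_mul_cancel₀ _ (pow_pos hf0 2).ne'] at this
  have q1 : f ^ 2 ≤ v ^ 2 * Q0.f ^ 2 := by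
    have := pow_le_pow_left₀ hf.le h4 2
    rwa [mul_pow] at this
  have q2 : Q0.f ^ 2 ≤ v ^ 2 * f ^ 2 := by
    have := pow_le_pow_left₀ hf0.le h3' 2
    rwa [mul_pow] at this
  rw [le_div_iff₀ (pow_pos hf0 2), inv_mul_le_iff₀ hW0] at g1
  rw [div_le_iff₀ (pow_pos hf0 2)] at g2
  constructor
  · rw [le_div_iff₀ (pow_pos hf 2), inv_mul_le_iff₀ (by positivity)]
    calc f ^ 2 ≤ v ^ 2 * Q0.f ^ 2 := q1
      _ ≤ v ^ 2 * (W * h) := mul_le_mul_of_nonneg_left g1 (by positivity)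
      _ ≤ v ^ 6 * (W * h) := mul_le_mul_of_nonneg_right hv26 (by positivity)
      _ = W * v ^ 6 * h := by ring
  · rw [div_le_iff₀ (pow_pos hf 2)]
    calc h ≤ W * Q0.f ^ 2 := g2
      _ ≤ W * (v ^ 2 * f ^ 2) := mul_le_mul_of_nonneg_left q2 hW0.le
      _ ≤ W * (v ^ 6 * f ^ 2) := mul_le_mul_of_nonneg_left (mul_le_mul_of_nonneg_right hv26 (by positivity)) hW0.le
      _ = W * v ^ 6 * f ^ 2 := by ring

end Claimed.Agent.R256
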