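-- KEEP
import Claimed.Agent.R256.Cyl.ChDefs
import Claimed.Agent.R256.Cyl.Frm

/-!
# Row 256, CYL, post SG1 (chart system), file 2 : THE LATTICE CELL          (architect helper202; prefix `cy_ch_`)
-/

set_option autoImplicit false

namespace Claimed.Agent.R256

open MeasureTheory

/-- the distance of a real number to its lattice point -/
theorem cy_ch_cell_at_fl (a w : ℝ) (hw : 0 < w) : |a - (⌊a / w⌋ : ℝ) * w| ≤ w := by
  have h1 : (⌊a / w⌋ : ℝ) * w ≤ a := (le_div_iff₀ hw).1 (Int.floor_le (a / w))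
  have h2 : a < ((⌊a / w⌋ : ℝ) + 1) * w := (div_lt_iff₀ hw).1 (Int.lt_floor_add_one (a / w))
  rw [abs_le]
  constructor <;> nlinarith

/-- **L-256-CYL-CH-CELL**.   A point lies in the Heisenberg cell of its lattice cell.
PLAN: unfold everything; `Int.floor_le`, `Int.lt_floor_add_one` for the three floors `⌊a / w⌋` (`w = ρ, lρ, lρ² > 0`): `0 ≤ a - ⌊a/w⌋ w < w` (`div_le_iff₀`, `lt_div_iff₀`), `abs_le`. -/
theorem cy_ch_cell_at (l ρ : ℝ) (hl : 0 < l) (hρ : 0 < ρ) (z : Cy5) :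
    CyChAt l ρ (cyChx ρ (cyChCell l ρ z)) (cyChb l ρ (cyChCell l ρ z)) (cyChy l ρ (cyChCell l ρ z)) z := by
  have hw2 : 0 < l * ρ := mul_pos hl hρ
  have hw3 : 0 < l * ρ ^ 2 := by positivity
  refine ⟨cy_ch_cell_at_fl z.X ρ hρ, cy_ch_cell_at_fl z.B (l * ρ) hw2, ?_⟩
  have h := cy_ch_cell_at_fl (z.Y - 2 * ((⌊z.X / ρ⌋ : ℝ) * ρ) * (z.B - (⌊z.B / (l * ρ)⌋ : ℝ) * (l * ρ))) (l * ρ ^ 2) hw3
  have e : z.Y - cyChy l ρ (cyChCell l ρ z) - 2 * cyChx ρ (cyChCell l ρ z) * (z.B - cyChb l ρ (cyChCell l ρ z))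
      = z.Y - 2 * ((⌊z.X / ρ⌋ : ℝ) * ρ) * (z.B - (⌊z.B / (l * ρ)⌋ : ℝ) * (l * ρ))
        - (⌊(z.Y - 2 * ((⌊z.X / ρ⌋ : ℝ) * ρ) * (z.B - (⌊z.B / (l * ρ)⌋ : ℝ) * (l * ρ))) / (l * ρ ^ 2)⌋ : ℝ) * (l * ρ ^ 2) := by
    simp only [cyChy, cyChx, cyChb, cyChCell, cyCh3]
    ring
  rw [e]
  exact h

/-- **L-256-CYL-CH-CELLM**.   The set of the rows of a lattice cell is measurable.
PLAN: `cy_frm_meas hm` gives the measurability of the five coordinates; `x ↦ cyChCell l ρ (g x)` is measurable into `ℤ × ℤ × ℤ` (`Measurable.floor` / `Int.measurable_floor.comp`, `Measurable.prodMk`; casts `ℤ → ℝ` are measurable: `measurable_from_top`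
or `Measurable.of_discrete`), preimage of a singleton. -/
theorem cy_ch_cell_meas {α : Type} [MeasurableSpace α] {g : α → Cy5} (hm : Measurable fun x => cyVec (g x)) (l ρ : ℝ) (c : ℤ × ℤ × ℤ) :
    MeasurableSet {x | cyChCell l ρ (g x) = c} := by
  obtain ⟨hX, hB, hY, -, -⟩ := cy_frm_meas hm
  have hcast : Measurable (fun k : ℤ => (k : ℝ)) := Measurable.of_discrete
  have h1 : Measurable fun x => ⌊(g x).X / ρ⌋ := (hX.div_const ρ).floor
  have h2 : Measurable fun x => ⌊(g x).B / (l * ρ)⌋ := (hB.div_const _).floor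
  have hM : Measurable fun x => cyChCell l ρ (g x) := by
    unfold cyChCell
    refine Measurable.prodMk h1 (Measurable.prodMk h2 ?_)
    refine Measurable.floor ?_
    have h1' := hcast.comp h1
    have h2' := hcast.comp h2
    simp only [Function.comp_def] at h1' h2'
    fun_prop
  exact hM (measurableSet_singleton c)

end Claimed.Agent.R256
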