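-- KEEP
import Claimed.Agent.R256.Cyl.ChDefs

/-!
# Row 256, CYL, post SG1 (chart system), file 5 : THE PARAMETERS OF A LABEL IN A FRAME          (architect helper202; prefix `cy_ch_`)
-/

set_option autoImplicit false

namespace Claimed.Agent.R256

theorem cy_ch_nrm_div {n d c : ℝ} (hd : 0 < d) (h : |n| ≤ c * d) : |n / d| ≤ c := by
  rw [abs_div, abs_of_pos hd, div_le_iff₀ hd]
  exact h

theorem cy_ch_nrm_tmul {t l w c : ℝ} (ht : 0 ≤ t) (htl : t ≤ l) (hw : |w| ≤ c) : |t * w| ≤ l * c := by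
  rw [abs_mul, abs_of_nonneg ht]
  exact mul_le_mul htl hw (abs_nonneg _) (le_trans ht htl)

theorem cy_ch_nrm_add {u w a b : ℝ} (hu : |u| ≤ a) (hw : |w| ≤ b) : |u + w| ≤ a + b :=
  (abs_add_le u w).trans (add_le_add hu hw)

/-- **L-256-CYL-CH-NRM**.   The parameters of the test `Q` (time `T = T0 + t`, `0 ≤ t ≤ l`) in the frame `Qs` (time `T0`, widths `(ρ, fs)`) ARE the differences of the five data of `Q⁻ = cyBack Q t Q.x r' f'` and `Qs` at the centre of `Qs`.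
PLAN.   `N = (sfFrameOf T0 l Qs).tst (sfTestAt T Q)`, `(x,b,y) = (Qs.x, Qs.b, Qs.y)`, `Δ = Q⁻ - Qs`.   Eight identities (unfold `sfFrameOf sfTestAt SfFrame.tst SfFrame.bc SfFrame.yc SfTest.beAt cyBack cyPat cyChA cyChS`, `field_simp`, `ring`):
`N.x = (Q.x - x)/ρ`,   `N.b = ((Q⁻.b - b) + t (Q.x - x))/(lρ)`,   `N.y = ((Q⁻.y - y - 2x(Q⁻.b - b)) + t (Q.x - x)²)/(lρ²)`,
`N.be = (Δβ + t ΔK) ρ²/fs`,   `N.K = ΔK lρ²/fs`,   `N.al = ρ ΔP/fs`,   `N.c = ΔA/fs`,   `N.d = (ΔS + t ΔA)/(l fs)`.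
Bounds: `3`, `3 + 3`, `17 + 9`;   `2a/fs`, `a/fs`, `a/fs`, `a/fs`, `2a/fs`.   `SfTest.size` = nested `max`: `max_le`. -/
theorem cy_ch_nrm (T0 T l ρ fs a r' f' : ℝ) (hl : 0 < l) (hρ : 0 < ρ) (hfs : 0 < fs) (ha : 0 ≤ a) (hT : T0 ≤ T) (hT' : T ≤ T0 + l) (Qs Q : CyT)
    (hr : Qs.r = ρ) (hf : Qs.f = fs) (hn : CyChNear l ρ a Qs.x Qs.b Qs.y Qs (cyBack Q (T - T0) Q.x r' f'))
    (hc : |(cyBack Q (T - T0) Q.x r' f').x - Qs.x| ≤ 3 * ρ ∧ |(cyBack Q (T - T0) Q.x r' f').b - Qs.b| ≤ l * (3 * ρ) ∧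
      |(cyBack Q (T - T0) Q.x r' f').y - Qs.y - 2 * Qs.x * ((cyBack Q (T - T0) Q.x r' f').b - Qs.b)| ≤ l * (17 * ρ ^ 2)) :
    ((sfFrameOf T0 l Qs).tst (sfTestAt T Q)).size ≤ max 26 (2 * a / fs) := by
  subst hr hf
  have ht0 : 0 ≤ T - T0 := by linarith
  have htl : T - T0 ≤ l := by linarith
  obtain ⟨n1, n2, n3, n4, n5⟩ := hn
  obtain ⟨c1, c2, c3⟩ := hc
  have hρ2 : 0 < Qs.r ^ 2 := by positivity
  have e_x : ((sfFrameOf T0 l Qs).tst (sfTestAt T Q)).x = ((cyBack Q (T - T0) Q.x r' f').x - Qs.x) / Qs.r := rfl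
  have e_b : ((sfFrameOf T0 l Qs).tst (sfTestAt T Q)).b
      = (((cyBack Q (T - T0) Q.x r' f').b - Qs.b) + (T - T0) * ((cyBack Q (T - T0) Q.x r' f').x - Qs.x)) / (l * Qs.r) := by
    simp only [SfFrame.tst, sfFrameOf, sfTestAt, SfFrame.bc, cyBack]
    ring
  have e_y : ((sfFrameOf T0 l Qs).tst (sfTestAt T Q)).y
      = (((cyBack Q (T - T0) Q.x r' f').y - Qs.y - 2 * Qs.x * ((cyBack Q (T - T0) Q.x r' f').b - Qs.b))
          + (T - T0) * ((cyBack Q (T - T0) Q.x r' f').x - Qs.x) ^ 2) / (l * Qs.r ^ 2) := by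
    simp only [SfFrame.tst, sfFrameOf, sfTestAt, SfFrame.bc, SfFrame.yc, cyBack]
    ring
  have e_c : ((sfFrameOf T0 l Qs).tst (sfTestAt T Q)).c
      = (cyChA (cyBack Q (T - T0) Q.x r' f') Qs.x Qs.b Qs.y - cyChA Qs Qs.x Qs.b Qs.y) / Qs.f := by
    simp only [SfFrame.tst, sfFrameOf, sfTestAt, SfFrame.bc, SfFrame.yc, SfTest.beAt, cyBack, cyChA]
    ring
  have e_d : ((sfFrameOf T0 l Qs).tst (sfTestAt T Q)).d
      = ((cyChS (cyBack Q (T - T0) Q.x r' f') Qs.x Qs.b Qs.y - cyChS Qs Qs.x Qs.b Qs.y)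
          + (T - T0) * (cyChA (cyBack Q (T - T0) Q.x r' f') Qs.x Qs.b Qs.y - cyChA Qs Qs.x Qs.b Qs.y)) / (l * Qs.f) := by
    simp only [SfFrame.tst, sfFrameOf, sfTestAt, SfFrame.bc, SfFrame.yc, SfTest.beAt, cyBack, cyChA, cyChS]
    ring
  have e_al : ((sfFrameOf T0 l Qs).tst (sfTestAt T Q)).al
      = ((cyPat (cyBack Q (T - T0) Q.x r' f') Qs.x Qs.b - cyPat Qs Qs.x Qs.b) * Qs.r) / Qs.f := by
    simp only [SfFrame.tst, sfFrameOf, sfTestAt, SfFrame.bc, SfTest.beAt, cyBack, cyPat]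
    ring
  have e_be : ((sfFrameOf T0 l Qs).tst (sfTestAt T Q)).be
      = (((cyBack Q (T - T0) Q.x r' f').be - Qs.be) * Qs.r ^ 2 + (T - T0) * (((cyBack Q (T - T0) Q.x r' f').K - Qs.K) * Qs.r ^ 2)) / Qs.f := by
    simp only [SfFrame.tst, sfFrameOf, sfTestAt, SfTest.beAt, cyBack]
    ring
  have e_K : ((sfFrameOf T0 l Qs).tst (sfTestAt T Q)).K = (((cyBack Q (T - T0) Q.x r' f').K - Qs.K) * (l * Qs.r ^ 2)) / Qs.f := by
    simp only [SfFrame.tst, sfFrameOf, sfTestAt, cyBack]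
    ring
  unfold SfTest.size
  rw [e_x, e_b, e_y, e_c, e_d, e_al, e_be, e_K]
  generalize (cyBack Q (T - T0) Q.x r' f').x - Qs.x = X1 at *
  generalize (cyBack Q (T - T0) Q.x r' f').y - Qs.y - 2 * Qs.x * ((cyBack Q (T - T0) Q.x r' f').b - Qs.b) = Y1 at *
  generalize (cyBack Q (T - T0) Q.x r' f').b - Qs.b = B1 at *
  generalize cyChA (cyBack Q (T - T0) Q.x r' f') Qs.x Qs.b Qs.y - cyChA Qs Qs.x Qs.b Qs.y = dA at *
  generalize cyChS (cyBack Q (T - T0) Q.x r' f') Qs.x Qs.b Qs.y - cyChS Qs Qs.x Qs.b Qs.y = dS at *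
  generalize cyPat (cyBack Q (T - T0) Q.x r' f') Qs.x Qs.b - cyPat Qs Qs.x Qs.b = dP at *
  generalize (cyBack Q (T - T0) Q.x r' f').be - Qs.be = dβ at *
  generalize (cyBack Q (T - T0) Q.x r' f').K - Qs.K = dK at *
  generalize T - T0 = t at *
  have hafs : 0 ≤ a / Qs.f := by positivity
  have h2a : a / Qs.f ≤ 2 * a / Qs.f := by
    rw [mul_div_assoc]
    linarith
  have m1 : |dβ * Qs.r ^ 2| ≤ a := by rw [abs_mul, abs_of_pos hρ2]; exact n1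
  have m2 : |dK * (l * Qs.r ^ 2)| ≤ a := by rw [abs_mul, abs_of_pos (by positivity : 0 < l * Qs.r ^ 2)]; exact n2
  have m3 : |dP * Qs.r| ≤ a := by rw [abs_mul, abs_of_pos hρ]; exact n3
  have m2' : |t * (dK * Qs.r ^ 2)| ≤ a := by
    have h1 : |t * (dK * Qs.r ^ 2)| ≤ l * |dK * Qs.r ^ 2| := cy_ch_nrm_tmul ht0 htl le_rfl
    refine h1.trans ?_
    rw [abs_mul, abs_of_pos hρ2]
    calc l * (|dK| * Qs.r ^ 2) = |dK| * (l * Qs.r ^ 2) := by ring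
      _ ≤ a := n2
  have hX2 : |X1 ^ 2| ≤ 9 * Qs.r ^ 2 := by
    rw [abs_pow]
    calc |X1| ^ 2 ≤ (3 * Qs.r) ^ 2 := pow_le_pow_left₀ (abs_nonneg _) c1 2
      _ = 9 * Qs.r ^ 2 := by ring
  refine max_le ?_ (max_le ?_ (max_le ?_ (max_le ?_ (max_le ?_ (max_le ?_ (max_le ?_ ?_))))))
  · refine le_trans (le_trans (cy_ch_nrm_div (c := 3) hρ c1) (by norm_num)) (le_max_left _ _)
  · refine le_trans (le_trans (cy_ch_nrm_div (c := 6) (by positivity) ?_) (by norm_num)) (le_max_left _ _)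
    refine (cy_ch_nrm_add c2 (cy_ch_nrm_tmul ht0 htl c1)).trans (le_of_eq ?_)
    ring
  · refine le_trans (cy_ch_nrm_div (c := 26) (by positivity) ?_) (le_max_left _ _)
    refine (cy_ch_nrm_add c3 (cy_ch_nrm_tmul ht0 htl hX2)).trans (le_of_eq ?_)
    ring
  · refine le_trans (le_trans (cy_ch_nrm_div hfs ?_) h2a) (le_max_right _ _)
    rw [div_mul_cancel₀ _ hfs.ne']
    exact n4
  · refine le_trans (cy_ch_nrm_div (by positivity) ?_) (le_max_right _ _)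
    refine (cy_ch_nrm_add n5 (cy_ch_nrm_tmul ht0 htl n4)).trans (le_of_eq ?_)
    field_simp
    ring
  · refine le_trans (le_trans (cy_ch_nrm_div hfs ?_) h2a) (le_max_right _ _)
    rw [div_mul_cancel₀ _ hfs.ne']
    exact m3
  · refine le_trans (cy_ch_nrm_div hfs ?_) (le_max_right _ _)
    rw [div_mul_cancel₀ _ hfs.ne']
    refine (cy_ch_nrm_add m1 m2').trans (le_of_eq ?_)
    ring
  · refine le_trans (le_trans (cy_ch_nrm_div hfs ?_) h2a) (le_max_right _ _)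
    rw [div_mul_cancel₀ _ hfs.ne']
    exact m2

end Claimed.Agent.R256
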