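-- KEEP
import Mathlib

/-!
# Row 256, CYL, post SG1 (chart system), file 8 : THE EXPONENTS          (architect helper202; prefix `cy_ch_`)
-/

set_option autoImplicit false

namespace Claimed.Agent.R256

/-- **L-256-CYL-CH-NUM**.   `Dst = D0 + 10`, `Ds = D0 + 11`.
PLAN.   `v = δ⁻¹ ≥ 2`.   `δ^(-D0) = v^D0 ≥ 1` (`Real.rpow_neg`, `Real.inv_rpow`, `Real.one_le_rpow`).   `δ^(-(D0+10)) = δ^(-D0) * v^10` (`Real.rpow_add`, `Real.rpow_natCast`), `v^10 = v * v^9 ≥ Λ * 512`.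
`δ^(D0+11) ≤ δ^11 ≤ 2^-11`, so its inverse is `≥ 2048`.   `fj / (δ^(-(D0+10)) fj) = δ^(D0+10)` (`Real.rpow_neg`, `field_simp`), `δ^(D0+11) ≤ δ^(D0+10) ≤ 1` (`Real.rpow_le_rpow_of_exponent_ge`, `Real.rpow_le_one`). -/
theorem cy_ch_num (D0 δ Λ fj : ℝ) (hD0 : 0 < D0) (hδ0 : 0 < δ) (hδ : δ ≤ 1 / 2) (hΛ1 : 1 ≤ Λ) (hΛ : Λ ≤ δ⁻¹) (hfj : 0 < fj) :
    1 ≤ δ ^ (-D0) ∧ 448 * (δ ^ (-D0) * (Λ * fj)) ≤ δ ^ (-(D0 + 10)) * fj ∧ 26 ≤ (δ ^ (D0 + 11))⁻¹ ∧ δ ^ (D0 + 11) ≤ 1 ∧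
      δ ^ (D0 + 11) ≤ fj / (δ ^ (-(D0 + 10)) * fj) ∧ fj / (δ ^ (-(D0 + 10)) * fj) ≤ 1 := by
  have hδ1 : δ ≤ 1 := by linarith
  have hv2 : (2 : ℝ) ≤ δ⁻¹ := by
    rw [le_inv_comm₀ (by norm_num) hδ0]
    simpa using hδ
  have hA1 : 1 ≤ δ ^ (-D0) := by
    rw [Real.rpow_neg hδ0.le, ← Real.inv_rpow hδ0.le]
    exact Real.one_le_rpow (by linarith) hD0.le
  have hA0 : 0 < δ ^ (-D0) := by positivity
  have hsplit : δ ^ (-(D0 + 10)) = δ ^ (-D0) * (δ⁻¹) ^ 10 := by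
    have : -(D0 + 10) = -D0 + (-(10 : ℕ) : ℝ) := by push_cast; ring
    rw [this, Real.rpow_add hδ0, Real.rpow_neg hδ0.le, Real.rpow_neg hδ0.le, Real.rpow_natCast, inv_pow]
  have hv9 : (512 : ℝ) ≤ (δ⁻¹) ^ 9 := by
    calc (512 : ℝ) = 2 ^ 9 := by norm_num
      _ ≤ (δ⁻¹) ^ 9 := pow_le_pow_left₀ (by norm_num) hv2 9
  have hv10 : 448 * Λ ≤ (δ⁻¹) ^ 10 := by
    have h1 : (δ⁻¹) ^ 10 = δ⁻¹ * (δ⁻¹) ^ 9 := by ring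
    rw [h1]
    have hΛ0 : 0 ≤ Λ := by linarith
    nlinarith [mul_le_mul hΛ hv9 (by norm_num) (by linarith : (0:ℝ) ≤ δ⁻¹)]
  have hB : δ ^ (D0 + 11) ≤ δ ^ (D0 + 10) :=
    Real.rpow_le_rpow_of_exponent_ge hδ0 hδ1 (by linarith)
  have hC : δ ^ (D0 + 10) ≤ 1 := Real.rpow_le_one hδ0.le hδ1 (by linarith)
  have hD : δ ^ (D0 + 11) ≤ (1 / 2 : ℝ) ^ 11 := by
    calc δ ^ (D0 + 11) ≤ δ ^ ((11 : ℕ) : ℝ) :=
          Real.rpow_le_rpow_of_exponent_ge hδ0 hδ1 (by push_cast; linarith)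
      _ = δ ^ 11 := Real.rpow_natCast _ _
      _ ≤ (1 / 2 : ℝ) ^ 11 := pow_le_pow_left₀ hδ0.le hδ 11
  have hE : fj / (δ ^ (-(D0 + 10)) * fj) = δ ^ (D0 + 10) := by
    rw [Real.rpow_neg hδ0.le]
    have : 0 < δ ^ (D0 + 10) := by positivity
    field_simp
  refine ⟨hA1, ?_, ?_, hB.trans hC, by rw [hE]; exact hB, by rw [hE]; exact hC⟩
  · rw [hsplit]
    have := mul_le_mul_of_nonneg_left hv10 (mul_pos hA0 hfj).le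
    nlinarith [this]
  · have hpos : 0 < δ ^ (D0 + 11) := by positivity
    rw [le_inv_comm₀ (by norm_num) hpos]
    refine hD.trans ?_
    norm_num

end Claimed.Agent.R256
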