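-- KEEP
import Claimed.Agent.R256.Cyl.ChAmb
import Claimed.Agent.R256.Cyl.ChCell

/-!
# Row 256, CYL, post SG1 (chart system), file 6 : THE WINDOW OF INDICES          (architect helper202; prefix `cy_ch_`)
-/

set_option autoImplicit false

namespace Claimed.Agent.R256

theorem cy_ch_box_card (l ρ u : ℝ) (Q : CyT) : (cyChBox l ρ u Q).card ≤ 7 * 7 * 35 * 5 ^ 5 := by
  rw [← cy_ch_win_card]
  exact Finset.card_image_le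

/-- two floors whose arguments differ by at most `R` -/
theorem cy_ch_range_fl (s t : ℝ) (R : ℤ) (h : |s - t| ≤ R) : -(R + 1) ≤ ⌊s⌋ - ⌊t⌋ ∧ ⌊s⌋ - ⌊t⌋ ≤ R + 1 := by
  have h1 := cy_IA_floor_sub s t
  have h2 : |((⌊s⌋ - ⌊t⌋ : ℤ) : ℝ)| ≤ ((R + 1 : ℤ) : ℝ) := by
    push_cast
    linarith
  have h3 : |⌊s⌋ - ⌊t⌋| ≤ R + 1 := by exact_mod_cast h2
  exact abs_le.mp h3

/-- **L-256-CYL-CH-RANGE**.   The index (cell of `z`, rounded data of `Q`) lies in the window of every test `Q'` of base width `2ρ` through `z` whose data at the centre of the cell are `u`-close to those of `Q`.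
PLAN.   `c = cyChCell l ρ z`.   Offset `w = (c₁ - ⌊Q'.x/ρ⌋, c₂ - ⌊Q'.b/(lρ)⌋, c₃ - cyCh3 l ρ c₁ c₂ Q'.b Q'.y;  cyChDat l ρ u Q c - cyChDat l ρ u Q' c)`:  then `cyChShC l ρ Q' w.1 = c` and `cyChSh l ρ u Q' w` = the index (`Prod.ext`, `add_sub_cancel`).
`w ∈ cyChWin` (`cy_ch_win_mem`; `cyChBox` = `Finset.image`: `Finset.mem_image`): `cy_IA_floor_sub` (`|⌊s⌋ - ⌊t⌋| ≤ |s - t| + 1`), then integers: `abs_le`, `exact_mod_cast`.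
`|X/ρ - Q'.x/ρ| ≤ 2`, `|B/(lρ) - Q'.b/(lρ)| ≤ 2`;   `(Y - 2x_c(B - b_c)) - (Q'.y - 2x_c(Q'.b - b_c)) = cyTilt Q' z + 2 (Q'.x - x_c)(B - Q'.b)`, `≤ 4lρ² + 2·3ρ·2lρ = 16 lρ²` (`cy_ch_ctr`, `cy_ch_cell_at`);
the five data: the arguments of the floors differ by `≤ 1` (`hn`, divide by `u`, resp. `l u`). -/
theorem cy_ch_range (l ρ u : ℝ) (hl : 0 < l) (hρ : 0 < ρ) (hu : 0 < u) (Q Q' : CyT) (z : Cy5) (hr' : Q'.r = 2 * ρ) (hz' : cyIn Q' l z)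
    (hn : CyChNear l ρ u (cyChx ρ (cyChCell l ρ z)) (cyChb l ρ (cyChCell l ρ z)) (cyChy l ρ (cyChCell l ρ z)) Q Q') :
    (cyChCell l ρ z, cyChDat l ρ u Q (cyChCell l ρ z)) ∈ cyChBox l ρ u Q' := by
  have hat := cy_ch_cell_at l ρ hl hρ z
  obtain ⟨k1, k2, k3⟩ := cy_ch_ctr l ρ _ _ _ hl hρ Q' z hr' hz' hat
  obtain ⟨c, hc⟩ : ∃ c, c = cyChCell l ρ z := ⟨_, rfl⟩
  have hc1 : c.1 = ⌊z.X / ρ⌋ := by rw [hc]; rfl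
  have hc2 : c.2.1 = ⌊z.B / (l * ρ)⌋ := by rw [hc]; rfl
  have hc3 : c.2.2 = cyCh3 l ρ c.1 c.2.1 z.B z.Y := by rw [hc]; rfl
  rw [← hc] at hn hat k1 k2 k3 ⊢
  obtain ⟨z1, z2, z3, -, -⟩ := hz'
  rw [hr'] at z1 z2 z3
  obtain ⟨n1, n2, n3, n4, n5⟩ := hn
  have hlρ : 0 < l * ρ := mul_pos hl hρ
  have hlρ2 : 0 < l * ρ ^ 2 := by positivity
  have hlu : 0 < l * u := mul_pos hl hu
  -- the offset
  have hsh : cyChShC l ρ Q' (c.1 - ⌊Q'.x / ρ⌋, c.2.1 - ⌊Q'.b / (l * ρ)⌋, c.2.2 - cyCh3 l ρ c.1 c.2.1 Q'.b Q'.y) = c := by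
    unfold cyChShC
    simp only [add_sub_cancel]
  unfold cyChBox
  refine Finset.mem_image.mpr ⟨((c.1 - ⌊Q'.x / ρ⌋, c.2.1 - ⌊Q'.b / (l * ρ)⌋, c.2.2 - cyCh3 l ρ c.1 c.2.1 Q'.b Q'.y),
    cyChDat l ρ u Q c - cyChDat l ρ u Q' c), ?_, ?_⟩
  · rw [cy_ch_win_mem]
    refine ⟨⟨?_, ?_, ?_⟩, ?_, ?_, ?_, ?_, ?_⟩
    · show -3 ≤ c.1 - ⌊Q'.x / ρ⌋ ∧ c.1 - ⌊Q'.x / ρ⌋ ≤ 3
      rw [hc1]
      refine cy_ch_range_fl _ _ 2 ?_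
      rw [← sub_div, abs_div, abs_of_pos hρ, div_le_iff₀ hρ]
      push_cast
      exact z1
    · show -3 ≤ c.2.1 - ⌊Q'.b / (l * ρ)⌋ ∧ c.2.1 - ⌊Q'.b / (l * ρ)⌋ ≤ 3
      rw [hc2]
      refine cy_ch_range_fl _ _ 2 ?_
      rw [← sub_div, abs_div, abs_of_pos hlρ, div_le_iff₀ hlρ]
      push_cast
      linarith
    · show -17 ≤ c.2.2 - cyCh3 l ρ c.1 c.2.1 Q'.b Q'.y ∧ c.2.2 - cyCh3 l ρ c.1 c.2.1 Q'.b Q'.y ≤ 17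
      rw [hc3]
      unfold cyCh3
      refine cy_ch_range_fl _ _ 16 ?_
      rw [← sub_div, abs_div, abs_of_pos hlρ2, div_le_iff₀ hlρ2]
      push_cast
      have e : z.Y - 2 * (↑c.1 * ρ) * (z.B - ↑c.2.1 * (l * ρ)) - (Q'.y - 2 * (↑c.1 * ρ) * (Q'.b - ↑c.2.1 * (l * ρ)))
          = cyTilt Q' z + 2 * (Q'.x - cyChx ρ c) * (z.B - Q'.b) := by
        unfold cyTilt cyChx
        ring
      rw [e]
      have m1 : |2 * (Q'.x - cyChx ρ c) * (z.B - Q'.b)| ≤ 2 * (3 * ρ) * (l * (2 * ρ)) := by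
        rw [abs_mul, abs_mul, abs_two]
        exact mul_le_mul (mul_le_mul_of_nonneg_left k1 (by norm_num)) z2 (abs_nonneg _) (by positivity)
      have := abs_add_le (cyTilt Q' z) (2 * (Q'.x - cyChx ρ c) * (z.B - Q'.b))
      nlinarith
    · show -2 ≤ ⌊Q.be * ρ ^ 2 / u⌋ - ⌊Q'.be * ρ ^ 2 / u⌋ ∧ ⌊Q.be * ρ ^ 2 / u⌋ - ⌊Q'.be * ρ ^ 2 / u⌋ ≤ 2
      refine cy_ch_range_fl _ _ 1 ?_
      rw [← sub_div, abs_div, abs_of_pos hu, div_le_iff₀ hu, ← sub_mul, abs_mul, abs_of_pos (pow_pos hρ 2), abs_sub_comm]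
      push_cast
      linarith
    · show -2 ≤ ⌊Q.K * (l * ρ ^ 2) / u⌋ - ⌊Q'.K * (l * ρ ^ 2) / u⌋ ∧ ⌊Q.K * (l * ρ ^ 2) / u⌋ - ⌊Q'.K * (l * ρ ^ 2) / u⌋ ≤ 2
      refine cy_ch_range_fl _ _ 1 ?_
      rw [← sub_div, abs_div, abs_of_pos hu, div_le_iff₀ hu, ← sub_mul, abs_mul, abs_of_pos hlρ2, abs_sub_comm]
      push_cast
      linarith
    · show -2 ≤ ⌊cyPat Q (cyChx ρ c) (cyChb l ρ c) * ρ / u⌋ - ⌊cyPat Q' (cyChx ρ c) (cyChb l ρ c) * ρ / u⌋ ∧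
        ⌊cyPat Q (cyChx ρ c) (cyChb l ρ c) * ρ / u⌋ - ⌊cyPat Q' (cyChx ρ c) (cyChb l ρ c) * ρ / u⌋ ≤ 2
      refine cy_ch_range_fl _ _ 1 ?_
      rw [← sub_div, abs_div, abs_of_pos hu, div_le_iff₀ hu, ← sub_mul, abs_mul, abs_of_pos hρ, abs_sub_comm]
      push_cast
      linarith
    · show -2 ≤ ⌊cyChA Q (cyChx ρ c) (cyChb l ρ c) (cyChy l ρ c) / u⌋ - ⌊cyChA Q' (cyChx ρ c) (cyChb l ρ c) (cyChy l ρ c) / u⌋ ∧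
        ⌊cyChA Q (cyChx ρ c) (cyChb l ρ c) (cyChy l ρ c) / u⌋ - ⌊cyChA Q' (cyChx ρ c) (cyChb l ρ c) (cyChy l ρ c) / u⌋ ≤ 2
      refine cy_ch_range_fl _ _ 1 ?_
      rw [← sub_div, abs_div, abs_of_pos hu, div_le_iff₀ hu, abs_sub_comm]
      push_cast
      linarith
    · show -2 ≤ ⌊cyChS Q (cyChx ρ c) (cyChb l ρ c) (cyChy l ρ c) / (l * u)⌋ - ⌊cyChS Q' (cyChx ρ c) (cyChb l ρ c) (cyChy l ρ c) / (l * u)⌋ ∧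
        ⌊cyChS Q (cyChx ρ c) (cyChb l ρ c) (cyChy l ρ c) / (l * u)⌋ - ⌊cyChS Q' (cyChx ρ c) (cyChb l ρ c) (cyChy l ρ c) / (l * u)⌋ ≤ 2
      refine cy_ch_range_fl _ _ 1 ?_
      rw [← sub_div, abs_div, abs_of_pos hlu, div_le_iff₀ hlu, abs_sub_comm]
      push_cast
      linarith
  · unfold cyChSh
    simp only [hsh]
    rw [add_sub_cancel]

end Claimed.Agent.R256
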