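-- KEEP
import Claimed.Agent.R256.Gen.Contract

/-!
# Row 256 (LS paper), CYL, unit FWD, file A : THE PRESERVING ORDINARY SPLIT (generic)          (architect helper129; prefix `cy_fw_`)

PAPER FREE, NO `sorry`.   `M : Mdl`, `hG : M.Gen g`, `hpl` : every state lies in every plateau class (true in the two cylinder models: `CyHyp.pl_univ`).
EXIT `cy_fw_osplit M g hG hpl C D`: at ANY cut `k0 ≤ k ≤ kf` of an experiment with `val ≥ 2^((9/2 - D/2) n)` one can insert ONE stage which is a non-remainder peel level (`Xp.LvlAt`), whose masks are indicators on ALL intervals,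
and which loses only the factor `(D n + 1)^3`.
PROOF on the engine `Gen/Lev.lean`: `gn_dec_ins` (`st2a = []`), the best of the `D n + 1` pieces (`gn_cube`); the remainder has `val ≤ 2^((4 - D/2) n)` (`gn_lev_rem`), excluded by `gn_absorb_poly`;
the masks on the intervals outside the tree of the experiment are replaced by `0` (`Stg.cl`, `cy_fw_cl_m`).
-/

set_option autoImplicit false

namespace Claimed.Agent.R256

open MeasureTheory

/-! ## LEAF L-256-FW-A1 : generations are irrelevant, cuts -/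

/-- the analysis does not depend on the generation.   PLAN: `le_total b b'`, `hT.same` (membership in `Pl` by `hpl`). -/
theorem cy_fw_an_gen {P : PkSys} (hT : P.Tight) (hpl : ∀ b, P.Pl b = Set.univ) (T : ℝ) (k b b' : ℕ) (v : P.Kc) : P.An T k b v = P.An T k b' v := by
  rcases le_total b b' with h | h
  · exact (hT.same T k b b' v (by rw [hpl]; trivial) h).symm
  · exact hT.same T k b' b v (by rw [hpl]; trivial) h

theorem cy_fw_reg_gen {P : PkSys} (hT : P.Tight) (hpl : ∀ b, P.Pl b = Set.univ) {T : ℝ} {k b : ℕ} (b' : ℕ) {κ : ℝ} {v : P.Kc}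
    (h : P.Reg T k b κ v) : P.Reg T k b' κ v := by
  intro Q hQ
  have h1 := h Q hQ
  unfold PkSys.ms PkSys.en at h1 ⊢
  rw [cy_fw_an_gen hT hpl T k b' b v]
  exact h1

theorem cy_fw_en_gen {P : PkSys} (hT : P.Tight) (hpl : ∀ b, P.Pl b = Set.univ) (T : ℝ) (k b b' : ℕ) (θ : P.X → ℝ) (v : P.Kc) :
    P.en T k b θ v = P.en T k b' θ v := by
  unfold PkSys.en
  rw [cy_fw_an_gen hT hpl T k b b' v]

/-- the cut after the first stage of the second half -/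
theorem cy_fw_cut_after {P : PkSys} (E : Xp P) {st1 st2 : List (Stg P)} {σ : Stg P} (h : E.CutAt σ.k st1 (σ :: st2)) : E.CutAt σ.k (st1 ++ [σ]) st2 := by
  obtain ⟨h1, h2, h3, h4, h5⟩ := h
  refine ⟨by rw [h1]; simp, ?_, fun σ' hσ' => h3 σ' (List.mem_cons_of_mem _ hσ'), h4, h5⟩
  intro σ' hσ'
  rcases List.mem_append.mp hσ' with h | h
  · exact h2 σ' h
  · rw [List.mem_singleton.mp h]

/-- a cut of `E` is a cut of the experiment with an inserted stage of the depth of the cut -/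
theorem cy_fw_cut_ins {P : PkSys} (E : Xp P) {k : ℕ} {st1 st2 : List (Stg P)} (h : E.CutAt k st1 st2) (σ : Stg P) (hσ : σ.k = k) :
    (E.withSt (st1 ++ σ :: st2)).CutAt σ.k st1 (σ :: st2) := by
  obtain ⟨h1, h2, h3, h4, h5⟩ := h
  refine ⟨rfl, ?_, ?_, ?_, ?_⟩
  · intro σ' hσ'
    rw [hσ]
    exact h2 σ' hσ'
  · intro σ' hσ'
    rcases List.mem_cons.mp hσ' with h | h
    · rw [h]
    · rw [hσ]
      exact h3 σ' h
  · rw [hσ]
    exact h4
  · rw [hσ]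
    exact h5

/-- the first half of a cut is an admissible stack -/
theorem cy_fw_cut_stok {P : PkSys} (E : Xp P) (hE : E.Valid) {C : ℕ} (hl : E.st.length ≤ C) (hg : E.GenLe C) {k : ℕ} {st1 st2 : List (Stg P)}
    (h : E.CutAt k st1 st2) : StOk E.k0 k C C st1 ∧ StOk k E.kf C C st2 := by
  obtain ⟨h1, h2, h3, h4, h5⟩ := h
  have hm1 : ∀ σ ∈ st1, σ ∈ E.st := fun σ hσ => by rw [h1]; exact List.mem_append_left _ hσ
  have hm2 : ∀ σ ∈ st2, σ ∈ E.st := fun σ hσ => by rw [h1]; exact List.mem_append_right _ hσ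
  have hlen : st1.length + st2.length ≤ C := by
    rw [h1, List.length_append] at hl
    exact hl
  have hpw := hE.st_mono
  rw [h1, List.pairwise_append] at hpw
  constructor
  · exact ⟨by omega, fun σ hσ => ⟨(hE.st_dep σ (hm1 σ hσ)).1, h2 σ hσ⟩, hpw.1, fun σ hσ => hg.2.2 σ (hm1 σ hσ),
      fun σ hσ i => ⟨hE.st_meas σ (hm1 σ hσ) i, hE.st_bd σ (hm1 σ hσ) i⟩⟩
  · exact ⟨by omega, fun σ hσ => ⟨h3 σ hσ, (hE.st_dep σ (hm2 σ hσ)).2⟩, hpw.2.1, fun σ hσ => hg.2.2 σ (hm2 σ hσ),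
      fun σ hσ i => ⟨hE.st_meas σ (hm2 σ hσ) i, hE.st_bd σ (hm2 σ hσ) i⟩⟩

/-! ## insertion of a stage at a cut -/

theorem cy_fw_ins_valid {P : PkSys} (E : Xp P) (hE : E.Valid) {k : ℕ} {st1 st2 : List (Stg P)} (h : E.CutAt k st1 st2) (σ : Stg P) (hσ : σ.k = k)
    (hM : ∀ i, IsMask (σ.M i)) : (E.withSt (st1 ++ σ :: st2)).Valid := by
  subst hσ
  exact gn_ins_valid E hE h σ.b hM

/-- the class, with room in the package -/
theorem cy_fw_ins_cls (M : Mdl) (hR : M.AdmRoot) {C A : ℕ} {p : M.Par} {E : Xp (M.sys p)} (hE : M.Cls C A p E) (hl : E.st.length + 1 ≤ C) {k : ℕ}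
    {st1 st2 : List (Stg (M.sys p))} (h : E.CutAt k st1 st2) (σ : Stg (M.sys p)) (hσ : σ.k = k) (hb : σ.b ≤ C) (hM : ∀ i, IsMask (σ.M i)) :
    M.Cls C A p (E.withSt (st1 ++ σ :: st2)) := by
  refine ⟨hE.1, cy_fw_ins_valid E hE.2.1 h σ hσ hM, ?_, ⟨hE.2.2.2.1.1, hE.2.2.2.1.2.1, fun σ' hσ' => ?_⟩,
    hR C A p E _ hE.2.2.2.2 ⟨rfl, rfl, rfl, rfl, rfl, rfl⟩ rfl⟩
  · show (st1 ++ σ :: st2).length ≤ C
    have h1 : E.st.length = st1.length + st2.length := by rw [h.1, List.length_append]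
    rw [List.length_append, List.length_cons]
    omega
  · have hσ'' : σ' ∈ st1 ++ σ :: st2 := hσ'
    rcases List.mem_append.1 hσ'' with h1 | h1
    · exact hE.2.2.2.1.2.2 σ' (by rw [h.1]; exact List.mem_append_left _ h1)
    · rcases List.mem_cons.1 h1 with h2 | h2
      · rw [h2]; exact hb
      · exact hE.2.2.2.1.2.2 σ' (by rw [h.1]; exact List.mem_append_right _ h2)

/-! ## masks outside the tree of the experiment are irrelevant -/

open Classical in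
/-- the masks on the intervals outside `I` are replaced by `0` -/
noncomputable def Stg.cl {P : PkSys} (σ : Stg P) (I : Finset ℕ) : Stg P := ⟨σ.k, σ.b, fun i => if i ∈ I then σ.M i else fun _ => 0⟩

theorem cy_fw_a_eqns_cite : True := by
  have := @Stg.cl.eq_1
  trivial

theorem cy_fw_cl_M {P : PkSys} (σ : Stg P) (I : Finset ℕ) {i : ℕ} (hi : i ∈ I) : (σ.cl I).M i = σ.M i := by
  unfold Stg.cl
  simp [hi]

theorem cy_fw_cl_M' {P : PkSys} (σ : Stg P) (I : Finset ℕ) {i : ℕ} (hi : i ∉ I) : (σ.cl I).M i = fun _ => 0 := by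
  unfold Stg.cl
  simp [hi]

/-- the masses do not change -/
theorem cy_fw_cl_m {P : PkSys} (E : Xp P) (hE : E.Valid) (st1 st2 : List (Stg P)) (σ : Stg P) (h0 : E.k0 ≤ σ.k) (h1 : σ.k ≤ E.kf) (l : Fin E.L) :
    (E.withSt (st1 ++ σ.cl (ivs E.k0 E.i0 σ.k) :: st2)).m l = (E.withSt (st1 ++ σ :: st2)).m l := by
  have hM := cy_fw_cl_M σ (ivs E.k0 E.i0 σ.k) (gn_iv_anc E hE h0 h1 l)
  have e : Xp.run E.kf (E.iv l) (st1 ++ σ.cl (ivs E.k0 E.i0 σ.k) :: st2) E.v = Xp.run E.kf (E.iv l) (st1 ++ σ :: st2) E.v := by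
    rw [gn_run_append, gn_run_append]
    show Xp.run E.kf (E.iv l) st2 (P.tz (tmL σ.k (ancI E.kf σ.k (E.iv l))) σ.k σ.b ((σ.cl (ivs E.k0 E.i0 σ.k)).M (ancI E.kf σ.k (E.iv l))) _) =
      Xp.run E.kf (E.iv l) st2 (P.tz (tmL σ.k (ancI E.kf σ.k (E.iv l))) σ.k σ.b (σ.M (ancI E.kf σ.k (E.iv l))) _)
    rw [hM]
  show P.en (tmL E.kf (E.iv l)) E.kf E.bT (E.th l) (Xp.run E.kf (E.iv l) (st1 ++ σ.cl (ivs E.k0 E.i0 σ.k) :: st2) E.v) =
    P.en (tmL E.kf (E.iv l)) E.kf E.bT (E.th l) (Xp.run E.kf (E.iv l) (st1 ++ σ :: st2) E.v)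
  rw [e]

theorem cy_fw_cl_val {P : PkSys} (E : Xp P) (hE : E.Valid) (st1 st2 : List (Stg P)) (σ : Stg P) (h0 : E.k0 ≤ σ.k) (h1 : σ.k ≤ E.kf) :
    (E.withSt (st1 ++ σ.cl (ivs E.k0 E.i0 σ.k) :: st2)).val = (E.withSt (st1 ++ σ :: st2)).val := by
  have e : (E.withSt (st1 ++ σ.cl (ivs E.k0 E.i0 σ.k) :: st2)).rd = (E.withSt (st1 ++ σ :: st2)).rd := by
    unfold Xp.rd
    refine Finset.sum_congr rfl fun l _ => ?_
    have := cy_fw_cl_m E hE st1 st2 σ h0 h1 l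
    rw [this]
    rfl
  unfold Xp.val
  rw [e]
  rfl

/-- a peel level stays a peel level -/
theorem cy_fw_cl_lvl {P : PkSys} (E : Xp P) {st1 st2 : List (Stg P)} {σ : Stg P} {β : ℝ} (h : (E.withSt (st1 ++ σ :: st2)).LvlAt st1 σ st2 β) :
    (E.withSt (st1 ++ σ.cl (ivs E.k0 E.i0 σ.k) :: st2)).LvlAt st1 (σ.cl (ivs E.k0 E.i0 σ.k)) st2 β := by
  obtain ⟨-, c2, c3, c4, c5⟩ := h.cut
  refine ⟨⟨rfl, c2, fun σ' hσ' => ?_, c4, c5⟩, h.plat, fun i hi => ?_⟩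
  · rcases List.mem_cons.1 hσ' with h' | h'
    · rw [h']
    · exact c3 σ' (List.mem_cons_of_mem _ h')
  · obtain ⟨S, hS, hM⟩ := h.lvl i hi
    exact ⟨S, hS, (cy_fw_cl_M σ _ hi).trans hM⟩

/-- all the masks are indicators -/
theorem cy_fw_cl_ind {P : PkSys} (E : Xp P) {st1 st2 : List (Stg P)} {σ : Stg P} {β : ℝ} (h : (E.withSt (st1 ++ σ :: st2)).LvlAt st1 σ st2 β) (i : ℕ) :
    ∃ S : Set P.X, MeasurableSet S ∧ (σ.cl (ivs E.k0 E.i0 σ.k)).M i = S.indicator fun _ => 1 := by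
  by_cases hi : i ∈ ivs E.k0 E.i0 σ.k
  · obtain ⟨S, hS, hM⟩ := h.lvl i hi
    exact ⟨S, hS.meas, (cy_fw_cl_M σ _ hi).trans hM⟩
  · exact ⟨∅, MeasurableSet.empty, by rw [cy_fw_cl_M' σ _ hi, Set.indicator_empty]⟩

/-! ## the exit of this file -/

/-- **THE PRESERVING ORDINARY SPLIT.** -/
theorem cy_fw_osplit (M : Mdl) (g : ℝ) (hG : M.Gen g) (hpl : ∀ p, M.gd p → ∀ b, (M.sys p).Pl b = Set.univ) (C D : ℕ) :
    ∃ A n0 : ℕ, ∀ (p : M.Par) (E : Xp (M.sys p)), n0 ≤ E.n → M.Cls C A p E → 2 ^ ((9 / 2 - (D : ℝ) / 2) * E.n) ≤ E.val →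
      ∀ (k b : ℕ) (st1 st2 : List (Stg (M.sys p))), E.CutAt k st1 st2 → b ≤ C →
      ∃ (σ : Stg (M.sys p)) (β : ℝ), σ.k = k ∧ σ.b = b ∧ (∀ i, ∃ S : Set (M.sys p).X, MeasurableSet S ∧ σ.M i = S.indicator fun _ => 1) ∧
        (E.withSt (st1 ++ σ :: st2)).LvlAt st1 σ st2 β ∧ E.val ≤ ((D * E.n + 1 : ℕ) : ℝ) ^ 3 * (E.withSt (st1 ++ σ :: st2)).val := by
  classical
  obtain ⟨Cs, hCs, A, n1, Hd⟩ := gn_dec_ins M g hG C D
  obtain ⟨n2, Hr⟩ := gn_lev_rem M g hG C D Cs (by linarith)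
  obtain ⟨n3, Ha⟩ := gn_absorb_poly D 2 (1 / 2) (by norm_num)
  refine ⟨A, max n1 (max n2 n3), fun p E hn hE hval k b st1 st2 hc hb => ?_⟩
  have hn1 : n1 ≤ E.n := (le_max_left _ _).trans hn
  have hn2 : n2 ≤ E.n := ((le_max_left _ _).trans (le_max_right _ _)).trans hn
  have hn3 : n3 ≤ E.n := ((le_max_right _ _).trans (le_max_right _ _)).trans hn
  obtain ⟨Mk, hlev, hrem, hsum⟩ := Hd p E hn1 hE k b st1 [] st2 hc (by simp) (by simp) hb (fun i _ => by rw [hpl p hE.1 b]; trivial)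
  set m := D * E.n + 1 with hm
  have hmsk : ∀ j < m, ∀ i, IsMask (Mk j i) := by
    intro j hj
    by_cases hjJ : j < D * E.n
    · exact (hlev j hjJ).2.msk
    · have : j = D * E.n := by omega
      rw [this]
      exact hrem.msk
  -- the readouts of the pieces
  set r : ℕ → ℝ := fun j => if j < m then (E.ins k b st1 st2 (Mk j)).rd else 0 with hr
  have hr0 : ∀ j, 0 ≤ r j := by
    intro j
    by_cases hj : j < m
    · simp only [hr, hj, if_true]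
      exact gn_rd_nonneg _ (gn_ins_valid E hE.2.1 hc b (hmsk j hj))
    · simp only [hr, hj, if_false]
      exact le_rfl
  have hsum' : E.rd ^ (1 / 3 : ℝ) ≤ ∑ j ∈ Finset.range m, r j ^ (1 / 3 : ℝ) := by
    refine hsum.trans (le_of_eq (Finset.sum_congr rfl fun j hj => ?_))
    simp only [hr, Finset.mem_range.1 hj, if_true]
    rfl
  obtain ⟨j, hj, hmax⟩ := Finset.exists_max_image (Finset.range m) r ⟨0, Finset.mem_range.2 (Nat.succ_pos _)⟩
  have hjm := Finset.mem_range.1 hj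
  have hcube := gn_cube E.rd (r j) (gn_rd_nonneg E hE.2.1) m r hr0 (fun j' hj' => hmax j' (Finset.mem_range.2 hj')) hsum'
  have hrj : r j = (E.ins k b st1 st2 (Mk j)).rd := by simp only [hr, hjm, if_true]
  rw [hrj] at hcube
  have hc0 : 0 ≤ 2 ^ ((E.n : ℝ) / 2) / (E.e * Real.sqrt E.ka) :=
    div_nonneg (gn_two_pos _).le (mul_nonneg hE.2.1.e_pos.le (Real.sqrt_nonneg _))
  have hv : E.val ≤ (m : ℝ) ^ 3 * (2 ^ ((E.n : ℝ) / 2) / (E.e * Real.sqrt E.ka) * (E.ins k b st1 st2 (Mk j)).rd) := by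
    have := mul_le_mul_of_nonneg_left hcube hc0
    calc E.val = 2 ^ ((E.n : ℝ) / 2) / (E.e * Real.sqrt E.ka) * E.rd := rfl
      _ ≤ 2 ^ ((E.n : ℝ) / 2) / (E.e * Real.sqrt E.ka) * ((m : ℝ) ^ 3 * (E.ins k b st1 st2 (Mk j)).rd) := this
      _ = _ := by ring
  by_cases hjJ : j < D * E.n
  · have hl : (E.withSt (st1 ++ (⟨k, b, Mk j⟩ : Stg (M.sys p)) :: st2)).LvlAt st1 ⟨k, b, Mk j⟩ st2 ((2 : ℝ)⁻¹ ^ (j + 1) * (Cs * E.ka)) := (hlev j hjJ).1
    refine ⟨(⟨k, b, Mk j⟩ : Stg (M.sys p)).cl (ivs E.k0 E.i0 k), _, rfl, rfl, cy_fw_cl_ind E hl, cy_fw_cl_lvl E hl, ?_⟩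
    have e := cy_fw_cl_val E hE.2.1 st1 st2 (⟨k, b, Mk j⟩ : Stg (M.sys p)) hc.2.2.2.1 hc.2.2.2.2
    have e' : (E.withSt (st1 ++ (⟨k, b, Mk j⟩ : Stg (M.sys p)).cl (ivs E.k0 E.i0 k) :: st2)).val = (E.withSt (st1 ++ (⟨k, b, Mk j⟩ : Stg (M.sys p)) :: st2)).val := e
    rw [e']
    exact hv
  · exfalso
    have hjeq : j = D * E.n := by omega
    rw [hjeq] at hv
    have h1 := Hr p E A hn2 hE k b st1 [] st2 (Mk (D * E.n)) hrem hb
    have h1' : 2 ^ ((E.n : ℝ) / 2) / (E.e * Real.sqrt E.ka) * (E.ins k b st1 st2 (Mk (D * E.n))).rd ≤ 2 ^ ((4 - (D : ℝ) / 2) * E.n) := h1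
    have h2 := Ha E.n hn3
    have hm3 : (0 : ℝ) < (m : ℝ) ^ 3 := by
      have : (0 : ℝ) < (m : ℝ) := by exact_mod_cast Nat.succ_pos _
      positivity
    have h3 : E.val ≤ (m : ℝ) ^ 3 * 2 ^ ((4 - (D : ℝ) / 2) * E.n) := hv.trans (mul_le_mul_of_nonneg_left h1' hm3.le)
    have h4 : (2 : ℝ) ^ ((9 / 2 - (D : ℝ) / 2) * E.n) = 2 ^ (1 / 2 * (E.n : ℝ)) * 2 ^ ((4 - (D : ℝ) / 2) * E.n) := by
      rw [← gn_two_add]
      congr 1
      ring
    have h5 : (0 : ℝ) < 2 ^ ((4 - (D : ℝ) / 2) * E.n) := gn_two_pos _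
    have h6 : 2 ^ (1 / 2 * (E.n : ℝ)) * 2 ^ ((4 - (D : ℝ) / 2) * E.n) ≤ (m : ℝ) ^ 3 * 2 ^ ((4 - (D : ℝ) / 2) * E.n) := by
      rw [← h4]
      exact hval.trans h3
    have h7 := le_of_mul_le_mul_right h6 h5
    linarith

end Claimed.Agent.R256
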