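-- KEEP
import Claimed.Agent.R256.Cyl.Defs
import Claimed.Agent.R256.Cyl.FwdA

/-!
# Row 256 (LS paper), CYL, unit FWD, file B : DOCUMENTED EXPERIMENTS UNDER THE INSERTION OF A STAGE          (architect helper129; prefix `cy_fw_`)

PAPER FREE, NO ANALYSIS: lists, positions, `Finset` sums.
* `SfMD.re W st' pos'`   = `{ W with E := W.E.withSt st', pos := pos' }` (the format of `CyForward`).
* `SfMD.s1 W j`, `SfMD.s2 W j`   the stack before / from the gate `j`  (`take`, `drop` at `W.pos j`).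
* `SfMD.ins W j σ`       the stage `σ` is inserted IMMEDIATELY BEFORE the gate `j`; the positions of the gates `≥ j` are shifted by one.
-/

set_option autoImplicit false

namespace Claimed.Agent.R256

open MeasureTheory

/-- another stack, other positions -/
def SfMD.re {P : PkSys} (W : SfMD P) (st' : List (Stg P)) (pos' : ℝ → ℕ) : SfMD P := { W with E := W.E.withSt st', pos := pos' }

/-- the stack before the gate `j` -/
def SfMD.s1 {P : PkSys} (W : SfMD P) (j : ℝ) : List (Stg P) := W.E.st.take (W.pos j)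

/-- the stack from the gate `j` on -/
def SfMD.s2 {P : PkSys} (W : SfMD P) (j : ℝ) : List (Stg P) := W.E.st.drop (W.pos j)

/-- the positions after an insertion before the gate `j` -/
noncomputable def SfMD.ps {P : PkSys} (W : SfMD P) (j : ℝ) : ℝ → ℕ := fun i => if i < j then W.pos i else W.pos i + 1

/-- insertion of the stage `σ` immediately before the gate `j` -/
noncomputable def SfMD.ins {P : PkSys} (W : SfMD P) (j : ℝ) (σ : Stg P) : SfMD P := W.re (W.s1 j ++ σ :: W.s2 j) (W.ps j)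

theorem cy_fw_b_eqns_cite : True := by
  have := @SfMD.re.eq_1
  have := @SfMD.s1.eq_1
  have := @SfMD.s2.eq_1
  have := @SfMD.ps.eq_1
  have := @SfMD.ins.eq_1
  trivial

theorem cy_fw_re_re {P : PkSys} (W : SfMD P) (st1 st2 : List (Stg P)) (pos1 pos2 : ℝ → ℕ) : (W.re st1 pos1).re st2 pos2 = W.re st2 pos2 := rfl

theorem cy_fw_re_self {P : PkSys} (W : SfMD P) : W.re W.E.st W.pos = W := rfl

variable {P : PkSys}

/-! ## LEAF L-256-FW-B1 : intervals, cuts at the gates -/

/-- the two notions of "intervals below the root" agree as soon as there is a label.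
PLAN: `e.symm ⟨0, hL⟩ : W.Lb 1` (`h.final`), `h.iv_in 1`: some `m < 2^(k 1)` has `ancI (k 1) k0 m = i0`, so `i0 < 2^k0` (`Nat.div_lt_iff_lt_mul`, `k0 ≤ k 1`); then `ext m`; `gn_mem_ivs`;
`m ∈ ivs k0 i0 k` gives `m < (i0+1) 2^(k-k0) ≤ 2^k0 2^(k-k0) = 2^k`. -/
theorem cy_fw_ivs (W : SfMD P) {tq : P.Tst → CyT} (h : W.Str tq) (hL : 0 < W.E.L) {i : ℝ} (hi : i ∈ W.G) : W.ivs i = ivs W.E.k0 W.E.i0 (W.k i) := by
  rfl

/-- the gate `j < 1`: the stack splits as `take ++ σ :: rest` -/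
theorem cy_fw_b_split (W : SfMD P) {tq : P.Tst → CyT} (h : W.Str tq) {j : ℝ} (hj : j ∈ W.G) (hj1 : j < 1) :
    ∃ σ : Stg P, W.pos j < W.E.st.length ∧ σ ∈ W.E.st ∧ W.s2 j = σ :: W.E.st.drop (W.pos j + 1) ∧ σ.k = W.k j ∧ σ.b = W.gb j ∧
      ∀ m x, σ.M m x = ∑ l, if W.iv j l = m then W.th j l x else 0 := by
  obtain ⟨σ, h1, h2, h3, h4⟩ := h.stage j hj hj1
  obtain ⟨hlt, he⟩ := List.getElem?_eq_some_iff.1 h1
  refine ⟨σ, hlt, List.mem_of_getElem? h1, ?_, h2, h3, h4⟩
  unfold SfMD.s2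
  rw [List.drop_eq_getElem_cons hlt, he]

/-- the position of a gate is a position of the stack -/
theorem cy_fw_b_pos_le (W : SfMD P) {tq : P.Tst → CyT} (h : W.Str tq) {j : ℝ} (hj : j ∈ W.G) : W.pos j ≤ W.E.st.length := by
  rcases lt_or_eq_of_le (h.gate.2 j hj).2 with hj1 | rfl
  · have := (h.k_mono j hj 1 h.gate.1 hj1).2
    rw [h.k_one.2.1] at this
    exact this.le
  · exact h.k_one.2.1.le

theorem cy_fw_b_len (W : SfMD P) {tq : P.Tst → CyT} (h : W.Str tq) {j : ℝ} (hj : j ∈ W.G) : (W.s1 j).length = W.pos j := by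
  unfold SfMD.s1
  rw [List.length_take]
  exact min_eq_left (cy_fw_b_pos_le W h hj)


/-- the stack is cut at every gate.   PLAN: `List.take_append_drop`.   `j < 1`: `h.stage` gives `σ = st[pos j]` of depth `k j`; `h.valid.st_mono` (`List.pairwise_iff_getElem`): earlier stages are shallower, later ones deeper.
`j = 1`: `pos 1 = length`, `drop = []`, `h.valid.st_dep`, `k 1 = kf`. -/
theorem cy_fw_cut (W : SfMD P) {tq : P.Tst → CyT} (h : W.Str tq) {j : ℝ} (hj : j ∈ W.G) : W.E.CutAt (W.k j) (W.s1 j) (W.s2 j) := by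
  refine ⟨(List.take_append_drop _ _).symm, ?_, ?_, (h.k_rg j hj).1, (h.k_rg j hj).2⟩
  · rcases lt_or_eq_of_le (h.gate.2 j hj).2 with hj1 | rfl
    · obtain ⟨σ0, _, _, hd, hk, _, _⟩ := cy_fw_b_split W h hj hj1
      have hp : (W.s1 j ++ W.s2 j).Pairwise fun σ σ' => σ.k ≤ σ'.k := by
        unfold SfMD.s1 SfMD.s2
        rw [List.take_append_drop]
        exact h.valid.st_mono
      rw [hd, List.pairwise_append] at hp
      intro σ hσ
      rw [← hk]
      exact hp.2.2 σ hσ σ0 (List.mem_cons_self)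
    · intro σ hσ
      rw [h.k_one.1]
      exact (h.valid.st_dep σ (List.mem_of_mem_take hσ)).2
  · rcases lt_or_eq_of_le (h.gate.2 j hj).2 with hj1 | rfl
    · obtain ⟨σ0, _, _, hd, hk, _, _⟩ := cy_fw_b_split W h hj hj1
      have hp : (W.s1 j ++ W.s2 j).Pairwise fun σ σ' => σ.k ≤ σ'.k := by
        unfold SfMD.s1 SfMD.s2
        rw [List.take_append_drop]
        exact h.valid.st_mono
      rw [hd, List.pairwise_append, List.pairwise_cons] at hp
      intro σ hσ
      rw [hd, List.mem_cons] at hσ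
      rw [← hk]
      rcases hσ with rfl | hσ
      · exact le_rfl
      · exact hp.2.1.1 σ hσ
    · intro σ hσ
      unfold SfMD.s2 at hσ
      rw [h.k_one.2.1, List.drop_length] at hσ
      exact absurd hσ (List.not_mem_nil)

/-- the gate `j < 1` is the first stage of `s2 j` -/
theorem cy_fw_s2_cons (W : SfMD P) {tq : P.Tst → CyT} (h : W.Str tq) {j : ℝ} (hj : j ∈ W.G) (hj1 : j < 1) :
    ∃ (σ : Stg P) (r : List (Stg P)), W.s2 j = σ :: r ∧ σ.k = W.k j ∧ σ.b = W.gb j ∧ ∀ m x, σ.M m x = ∑ l, if W.iv j l = m then W.th j l x else 0 := by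
  obtain ⟨σ0, _, _, hd, hk, hb, hM⟩ := cy_fw_b_split W h hj hj1
  exact ⟨σ0, _, hd, hk, hb, hM⟩

/-- the generation of a gate is a generation of the experiment -/
theorem cy_fw_gb_le (W : SfMD P) {tq : P.Tst → CyT} (h : W.Str tq) {C : ℕ} (hg : W.E.GenLe C) {j : ℝ} (hj : j ∈ W.G) : W.gb j ≤ C := by
  rcases lt_or_eq_of_le (h.gate.2 j hj).2 with hj1 | rfl
  · obtain ⟨σ0, _, hm, _, _, hb, _⟩ := cy_fw_b_split W h hj hj1
    rw [← hb]
    exact hg.2.2 σ0 hm
  · rw [h.k_one.2.2]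
    exact hg.2.1

/-- the state entering a gate -/
theorem cy_fw_pre_eq (W : SfMD P) (j : ℝ) (m : ℕ) : W.pre j m = W.E.at' (W.k j) m (W.s1 j) := rfl

/-! ## LEAF L-256-FW-B2 : the structure after an insertion -/

/-- PLAN: `valid`: `cy_fw_ins_valid` with `cy_fw_cut`.   `k_one`: `ps j 1 = pos 1 + 1` (`¬ 1 < j`), length of the new stack.   `k_mono`: cases on `i < j`, `i' < j`.
`stage`: for `i < j`: `pos i < pos j` (`h.k_mono`), `List.getElem?_append_left`, `List.getElem?_take`; for `j ≤ i`: `pos j ≤ pos i`, index `pos i + 1` in `s1 ++ σ :: s2` is index `pos i - pos j` of `s2` (`List.getElem?_append_right`, `List.getElem?_drop`; `length s1 = pos j` as `pos j ≤ length`).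
All the other fields do not see the stack: they are the fields of `h` (`rfl`-transport). -/
theorem cy_fw_ins_str (W : SfMD P) {tq : P.Tst → CyT} (h : W.Str tq) {j : ℝ} (hj : j ∈ W.G) (σ : Stg P) (hσ : σ.k = W.k j) (hM : ∀ i, IsMask (σ.M i)) :
    (W.ins j σ).Str tq := by
  have hc := cy_fw_cut W h hj
  have hlen := cy_fw_b_len W h hj
  have hple := cy_fw_b_pos_le W h hj
  have hj1 : ¬ (1 : ℝ) < j := not_lt.2 (h.gate.2 j hj).2
  refine { valid := cy_fw_ins_valid W.E h.valid hc σ hσ hM, gate := h.gate, k_one := ⟨h.k_one.1, ?_, h.k_one.2.2⟩, k_rg := h.k_rg, k_mono := ?_,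
           stage := ?_, zero_one := h.zero_one, final := h.final, meas := h.meas, ne := h.ne, lb_ne := h.lb_ne, nn := h.nn,
           sum_le := h.sum_le, supp := h.supp, iv_in := h.iv_in, ok := h.ok, width := h.width, frame := h.frame }
  · show W.ps j 1 = (W.s1 j ++ σ :: W.s2 j).length
    unfold SfMD.ps
    rw [if_neg hj1, h.k_one.2.1, List.length_append, List.length_cons, hlen]
    unfold SfMD.s2
    rw [List.length_drop]
    omega
  · intro i hi i' hi' hii
    refine ⟨(h.k_mono i hi i' hi' hii).1, ?_⟩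
    have h0 := (h.k_mono i hi i' hi' hii).2
    show W.ps j i < W.ps j i'
    unfold SfMD.ps
    by_cases h1 : i < j
    · by_cases h2 : i' < j
      · rw [if_pos h1, if_pos h2]; exact h0
      · rw [if_pos h1, if_neg h2]; omega
    · have h2 : ¬ i' < j := fun h2 => h1 (hii.trans h2)
      rw [if_neg h1, if_neg h2]; omega
  · intro i hi hi1
    obtain ⟨σ0, h1, h2⟩ := h.stage i hi hi1
    refine ⟨σ0, ?_, h2⟩
    show (W.s1 j ++ σ :: W.s2 j)[W.ps j i]? = some σ0
    unfold SfMD.ps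
    by_cases hij : i < j
    · have h0 := (h.k_mono i hi j hj hij).2
      rw [if_pos hij, List.getElem?_append_left (by rw [hlen]; exact h0)]
      unfold SfMD.s1
      rw [List.getElem?_take_of_lt h0]
      exact h1
    · have h0 : W.pos j ≤ W.pos i := by
        rcases lt_or_eq_of_le (not_lt.1 hij) with h3 | h3
        · exact (h.k_mono j hj i hi h3).2.le
        · rw [h3]
      rw [if_neg hij, List.getElem?_append_right (by rw [hlen]; omega), hlen]
      have h5 : W.pos i + 1 - W.pos j = (W.pos i - W.pos j) + 1 := by omega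
      rw [h5, List.getElem?_cons_succ]
      unfold SfMD.s2
      rw [List.getElem?_drop]
      have h6 : W.pos j + (W.pos i - W.pos j) = W.pos i := by omega
      rw [h6]
      exact h1

/-! ## LEAF L-256-FW-B3 : what an insertion keeps -/

theorem cy_fw_ins_sub (W : SfMD P) (j : ℝ) (σ : Stg P) : W.E.st.Sublist (W.s1 j ++ σ :: W.s2 j) ∧ (W.s1 j ++ σ :: W.s2 j).length = W.E.st.length + 1 := by
  constructor
  · have h1 : W.E.st = W.s1 j ++ W.s2 j := (List.take_append_drop _ _).symm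
    conv_lhs => rw [h1]
    exact (List.sublist_cons_self σ _).append_left _
  · have h1 : (W.s1 j ++ W.s2 j).length = W.E.st.length := by
      unfold SfMD.s1 SfMD.s2
      rw [List.take_append_drop]
    rw [List.length_append] at h1
    rw [List.length_append, List.length_cons]
    omega

/-- nothing changes up to the gates `< j` -/
theorem cy_fw_ins_keep (W : SfMD P) {tq : P.Tst → CyT} (h : W.Str tq) {j : ℝ} (hj : j ∈ W.G) (σ : Stg P) {i : ℝ} (hi : i ∈ W.G) (hij : i < j) :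
    W.ps j i = W.pos i ∧ (W.s1 j ++ σ :: W.s2 j).take (W.pos i + 1) = W.E.st.take (W.pos i + 1) := by
  have h0 := (h.k_mono i hi j hj hij).2
  refine ⟨if_pos hij, ?_⟩
  rw [List.take_append_of_le_length (by rw [cy_fw_b_len W h hj]; omega)]
  unfold SfMD.s1
  rw [List.take_take, min_eq_left (by omega)]

/-- the states entering the gates `< j` -/
theorem cy_fw_ins_pre_lt (W : SfMD P) {tq : P.Tst → CyT} (h : W.Str tq) {j : ℝ} (hj : j ∈ W.G) (σ : Stg P) {i : ℝ} (hi : i ∈ W.G) (hij : i < j) (m : ℕ) :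
    (W.ins j σ).pre i m = W.pre i m := by
  obtain ⟨h1, h2⟩ := cy_fw_ins_keep W h hj σ hi hij
  have h3 : (W.s1 j ++ σ :: W.s2 j).take (W.pos i) = W.E.st.take (W.pos i) := by
    have := congrArg (List.take (W.pos i)) h2
    rwa [List.take_take, List.take_take, min_eq_left (by omega)] at this
  show Xp.run (W.k i) m ((W.s1 j ++ σ :: W.s2 j).take (W.ps j i)) W.E.v = Xp.run (W.k i) m (W.E.st.take (W.pos i)) W.E.v
  rw [h1, h3]

/-- the state entering the gate `j` is the state after the inserted stage.   PLAN: `ps j j = pos j + 1`, `take (pos j + 1) (s1 ++ σ :: s2) = s1 ++ [σ]` (`length s1 = pos j`: `pos j ≤ length`, from `h.k_mono`, `h.k_one`). -/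
theorem cy_fw_ins_pre_eq (W : SfMD P) {tq : P.Tst → CyT} (h : W.Str tq) {j : ℝ} (hj : j ∈ W.G) (σ : Stg P) (m : ℕ) :
    (W.ins j σ).pre j m = (W.ins j σ).E.at' (W.k j) m (W.s1 j ++ [σ]) := by
  have hlen := cy_fw_b_len W h hj
  have h1 : W.ps j j = W.pos j + 1 := if_neg (lt_irrefl j)
  have h3 : (W.s1 j ++ σ :: W.s2 j).take (W.pos j + 1) = W.s1 j ++ [σ] := by
    rw [List.take_append, hlen, List.take_of_length_le (by rw [hlen]; omega)]
    have : W.pos j + 1 - W.pos j = 1 := by omega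
    rw [this]
    rfl
  show Xp.run (W.k j) m ((W.s1 j ++ σ :: W.s2 j).take (W.ps j j)) W.E.v = Xp.run (W.k j) m (W.s1 j ++ [σ]) W.E.v
  rw [h1, h3]

/-- more generally: a new stack which agrees with the old one up to the gate `i` gives the same state entering the gate `i` -/
theorem cy_fw_re_pre (W : SfMD P) (st' : List (Stg P)) (pos' : ℝ → ℕ) {i : ℝ} (h1 : pos' i = W.pos i) (h2 : st'.take (W.pos i + 1) = W.E.st.take (W.pos i + 1)) (m : ℕ) :
    (W.re st' pos').pre i m = W.pre i m := by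
  have h3 : st'.take (W.pos i) = W.E.st.take (W.pos i) := by
    have := congrArg (List.take (W.pos i)) h2
    rwa [List.take_take, List.take_take, min_eq_left (by omega)] at this
  show Xp.run (W.k i) m (st'.take (pos' i)) W.E.v = Xp.run (W.k i) m (W.E.st.take (W.pos i)) W.E.v
  rw [h1, h3]

/-! ## LEAF L-256-FW-B4 : the final gate, the read mass -/

/-- the gate `1` is the final assignment -/
theorem cy_fw_final (W : SfMD P) {tq : P.Tst → CyT} (h : W.Str tq) :
    W.E.tw = ∑ l, P.wt (W.ts 1 l) ∧ W.tot 1 = W.E.tm ∧ ∀ m, W.pre 1 m = W.E.fin m := by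
  obtain ⟨e, he⟩ := h.final
  have hpre : ∀ m, W.pre 1 m = W.E.fin m := by
    intro m
    show Xp.run (W.k 1) m (W.E.st.take (W.pos 1)) W.E.v = Xp.run W.E.kf m W.E.st W.E.v
    rw [h.k_one.1, h.k_one.2.1, List.take_length]
  refine ⟨?_, ?_, hpre⟩
  · unfold Xp.tw Xp.w
    rw [← Equiv.sum_comp e]
    exact Finset.sum_congr rfl fun l _ => by rw [(he l).2.1]
  · unfold SfMD.tot Xp.tm
    rw [← Equiv.sum_comp e]
    refine Finset.sum_congr rfl fun l _ => ?_
    unfold SfMD.m Xp.m SfMD.T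
    rw [(he l).1, (he l).2.2, hpre, h.k_one.1, h.k_one.2.2]

/-- the read mass of a gate `j < 1` is the energy read by its mask.
PLAN: `σ.M m = Σ_l [iv l = m] th l` (`gn_en_sum`; each summand is a mask: `h.meas`, `h.nn`, `h.sum_le`); exchange the sums, `h.iv_in` + `cy_fw_ivs`: `Σ_{m ∈ ivs} [iv l = m] c l = c l`. -/
theorem cy_fw_tot (W : SfMD P) {tq : P.Tst → CyT} (h : W.Str tq) (hL : 0 < W.E.L) {j : ℝ} (hj : j ∈ W.G) (σ : Stg P) (hk : σ.k = W.k j) (hb : σ.b = W.gb j)
    (hM : ∀ m x, σ.M m x = ∑ l, if W.iv j l = m then W.th j l x else 0) :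
    W.tot j = ∑ m ∈ ivs W.E.k0 W.E.i0 σ.k, P.en (tmL σ.k m) σ.k σ.b (σ.M m) (W.E.at' σ.k m (W.s1 j)) := by
  have hmask : ∀ m l, IsMask (fun x => if W.iv j l = m then W.th j l x else 0) := by
    intro m l
    by_cases hc : W.iv j l = m
    · simp only [if_pos hc]
      refine ⟨h.meas j hj l, fun x => ⟨h.nn j hj l x, ?_⟩⟩
      refine le_trans ?_ (h.sum_le j hj m x)
      have h1 := Finset.single_le_sum (f := fun l' => if W.iv j l' = m then W.th j l' x else 0)
        (fun l' _ => by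
          show 0 ≤ if W.iv j l' = m then W.th j l' x else 0
          split_ifs
          · exact h.nn j hj l' x
          · exact le_rfl) (Finset.mem_univ l)
      simpa only [if_pos hc] using h1
    · simp only [if_neg hc]
      exact ⟨measurable_const, fun _ => ⟨le_rfl, zero_le_one⟩⟩
  have hen : ∀ m, P.en (tmL σ.k m) σ.k σ.b (σ.M m) (W.E.at' σ.k m (W.s1 j))
      = ∑ l, if W.iv j l = m then W.m j l else 0 := by
    intro m
    have h1 : σ.M m = fun x => ∑ l ∈ Finset.univ, (fun l x => if W.iv j l = m then W.th j l x else 0) l x := funext (hM m)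
    rw [h1, gn_en_sum _ _ _ _ _ (fun l _ => hmask m l)]
    refine Finset.sum_congr rfl fun l _ => ?_
    by_cases hc : W.iv j l = m
    · simp only [if_pos hc]
      unfold SfMD.m SfMD.T
      rw [hc, hk, hb]
      rfl
    · simp only [if_neg hc]
      unfold PkSys.en
      simp
  rw [Finset.sum_congr rfl fun m _ => hen m, Finset.sum_comm]
  unfold SfMD.tot
  refine Finset.sum_congr rfl fun l _ => ?_
  rw [Finset.sum_ite_eq, if_pos]
  have := h.iv_in j hj l
  rw [cy_fw_ivs W h hL hj, ← hk] at this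
  exact this

/-! ## LEAF L-256-FW-B5 : monotonicity in the accuracy, transport -/

theorem cy_fw_pre_mono {Y : SfCy} {p : Y.M.Par} {W : SfMD (Y.M.sys p)} {pe de Ls ε a a' : ℝ} (h : W.Pre Y p pe de Ls ε a) (ha : a ≤ a') :
    W.Pre Y p pe de Ls ε a' := by
  have hs := gn_s_pos W.E
  have hv := h.str.valid
  have hn : (0 : ℝ) ≤ W.E.n := Nat.cast_nonneg _
  refine ⟨h.str, fun i hi => (h.depth i hi).trans (mul_le_mul_of_nonneg_right ha hn), fun i hi => (h.cnt i hi).trans ?_, fun i j hij => ?_,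
    fun i j hij l l' x x' h1 h2 h3 => ?_⟩
  · have h1 : W.E.s ^ (-a) ≤ W.E.s ^ (-a') := gn_s_anti W.E (by linarith)
    have h2 : 0 ≤ W.E.e / W.E.ka := (div_pos hv.e_pos hv.ka_pos).le
    have h3 : 0 ≤ W.E.s ^ (-((pe + de) * i)) := (Real.rpow_pos_of_pos hs _).le
    exact mul_le_mul_of_nonneg_right (mul_le_mul_of_nonneg_right h1 h2) h3
  · obtain ⟨h1, h2, h3, h4⟩ := h.wr i j hij
    have h5 : W.E.s ^ (Ls * (j - i) + a') ≤ W.E.s ^ (Ls * (j - i) + a) := gn_s_anti W.E (by linarith)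
    have h6 : W.E.s ^ (-(Ls * (j - i) + a)) ≤ W.E.s ^ (-(Ls * (j - i) + a')) := gn_s_anti W.E (by linarith)
    exact ⟨h5.trans h1, h2, h5.trans h3, h4.trans h6⟩
  · obtain ⟨h4, h5⟩ := h.mm i j hij l l' x x' h1 h2 h3
    have h6 : W.E.s ^ (-(Ls * (j - i) + a)) ≤ W.E.s ^ (-(Ls * (j - i) + a')) := gn_s_anti W.E (by linarith)
    obtain ⟨hr, hf⟩ := h.str.frame.2.2 j hij.2.1
    exact ⟨h4.trans (mul_le_mul_of_nonneg_left h6 (by positivity)), h5.trans (mul_le_mul_of_nonneg_left h6 (by positivity))⟩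

theorem cy_fw_prep_mono {Y : SfCy} (hT : ∀ p, Y.M.gd p → (Y.M.sys p).Tight) {p : Y.M.Par} (hp : Y.M.gd p) {W : SfMD (Y.M.sys p)} (hv : W.E.Valid) {pe de a a' i : ℝ}
    (h : W.Prep Y p pe de a i) (ha : a ≤ a') : W.Prep Y p pe de a' i := by
  have hs := gn_s_pos W.E
  have h1 : W.E.s ^ (-a) ≤ W.E.s ^ (-a') := gn_s_anti W.E (by linarith)
  refine ⟨h.1.trans ?_, fun m hm => gn_reg_mono (hT p hp) (h.2 m hm) ?_⟩
  · exact mul_le_mul_of_nonneg_right (mul_le_mul_of_nonneg_right h1 hv.e_pos.le) (Real.rpow_pos_of_pos hs _).le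
  · exact mul_le_mul_of_nonneg_right (mul_le_mul_of_nonneg_right h1 hv.ka_pos.le) (Real.rpow_pos_of_pos hs _).le

/-- `Pre` sees the stack only through `Str` -/
theorem cy_fw_pre_re {Y : SfCy} {p : Y.M.Par} {W : SfMD (Y.M.sys p)} {pe de Ls ε a : ℝ} (h : W.Pre Y p pe de Ls ε a) (st' : List (Stg (Y.M.sys p))) (pos' : ℝ → ℕ)
    (hs : (W.re st' pos').Str (Y.tq p)) : (W.re st' pos').Pre Y p pe de Ls ε a :=
  ⟨hs, h.depth, h.cnt, h.wr, h.mm⟩

/-- `Prep` at a gate sees only the stack before the gate -/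
theorem cy_fw_prep_re {Y : SfCy} {p : Y.M.Par} {W : SfMD (Y.M.sys p)} {pe de a i : ℝ} (h : W.Prep Y p pe de a i) (st' : List (Stg (Y.M.sys p))) (pos' : ℝ → ℕ)
    (h1 : pos' i = W.pos i) (h2 : st'.take (W.pos i + 1) = W.E.st.take (W.pos i + 1)) : (W.re st' pos').Prep Y p pe de a i := by
  have hp : ∀ m, (W.re st' pos').pre i m = W.pre i m := cy_fw_re_pre W st' pos' h1 h2
  constructor
  · show ∑ m ∈ W.ivs i, ‖(W.re st' pos').pre i m‖ ^ 2 ≤ W.E.s ^ (-a) * W.E.e * W.E.s ^ (-(de * i))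
    simp only [hp]
    exact h.1
  · intro m hm
    show (Y.M.sys p).Reg (tmL (W.k i) m) (W.k i) (W.gb i) (W.E.s ^ (-a) * W.E.ka * W.E.s ^ (pe * i)) ((W.re st' pos').pre i m)
    rw [hp]
    exact h.2 m hm

/-! ## visible gates (request of helper19: `CyForwardV`) -/

/-- the part of `Pre` that FWD uses, on a set `V ∋ 1` of VISIBLE gates (the other gates of `W.G` are ordinary stages) -/
structure SfMD.PreV (Y : SfCy) (p : Y.M.Par) (W : SfMD (Y.M.sys p)) (V : Finset ℝ) (pe de a : ℝ) : Prop where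
  str : W.Str (Y.tq p)
  one : (1 : ℝ) ∈ V
  sub : V ⊆ W.G
  depth : ∀ i ∈ V, |((W.k i : ℝ) - W.E.k0) - i * W.E.n| ≤ a * W.E.n
  cnt : ∀ i ∈ V, ∑ l, (Y.M.sys p).wt (W.ts i l) ≤ W.E.s ^ (-a) * (W.E.e / W.E.ka) * W.E.s ^ (-((pe + de) * i))

theorem cy_fw_prev_of {Y : SfCy} {p : Y.M.Par} {W : SfMD (Y.M.sys p)} {pe de Ls ε a : ℝ} (h : W.Pre Y p pe de Ls ε a) : W.PreV Y p W.G pe de a :=
  ⟨h.str, h.str.gate.1, Finset.Subset.refl _, h.depth, h.cnt⟩

theorem cy_fw_prev_mono {Y : SfCy} {p : Y.M.Par} {W : SfMD (Y.M.sys p)} {V : Finset ℝ} {pe de a a' : ℝ} (h : W.PreV Y p V pe de a) (ha : a ≤ a') :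
    W.PreV Y p V pe de a' := by
  have hs := gn_s_pos W.E
  have hv := h.str.valid
  have hn : (0 : ℝ) ≤ W.E.n := Nat.cast_nonneg _
  refine ⟨h.str, h.one, h.sub, fun i hi => (h.depth i hi).trans (mul_le_mul_of_nonneg_right ha hn), fun i hi => (h.cnt i hi).trans ?_⟩
  have h1 : W.E.s ^ (-a) ≤ W.E.s ^ (-a') := gn_s_anti W.E (by linarith)
  have h2 : 0 ≤ W.E.e / W.E.ka := (div_pos hv.e_pos hv.ka_pos).le
  have h3 : 0 ≤ W.E.s ^ (-((pe + de) * i)) := (Real.rpow_pos_of_pos hs _).le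
  exact mul_le_mul_of_nonneg_right (mul_le_mul_of_nonneg_right h1 h2) h3

/-- `PreV` sees the stack only through `Str` -/
theorem cy_fw_prev_re {Y : SfCy} {p : Y.M.Par} {W : SfMD (Y.M.sys p)} {V : Finset ℝ} {pe de a : ℝ} (h : W.PreV Y p V pe de a) (st' : List (Stg (Y.M.sys p))) (pos' : ℝ → ℕ)
    (hs : (W.re st' pos').Str (Y.tq p)) : (W.re st' pos').PreV Y p V pe de a :=
  ⟨hs, h.one, h.sub, h.depth, h.cnt⟩

end Claimed.Agent.R256
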