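-- KEEP
import Claimed.Agent.R256.Cyl.FwdB

/-!
# Row 256 (LS paper), CYL, unit FWD, file C : THE BENCHMARKS          (architect helper129; prefix `cy_fw_`)

Paper: 02 l.601-611 (read mass at a gate), l.747-760 (forward regularisation), l.463-468 (end points).     `κ_i = κ s^(p0 i)`, `E_i = e s^(-d0 i)`;  `s^y = 2^(-y n)` (`gn_s_rpow`);  `d0 = Γ + (p0-1)/2`, `1 ≤ p0 ≤ 3`, `0 < d0 ≤ 1`.
* generic (model level): `cy_fw_fin_bench` (a preserving peel level AT THE FINAL CUT: `β ≤ κ s^(p0-ξ)`, `raw ≤ e s^(-d0-ξ)`; replaces `gn_ss2`, which needs `σ.k - k0 ≤ (1-a0) n`), `cy_fw_persist` (read mass of a stage whose input is `κ_a`-regular).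
* documented experiments: `cy_fw_prep_zero`, `cy_fw_prep_lvl`, `cy_fw_bench_int`, `cy_fw_bench_fin`  ⟹ (ii);   `cy_fw_read_int`, `cy_fw_read_fin` ⟹ (iii).
-/

set_option autoImplicit false

namespace Claimed.Agent.R256

open MeasureTheory

/-! ## LEAF L-256-FW-C1 : a peel level at the final cut, model facts -/

/-- after a peel level at the final cut every label has `m ≤ Cr 2β w`, and the labels read at most the post energy.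
PLAN: `Cr` from `gn_lvl_post_reg M g hG C`: `φ_i = at' kf i (st1 ++ [σ])` is `Cr 2β`-regular at the generation `σ.b + 1`, hence at `E.bT` (`cy_fw_reg_gen`); `E.fin i = φ_i` (`E.st = st1 ++ [σ]`, `Xp.fin`, `Xp.at'`, `σ.k = kf`);
`gn_m_le_ms`, `hE.ts_ok`, `hE.iv_in` + `gn_mem_ivs`.    `tm = Σ_{i ∈ ivs k0 i0 kf} Σ_l [iv l = i] m l ≤ Σ_i ‖fin i‖²` (`gn_m_sum_iv`; as in the plan of `gn_total`). -/
theorem cy_fw_fin_m (M : Mdl) (g : ℝ) (hG : M.Gen g) (hpl : ∀ p, M.gd p → ∀ b, (M.sys p).Pl b = Set.univ) (C : ℕ) :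
    ∃ Cr : ℝ, 1 ≤ Cr ∧ ∀ (p : M.Par) (E : Xp (M.sys p)), M.gd p → E.Valid → E.GenLe C →
      ∀ (st1 : List (Stg (M.sys p))) (σ : Stg (M.sys p)) (β : ℝ), E.LvlAt st1 σ [] β → σ.k = E.kf →
        (∀ l, E.m l ≤ Cr * (2 * β) * E.w l) ∧ E.tm ≤ E.post st1 σ := by
  obtain ⟨Cr, hCr, H⟩ := gn_lvl_post_reg M g hG C
  refine ⟨Cr, hCr, fun p E hp hE hg st1 σ β hl hk => ?_⟩
  have hT := hG.tight p hp
  have hfin : ∀ i, E.fin i = E.at' σ.k i (st1 ++ [σ]) := by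
    intro i
    unfold Xp.fin Xp.at'
    rw [hl.cut.1, hk]
  constructor
  · intro l
    have hi : E.iv l ∈ ivs E.k0 E.i0 σ.k := by
      rw [hk, gn_mem_ivs]
      exact hE.iv_in l
    have h1 := (H p E hp hE hg st1 [] σ β hl (E.iv l) hi).2 E.bT (hg.2.1.trans (Nat.le_succ _))
    have h2 := gn_m_le_ms hT E hE l
    rw [hfin, ← hk] at h2
    exact h2.trans (h1 (E.ts l) (by rw [hk]; exact hE.ts_ok l))
  · unfold Xp.tm Xp.post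
    have h1 : ∑ l, E.m l = ∑ i ∈ ivs E.k0 E.i0 E.kf, ∑ l, (if E.iv l = i then E.m l else 0) := by
      rw [Finset.sum_comm]
      refine Finset.sum_congr rfl fun l _ => ?_
      rw [Finset.sum_ite_eq, if_pos]
      rw [gn_mem_ivs]
      exact hE.iv_in l
    rw [h1, ← hk]
    refine Finset.sum_le_sum fun i _ => ?_
    have h2 := gn_m_sum_iv hT E hE i
    rw [hfin] at h2
    exact h2

/-- the two upper bounds of the functional.   `x = β/κ`, `Z = raw/e`, `c = 2 Cr`.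
PLAN: `gn_rd_eq`, `gn_tr_le` (`ρ = cβ`): `rd ≤ √(cβ) tm ≤ √(cβ) raw`; `gn_tr_le_w`: `rd ≤ (cβ)^(3/2) tw`; `val = 2^(n/2)/(e√κ) rd`; `√(cβ)/√κ = √(c β/κ)`, `(cβ)^(3/2)/(κ√κ) = (c β/κ)^(3/2)`. -/
theorem cy_fw_fin_val {P : PkSys} (E : Xp P) (hE : E.Valid) {c β R : ℝ} (hc : 0 ≤ c) (hβ : 0 ≤ β) (hm : ∀ l, E.m l ≤ c * β * E.w l) (hR : E.tm ≤ R) :
    E.val ≤ 2 ^ ((E.n : ℝ) / 2) * Real.sqrt (c * (β / E.ka)) * (R / E.e) ∧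
    E.val ≤ 2 ^ ((E.n : ℝ) / 2) * (c * (β / E.ka)) ^ (3 / 2 : ℝ) * (E.tw * E.ka / E.e) := by
  have he := hE.e_pos
  have hka := hE.ka_pos
  have hsk : 0 < Real.sqrt E.ka := Real.sqrt_pos.mpr hka
  have hcβ : 0 ≤ c * β := mul_nonneg hc hβ
  have h2n : 0 < (2 : ℝ) ^ ((E.n : ℝ) / 2) := Real.rpow_pos_of_pos two_pos _
  have hpre : 0 ≤ 2 ^ ((E.n : ℝ) / 2) / (E.e * Real.sqrt E.ka) := by positivity
  have hr1 : E.rd ≤ Real.sqrt (c * β) * R := by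
    rw [gn_rd_eq]
    calc ∑ l, E.tr l ≤ ∑ l, Real.sqrt (c * β) * E.m l := Finset.sum_le_sum fun l _ => gn_tr_le E hE l (hm l)
      _ = Real.sqrt (c * β) * E.tm := by rw [← Finset.mul_sum]; rfl
      _ ≤ Real.sqrt (c * β) * R := mul_le_mul_of_nonneg_left hR (Real.sqrt_nonneg _)
  have hr2 : E.rd ≤ (c * β) ^ (3 / 2 : ℝ) * E.tw := by
    rw [gn_rd_eq]
    calc ∑ l, E.tr l ≤ ∑ l, (c * β) ^ (3 / 2 : ℝ) * E.w l := Finset.sum_le_sum fun l _ => gn_tr_le_w E hE l hcβ (hm l)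
      _ = (c * β) ^ (3 / 2 : ℝ) * E.tw := by rw [← Finset.mul_sum]; rfl
  have hcb : c * (β / E.ka) = c * β / E.ka := by ring
  constructor
  · unfold Xp.val
    calc 2 ^ ((E.n : ℝ) / 2) / (E.e * Real.sqrt E.ka) * E.rd
        ≤ 2 ^ ((E.n : ℝ) / 2) / (E.e * Real.sqrt E.ka) * (Real.sqrt (c * β) * R) := mul_le_mul_of_nonneg_left hr1 hpre
      _ = 2 ^ ((E.n : ℝ) / 2) * Real.sqrt (c * (β / E.ka)) * (R / E.e) := by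
        rw [hcb, Real.sqrt_div hcβ]
        field_simp
  · unfold Xp.val
    calc 2 ^ ((E.n : ℝ) / 2) / (E.e * Real.sqrt E.ka) * E.rd
        ≤ 2 ^ ((E.n : ℝ) / 2) / (E.e * Real.sqrt E.ka) * ((c * β) ^ (3 / 2 : ℝ) * E.tw) := mul_le_mul_of_nonneg_left hr2 hpre
      _ = 2 ^ ((E.n : ℝ) / 2) * (c * (β / E.ka)) ^ (3 / 2 : ℝ) * (E.tw * E.ka / E.e) := by
        have h32 : E.ka ^ (3 / 2 : ℝ) = E.ka * Real.sqrt E.ka := by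
          rw [show (3 / 2 : ℝ) = 1 + 1 / 2 by norm_num, Real.rpow_add hka, Real.rpow_one, ← Real.sqrt_eq_rpow]
        rw [hcb, Real.div_rpow hcβ hka.le, h32]
        field_simp

/-! ## LEAF L-256-FW-C2 : numerics of the final cut -/

/-- PURE REAL NUMBERS.   `N = n`, `x = β/κ`, `Z = raw/e`, `V = val`, `c = 2 Cr`, `d = Γ + (p-1)/2`.
(1) if `2^(-(p-ξ)N) ≤ x` then (h4), (h1), (h5): `2^((Γ-τ)N) ≤ √c 2^((Γ-τ1)N)`, against `hc1`.     (2) (h2), (h5): `(c x)^(3/2) ≥ 2^(-(3p/2 + 2τ)N)`, so `√x ≥ 2^(-(p/2 + 2τ/3)N)/√c`; (h3): `Z ≤ √c 2^((d + ε + 2τ/3)N) ≤ 2^((d+ξ)N)` by `hc2`. -/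
theorem cy_fw_fin_num {N x Z V c Γ p ξ τ τ1 ε : ℝ} (hN : 0 ≤ N) (hx : 0 < x) (hZ : 0 ≤ Z) (hc : 1 ≤ c)
    (h1 : V ≤ 2 ^ (N / 2) * Real.sqrt (c * x) * Z)
    (h2 : V ≤ 2 ^ (N / 2) * (c * x) ^ (3 / 2 : ℝ) * 2 ^ ((p + (Γ + (p - 1) / 2) + τ) * N))
    (h3 : Z * Real.sqrt x ≤ 2 ^ ((Γ + ε - 1 / 2) * N))
    (h4 : 2 ^ (-((p - ξ) * N)) ≤ x → Z * Real.sqrt x ≤ 2 ^ ((Γ - τ1 - 1 / 2) * N))
    (h5 : 2 ^ ((Γ - τ) * N) ≤ V)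
    (hc1 : Real.sqrt c < 2 ^ ((τ1 - τ) * N)) (hc2 : Real.sqrt c ≤ 2 ^ ((ξ - ε - 2 * τ / 3) * N)) :
    x ≤ 2 ^ (-((p - ξ) * N)) ∧ Z ≤ 2 ^ (((Γ + (p - 1) / 2) + ξ) * N) := by
  have h2pos : ∀ t : ℝ, 0 < (2 : ℝ) ^ t := fun t => Real.rpow_pos_of_pos two_pos t
  have hadd : ∀ s t : ℝ, (2 : ℝ) ^ s * 2 ^ t = 2 ^ (s + t) := fun s t => (Real.rpow_add two_pos s t).symm
  have hc0 : 0 < c := by linarith
  have hsc : 0 < Real.sqrt c := Real.sqrt_pos.2 hc0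
  have hsx : 0 < Real.sqrt x := Real.sqrt_pos.2 hx
  have hscx : Real.sqrt (c * x) = Real.sqrt c * Real.sqrt x := Real.sqrt_mul hc0.le x
  have hN2 := h2pos (N / 2)
  constructor
  · by_contra hcon
    have hlt : 2 ^ (-((p - ξ) * N)) ≤ x := (not_le.1 hcon).le
    have h4' := h4 hlt
    have h6 : (2 : ℝ) ^ ((Γ - τ) * N) ≤ Real.sqrt c * 2 ^ ((Γ - τ1) * N) := by
      calc (2 : ℝ) ^ ((Γ - τ) * N) ≤ V := h5
        _ ≤ 2 ^ (N / 2) * Real.sqrt (c * x) * Z := h1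
        _ = 2 ^ (N / 2) * Real.sqrt c * (Z * Real.sqrt x) := by rw [hscx]; ring
        _ ≤ 2 ^ (N / 2) * Real.sqrt c * 2 ^ ((Γ - τ1 - 1 / 2) * N) := mul_le_mul_of_nonneg_left h4' (by positivity)
        _ = Real.sqrt c * (2 ^ (N / 2) * 2 ^ ((Γ - τ1 - 1 / 2) * N)) := by ring
        _ = Real.sqrt c * 2 ^ ((Γ - τ1) * N) := by
            rw [hadd]
            congr 2
            ring
    have e : (2 : ℝ) ^ ((Γ - τ) * N) = 2 ^ ((τ1 - τ) * N) * 2 ^ ((Γ - τ1) * N) := by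
      rw [hadd]
      congr 1
      ring
    rw [e] at h6
    have h7 := le_of_mul_le_mul_right h6 (h2pos _)
    linarith
  · have hcx : 0 < c * x := mul_pos hc0 hx
    have h6 : (2 : ℝ) ^ ((-(2 * τ) - 3 * p / 2) * N) ≤ (c * x) ^ (3 / 2 : ℝ) := by
      have h7 : (2 : ℝ) ^ ((Γ - τ) * N) ≤ (c * x) ^ (3 / 2 : ℝ) * 2 ^ (N / 2 + (p + (Γ + (p - 1) / 2) + τ) * N) := by
        calc (2 : ℝ) ^ ((Γ - τ) * N) ≤ V := h5
          _ ≤ 2 ^ (N / 2) * (c * x) ^ (3 / 2 : ℝ) * 2 ^ ((p + (Γ + (p - 1) / 2) + τ) * N) := h2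
          _ = (c * x) ^ (3 / 2 : ℝ) * (2 ^ (N / 2) * 2 ^ ((p + (Γ + (p - 1) / 2) + τ) * N)) := by ring
          _ = (c * x) ^ (3 / 2 : ℝ) * 2 ^ (N / 2 + (p + (Γ + (p - 1) / 2) + τ) * N) := by rw [hadd]
      have e : (2 : ℝ) ^ ((Γ - τ) * N) = 2 ^ ((-(2 * τ) - 3 * p / 2) * N) * 2 ^ (N / 2 + (p + (Γ + (p - 1) / 2) + τ) * N) := by
        rw [hadd]
        congr 1
        ring
      rw [e] at h7
      exact le_of_mul_le_mul_right h7 (h2pos _)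
    have h8 : (2 : ℝ) ^ ((-(2 * τ / 3) - p / 2) * N) ≤ Real.sqrt c * Real.sqrt x := by
      have h9 := Real.rpow_le_rpow (h2pos _).le h6 (by norm_num : (0 : ℝ) ≤ 1 / 3)
      rw [← Real.rpow_mul two_pos.le, ← Real.rpow_mul hcx.le] at h9
      have e1 : (3 / 2 : ℝ) * (1 / 3) = 1 / 2 := by norm_num
      have e2 : (-(2 * τ) - 3 * p / 2) * N * (1 / 3) = (-(2 * τ / 3) - p / 2) * N := by ring
      rw [e1, e2, ← Real.sqrt_eq_rpow, hscx] at h9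
      exact h9
    -- `Z * 2^(..) ≤ Z √c √x ≤ √c 2^(..)`
    have h10 : Z * 2 ^ ((-(2 * τ / 3) - p / 2) * N) ≤ 2 ^ ((ξ - ε - 2 * τ / 3) * N) * 2 ^ ((Γ + ε - 1 / 2) * N) := by
      calc Z * 2 ^ ((-(2 * τ / 3) - p / 2) * N) ≤ Z * (Real.sqrt c * Real.sqrt x) := mul_le_mul_of_nonneg_left h8 hZ
        _ = Real.sqrt c * (Z * Real.sqrt x) := by ring
        _ ≤ 2 ^ ((ξ - ε - 2 * τ / 3) * N) * 2 ^ ((Γ + ε - 1 / 2) * N) := mul_le_mul hc2 h3 (by positivity) (h2pos _).le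
    have e3 : (2 : ℝ) ^ ((ξ - ε - 2 * τ / 3) * N) * 2 ^ ((Γ + ε - 1 / 2) * N)
        = 2 ^ (((Γ + (p - 1) / 2) + ξ) * N) * 2 ^ ((-(2 * τ / 3) - p / 2) * N) := by
      rw [hadd, hadd]
      congr 1
      ring
    rw [e3] at h10
    exact le_of_mul_le_mul_right h10 (h2pos _)

/-! ## LEAF L-256-FW-C3 : the benchmarks at the final cut (assembly) -/

/-- **a preserving peel level at the final cut.**
PLAN: `τ1` from `gn_ss2_pre_min` at `ξ`; `ε = ξ/4`, `τ = min (τ1/2) (ξ/4)`.   Given `C`: `Cr` (`cy_fw_fin_m`), `A, n0` from `gn_ss2_pre C 1 ε`, `gn_ss2_pre_min .. C 1` (`a0 = 1`: `σ.k - k0 = n`), `n0` also with `√(2Cr) < 2^((τ1-τ) n)`, `√(2Cr) ≤ 2^((ξ-ε-2τ/3) n)` (`gn_absorb`).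
`0 < rd` (from `val > 0`), `gn_post_pos`, `gn_post_le_raw`, `gn_lvl_beta_pos`: `0 < β`.   `cy_fw_fin_val` with `c = 2 Cr`, `R = raw`; the weight count: `tw κ/e ≤ s^(-(p0+d0)-τ) = 2^((p0+d0+τ) n)`; `cy_fw_fin_num` with `x = β/κ`, `Z = raw/e`; `Mdl.d0`. -/
theorem cy_fw_fin_bench (M : Mdl) (g : ℝ) (hG : M.Gen g) (hpl : ∀ p, M.gd p → ∀ b, (M.sys p).Pl b = Set.univ) (hΓ : 0 < M.Gam) (ξ : ℝ) (hξ : 0 < ξ) :
    ∃ τ : ℝ, 0 < τ ∧ ∀ C : ℕ, ∃ A n0 : ℕ, ∀ (p : M.Par) (E : Xp (M.sys p)), n0 ≤ E.n → M.Cls C A p E →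
      E.tw ≤ E.e / E.ka * E.s ^ (-(M.p0 + M.d0) - τ) → 2 ^ ((M.Gam - τ) * E.n) ≤ E.val →
      ∀ (st1 : List (Stg (M.sys p))) (σ : Stg (M.sys p)) (β : ℝ), E.LvlAt st1 σ [] β → σ.k = E.kf →
        β ≤ E.ka * E.s ^ (M.p0 - ξ) ∧ E.raw st1 σ ≤ E.e * E.s ^ (-M.d0 - ξ) := by
  obtain ⟨τ1, hτ1, Hmin⟩ := gn_ss2_pre_min M g hG ⊤ M.p0 (gn_pmin_p0 M g hG hΓ) ξ hξ
  obtain ⟨ε, hεd⟩ : ∃ ε, ε = ξ / 4 := ⟨_, rfl⟩
  have hε : 0 < ε := by rw [hεd]; positivity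
  obtain ⟨τ, hτd⟩ : ∃ τ, τ = min (τ1 / 2) (ξ / 4) := ⟨_, rfl⟩
  have hτ : 0 < τ := by rw [hτd]; exact lt_min (by positivity) (by positivity)
  have hτa : τ ≤ τ1 / 2 := by rw [hτd]; exact min_le_left _ _
  have hτb : τ ≤ ξ / 4 := by rw [hτd]; exact min_le_right _ _
  refine ⟨τ, hτ, fun C => ?_⟩
  obtain ⟨Cr, hCr1, HM⟩ := cy_fw_fin_m M g hG hpl C
  obtain ⟨A1, n1, Hpre⟩ := gn_ss2_pre M g hG C 1 ε one_pos hε
  obtain ⟨A2, n2, Hm⟩ := Hmin C 1 one_pos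
  obtain ⟨n3, H3⟩ := gn_absorb (Real.sqrt (2 * Cr) + 1) (τ1 - τ) (by linarith)
  obtain ⟨n4, H4⟩ := gn_absorb (Real.sqrt (2 * Cr)) (ξ - ε - 2 * τ / 3) (by rw [hεd]; linarith)
  refine ⟨max A1 A2, max (max n1 n2) (max n3 n4), fun p E hn hE htw hval st1 σ β hl hk => ?_⟩
  have hn1 : n1 ≤ E.n := le_trans (le_trans (le_max_left _ _) (le_max_left _ _)) hn
  have hn2 : n2 ≤ E.n := le_trans (le_trans (le_max_right _ _) (le_max_left _ _)) hn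
  have hn3 : n3 ≤ E.n := le_trans (le_trans (le_max_left _ _) (le_max_right _ _)) hn
  have hn4 : n4 ≤ E.n := le_trans (le_trans (le_max_right _ _) (le_max_right _ _)) hn
  have hE1 : M.Cls C A1 p E := gn_cls_anti M hG.scale (le_max_left _ _) hE
  have hE2 : M.Cls C A2 p E := gn_cls_anti M hG.scale (le_max_right _ _) hE
  have hV : E.Valid := hE.2.1
  have hT := hG.tight p hE.1
  have he := hV.e_pos
  have hka := hV.ka_pos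
  have hj : ((σ.k - E.k0 : ℕ) : ℝ) = (E.n : ℝ) := by
    rw [hk]
    unfold Xp.kf
    rw [Nat.add_sub_cancel_left]
  have hvalpos : 0 < E.val := lt_of_lt_of_le (gn_two_pos _) hval
  have hrd : 0 < E.rd := by
    unfold Xp.val at hvalpos
    have hf : 0 < 2 ^ ((E.n : ℝ) / 2) / (E.e * Real.sqrt E.ka) := div_pos (gn_two_pos _) (mul_pos he (Real.sqrt_pos.2 hka))
    exact (pos_iff_pos_of_mul_pos hvalpos).1 hf
  have hpost := gn_post_pos E hV hl hrd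
  have hpr := gn_post_le_raw hT E hV hl
  have hraw : 0 < E.raw st1 σ := lt_of_lt_of_le hpost hpr
  have hβ := gn_lvl_beta_pos hT E hV hl hraw
  obtain ⟨hm, htm⟩ := HM p E hE.1 hV hE.2.2.2.1 st1 σ β hl hk
  obtain ⟨v1, v2⟩ := cy_fw_fin_val E hV (c := 2 * Cr) (β := β) (R := E.raw st1 σ) (by linarith) hβ.le
    (fun l => (hm l).trans (le_of_eq (by ring))) (htm.trans hpr)
  have hx : 0 < β / E.ka := div_pos hβ hka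
  have hZ : 0 ≤ E.raw st1 σ / E.e := (div_pos hraw he).le
  have h2 : E.val ≤ 2 ^ ((E.n : ℝ) / 2) * (2 * Cr * (β / E.ka)) ^ (3 / 2 : ℝ) * 2 ^ ((M.p0 + (M.Gam + (M.p0 - 1) / 2) + τ) * (E.n : ℝ)) := by
    refine v2.trans (mul_le_mul_of_nonneg_left ?_ (mul_nonneg (gn_two_pos _).le (Real.rpow_nonneg (by positivity) _)))
    rw [div_le_iff₀ he]
    have e1 : E.s ^ (-(M.p0 + M.d0) - τ) = 2 ^ ((M.p0 + (M.Gam + (M.p0 - 1) / 2) + τ) * (E.n : ℝ)) := by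
      rw [gn_s_rpow]
      unfold Mdl.d0
      congr 1
      ring
    rw [e1] at htw
    calc E.tw * E.ka ≤ (E.e / E.ka * 2 ^ ((M.p0 + (M.Gam + (M.p0 - 1) / 2) + τ) * (E.n : ℝ))) * E.ka := mul_le_mul_of_nonneg_right htw hka.le
      _ = 2 ^ ((M.p0 + (M.Gam + (M.p0 - 1) / 2) + τ) * (E.n : ℝ)) * E.e := by
          field_simp
  have h3 : E.raw st1 σ / E.e * Real.sqrt (β / E.ka) ≤ 2 ^ ((M.Gam + ε - 1 / 2) * (E.n : ℝ)) := by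
    have := Hpre p E hn1 hE1 st1 [] σ β hl hβ (by rw [hj, one_mul])
    rw [hj] at this
    rw [div_mul_eq_mul_div, div_le_iff₀ he]
    linarith
  have h4 : 2 ^ (-((M.p0 - ξ) * (E.n : ℝ))) ≤ β / E.ka → E.raw st1 σ / E.e * Real.sqrt (β / E.ka) ≤ 2 ^ ((M.Gam - τ1 - 1 / 2) * (E.n : ℝ)) := by
    intro hlo
    have hlo' : E.ka * 2 ^ (-((M.p0 - ξ) * ((σ.k - E.k0 : ℕ) : ℝ))) ≤ β := by
      rw [hj]
      rw [le_div_iff₀ hka] at hlo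
      linarith
    have := Hm p E hn2 hE2 le_top st1 [] σ β hl hβ (by rw [hj, one_mul]) hlo'
    rw [hj] at this
    rw [div_mul_eq_mul_div, div_le_iff₀ he]
    linarith
  have hc1 : Real.sqrt (2 * Cr) < 2 ^ ((τ1 - τ) * (E.n : ℝ)) := by
    have := H3 E.n hn3
    linarith
  have hc2 : Real.sqrt (2 * Cr) ≤ 2 ^ ((ξ - ε - 2 * τ / 3) * (E.n : ℝ)) := H4 E.n hn4
  obtain ⟨r1, r2⟩ := cy_fw_fin_num (N := (E.n : ℝ)) (x := β / E.ka) (Z := E.raw st1 σ / E.e) (V := E.val) (c := 2 * Cr) (Γ := M.Gam) (p := M.p0)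
    (ξ := ξ) (τ := τ) (τ1 := τ1) (ε := ε) (Nat.cast_nonneg _) hx hZ (by linarith) v1 h2 h3 h4 hval hc1 hc2
  constructor
  · rw [gn_s_rpow]
    rw [div_le_iff₀ hka] at r1
    linarith
  · rw [gn_s_rpow]
    rw [div_le_iff₀ he] at r2
    have e2 : (2 : ℝ) ^ (-((-M.d0 - ξ) * (E.n : ℝ))) = 2 ^ (((M.Gam + (M.p0 - 1) / 2) + ξ) * (E.n : ℝ)) := by
      unfold Mdl.d0
      congr 1
      ring
    rw [e2]
    linarith

/-! ## LEAF L-256-FW-C4 : persistence of the read mass (generic) -/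

/-- **a stage of a preserving experiment whose input states are `s^-τ κ_a`-regular reads at least `s^ξ E_a`.**
PLAN: `τ3` from `gn_ss3 a0 ξ`, `τ = τ3/2`.   Given `C`: `Cr` from `hG.rep C`, `A, n0` from `gn_ss3`, `n0` with `Cr ≤ 2^(τ n)`.   `ψ_i = at' σ.k i st1`, `φ_i = at' σ.k i (st1 ++ [σ]) = tz .. (σ.M i) ψ_i` (`gn_lvl_at`).
`RegF` of `An ψ_i` (`gn_regF_an`), of `mulR (σ.M i) (An ψ_i)` (`gn_regF_mulR`; masks by `gn_valid_stm`), `hG.rep`: `φ_i` is `Cr κ''`-regular at the generation `σ.b`; `gn_reg_mono`.   `gn_ss3` at the cut `cy_fw_cut_after` with `b' = σ.b`.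
`‖φ_i‖² ≤ en (M²) ψ_i ≤ en M ψ_i` (`gn_tz_normsq_le`, `gn_en_mono`, `gn_mask_sq`). -/
theorem cy_fw_persist (M : Mdl) (g : ℝ) (hG : M.Gen g) (hpl : ∀ p, M.gd p → ∀ b, (M.sys p).Pl b = Set.univ) (hΓ : 0 < M.Gam) (a0 ξ : ℝ) (ha : 0 < a0) (hξ : 0 < ξ) :
    ∃ τ : ℝ, 0 < τ ∧ ∀ C : ℕ, ∃ A n0 : ℕ, ∀ (p : M.Par) (E : Xp (M.sys p)), n0 ≤ E.n → M.Cls C A p E → 2 ^ ((M.Gam - τ) * E.n) ≤ E.val →
      ∀ (st1 st2 : List (Stg (M.sys p))) (σ : Stg (M.sys p)), E.CutAt σ.k st1 (σ :: st2) → a0 * E.n ≤ ((E.kf - σ.k : ℕ) : ℝ) →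
        (∀ i ∈ ivs E.k0 E.i0 σ.k, (M.sys p).Reg (tmL σ.k i) σ.k σ.b (E.ka * (2 : ℝ) ^ (-(M.p0 * ((σ.k - E.k0 : ℕ) : ℝ)) + τ * E.n)) (E.at' σ.k i st1)) →
        E.e * (2 : ℝ) ^ (M.d0 * ((σ.k - E.k0 : ℕ) : ℝ) - ξ * E.n) ≤ ∑ i ∈ ivs E.k0 E.i0 σ.k, (M.sys p).en (tmL σ.k i) σ.k σ.b (σ.M i) (E.at' σ.k i st1) := by
  obtain ⟨τ3, hτ3, H3⟩ := gn_ss3 M g hG hΓ a0 ξ ha hξ
  refine ⟨τ3 / 2, half_pos hτ3, fun C => ?_⟩
  obtain ⟨Cr, hCr, HR⟩ := hG.rep C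
  obtain ⟨A, n1, H⟩ := H3 C
  obtain ⟨n2, hn2⟩ := gn_absorb Cr (τ3 / 2) (half_pos hτ3)
  refine ⟨A, max n1 n2, fun p E hn hE hval st1 st2 σ hcut hk hreg => ?_⟩
  have hp : M.gd p := hE.1
  have hV : E.Valid := hE.2.1
  have hT := hG.tight p hp
  have hmem : σ ∈ E.st := by rw [hcut.1]; simp
  have hb : σ.b ≤ C := hE.2.2.2.1.2.2 σ hmem
  have hM : ∀ i, IsMask (σ.M i) := fun i => gn_valid_stm E hV σ hmem i
  have hN : (0 : ℝ) ≤ (E.n : ℝ) := Nat.cast_nonneg _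
  have hval' : (2 : ℝ) ^ ((M.Gam - τ3) * E.n) ≤ E.val := by
    refine le_trans (gn_two_mono ?_) hval
    nlinarith
  have key := H p E ((le_max_left _ _).trans hn) hE hval' σ.k σ.b (st1 ++ [σ]) st2 (cy_fw_cut_after E hcut) hk hb ?_
  · refine key.trans (Finset.sum_le_sum fun i _ => ?_)
    rw [gn_lvl_at]
    refine (gn_tz_normsq_le hT _ _ _ (hM i) _).trans ?_
    refine gn_en_mono _ _ _ (gn_mask_sq (hM i)) (hM i) (fun x => ?_) _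
    have h0 := ((hM i).2 x).1
    have h1 := ((hM i).2 x).2
    nlinarith
  · intro i hi
    refine ⟨by rw [hpl p hp]; exact Set.mem_univ _, ?_⟩
    rw [gn_lvl_at]
    have r1 := (gn_regF_an hT _ _ _ _ _).1 (hreg i hi)
    have r2 := gn_regF_mulR hT r1 (hM i)
    have r3 := HR p (tmL σ.k i) σ.k σ.b σ.b _ _ hp hb hb r2
    refine gn_reg_mono hT r3 ?_
    have hc := hn2 E.n ((le_max_right _ _).trans hn)
    have hka : 0 < E.ka := hV.ka_pos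
    have e1 : (2 : ℝ) ^ (-(M.p0 * ((σ.k - E.k0 : ℕ) : ℝ)) + τ3 * E.n) = 2 ^ (τ3 / 2 * (E.n : ℝ)) * 2 ^ (-(M.p0 * ((σ.k - E.k0 : ℕ) : ℝ)) + τ3 / 2 * E.n) := by
      rw [← Real.rpow_add (by norm_num)]
      congr 1
      ring
    rw [e1]
    have hpos : (0 : ℝ) < 2 ^ (-(M.p0 * ((σ.k - E.k0 : ℕ) : ℝ)) + τ3 / 2 * E.n) := by positivity
    calc Cr * (E.ka * 2 ^ (-(M.p0 * ((σ.k - E.k0 : ℕ) : ℝ)) + τ3 / 2 * E.n))
        ≤ 2 ^ (τ3 / 2 * (E.n : ℝ)) * (E.ka * 2 ^ (-(M.p0 * ((σ.k - E.k0 : ℕ) : ℝ)) + τ3 / 2 * E.n)) :=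
          mul_le_mul_of_nonneg_right hc (mul_pos hka hpos).le
      _ = E.ka * (2 ^ (τ3 / 2 * (E.n : ℝ)) * 2 ^ (-(M.p0 * ((σ.k - E.k0 : ℕ) : ℝ)) + τ3 / 2 * E.n)) := by ring

/-! ## LEAF L-256-FW-C5 : depths -/

/-- the depth of a gate in natural numbers -/
theorem cy_fw_depth {Y : SfCy} {p : Y.M.Par} {W : SfMD (Y.M.sys p)} {V : Finset ℝ} {pe de a : ℝ} (h : W.PreV Y p V pe de a) {i : ℝ} (hi : i ∈ V) :
    (i - a) * W.E.n ≤ ((W.k i - W.E.k0 : ℕ) : ℝ) ∧ ((W.k i - W.E.k0 : ℕ) : ℝ) ≤ (i + a) * W.E.n ∧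
      (1 - i - a) * W.E.n ≤ ((W.E.kf - W.k i : ℕ) : ℝ) := by
  have h1 := h.depth i hi
  obtain ⟨h2, h3⟩ := h.str.k_rg i (h.sub hi)
  have e1 : ((W.k i - W.E.k0 : ℕ) : ℝ) = (W.k i : ℝ) - W.E.k0 := Nat.cast_sub h2
  have e2 : ((W.E.kf - W.k i : ℕ) : ℝ) = (W.E.kf : ℝ) - W.k i := Nat.cast_sub h3
  have e3 : (W.E.kf : ℝ) = (W.E.k0 : ℝ) + W.E.n := by
    unfold Xp.kf
    push_cast
    rfl
  rw [e1, e2, e3]
  rw [abs_le] at h1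
  refine ⟨?_, ?_, ?_⟩ <;> nlinarith [h1.1, h1.2]

/-- the mesh: an interior gate is `h`-far from both ends -/
theorem cy_fw_gap {P : PkSys} {W : SfMD P} {tq : P.Tst → CyT} (hs : W.Str tq) {V : Finset ℝ} (h1V : (1 : ℝ) ∈ V) (hV : V ⊆ W.G) {h : ℝ} (hg : CyGap V h) {i : ℝ} (hi : i ∈ V) :
    (i = 0 ∨ h ≤ i) ∧ (i = 1 ∨ h ≤ 1 - i) := by
  refine ⟨hg.2 i hi, ?_⟩
  rcases eq_or_lt_of_le (hs.gate.2 i (hV hi)).2 with h1 | h1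
  · exact Or.inl h1
  · exact Or.inr (hg.1 i hi 1 h1V h1)

/-- the weight count of the experiment -/
theorem cy_fw_count {Y : SfCy} {p : Y.M.Par} {W : SfMD (Y.M.sys p)} {V : Finset ℝ} {pe de a τ : ℝ} (h : W.PreV Y p V pe de a) (ha : a ≤ τ) :
    W.E.tw ≤ W.E.e / W.E.ka * W.E.s ^ (-(pe + de) - τ) := by
  have hv := h.str.valid
  have h1 := h.cnt 1 h.one
  obtain ⟨e, he⟩ := h.str.final
  have e1 : W.E.tw = ∑ l, (Y.M.sys p).wt (W.ts 1 l) := by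
    unfold Xp.tw Xp.w
    rw [← Equiv.sum_comp e]
    refine Finset.sum_congr rfl fun l _ => ?_
    rw [(he l).2.1]
  rw [e1]
  refine h1.trans ?_
  have hs0 : 0 < W.E.s := by
    unfold Xp.s
    positivity
  have hs1 : W.E.s ≤ 1 := by
    unfold Xp.s
    exact pow_le_one₀ (by norm_num) (by norm_num)
  have h2 : W.E.s ^ (-a) ≤ W.E.s ^ (-τ) := Real.rpow_le_rpow_of_exponent_ge hs0 hs1 (by linarith)
  have h3 : 0 ≤ W.E.e / W.E.ka := div_nonneg hv.e_pos.le hv.ka_pos.le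
  have h4 : 0 ≤ W.E.s ^ (-((pe + de) * 1)) := Real.rpow_nonneg hs0.le _
  calc W.E.s ^ (-a) * (W.E.e / W.E.ka) * W.E.s ^ (-((pe + de) * 1))
      ≤ W.E.s ^ (-τ) * (W.E.e / W.E.ka) * W.E.s ^ (-((pe + de) * 1)) := by gcongr
    _ = W.E.e / W.E.ka * (W.E.s ^ (-((pe + de) * 1)) * W.E.s ^ (-τ)) := by ring
    _ = W.E.e / W.E.ka * W.E.s ^ (-(pe + de) - τ) := by
        rw [← Real.rpow_add hs0]
        congr 2
        ring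

/-- a positive functional needs a label -/
theorem cy_fw_label {P : PkSys} (E : Xp P) (h : 0 < E.val) : 0 < E.L := by
  by_contra hL
  have hL0 : E.L = 0 := by omega
  have : IsEmpty (Fin E.L) := by
    rw [hL0]
    infer_instance
  unfold Xp.val Xp.rd at h
  rw [Finset.univ_eq_empty, Finset.sum_empty, mul_zero] at h
  exact lt_irrefl _ h

/-! ## LEAF L-256-FW-C6 : (ii) at the root gate -/

/-- PLAN: `Cs` from `gn_cut_reg (C)`, `n0` with `Cs ≤ 2^(a2 n)`.   `cy_fw_ivs`, `cy_fw_pre_eq`, `cy_fw_cut`.   Energy: `gn_at_norm_le`, `gn_ivs_card`: `≤ 2^(k 0 - k0) e ≤ 2^(a2 n) e` (`cy_fw_depth` at `i = 0`).   Regularity: `Cs κ ≤ s^(-a2) κ s^(p0·0)`; generation `gb 0 ≤ C` (`cy_fw_gb_le`). -/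
theorem cy_fw_prep_zero (Y : SfCy) (H : CyHyp Y) (a2 : ℝ) (ha2 : 0 < a2) (C : ℕ) :
    ∃ n0 : ℕ, ∀ (p : Y.M.Par) (W : SfMD (Y.M.sys p)) (V : Finset ℝ), n0 ≤ W.E.n → Y.M.gd p → W.E.st.length ≤ C → W.E.GenLe C → 0 < W.E.L →
      W.PreV Y p V Y.M.p0 Y.M.d0 a2 → (0 : ℝ) ∈ V → W.Prep Y p Y.M.p0 Y.M.d0 a2 0 := by
  obtain ⟨Cs, hCs, HA⟩ := gn_cut_reg Y.M (1 + Y.η / 2) H.gen C
  obtain ⟨n0, hn0⟩ := gn_absorb Cs a2 ha2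
  refine ⟨n0, fun p W V hn hp hl hg hL hP h0V => ?_⟩
  have h0 : (0 : ℝ) ∈ W.G := hP.sub h0V
  have hT := H.gen.tight p hp
  have hv := hP.str.valid
  have hc := cy_fw_cut W hP.str h0
  have hsa : W.E.s ^ (-a2) = 2 ^ (a2 * W.E.n) := by
    rw [gn_s_rpow]
    congr 1
    ring
  constructor
  · show ∑ m ∈ ivs W.E.k0 W.E.i0 (W.k 0), ‖W.E.at' (W.k 0) m (W.s1 0)‖ ^ 2 ≤ W.E.s ^ (-a2) * W.E.e * W.E.s ^ (-(Y.M.d0 * 0))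
    refine (Finset.sum_le_sum fun m _ => gn_at_norm_le hT W.E hv hc m).trans ?_
    rw [Finset.sum_const, gn_ivs_card, nsmul_eq_mul, mul_zero, neg_zero, Real.rpow_zero, mul_one, hsa]
    refine mul_le_mul_of_nonneg_right ?_ hv.e_pos.le
    have h1 := (cy_fw_depth hP h0V).2.1
    rw [zero_add] at h1
    push_cast
    rw [← Real.rpow_natCast]
    exact Real.rpow_le_rpow_of_exponent_le (by norm_num) h1
  · intro m hm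
    show (Y.M.sys p).Reg (tmL (W.k 0) m) (W.k 0) (W.gb 0) (W.E.s ^ (-a2) * W.E.ka * W.E.s ^ (Y.M.p0 * 0)) (W.E.at' (W.k 0) m (W.s1 0))
    refine gn_reg_mono hT (HA p W.E hp hv hl hg (W.k 0) (W.gb 0) (W.s1 0) (W.s2 0) hc (cy_fw_gb_le W hP.str hg h0) m hm) ?_
    rw [mul_zero, Real.rpow_zero, mul_one, hsa]
    exact mul_le_mul_of_nonneg_right (hn0 _ hn) hv.ka_pos.le

/-! ## LEAF L-256-FW-C7 : (ii) after an inserted level -/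

/-- PLAN: `Cr` from `gn_lvl_post_reg .. C`, `n0` with `2 Cr ≤ 2^(a2 n / 2)`.   `(W.ins j σ).ivs j = ivs ..` (`cy_fw_ivs` for `W.ins j σ`, `cy_fw_ins_str`), `cy_fw_ins_pre_eq`.
Energy: the sum is `post` by definition; `gn_post_le_raw`; `e s^(-(d0 j) - a2) = s^(-a2) e s^(-(d0 j))`.   Regularity: `Cr 2β`, generation by `cy_fw_reg_gen`; `Cr 2β ≤ s^(-a2/2) κ s^(p0 j - a2/2) = s^(-a2) κ s^(p0 j)`. -/
theorem cy_fw_prep_lvl (Y : SfCy) (H : CyHyp Y) (a2 : ℝ) (ha2 : 0 < a2) (C : ℕ) :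
    ∃ n0 : ℕ, ∀ (p : Y.M.Par) (W : SfMD (Y.M.sys p)) (j β : ℝ) (σ : Stg (Y.M.sys p)), n0 ≤ W.E.n → Y.M.gd p → W.Str (Y.tq p) → 0 < W.E.L → j ∈ W.G →
      σ.k = W.k j → (∀ i, IsMask (σ.M i)) → (W.ins j σ).E.GenLe C → (W.ins j σ).E.LvlAt (W.s1 j) σ (W.s2 j) β →
      β ≤ W.E.ka * W.E.s ^ (Y.M.p0 * j - a2 / 2) → (W.ins j σ).E.raw (W.s1 j) σ ≤ W.E.e * W.E.s ^ (-(Y.M.d0 * j) - a2) →
      (W.ins j σ).Prep Y p Y.M.p0 Y.M.d0 a2 j := by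
  obtain ⟨Cr, hCr, HR⟩ := gn_lvl_post_reg Y.M (1 + Y.η / 2) H.gen C
  obtain ⟨n0, hn0⟩ := gn_absorb (2 * Cr) (a2 / 2) (half_pos ha2)
  refine ⟨n0, fun p W j β σ hn hp hs hL hj hk hM hg hl hβ hraw => ?_⟩
  have hT := H.gen.tight p hp
  have hs' := cy_fw_ins_str W hs hj σ hk hM
  have hv' := hs'.valid
  have hv := hs.valid
  have hspos := gn_s_pos W.E
  constructor
  · show ∑ m ∈ ivs W.E.k0 W.E.i0 (W.k j), ‖(W.ins j σ).pre j m‖ ^ 2 ≤ W.E.s ^ (-a2) * W.E.e * W.E.s ^ (-(Y.M.d0 * j))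
    have h1 : ∑ m ∈ ivs W.E.k0 W.E.i0 (W.k j), ‖(W.ins j σ).pre j m‖ ^ 2 = (W.ins j σ).E.post (W.s1 j) σ := by
      unfold Xp.post
      rw [hk]
      exact Finset.sum_congr rfl fun m _ => by rw [cy_fw_ins_pre_eq W hs hj σ m]
    rw [h1]
    refine ((gn_post_le_raw hT _ hv' hl).trans hraw).trans (le_of_eq ?_)
    rw [show -(Y.M.d0 * j) - a2 = -a2 + -(Y.M.d0 * j) by ring, Real.rpow_add hspos]
    ring
  · intro m hm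
    show (Y.M.sys p).Reg (tmL (W.k j) m) (W.k j) (W.gb j) (W.E.s ^ (-a2) * W.E.ka * W.E.s ^ (Y.M.p0 * j)) ((W.ins j σ).pre j m)
    have hm' : m ∈ ivs (W.ins j σ).E.k0 (W.ins j σ).E.i0 σ.k := by
      rw [hk]
      exact hm
    have hgb : W.gb j ≤ C + 1 := (cy_fw_gb_le (W.ins j σ) hs' hg hj).trans (Nat.le_succ _)
    have h1 := (HR p (W.ins j σ).E hp hv' hg (W.s1 j) (W.s2 j) σ β hl m hm').2 (W.gb j) hgb
    rw [hk] at h1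
    rw [cy_fw_ins_pre_eq W hs hj σ m]
    refine gn_reg_mono hT h1 ?_
    have h2 : 2 * Cr ≤ W.E.s ^ (-(a2 / 2)) := by
      rw [gn_s_rpow]
      refine (hn0 _ hn).trans (le_of_eq ?_)
      congr 1
      ring
    have h3 : 0 ≤ W.E.ka * W.E.s ^ (Y.M.p0 * j - a2 / 2) := mul_nonneg hv.ka_pos.le (Real.rpow_pos_of_pos hspos _).le
    calc Cr * (2 * β) = 2 * Cr * β := by ring
      _ ≤ 2 * Cr * (W.E.ka * W.E.s ^ (Y.M.p0 * j - a2 / 2)) := mul_le_mul_of_nonneg_left hβ (by linarith)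
      _ ≤ W.E.s ^ (-(a2 / 2)) * (W.E.ka * W.E.s ^ (Y.M.p0 * j - a2 / 2)) := mul_le_mul_of_nonneg_right h2 h3
      _ = W.E.s ^ (-a2) * W.E.ka * W.E.s ^ (Y.M.p0 * j) := by
        rw [show -a2 = -(a2 / 2) + -(a2 / 2) by ring, show Y.M.p0 * j - a2 / 2 = Y.M.p0 * j + -(a2 / 2) by ring, Real.rpow_add hspos, Real.rpow_add hspos]
        ring

/-! ## LEAF L-256-FW-C8 : the benchmarks of an inserted level -/

/-- interior gates.   PLAN: `τ` from `gn_ss2 (a0 = h/2) (ξ = a2/4)`, `a1 = min (h/2) (min (a2/24) τ)`.   `E' = (W.ins j σ).E` has the labels, root, scale of `W.E` (`rfl`): `cy_fw_count`.   `cy_fw_depth`, `cy_fw_gap`: `(h/2) n ≤ σ.k - k0 ≤ (1 - h/2) n`.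
`β ≤ κ 2^(-p0 (k-k0) + ξ n) ≤ κ 2^(-p0 (j - a1) n + ξ n) = κ s^(p0 j - p0 a1 - ξ)`, `p0 ≤ 3` (`gn_p0_le`, `bs_gam_nonneg`), `0 ≤ p0`; `raw ≤ e 2^(d0 (j + a1) n + ξ n)`, `0 < d0 ≤ 1` (`gn_d0_le`). -/
theorem cy_fw_bench_int (Y : SfCy) (H : CyHyp Y) (hΓ : 0 < Y.M.Gam) (h a2 : ℝ) (hh : 0 < h) (ha2 : 0 < a2) :
    ∃ a1 τ : ℝ, 0 < a1 ∧ 0 < τ ∧ ∀ C : ℕ, ∃ A n0 : ℕ, ∀ (p : Y.M.Par) (W : SfMD (Y.M.sys p)) (V : Finset ℝ) (j β : ℝ) (σ : Stg (Y.M.sys p)), n0 ≤ W.E.n →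
      W.PreV Y p V Y.M.p0 Y.M.d0 a1 → CyGap V h → j ∈ V → 0 < j → j < 1 → σ.k = W.k j → Y.M.Cls C A p (W.ins j σ).E →
      2 ^ ((Y.M.Gam - τ) * W.E.n) ≤ (W.ins j σ).E.val → (W.ins j σ).E.LvlAt (W.s1 j) σ (W.s2 j) β →
      β ≤ W.E.ka * W.E.s ^ (Y.M.p0 * j - a2 / 2) ∧ (W.ins j σ).E.raw (W.s1 j) σ ≤ W.E.e * W.E.s ^ (-(Y.M.d0 * j) - a2) := by
  have hG := H.gen
  obtain ⟨τ, hτ, HS⟩ := gn_ss2 Y.M (1 + Y.η / 2) hG hΓ (h / 2) (a2 / 4) (half_pos hh) (by positivity)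
  have hp1 : 1 ≤ Y.M.p0 := hG.g_pos.trans (gn_p0_ge Y.M _ hG hΓ)
  have hp3 : Y.M.p0 ≤ 3 := by
    have := gn_p0_le Y.M _ hG hΓ
    linarith
  obtain ⟨hd0, hd1⟩ := gn_d0_le Y.M _ hG hΓ
  obtain ⟨a1, ha1p, ha1h, ha1a, ha1τ⟩ : ∃ a1 : ℝ, 0 < a1 ∧ a1 ≤ h / 2 ∧ a1 ≤ a2 / 24 ∧ a1 ≤ τ :=
    ⟨min (h / 2) (min (a2 / 24) τ), lt_min (half_pos hh) (lt_min (by positivity) hτ), min_le_left _ _,
      (min_le_right _ _).trans (min_le_left _ _), (min_le_right _ _).trans (min_le_right _ _)⟩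
  refine ⟨a1, τ, ha1p, hτ, fun C => ?_⟩
  obtain ⟨A, n0, HS'⟩ := HS C
  refine ⟨A, n0, fun p W V j β σ hn hP hg hj hj0 hj1 hk hcls hval hl => ?_⟩
  have hv := hP.str.valid
  have hN : (0 : ℝ) ≤ W.E.n := Nat.cast_nonneg _
  obtain ⟨hd_lo, hd_hi, _⟩ := cy_fw_depth hP hj
  obtain ⟨hg1, hg2⟩ := cy_fw_gap hP.str hP.one hP.sub hg hj
  have hhj : h ≤ j := hg1.resolve_left hj0.ne'
  have hhj' : h ≤ 1 - j := hg2.resolve_left hj1.ne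
  have hcnt0 := cy_fw_count hP ha1τ
  have hcnt : (W.ins j σ).E.tw ≤ (W.ins j σ).E.e / (W.ins j σ).E.ka * (W.ins j σ).E.s ^ (-(Y.M.p0 + Y.M.d0) - τ) := hcnt0
  have hK : ((σ.k - (W.ins j σ).E.k0 : ℕ) : ℝ) = ((W.k j - W.E.k0 : ℕ) : ℝ) := by
    rw [hk]
    rfl
  have hlo : h / 2 * ((W.ins j σ).E.n : ℝ) ≤ ((σ.k - (W.ins j σ).E.k0 : ℕ) : ℝ) := by
    rw [hK]
    refine le_trans ?_ hd_lo
    exact mul_le_mul_of_nonneg_right (by linarith) hN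
  have hhi : ((σ.k - (W.ins j σ).E.k0 : ℕ) : ℝ) ≤ (1 - h / 2) * ((W.ins j σ).E.n : ℝ) := by
    rw [hK]
    refine le_trans hd_hi ?_
    exact mul_le_mul_of_nonneg_right (by linarith) hN
  obtain ⟨_, hβ, _, hraw⟩ := HS' p (W.ins j σ).E hn hcls hcnt hval (W.s1 j) (W.s2 j) σ β hl hlo hhi
  rw [hK] at hβ hraw
  have hβ' : β ≤ W.E.ka * (2 : ℝ) ^ (-(Y.M.p0 * ((W.k j - W.E.k0 : ℕ) : ℝ)) + a2 / 4 * W.E.n) := hβ
  have hraw' : (W.ins j σ).E.raw (W.s1 j) σ ≤ W.E.e * (2 : ℝ) ^ (Y.M.d0 * ((W.k j - W.E.k0 : ℕ) : ℝ) + a2 / 4 * W.E.n) := hraw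
  have haN : 0 ≤ a1 * W.E.n := mul_nonneg ha1p.le hN
  have haN' : a1 * W.E.n ≤ a2 / 24 * W.E.n := mul_le_mul_of_nonneg_right ha1a hN
  constructor
  · refine hβ'.trans ?_
    rw [gn_s_rpow]
    refine mul_le_mul_of_nonneg_left (gn_two_mono ?_) hv.ka_pos.le
    have h1 := mul_le_mul_of_nonneg_left hd_lo (by linarith : (0 : ℝ) ≤ Y.M.p0)
    have h2 := mul_le_mul_of_nonneg_right hp3 haN
    have h3 : 0 ≤ a2 * W.E.n := mul_nonneg ha2.le hN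
    linarith
  · refine hraw'.trans ?_
    rw [gn_s_rpow]
    refine mul_le_mul_of_nonneg_left (gn_two_mono ?_) hv.e_pos.le
    have h1 := mul_le_mul_of_nonneg_left hd_hi hd0.le
    have h2 := mul_le_mul_of_nonneg_right hd1 haN
    have h3 : 0 ≤ a2 * W.E.n := mul_nonneg ha2.le hN
    linarith

/-- the final gate.   PLAN: `cy_fw_fin_bench` at `ξ = a2/2`, `a1 = τ`; `W.s2 1 = []` (`pos 1 = length`), `W.k 1 = kf`; `mul_one`; `s^(-d0 - a2/2) ≤ s^(-d0 - a2)` (`gn_s_anti`). -/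
theorem cy_fw_bench_fin (Y : SfCy) (H : CyHyp Y) (hΓ : 0 < Y.M.Gam) (a2 : ℝ) (ha2 : 0 < a2) :
    ∃ a1 τ : ℝ, 0 < a1 ∧ 0 < τ ∧ ∀ C : ℕ, ∃ A n0 : ℕ, ∀ (p : Y.M.Par) (W : SfMD (Y.M.sys p)) (V : Finset ℝ) (β : ℝ) (σ : Stg (Y.M.sys p)), n0 ≤ W.E.n →
      W.PreV Y p V Y.M.p0 Y.M.d0 a1 → σ.k = W.k 1 → Y.M.Cls C A p (W.ins 1 σ).E →
      2 ^ ((Y.M.Gam - τ) * W.E.n) ≤ (W.ins 1 σ).E.val → (W.ins 1 σ).E.LvlAt (W.s1 1) σ (W.s2 1) β →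
      β ≤ W.E.ka * W.E.s ^ (Y.M.p0 * 1 - a2 / 2) ∧ (W.ins 1 σ).E.raw (W.s1 1) σ ≤ W.E.e * W.E.s ^ (-(Y.M.d0 * 1) - a2) := by
  have hG := H.gen
  obtain ⟨τ, hτ, HS⟩ := cy_fw_fin_bench Y.M (1 + Y.η / 2) hG H.pl_univ hΓ (a2 / 2) (half_pos ha2)
  refine ⟨τ, τ, hτ, hτ, fun C => ?_⟩
  obtain ⟨A, n0, HS'⟩ := HS C
  refine ⟨A, n0, fun p W V β σ hn hP hk hcls hval hl => ?_⟩
  have hv := hP.str.valid
  have hcnt0 := cy_fw_count hP (le_refl τ)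
  have hcnt : (W.ins 1 σ).E.tw ≤ (W.ins 1 σ).E.e / (W.ins 1 σ).E.ka * (W.ins 1 σ).E.s ^ (-(Y.M.p0 + Y.M.d0) - τ) := hcnt0
  have hs2 : W.s2 1 = [] := by
    unfold SfMD.s2
    rw [hP.str.k_one.2.1, List.drop_length]
  rw [hs2] at hl
  have hkf : σ.k = (W.ins 1 σ).E.kf := hk.trans hP.str.k_one.1
  obtain ⟨hβ, hraw⟩ := HS' p (W.ins 1 σ).E hn hcls hcnt hval (W.s1 1) σ β hl hkf
  have hβ' : β ≤ W.E.ka * W.E.s ^ (Y.M.p0 - a2 / 2) := hβ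
  have hraw' : (W.ins 1 σ).E.raw (W.s1 1) σ ≤ W.E.e * W.E.s ^ (-Y.M.d0 - a2 / 2) := hraw
  rw [mul_one, mul_one]
  exact ⟨hβ', hraw'.trans (mul_le_mul_of_nonneg_left (gn_s_anti W.E (by linarith)) hv.e_pos.le)⟩

/-! ## LEAF L-256-FW-C9 : (iii) -/

/-- (iii) at the gates `i < 1`.   PLAN: `τ0` from `cy_fw_persist (a0 = h/2) (ξ = a/2)`; `a2 = min (h/2) (min (a/2) (τ0/4))`, `τ = τ0`.   `σ, r` from `cy_fw_s2_cons`; `cy_fw_cut` (rewritten with `W.s2 i = σ :: r`, `σ.k = W.k i`); `cy_fw_label`, `cy_fw_ivs`, `cy_fw_pre_eq`.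
`Prep.2`: regularity `s^(-a2) κ s^(p0 i) = κ 2^(-(p0 i - a2) n) ≤ κ 2^(-p0 (k-k0) + τ0 n)` (`cy_fw_depth`, `p0 ≤ 3`); `cy_fw_tot`; `e 2^(d0 (k-k0) - ξ n) ≥ e 2^(d0 (i - a2) n - ξ n) ≥ s^a e s^(-(d0 i))` (`0 < d0 ≤ 1`). -/
theorem cy_fw_read_int (Y : SfCy) (H : CyHyp Y) (hΓ : 0 < Y.M.Gam) (h a : ℝ) (hh : 0 < h) (ha : 0 < a) :
    ∃ a2 τ : ℝ, 0 < a2 ∧ 0 < τ ∧ ∀ C : ℕ, ∃ A n0 : ℕ, ∀ (p : Y.M.Par) (W : SfMD (Y.M.sys p)) (V : Finset ℝ) (i : ℝ), n0 ≤ W.E.n → Y.M.Cls C A p W.E → CyGap V h →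
      W.PreV Y p V Y.M.p0 Y.M.d0 a2 → 2 ^ ((Y.M.Gam - τ) * W.E.n) ≤ W.E.val → i ∈ V → i < 1 → W.Prep Y p Y.M.p0 Y.M.d0 a2 i →
      W.E.s ^ a * W.E.e * W.E.s ^ (-(Y.M.d0 * i)) ≤ W.tot i := by
  have hG := H.gen
  obtain ⟨τ0, hτ0, HS⟩ := cy_fw_persist Y.M (1 + Y.η / 2) hG H.pl_univ hΓ (h / 2) (a / 2) (half_pos hh) (half_pos ha)
  have hp1 : 1 ≤ Y.M.p0 := hG.g_pos.trans (gn_p0_ge Y.M _ hG hΓ)
  have hp3 : Y.M.p0 ≤ 3 := by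
    have := gn_p0_le Y.M _ hG hΓ
    linarith
  obtain ⟨hd0, hd1⟩ := gn_d0_le Y.M _ hG hΓ
  obtain ⟨a2, ha2p, ha2h, ha2a, ha2τ⟩ : ∃ a2 : ℝ, 0 < a2 ∧ a2 ≤ h / 2 ∧ a2 ≤ a / 2 ∧ a2 ≤ τ0 / 4 :=
    ⟨min (h / 2) (min (a / 2) (τ0 / 4)), lt_min (half_pos hh) (lt_min (half_pos ha) (by positivity)), min_le_left _ _,
      (min_le_right _ _).trans (min_le_left _ _), (min_le_right _ _).trans (min_le_right _ _)⟩
  refine ⟨a2, τ0, ha2p, hτ0, fun C => ?_⟩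
  obtain ⟨A, n0, HS'⟩ := HS C
  refine ⟨A, n0, fun p W V i hn hcls hg hP hval hiV hi1 hPr => ?_⟩
  have hi : i ∈ W.G := hP.sub hiV
  have hs := hP.str
  have hv := hs.valid
  have hT := hG.tight p hcls.1
  have hN : (0 : ℝ) ≤ W.E.n := Nat.cast_nonneg _
  have hL : 0 < W.E.L := cy_fw_label W.E (lt_of_lt_of_le (gn_two_pos _) hval)
  obtain ⟨hd_lo, hd_hi, hd_f⟩ := cy_fw_depth hP hiV
  obtain ⟨_, hg2⟩ := cy_fw_gap hs hP.one hP.sub hg hiV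
  have hhi' : h ≤ 1 - i := hg2.resolve_left hi1.ne
  obtain ⟨σ, r, hs2, hk, hb, hM⟩ := cy_fw_s2_cons W hs hi hi1
  have hc := cy_fw_cut W hs hi
  rw [hs2, ← hk] at hc
  have haN : 0 ≤ a2 * W.E.n := mul_nonneg ha2p.le hN
  have hf : h / 2 * (W.E.n : ℝ) ≤ ((W.E.kf - σ.k : ℕ) : ℝ) := by
    rw [hk]
    refine le_trans ?_ hd_f
    exact mul_le_mul_of_nonneg_right (by linarith) hN
  have hreg : ∀ m ∈ ivs W.E.k0 W.E.i0 σ.k, (Y.M.sys p).Reg (tmL σ.k m) σ.k σ.b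
      (W.E.ka * (2 : ℝ) ^ (-(Y.M.p0 * ((σ.k - W.E.k0 : ℕ) : ℝ)) + τ0 * W.E.n)) (W.E.at' σ.k m (W.s1 i)) := by
    intro m hm
    rw [hk] at hm ⊢
    rw [hb]
    refine gn_reg_mono hT (hPr.2 m hm) ?_
    rw [gn_s_rpow, gn_s_rpow, mul_right_comm, ← gn_two_add, mul_comm]
    refine mul_le_mul_of_nonneg_left (gn_two_mono ?_) hv.ka_pos.le
    have h1 := mul_le_mul_of_nonneg_left hd_hi (by linarith : (0 : ℝ) ≤ Y.M.p0)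
    have h2 := mul_le_mul_of_nonneg_right hp3 haN
    have h3 := mul_le_mul_of_nonneg_right ha2τ hN
    linarith
  have h4 := HS' p W.E hn hcls hval (W.s1 i) r σ hc hf hreg
  rw [cy_fw_tot W hs hL hi σ hk hb hM]
  refine le_trans ?_ h4
  rw [gn_s_rpow, gn_s_rpow, mul_right_comm, ← gn_two_add, mul_comm, hk]
  refine mul_le_mul_of_nonneg_left (gn_two_mono ?_) hv.e_pos.le
  have h1 := mul_le_mul_of_nonneg_left hd_lo hd0.le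
  have h2 := mul_le_mul_of_nonneg_right hd1 haN
  have h3 := mul_le_mul_of_nonneg_right ha2a hN
  linarith

/-- (iii) at the final gate.   PLAN: `κ'' = s^(-a) κ s^(p0·1)`.   `cy_fw_final`: `tot 1 = tm`, `pre 1 m = fin m`; `k 1 = kf`, `gb 1 = bT`; `gn_m_le_ms` + `Prep.2` (`iv l ∈ W.ivs 1` by `h.iv_in`, `h.final`): `m l ≤ κ'' w l`; `gn_tr_le`, `gn_rd_eq`: `rd ≤ √κ'' tm`;
`gn_rd_of_val`: `rd ≥ 2^(-n/2) e √κ 2^((Γ - a/2) n)`; `√κ'' = √κ 2^(-(p0 - a) n/2)`; `d0 = Γ + (p0-1)/2`: `tm ≥ e 2^((d0 - a) n)`. -/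
theorem cy_fw_read_fin (Y : SfCy) (H : CyHyp Y) (a : ℝ) (ha : 0 < a) (p : Y.M.Par) (hp : Y.M.gd p) (W : SfMD (Y.M.sys p)) (hs : W.Str (Y.tq p))
    (hv : 2 ^ ((Y.M.Gam - a / 2) * W.E.n) ≤ W.E.val) (hP : W.Prep Y p Y.M.p0 Y.M.d0 a 1) :
    W.E.s ^ a * W.E.e * W.E.s ^ (-(Y.M.d0 * 1)) ≤ W.tot 1 := by
  have hT := H.gen.tight p hp
  have hE := hs.valid
  obtain ⟨_, htot, hpre⟩ := cy_fw_final W hs
  rw [htot]
  have hm : ∀ l, W.E.m l ≤ (W.E.s ^ (-a) * W.E.ka * W.E.s ^ (Y.M.p0 * 1)) * W.E.w l := by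
    intro l
    have hi : W.E.iv l ∈ W.ivs 1 := by
      show W.E.iv l ∈ ivs W.E.k0 W.E.i0 (W.k 1)
      rw [hs.k_one.1, gn_mem_ivs]
      exact hE.iv_in l
    have h1 := hP.2 (W.E.iv l) hi
    rw [hpre, hs.k_one.1, hs.k_one.2.2] at h1
    exact (gn_m_le_ms hT W.E hE l).trans (h1 (W.E.ts l) (hE.ts_ok l))
  have hrd : W.E.rd ≤ Real.sqrt (W.E.s ^ (-a) * W.E.ka * W.E.s ^ (Y.M.p0 * 1)) * W.E.tm := by
    rw [gn_rd_eq]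
    calc ∑ l, W.E.tr l ≤ ∑ l, Real.sqrt (W.E.s ^ (-a) * W.E.ka * W.E.s ^ (Y.M.p0 * 1)) * W.E.m l :=
          Finset.sum_le_sum fun l _ => gn_tr_le W.E hE l (hm l)
      _ = Real.sqrt (W.E.s ^ (-a) * W.E.ka * W.E.s ^ (Y.M.p0 * 1)) * W.E.tm := by rw [← Finset.mul_sum]; rfl
  rw [gn_rd_of_val W.E hE] at hrd
  have hsq : Real.sqrt (W.E.s ^ (-a) * W.E.ka * W.E.s ^ (Y.M.p0 * 1)) = Real.sqrt W.E.ka * 2 ^ ((a - Y.M.p0) * W.E.n / 2) := by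
    rw [gn_s_rpow, gn_s_rpow, mul_right_comm, ← gn_two_add, mul_comm, Real.sqrt_mul hE.ka_pos.le, gn_two_sqrt]
    congr 2
    ring
  have hX := gn_two_pos ((a - Y.M.p0) * W.E.n / 2)
  have hsk : 0 < Real.sqrt W.E.ka := Real.sqrt_pos.mpr hE.ka_pos
  have he := hE.e_pos
  have h2 := gn_two_pos (-((W.E.n : ℝ) / 2))
  have hgoal : W.E.s ^ a * W.E.e * W.E.s ^ (-(Y.M.d0 * 1)) * (Real.sqrt W.E.ka * 2 ^ ((a - Y.M.p0) * W.E.n / 2))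
      ≤ W.E.tm * (Real.sqrt W.E.ka * 2 ^ ((a - Y.M.p0) * W.E.n / 2)) := by
    calc W.E.s ^ a * W.E.e * W.E.s ^ (-(Y.M.d0 * 1)) * (Real.sqrt W.E.ka * 2 ^ ((a - Y.M.p0) * W.E.n / 2))
        = 2 ^ (-((W.E.n : ℝ) / 2)) * (W.E.e * Real.sqrt W.E.ka) * 2 ^ ((Y.M.Gam - a / 2) * W.E.n) := by
          rw [gn_s_rpow, gn_s_rpow]
          have h3 : (2 : ℝ) ^ (-(a * W.E.n)) * 2 ^ (-(-(Y.M.d0 * 1) * W.E.n)) * 2 ^ ((a - Y.M.p0) * W.E.n / 2)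
              = 2 ^ (-((W.E.n : ℝ) / 2)) * 2 ^ ((Y.M.Gam - a / 2) * W.E.n) := by
            rw [← gn_two_add, ← gn_two_add, ← gn_two_add]
            congr 1
            unfold Mdl.d0
            ring
          linear_combination (W.E.e * Real.sqrt W.E.ka) * h3
      _ ≤ 2 ^ (-((W.E.n : ℝ) / 2)) * (W.E.e * Real.sqrt W.E.ka) * W.E.val := mul_le_mul_of_nonneg_left hv (by positivity)
      _ ≤ Real.sqrt (W.E.s ^ (-a) * W.E.ka * W.E.s ^ (Y.M.p0 * 1)) * W.E.tm := hrd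
      _ = W.E.tm * (Real.sqrt W.E.ka * 2 ^ ((a - Y.M.p0) * W.E.n / 2)) := by rw [hsq]; ring
  exact le_of_mul_le_mul_right hgoal (by positivity)

end Claimed.Agent.R256
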