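-- KEEP
import Claimed.Agent.R256.Gen.Contract
import Claimed.Agent.R256.Cyl.FwdA
import Claimed.Agent.R256.Cyl.FwdC

/-!
# Row 256 (LS paper), CYL, file 3 : KIT = generic complements of `R256/Gen`          (chief helper255; prefix `cy_k`)

Model free (`M : Mdl`, `hG : M.Gen g`, `L : M.Loc g`).   Used by STEP, FWD (this folder) and by Soft (M4 RES, M6 GE, M7 PL).      Toolbox: `Gen/Bas{A,B,C}`, `Gen/Tri`, `Gen/Peel`, `Gen/Gap`, `Gen/Sgl`, `Gen/Cons`, `Gen/Tail`, `Gen/SS1`, `Gen/SS2`.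
`hpl : M.Flat` = all states are plateau states of every generation (true in the two cylinder models): generations play no role.
LEAVES `L-256-CYL-K*` (one theorem each, plan in the docstring; prove in place; auxiliary lemmas above, prefix `cy_k<n>_`):
 K1 `cy_split_mask`   `rd^{1/3}` is subadditive under a decomposition of the mask of an EXISTING stage
 K2 `cy_peel_fam`     peeling of a RESTRICTED row measure on a FAMILY of tests with a weight floor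
 K3 `cy_rep_fam`      repeated cut on a family of tests that is closed under same-cut coverings (truncated families: covering by translates)
 K4 `cy_osplit`       a preserving ordinary split exists (PEEL + SPLIT + pigeonhole; the remainder is excluded by TAIL)
 K5 `cy_prep`         preparation of a cut at relative depth in `[a0, 1-a0]`: after ONE inserted `0/1` stage the states are `κ_a s^-ξ`-regular with energy `≤ E_a s^-ξ`      (K4 + SS2 + Rep)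
 K6 `cy_prep_end`     the same at the final cut      | K7 `cy_prep_root`  at the cuts of relative depth `≤ a1` nothing has to be inserted
 K8 `cy_read`         a preserving experiment has energy `≥ E_a s^ξ` at EVERY cut of relative depth `≤ 1 - a0` (no regularity hypothesis: K4 + SS2 + contraction; near the root: K7 + SS3)
 K9 `cy_barrier`      transfer inequality along a stack with measurable barrier sets (locality through finite stacks, 02 l.150-152, 184-190)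
-/

set_option autoImplicit false

namespace Claimed.Agent.R256

open MeasureTheory

/-- all states are plateau states -/
def Mdl.Flat (M : Mdl) : Prop := ∀ p, M.gd p → ∀ b, (M.sys p).Pl b = Set.univ

/-- the weight count of the terminal family at the accuracy `τ` -/
def Xp.Cnt {P : PkSys} (E : Xp P) (pd τ : ℝ) : Prop := E.tw ≤ E.e / E.ka * E.s ^ (-pd - τ)

/-- the states of `E` at the cut `(k, st1)` are prepared: energy `≤ E_a 2^(ξn)`, regularity `≤ κ_a 2^(ξn)` at every generation `≤ bm` -/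
def Xp.PrepAt {P : PkSys} (E : Xp P) (p0 d0 : ℝ) (k bm : ℕ) (st1 : List (Stg P)) (ξ : ℝ) : Prop :=
  ∑ i ∈ ivs E.k0 E.i0 k, ‖E.at' k i st1‖ ^ 2 ≤ E.e * 2 ^ (d0 * ((k - E.k0 : ℕ) : ℝ) + ξ * E.n) ∧
  ∀ i ∈ ivs E.k0 E.i0 k, ∀ b ≤ bm, P.Reg (tmL k i) k b (E.ka * 2 ^ (-(p0 * ((k - E.k0 : ℕ) : ℝ)) + ξ * E.n)) (E.at' k i st1)

/-- barrier sets along a stack: no row outside the barrier of a cut has a `Λ`-successor in the barrier of the next cut; the last barrier is `S'` at the cut `(tmL k' i', k')` -/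
def Bar {M : Mdl} {g : ℝ} (L : M.Loc g) (p : M.Par) (Λ : ℝ) (k' i' : ℕ) : ℝ → ℕ → Set (M.sys p).X → List (Stg (M.sys p)) → Set (M.sys p).X → Prop
  | T, k, B, [], S' => ∀ x, x ∉ B → ∀ x' ∈ S', ¬ L.cn p Λ T k (tmL k' i') k' x x'
  | T, k, B, σ :: st, S' => ∃ B1 : Set (M.sys p).X, MeasurableSet B1 ∧
      (∀ x, x ∉ B → ∀ x' ∈ B1, ¬ L.cn p Λ T k (tmL σ.k (ancI k' σ.k i')) σ.k x x') ∧ Bar L p Λ k' i' (tmL σ.k (ancI k' σ.k i')) σ.k B1 st S'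

/-- same-cut coverings inside a family of tests -/
def FamCov {M : Mdl} {g : ℝ} (L : M.Loc g) (p : M.Par) (T : ℝ) (k : ℕ) (𝒯 : Set (M.sys p).Tst) (Cf : ℝ) : Prop :=
  ∀ Λ : ℝ, 1 ≤ Λ → ∀ Q ∈ 𝒯, ∃ (m : ℕ) (Qs : Fin m → (M.sys p).Tst), (∀ i, Qs i ∈ 𝒯) ∧
    (∀ x x', x' ∈ (M.sys p).cell Q T k → L.cn p Λ T k T k x x' → ∃ i, x ∈ (M.sys p).cell (Qs i) T k) ∧
    ∑ i, (M.sys p).wt (Qs i) ≤ Cf * Λ ^ Cf * (M.sys p).wt Q

theorem cy_kit_eqns_cite : True := by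
  have := @Mdl.Flat.eq_1
  have := @Xp.Cnt.eq_1
  have := @Xp.PrepAt.eq_1
  have := @Bar.eq_1
  have := @Bar.eq_2
  have := @FamCov.eq_1
  trivial

/-- the readout with one stage `(k, b, M')` between `st1` and `st2`, as a function of the states behind that stage (cut at the final depth: no order of the depths is needed) -/
theorem cy_k1_rd {P : PkSys} (E : Xp P) (k b : ℕ) (st1 st2 : List (Stg P)) (M' : ℕ → P.X → ℝ) :
    (E.withSt (st1 ++ ⟨k, b, M'⟩ :: st2)).rd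
      = E.rdc E.kf st2 (fun i => P.tz (tmL k (ancI E.kf k i)) k b (M' (ancI E.kf k i)) (Xp.run E.kf i st1 E.v)) := by
  unfold Xp.rd Xp.rdc
  refine Finset.sum_congr rfl fun l _ => ?_
  have : (E.withSt (st1 ++ ⟨k, b, M'⟩ :: st2)).fin (E.iv l)
      = Xp.run E.kf (E.iv l) st2 (P.tz (tmL k (ancI E.kf k (ancI E.kf E.kf (E.iv l)))) k b (M' (ancI E.kf k (ancI E.kf E.kf (E.iv l))))
          (Xp.run E.kf (ancI E.kf E.kf (E.iv l)) st1 E.v)) := by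
    show Xp.run E.kf (E.iv l) (st1 ++ ⟨k, b, M'⟩ :: st2) E.v = _
    rw [gn_run_append, gn_anc_self]
    rfl
  show P.en _ _ _ _ ((E.withSt (st1 ++ ⟨k, b, M'⟩ :: st2)).fin (E.iv l)) ^ (3 / 2 : ℝ) / _ = _
  rw [this]
  rfl

/-- `rd^{1/3}` is subadditive in the mask of one stage -/
theorem cy_k1_sub {P : PkSys} (E : Xp P) (hE : E.Valid) (k b : ℕ) (st1 st2 : List (Stg P)) (h2 : StM st2) {ι : Type}
    (J : Finset ι) (Mk : ι → ℕ → P.X → ℝ) (M0 : ℕ → P.X → ℝ) (hM : ∀ j ∈ J, ∀ i, IsMask (Mk j i)) (hM0 : ∀ i, IsMask (M0 i))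
    (hsum : ∀ i x, ∑ j ∈ J, Mk j i x = M0 i x) :
    (E.withSt (st1 ++ ⟨k, b, M0⟩ :: st2)).rd ^ (1 / 3 : ℝ) ≤ ∑ j ∈ J, (E.withSt (st1 ++ ⟨k, b, Mk j⟩ :: st2)).rd ^ (1 / 3 : ℝ) := by
  simp_rw [cy_k1_rd]
  have h3 : (fun i => P.tz (tmL k (ancI E.kf k i)) k b (M0 (ancI E.kf k i)) (Xp.run E.kf i st1 E.v))
      = fun i => ∑ j ∈ J, P.tz (tmL k (ancI E.kf k i)) k b (Mk j (ancI E.kf k i)) (Xp.run E.kf i st1 E.v) := by
    funext i
    unfold PkSys.tz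
    rw [← map_sum, gn_mulR_sum k J (fun j => Mk j (ancI E.kf k i)) (fun j hj => hM j hj _) (hM0 _) (hsum _)]
  rw [h3]
  exact gn_rdc_tri E hE E.kf st2 h2 J _

/-- **K1**.   PLAN: as `gn_split`: cut at `σ.k` (`E.CutAt σ.k st1 (σ :: st2)` is not needed: use `gn_run_append` directly), `E.rd = E.rdc σ.k st2 (fun i => P.tz (tmL σ.k i) σ.k σ.b (σ.M i) (run σ.k i st1 E.v))`, the mask is a sum:
`gn_mulR_sum` gives `tz (σ.M i) = Σ_j tz (Mk j i)`; `gn_rdc_congr`, `gn_rdc_tri`. -/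
theorem cy_split_mask {P : PkSys} (hT : P.Tight) (E : Xp P) (hE : E.Valid) (st1 st2 : List (Stg P)) (σ : Stg P) (hst : E.st = st1 ++ σ :: st2)
    {ι : Type} (J : Finset ι) (Mk : ι → ℕ → P.X → ℝ) (hM : ∀ j ∈ J, ∀ i, IsMask (Mk j i)) (hsum : ∀ i x, ∑ j ∈ J, Mk j i x = σ.M i x) :
    E.rd ^ (1 / 3 : ℝ) ≤ ∑ j ∈ J, (E.withSt (st1 ++ ⟨σ.k, σ.b, Mk j⟩ :: st2)).rd ^ (1 / 3 : ℝ) := by
  have hstm := gn_valid_stm E hE
  rw [hst] at hstm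
  have hσ : ∀ i, IsMask (σ.M i) := hstm σ (by simp)
  have h2 : StM st2 := fun σ' h' => hstm σ' (by simp [h'])
  have h0 : E = E.withSt (st1 ++ ⟨σ.k, σ.b, σ.M⟩ :: st2) := by
    unfold Xp.withSt
    rw [← hst]
  calc E.rd ^ (1 / 3 : ℝ) = (E.withSt (st1 ++ ⟨σ.k, σ.b, σ.M⟩ :: st2)).rd ^ (1 / 3 : ℝ) := by rw [← h0]
    _ ≤ _ := cy_k1_sub E hE σ.k σ.b st1 st2 h2 J Mk σ.M hM hσ hsum

/-- **K2**.   PLAN: `gn_peel_abs` with `μ = (P.mu T k b ψ).restrict S0`, `Q = {q // q ∈ 𝒯}`, `hfl` vacuous (`wmin ≤ wt`); intersect the sets `S j` with `S0`. -/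
theorem cy_peel_fam {P : PkSys} (hT : P.Tight) (T : ℝ) (k b : ℕ) (ψ : P.Kc) (𝒯 : Set P.Tst) (S0 : Set P.X) (hS0 : MeasurableSet S0) (κ1 wmin : ℝ) (J : ℕ)
    (hκ : 0 < κ1) (hw : 0 < wmin) (h𝒯 : ∀ Q ∈ 𝒯, wmin ≤ P.wt Q) (hreg : ∀ Q ∈ 𝒯, P.ms T k b (P.cell Q T k ∩ S0) ψ ≤ κ1 * P.wt Q) :
    ∃ S : ℕ → Set P.X, (∀ j, MeasurableSet (S j)) ∧ (∀ j j', j ≠ j' → Disjoint (S j) (S j')) ∧ (⋃ j ∈ Finset.range (J + 1), S j) = S0 ∧
      (∀ j < J, (∀ Q ∈ 𝒯, P.ms T k b (P.cell Q T k ∩ S j) ψ ≤ 2 * ((2 : ℝ)⁻¹ ^ (j + 1) * κ1) * P.wt Q) ∧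
        ∃ (m : ℕ) (Qs : Fin m → P.Tst) (R : Fin m → Set P.X), (∀ a, Qs a ∈ 𝒯 ∧ MeasurableSet (R a) ∧ R a ⊆ P.cell (Qs a) T k) ∧
          (∀ a a', a ≠ a' → Disjoint (R a) (R a')) ∧ S j = ⋃ a, R a ∧ ∀ a, (2 : ℝ)⁻¹ ^ (j + 1) * κ1 * P.wt (Qs a) < P.ms T k b (R a) ψ) ∧
      ∀ Q ∈ 𝒯, P.ms T k b (P.cell Q T k ∩ S J) ψ ≤ (2 : ℝ)⁻¹ ^ J * κ1 * P.wt Q := by
  have := gn_mu_finite (P := P) T k b ψ
  have hms : ∀ A : Set P.X, MeasurableSet A → ((P.mu T k b ψ).restrict S0).real A = P.ms T k b (A ∩ S0) ψ := by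
    intro A hA
    rw [measureReal_restrict_apply hA, gn_ms_eq_mu T k b (hA.inter hS0)]
  have hcm : ∀ q : {q // q ∈ 𝒯}, MeasurableSet (P.cell q.1 T k) := fun q => hT.cellM _ _ _
  obtain ⟨S, hSm, hSd, hSu, hlev, hrem⟩ := gn_peel_abs ((P.mu T k b ψ).restrict S0) (Q := {q // q ∈ 𝒯}) (fun q => P.cell q.1 T k) (fun q => P.wt q.1)
    hcm (fun q => lt_of_lt_of_le hw (h𝒯 q.1 q.2)) κ1 wmin J hκ hw
    (fun q => by rw [hms _ (hcm q)]; exact hreg q.1 q.2)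
    (fun q hq => absurd hq (not_lt.2 (h𝒯 q.1 q.2)))
  refine ⟨fun j => S j ∩ S0, fun j => (hSm j).inter hS0, fun j j' hjj => ?_, ?_, fun j hj => ⟨fun Q hQ => ?_, ?_⟩, fun Q hQ => ?_⟩
  · exact (hSd j j' hjj).mono Set.inter_subset_left Set.inter_subset_left
  · have : (⋃ j ∈ Finset.range (J + 1), S j ∩ S0) = (⋃ j ∈ Finset.range (J + 1), S j) ∩ S0 := by
      simp only [Set.iUnion_inter]
    rw [this, hSu, Set.univ_inter]
  · have := (hlev j hj).1 ⟨Q, hQ⟩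
    rw [hms _ ((hcm ⟨Q, hQ⟩).inter (hSm j)), Set.inter_assoc] at this
    exact this
  · obtain ⟨m, Qs, R, hR, hRd, hSR, hlow⟩ := (hlev j hj).2
    refine ⟨m, fun a => (Qs a).1, fun a => R a ∩ S0, fun a => ⟨(Qs a).2, (hR a).1.inter hS0, Set.inter_subset_left.trans (hR a).2⟩, fun a a' haa => ?_, ?_, fun a => ?_⟩
    · exact (hRd a a' haa).mono Set.inter_subset_left Set.inter_subset_left
    · show S j ∩ S0 = _
      rw [hSR, Set.iUnion_inter]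
    · have := hlow a
      rw [hms _ (hR a).1] at this
      exact this
  · have := hrem ⟨Q, hQ⟩
    rw [hms _ ((hcm ⟨Q, hQ⟩).inter (hSm J)), Set.inter_assoc] at this
    exact this

/-- the energy of a row function, regular on a family of tests, on a finite union of cells of the family (`gn_regF_cover` on a family) -/
theorem cy_k3_cover {P : PkSys} (hT : P.Tight) {T : ℝ} {k : ℕ} {κ : ℝ} {F : Lp P.Fb 2 (P.rho k)} {𝒯 : Set P.Tst}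
    (h : ∀ Q ∈ 𝒯, ∫ x in P.cell Q T k, ‖(F : P.X → P.Fb) x‖ ^ 2 ∂(P.rho k) ≤ κ * P.wt Q) {m : ℕ} (Qs : Fin m → P.Tst)
    (hQ : ∀ i, Qs i ∈ 𝒯) {S : Set P.X} (hS : MeasurableSet S) (hsub : S ⊆ ⋃ i, P.cell (Qs i) T k) :
    ‖P.mulR k (S.indicator fun _ => 1) F‖ ^ 2 ≤ κ * ∑ i, P.wt (Qs i) := by
  rw [gn_mulR_ind_normsq k hS, Finset.mul_sum]
  obtain ⟨g, hg⟩ : ∃ g : P.X → ℝ, g = fun x => ‖(F : P.X → P.Fb) x‖ ^ 2 := ⟨_, rfl⟩
  have hgi : Integrable g (P.rho k) := by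
    rw [hg]
    exact gn_sq_integrable F
  have hg0 : ∀ x, 0 ≤ g x := fun x => by
    rw [hg]
    positivity
  have hc : ∀ i, MeasurableSet (P.cell (Qs i) T k) := fun i => hT.cellM _ _ _
  have hreg : ∀ i, ∫ x in P.cell (Qs i) T k, g x ∂(P.rho k) ≤ κ * P.wt (Qs i) := fun i => by
    rw [hg]
    exact h (Qs i) (hQ i)
  have e0 : ∫ x in S, ‖(F : P.X → P.Fb) x‖ ^ 2 ∂(P.rho k) = ∫ x in S, g x ∂(P.rho k) := by rw [hg]
  rw [e0]
  calc ∫ x in S, g x ∂(P.rho k) = ∫ x, S.indicator g x ∂(P.rho k) := (integral_indicator hS).symm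
    _ ≤ ∫ x, ∑ i, (P.cell (Qs i) T k).indicator g x ∂(P.rho k) := by
        refine integral_mono (hgi.indicator hS) (integrable_finsetSum _ fun i _ => hgi.indicator (hc i)) fun x => ?_
        by_cases hx : x ∈ S
        · obtain ⟨i0, hi0⟩ := Set.mem_iUnion.1 (hsub hx)
          rw [Set.indicator_of_mem hx]
          calc g x = (P.cell (Qs i0) T k).indicator g x := (Set.indicator_of_mem hi0 g).symm
            _ ≤ ∑ i, (P.cell (Qs i) T k).indicator g x :=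
                Finset.single_le_sum (f := fun i => (P.cell (Qs i) T k).indicator g x)
                  (fun i _ => Set.indicator_nonneg (fun y _ => hg0 y) x) (Finset.mem_univ i0)
        · rw [Set.indicator_of_notMem hx]
          exact Finset.sum_nonneg fun i _ => Set.indicator_nonneg (fun y _ => hg0 y) x
    _ = ∑ i, ∫ x, (P.cell (Qs i) T k).indicator g x ∂(P.rho k) := integral_finsetSum _ fun i _ => hgi.indicator (hc i)
    _ = ∑ i, ∫ x in P.cell (Qs i) T k, g x ∂(P.rho k) := Finset.sum_congr rfl fun i _ => integral_indicator (hc i)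
    _ ≤ ∑ i, κ * P.wt (Qs i) := Finset.sum_le_sum fun i _ => hreg i

/-- **K3**.   PLAN: the proof of `gn_gap_one` / `gn_gap` at `k' = k`, `T' = T` with `Loc.cov` replaced by `FamCov` (`G = max Cf 1`, `N = ⌈G⌉ + 2`, `Λ = 1`): shells `U_{j+1} \ U_j`, `U_j` = union of the covering at `2^j`. -/
theorem cy_rep_fam (M : Mdl) (g : ℝ) (L : M.Loc g) (hT : ∀ p, M.gd p → (M.sys p).Tight) (bm : ℕ) (Cf : ℝ) :
    ∃ Cr : ℝ, 1 ≤ Cr ∧ ∀ (p : M.Par) (T : ℝ) (k c b' : ℕ) (κ : ℝ) (F : Lp (M.sys p).Fb 2 ((M.sys p).rho k)) (𝒯 : Set (M.sys p).Tst),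
      M.gd p → c ≤ bm → b' ≤ bm → 0 ≤ κ → FamCov L p T k 𝒯 Cf →
      (∀ Q ∈ 𝒯, ∫ x in (M.sys p).cell Q T k, ‖(F : (M.sys p).X → (M.sys p).Fb) x‖ ^ 2 ∂((M.sys p).rho k) ≤ κ * (M.sys p).wt Q) →
      ∀ Q ∈ 𝒯, (M.sys p).ms T k b' ((M.sys p).cell Q T k) (ContinuousLinearMap.adjoint ((M.sys p).An T k c) F) ≤ Cr * κ * (M.sys p).wt Q := by
  obtain ⟨G, hG⟩ : ∃ G : ℝ, G = max Cf 1 := ⟨_, rfl⟩
  have hG1 : 1 ≤ G := by rw [hG]; exact le_max_right _ _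
  obtain ⟨N, hN⟩ : ∃ N : ℕ, N = ⌈G + 1⌉₊ := ⟨_, rfl⟩
  have hN1 : G + 1 ≤ N := by rw [hN]; exact Nat.le_ceil _
  have hq : 0 ≤ 2 * |L.CN bm N| * 2 ^ (G / 2) := by
    have := gn_two_pos (G / 2)
    positivity
  refine ⟨G * (1 + 2 * |L.CN bm N| * 2 ^ (G / 2)) ^ 2, ?_, ?_⟩
  · have : 1 ≤ (1 + 2 * |L.CN bm N| * 2 ^ (G / 2)) ^ 2 := one_le_pow₀ (by linarith)
    nlinarith
  intro p T k c b' κ F 𝒯 hp hc hb hκ hcovF hF Q hQ
  have hTp := hT p hp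
  have hcut : CutLe T k T k := ⟨le_rfl, le_rfl, by
    have : (0 : ℝ) ≤ (2 : ℝ)⁻¹ ^ k := by positivity
    linarith⟩
  have hκw : κ = 0 ∨ 0 ≤ (M.sys p).wt Q := by
    by_contra hcon
    push Not at hcon
    have h1 := hF Q hQ
    have h2 : 0 ≤ ∫ x in (M.sys p).cell Q T k, ‖(F : (M.sys p).X → (M.sys p).Fb) x‖ ^ 2 ∂((M.sys p).rho k) :=
      integral_nonneg fun x => by positivity
    have h3 : 0 < κ := lt_of_le_of_ne hκ (Ne.symm hcon.1)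
    nlinarith [hcon.2]
  have hΛj : ∀ j : ℕ, (1 : ℝ) ≤ 1 * 2 ^ j := fun j => by
    have h2 : (1 : ℝ) ≤ 2 ^ j := one_le_pow₀ (by norm_num)
    linarith
  choose m Qs hok hcov hwt using fun j : ℕ => hcovF (1 * 2 ^ j) (hΛj j) Q hQ
  obtain ⟨U, hUdef⟩ : ∃ U : ℕ → Set (M.sys p).X, U = fun j => ⋃ i, (M.sys p).cell (Qs j i) T k := ⟨_, rfl⟩
  have hUsub : ∀ j, U j ⊆ ⋃ i, (M.sys p).cell (Qs j i) T k := fun j => by rw [hUdef]
  have hU : ∀ j, MeasurableSet (U j) := fun j => by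
    rw [hUdef]
    exact MeasurableSet.iUnion fun i => hTp.cellM _ _ _
  have hS' : MeasurableSet ((M.sys p).cell Q T k) := hTp.cellM _ _ _
  have hno : ∀ j, ∀ x, x ∉ accU U j → ∀ x' ∈ (M.sys p).cell Q T k, ¬ L.cn p (1 * 2 ^ j) T k T k x x' := by
    intro j x hx x' hx' hcn
    obtain ⟨i, hi⟩ := hcov j x x' hx' hcn
    apply hx
    apply gn_gap_aux_acc U j
    rw [hUdef]
    exact Set.mem_iUnion.2 ⟨i, hi⟩
  have hsqc : ∀ a b : ℝ, (L.CN bm N * a * b) ^ 2 = (|L.CN bm N| * a * b) ^ 2 := by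
    intro a b
    rw [mul_pow, mul_pow, mul_pow, mul_pow, sq_abs]
  have hcv : ∀ j, ∀ S : Set (M.sys p).X, MeasurableSet S → S ⊆ U j →
      ‖(M.sys p).mulR k (S.indicator fun _ => 1) F‖ ^ 2 ≤ κ * (G * (1 : ℝ) ^ G * 1 * (M.sys p).wt Q) * 2 ^ ((j : ℝ) * G) := by
    intro j S hS hsub
    refine (cy_k3_cover hTp hF (Qs j) (hok j) hS (hsub.trans (hUsub j))).trans ?_
    rcases hκw with h0 | hw
    · rw [h0]
      simp
    · rw [hG]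
      refine gn_gap_aux_wt Cf 1 1 _ κ _ j le_rfl zero_le_one hw hκ ?_
      have := hwt j
      rw [mul_one]
      exact this
  have key := gn_gap_num ((M.sys p).ms T k b' ((M.sys p).cell Q T k) (ContinuousLinearMap.adjoint ((M.sys p).An T k c) F))
    (κ * (G * (1 : ℝ) ^ G * 1 * (M.sys p).wt Q)) (‖F‖ ^ 2) |L.CN bm N| 1
    (2 ^ (L.Cl * ((k : ℝ) - k))) G N
    (fun j => Real.sqrt ((M.sys p).ms T k b' ((M.sys p).cell Q T k)
      (ContinuousLinearMap.adjoint ((M.sys p).An T k c) ((M.sys p).mulR k ((U (j + 1) \ accU U j).indicator fun _ => 1) F))))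
    (fun J => Real.sqrt ((M.sys p).ms T k b' ((M.sys p).cell Q T k)
      (ContinuousLinearMap.adjoint ((M.sys p).An T k c) ((M.sys p).mulR k ((accU U J)ᶜ.indicator fun _ => 1) F))))
    (Real.sqrt ((M.sys p).ms T k b' ((M.sys p).cell Q T k)
      (ContinuousLinearMap.adjoint ((M.sys p).An T k c) ((M.sys p).mulR k ((U 0).indicator fun _ => 1) F))))
    (gn_ms_nonneg _ _ _ _ _) ?_ (by positivity) (abs_nonneg _) le_rfl (gn_two_pos _).le hG1 hN1 (by simp)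
    (Real.sqrt_nonneg _) (fun _ => Real.sqrt_nonneg _) (fun _ => Real.sqrt_nonneg _) ?_ ?_ ?_ ?_
  · refine key.trans (le_of_eq ?_)
    rw [Real.one_rpow]
    ring
  · rcases hκw with h0 | hw
    · rw [h0]
      simp
    · have : (0 : ℝ) ≤ G := by linarith
      rw [Real.one_rpow]
      positivity
  · rw [Real.sq_sqrt (gn_ms_nonneg _ _ _ _ _)]
    refine (gn_en_adj_le hTp T k c T k b' (gn_mask_ind hS') _).trans ?_
    have := hcv 0 (U 0) (hU 0) subset_rfl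
    simpa using this
  · intro j
    show Real.sqrt _ ^ 2 ≤ _
    rw [Real.sq_sqrt (gn_ms_nonneg _ _ _ _ _)]
    have hS : MeasurableSet (U (j + 1) \ accU U j) := (hU (j + 1)).diff (gn_gap_aux_accM U hU j)
    have h1 := L.ker p hp bm N (1 * 2 ^ j) (hΛj j) T k T k c b' hcut hc hb (U (j + 1) \ accU U j) ((M.sys p).cell Q T k) hS hS'
      (fun x hx => hno j x hx.2) ((M.sys p).mulR k ((U (j + 1) \ accU U j).indicator fun _ => 1) F)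
    rw [gn_gap_aux_ind k hS, hsqc] at h1
    refine h1.trans (mul_le_mul_of_nonneg_left ?_ (sq_nonneg _))
    have h2 := hcv (j + 1) _ hS Set.sdiff_subset
    push_cast at h2
    exact h2
  · intro J
    show Real.sqrt _ ^ 2 ≤ _
    rw [Real.sq_sqrt (gn_ms_nonneg _ _ _ _ _)]
    have hS : MeasurableSet (accU U J)ᶜ := (gn_gap_aux_accM U hU J).compl
    have h1 := L.ker p hp bm N (1 * 2 ^ J) (hΛj J) T k T k c b' hcut hc hb (accU U J)ᶜ ((M.sys p).cell Q T k) hS hS'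
      (fun x hx => hno J x hx) F
    rw [hsqc] at h1
    exact h1
  · intro J
    exact gn_gap_dec T k c T k b' U hU hS' F J

/-- **K4, main form** (no lower bound on the length of the tails is needed).   PLAN (helper199).   `D = 2C + 8 + 2⌈ξ⌉₊`; `cy_k4_dec C D` (`b = 0`, `hpl`); `gn_split`; `InsAt` of the remainder with `st2a = []` (fields: `hc`, trivial, trivial, `gn_mask_ind`, last conjunct of
`cy_k4_dec`), `gn_lev_rem C D Cs`: `2^(n/2)/(e√κ) rd(E_{Dn}) ≤ 2^((4 - D/2) n) ≤ 2^(-(C+ξ) n) ≤ 2^(-ξn) val(E)`, i.e. `rd(E_{Dn}) ≤ 2^(-ξn) rd(E)`.   By contradiction: if `2^(ξn) rd(E_j) < rd(E)` for all `j < Dn`, `gn_cube` with `R = 2^(-ξn) rd(E)`, `m = Dn+1`: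
`rd(E) ≤ (Dn+1)³ 2^(-ξn) rd(E) ≤ rd(E)/2` (`gn_absorb_poly D 2 ξ`), but `rd(E) > 0` (`hval`).   `[] ++ st2 = st2` and `Xp.ins = withSt` by `rfl`. -/
theorem cy_k4_main (M : Mdl) (g : ℝ) (hG : M.Gen g) (hpl : M.Flat) (ξ : ℝ) (hξ : 0 < ξ) (C : ℕ) :
    ∃ A n0 : ℕ, ∀ (p : M.Par) (E : Xp (M.sys p)), n0 ≤ E.n → M.Cls C A p E → 2 ^ (-(C : ℝ) * E.n) ≤ E.val →
      ∀ (k : ℕ) (st1 st2 : List (Stg (M.sys p))), E.CutAt k st1 st2 →
      ∃ (Mk : ℕ → (M.sys p).X → ℝ) (β : ℝ), (∀ i, ∃ S : Set (M.sys p).X, MeasurableSet S ∧ Mk i = S.indicator fun _ => 1) ∧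
        (E.ins k 0 st1 st2 Mk).LvlAt st1 ⟨k, 0, Mk⟩ st2 β ∧ E.rd ≤ 2 ^ (ξ * E.n) * (E.ins k 0 st1 st2 Mk).rd := by
  -- corollary of `cy_fw_osplit` (`Cyl/FwdA.lean`, helper129) with `D = 2C + 9`
  obtain ⟨A, n1, H⟩ := cy_fw_osplit M g hG hpl C (2 * C + 9)
  obtain ⟨n2, Ha⟩ := gn_absorb_poly (2 * C + 9) 1 ξ hξ
  refine ⟨A, max n1 n2, fun p E hn hE hval k st1 st2 hc => ?_⟩
  have hval' : (2 : ℝ) ^ ((9 / 2 - ((2 * C + 9 : ℕ) : ℝ) / 2) * E.n) ≤ E.val := by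
    refine le_trans (le_of_eq ?_) hval
    congr 1
    push_cast
    ring
  obtain ⟨σ, β, hk, hb, hind, hlvl, hloss⟩ := H p E ((le_max_left _ _).trans hn) hE hval' k 0 st1 st2 hc (Nat.zero_le _)
  obtain ⟨k', b', Mk⟩ := σ
  have hk' : k' = k := hk
  have hb' : b' = 0 := hb
  subst hk' hb'
  refine ⟨Mk, β, hind, hlvl, ?_⟩
  have hc0 : 0 < 2 ^ ((E.n : ℝ) / 2) / (E.e * Real.sqrt E.ka) :=
    div_pos (gn_two_pos _) (mul_pos hE.2.1.e_pos (Real.sqrt_pos.2 hE.2.1.ka_pos))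
  have hM : ∀ i, IsMask (Mk i) := by
    intro i
    obtain ⟨S, hS, e⟩ := hind i
    have e' : Mk i = S.indicator fun _ => 1 := e
    rw [e']
    exact gn_mask_ind hS
  have hrd0 : 0 ≤ (E.ins k' 0 st1 st2 Mk).rd := gn_rd_nonneg _ (gn_ins_valid E hE.2.1 hc 0 hM)
  have h1 : 2 ^ ((E.n : ℝ) / 2) / (E.e * Real.sqrt E.ka) * E.rd
      ≤ 2 ^ ((E.n : ℝ) / 2) / (E.e * Real.sqrt E.ka) * ((((2 * C + 9) * E.n + 1 : ℕ) : ℝ) ^ 3 * (E.ins k' 0 st1 st2 Mk).rd) := by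
    have h2 : E.val ≤ (((2 * C + 9) * E.n + 1 : ℕ) : ℝ) ^ 3 * (2 ^ ((E.n : ℝ) / 2) / (E.e * Real.sqrt E.ka) * (E.ins k' 0 st1 st2 Mk).rd) := hloss
    calc 2 ^ ((E.n : ℝ) / 2) / (E.e * Real.sqrt E.ka) * E.rd = E.val := rfl
      _ ≤ _ := h2
      _ = _ := by ring
  have h3 := le_of_mul_le_mul_left h1 hc0
  refine h3.trans (mul_le_mul_of_nonneg_right ?_ hrd0)
  have := Ha E.n ((le_max_right _ _).trans hn)
  rw [one_mul] at this
  exact this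

/-- **K4** (02 l.375-405 + l.443-446).   PLAN.   `gn_dec` (`Gen/Lvl`) at the floor `D` (large), generation `b = 0` (`hpl`): masks `Mk j`, `j ≤ D n`; `gn_split`: some `j` has `rd(E_j) ≥ rd(E)/(Dn+1)³`, `(Dn+1)³ ≤ 2^(ξn)` (`gn_absorb`).
`j = Dn` (remainder) is impossible: the post states are `Cr s^D Cs κ`-regular (`hG.rep`), `gn_tail` bounds `rd(E_J)` by `2^(..) √(s^D Cr Cs κ) (2^n e)`, smaller than `2^(-ξn) rd(E)` if `D` is large (lower bound of `rd(E)` from `hval`, `gn_rd_of_val`).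
Validity of `E_j`: `LvlAt` contains it or `gn_withSt_valid`-type lemma of `Gen/BasC`. -/
theorem cy_osplit (M : Mdl) (g : ℝ) (hG : M.Gen g) (hpl : M.Flat) (a0 ξ : ℝ) (ha : 0 < a0) (hξ : 0 < ξ) (C : ℕ) :
    ∃ A n0 : ℕ, ∀ (p : M.Par) (E : Xp (M.sys p)), n0 ≤ E.n → M.Cls C A p E → 2 ^ (-(C : ℝ) * E.n) ≤ E.val →
      ∀ (k : ℕ) (st1 st2 : List (Stg (M.sys p))), E.CutAt k st1 st2 → a0 * E.n ≤ ((E.kf - k : ℕ) : ℝ) →
      ∃ (σ : Stg (M.sys p)) (β : ℝ), σ.k = k ∧ σ.b = 0 ∧ (E.withSt (st1 ++ σ :: st2)).LvlAt st1 σ st2 β ∧ (E.withSt (st1 ++ σ :: st2)).Valid ∧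
        E.rd ≤ 2 ^ (ξ * E.n) * (E.withSt (st1 ++ σ :: st2)).rd := by
  obtain ⟨A, n0, H⟩ := cy_k4_main M g hG hpl ξ hξ C
  refine ⟨A, n0, fun p E hn hE hval k st1 st2 hc _ => ?_⟩
  obtain ⟨Mk, β, h01, hl, hrd⟩ := H p E hn hE hval k st1 st2 hc
  refine ⟨⟨k, 0, Mk⟩, β, rfl, rfl, hl, gn_ins_valid E hE.2.1 hc 0 (fun i => ?_), hrd⟩
  obtain ⟨S, hS, hM⟩ := h01 i
  rw [hM]
  exact gn_mask_ind hS

/-- **K5** (Prop. cyl:split-saturation used as "ordinary regularisation").   PLAN of helper199: use `cy_k4_main` (NOT `cy_osplit`: `0/1` at all `i`), `σ = ⟨k,0,Mk⟩`; `τ2` from `gn_ss2 a0 (ξ/2)`; `ξ' = min ξ (τ2/2)`, `τ = min (τ2/2) Γ` (so `2^(-Cn) ≤ 1 ≤ val`); class `gn_ins_cls`, then `gn_cls_anti`; `gn_lvl_post_reg` with the package `C+1`.   OLD PLAN: `cy_osplit` at `ξ/2`; `E' = E.withSt ..` is in `Cls (C+1) A` (`hG.root`, `gn_cls_mono`), has the same labels (so `Cnt`)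 and `val ≥ 2^((Γ - τ - ξ/2) n)`;
`gn_ss2` for `E'` at `ξ/2`: `β ≤ κ_a 2^(ξn/2)`, `raw ≤ E_a 2^(ξn/2)`; post states: `gn_lvl_post_reg` (`Cr 2β`), `gn_post_le_raw`; absorb `2 Cr` (`gn_absorb`). -/
theorem cy_prep (M : Mdl) (g : ℝ) (hG : M.Gen g) (hpl : M.Flat) (hΓ : 0 < M.Gam) (a0 ξ : ℝ) (ha : 0 < a0) (hξ : 0 < ξ) :
    ∃ τ : ℝ, 0 < τ ∧ ∀ C : ℕ, ∃ A n0 : ℕ, ∀ (p : M.Par) (E : Xp (M.sys p)), n0 ≤ E.n → M.Cls C A p E →
      E.Cnt (M.p0 + M.d0) τ → 2 ^ ((M.Gam - τ) * E.n) ≤ E.val →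
      ∀ (k : ℕ) (st1 st2 : List (Stg (M.sys p))), E.CutAt k st1 st2 → a0 * E.n ≤ ((k - E.k0 : ℕ) : ℝ) → a0 * E.n ≤ ((E.kf - k : ℕ) : ℝ) →
      ∃ σ : Stg (M.sys p), σ.k = k ∧ σ.b = 0 ∧ (∀ i, Measurable (σ.M i)) ∧ (∀ i x, σ.M i x = 0 ∨ σ.M i x = 1) ∧
        M.Cls (C + 1) A p (E.withSt (st1 ++ σ :: st2)) ∧ E.rd ≤ 2 ^ (ξ * E.n) * (E.withSt (st1 ++ σ :: st2)).rd ∧
        (E.withSt (st1 ++ σ :: st2)).PrepAt M.p0 M.d0 k C (st1 ++ [σ]) ξ := by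
  obtain ⟨τ2, hτ2, H2⟩ := gn_ss2 M g hG hΓ a0 (ξ / 2) ha (by positivity)
  obtain ⟨ξ', hξ'def⟩ : ∃ ξ' : ℝ, ξ' = min ξ (τ2 / 2) := ⟨_, rfl⟩
  have hξ'0 : 0 < ξ' := by rw [hξ'def]; exact lt_min hξ (by positivity)
  have hξ'1 : ξ' ≤ ξ := by rw [hξ'def]; exact min_le_left _ _
  have hξ'2 : ξ' ≤ τ2 / 2 := by rw [hξ'def]; exact min_le_right _ _
  obtain ⟨τ, hτdef⟩ : ∃ τ : ℝ, τ = min (τ2 / 2) M.Gam := ⟨_, rfl⟩
  have hτ0 : 0 < τ := by rw [hτdef]; exact lt_min (by positivity) hΓ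
  have hτ1 : τ ≤ τ2 / 2 := by rw [hτdef]; exact min_le_left _ _
  have hτ2' : τ ≤ M.Gam := by rw [hτdef]; exact min_le_right _ _
  refine ⟨τ, hτ0, fun C => ?_⟩
  obtain ⟨A1, n1, H1⟩ := cy_k4_main M g hG hpl ξ' hξ'0 C
  obtain ⟨A2, n2, H2'⟩ := H2 (C + 1)
  obtain ⟨Cr, hCr, H3⟩ := gn_lvl_post_reg M g hG (C + 1)
  obtain ⟨n3, hn3⟩ := gn_absorb (2 * Cr) (ξ / 2) (by positivity)
  refine ⟨max A1 A2, max n1 (max n2 n3), fun p E hn hE hCnt hval k st1 st2 hc hk1 hk2 => ?_⟩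
  have hn1 : n1 ≤ E.n := (le_max_left _ _).trans hn
  have hn2 : n2 ≤ E.n := ((le_max_left _ _).trans (le_max_right _ _)).trans hn
  have hn3' : n3 ≤ E.n := ((le_max_right _ _).trans (le_max_right _ _)).trans hn
  have hnn : (0 : ℝ) ≤ E.n := Nat.cast_nonneg _
  have hV := hE.2.1
  have hT := hG.tight p hE.1
  have hval0 : (2 : ℝ) ^ (-(C : ℝ) * E.n) ≤ E.val := by
    refine le_trans (Real.rpow_le_rpow_of_exponent_le one_le_two ?_) hval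
    have h1 : 0 ≤ (M.Gam - τ) * E.n := mul_nonneg (by linarith) hnn
    have h2 : 0 ≤ (C : ℝ) * E.n := by positivity
    linarith
  obtain ⟨Mk, β, h01, hl, hrd⟩ := H1 p E hn1 (gn_cls_anti M hG.scale (le_max_left _ _) hE) hval0 k st1 st2 hc
  have hM : ∀ i, IsMask (Mk i) := by
    intro i
    obtain ⟨S, hS, e⟩ := h01 i
    rw [e]
    exact gn_mask_ind hS
  have hE' : M.Cls (C + 1) (max A1 A2) p (E.ins k 0 st1 st2 Mk) := gn_ins_cls M g hG hE hc (Nat.zero_le _) hM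
  have hV' := hE'.2.1
  have hrd0 : 0 ≤ (E.ins k 0 st1 st2 Mk).rd := gn_rd_nonneg _ hV'
  have hc0 : 0 < 2 ^ ((E.n : ℝ) / 2) / (E.e * Real.sqrt E.ka) :=
    div_pos (gn_two_pos _) (mul_pos hV.e_pos (Real.sqrt_pos.2 hV.ka_pos))
  -- the count
  have hcnt' : (E.ins k 0 st1 st2 Mk).tw ≤ (E.ins k 0 st1 st2 Mk).e / (E.ins k 0 st1 st2 Mk).ka * (E.ins k 0 st1 st2 Mk).s ^ (-(M.p0 + M.d0) - τ2) := by
    have h0 : E.tw ≤ E.e / E.ka * E.s ^ (-(M.p0 + M.d0) - τ) := hCnt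
    have h1 : E.tw ≤ E.e / E.ka * E.s ^ (-(M.p0 + M.d0) - τ2) := by
      refine h0.trans (mul_le_mul_of_nonneg_left ?_ (div_pos hV.e_pos hV.ka_pos).le)
      rw [gn_s_rpow, gn_s_rpow]
      refine Real.rpow_le_rpow_of_exponent_le one_le_two ?_
      nlinarith
    exact h1
  -- the value
  have hval' : (2 : ℝ) ^ ((M.Gam - τ2) * (E.ins k 0 st1 st2 Mk).n) ≤ (E.ins k 0 st1 st2 Mk).val := by
    have h1 : E.val ≤ 2 ^ (ξ' * E.n) * (E.ins k 0 st1 st2 Mk).val := by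
      calc E.val = 2 ^ ((E.n : ℝ) / 2) / (E.e * Real.sqrt E.ka) * E.rd := rfl
        _ ≤ 2 ^ ((E.n : ℝ) / 2) / (E.e * Real.sqrt E.ka) * (2 ^ (ξ' * E.n) * (E.ins k 0 st1 st2 Mk).rd) := mul_le_mul_of_nonneg_left hrd hc0.le
        _ = 2 ^ (ξ' * E.n) * (2 ^ ((E.n : ℝ) / 2) / (E.e * Real.sqrt E.ka) * (E.ins k 0 st1 st2 Mk).rd) := by ring
        _ = _ := rfl
    have h2 := hval.trans h1
    have h3 := mul_le_mul_of_nonneg_left h2 (gn_two_pos (-(ξ' * E.n))).le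
    rw [← mul_assoc, ← Real.rpow_add (by norm_num), ← Real.rpow_add (by norm_num), neg_add_cancel, Real.rpow_zero, one_mul] at h3
    refine le_trans (Real.rpow_le_rpow_of_exponent_le one_le_two ?_) h3
    show (M.Gam - τ2) * (E.n : ℝ) ≤ _
    nlinarith
  have hj : ((k - E.k0 : ℕ) : ℝ) ≤ (1 - a0) * E.n := by
    have h1 : (k - E.k0) + (E.kf - k) = E.n := by
      have := hc.2.2.2.1
      have := hc.2.2.2.2
      unfold Xp.kf at *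
      omega
    have h2 : ((k - E.k0 : ℕ) : ℝ) + ((E.kf - k : ℕ) : ℝ) = E.n := by exact_mod_cast h1
    linarith
  obtain ⟨-, hβ, -, hraw⟩ := H2' p (E.ins k 0 st1 st2 Mk) hn2 (gn_cls_anti M hG.scale (le_max_right _ _) hE') hcnt' hval' st1 st2 ⟨k, 0, Mk⟩ β hl hk1 hj
  refine ⟨⟨k, 0, Mk⟩, rfl, rfl, fun i => (hM i).1, fun i x => ?_, hE', ?_, ?_, ?_⟩
  · obtain ⟨S, hS, e⟩ := h01 i
    show Mk i x = 0 ∨ Mk i x = 1
    rw [e]
    by_cases hx : x ∈ S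
    · right; exact Set.indicator_of_mem hx _
    · left; exact Set.indicator_of_notMem hx _
  · refine hrd.trans (mul_le_mul_of_nonneg_right (Real.rpow_le_rpow_of_exponent_le one_le_two ?_) hrd0)
    exact mul_le_mul_of_nonneg_right hξ'1 hnn
  · have h1 := (gn_post_le_raw hT _ hV' hl).trans hraw
    refine le_trans h1 (mul_le_mul_of_nonneg_left (Real.rpow_le_rpow_of_exponent_le one_le_two ?_) hV.e_pos.le)
    show M.d0 * ((k - E.k0 : ℕ) : ℝ) + ξ / 2 * (E.n : ℝ) ≤ M.d0 * ((k - E.k0 : ℕ) : ℝ) + ξ * (E.n : ℝ)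
    nlinarith
  · intro i hi b hb Q hQ
    have h1 := (H3 p _ hE.1 hV' hE'.2.2.2.1 st1 st2 ⟨k, 0, Mk⟩ β hl i hi).2 b (by omega) Q hQ
    refine h1.trans (mul_le_mul_of_nonneg_right ?_ (hT.wt_pos Q k hQ).le)
    have h2 : (2 * Cr : ℝ) ≤ 2 ^ (ξ / 2 * (E.n : ℝ)) := hn3 E.n hn3'
    have h3 : β ≤ E.ka * (2 : ℝ) ^ (-(M.p0 * ((k - E.k0 : ℕ) : ℝ)) + ξ / 2 * E.n) := hβ
    show Cr * (2 * β) ≤ E.ka * (2 : ℝ) ^ (-(M.p0 * ((k - E.k0 : ℕ) : ℝ)) + ξ * E.n)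
    have e1 : (2 : ℝ) ^ (-(M.p0 * ((k - E.k0 : ℕ) : ℝ)) + ξ * E.n) = 2 ^ (ξ / 2 * (E.n : ℝ)) * 2 ^ (-(M.p0 * ((k - E.k0 : ℕ) : ℝ)) + ξ / 2 * E.n) := by
      rw [← Real.rpow_add (by norm_num)]
      congr 1
      ring
    rw [e1]
    calc Cr * (2 * β) = (2 * Cr) * β := by ring
      _ ≤ (2 * Cr) * (E.ka * (2 : ℝ) ^ (-(M.p0 * ((k - E.k0 : ℕ) : ℝ)) + ξ / 2 * E.n)) := mul_le_mul_of_nonneg_left h3 (by linarith)
      _ ≤ 2 ^ (ξ / 2 * (E.n : ℝ)) * (E.ka * (2 : ℝ) ^ (-(M.p0 * ((k - E.k0 : ℕ) : ℝ)) + ξ / 2 * E.n)) :=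
          mul_le_mul_of_nonneg_right h2 (mul_nonneg hV.ka_pos.le (gn_two_pos _).le)
      _ = _ := by ring

/-- **K6** (02 l.470-472, 752-754): the final cut `k = kf`, `st2 = []`.   PLAN.   Peel as in `cy_osplit` (the remainder: `m_l ≤ Cr 2^-J κ1 w_l`, `gn_tr_le`, `gn_total`).   A preserving level `(β, z = raw)`:
(a) `rd(E') ≤ √(2 Cr β) z`  (`m_l ≤ 2 Cr β w_l` by `hG.rep`, `Σ m ≤ post ≤ raw`);   (b) prefix with the heavy tests as labels (`gn_lvl_pre`, `gn_prefix` at relative length `n`, i.e. `hG` + `gn_rate_gam`): `2^(n/2) z √(β/κ) ≤ 2^((Γ+ε)n) e`;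
(c) `PMin ⊤` (`gn_pmin_p0`, via `gn_prefix_min`) applied to the same prefix, which is `τ'`-extremal by (a): `β ≤ κ s^(p0 - ξ)`;   (d) `rd(E') ≤ (2 Cr β)^(3/2) tw` (`gn_tr_le_w`) and `Cnt`: `β ≥ κ s^(p0 + ξ)`, then (b) gives `z ≤ e s^(-d0 - ξ)`. -/
theorem cy_prep_end (M : Mdl) (g : ℝ) (hG : M.Gen g) (hpl : M.Flat) (hΓ : 0 < M.Gam) (ξ : ℝ) (hξ : 0 < ξ) :
    ∃ τ : ℝ, 0 < τ ∧ ∀ C : ℕ, ∃ A n0 : ℕ, ∀ (p : M.Par) (E : Xp (M.sys p)), n0 ≤ E.n → M.Cls C A p E →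
      E.Cnt (M.p0 + M.d0) τ → 2 ^ ((M.Gam - τ) * E.n) ≤ E.val →
      ∃ σ : Stg (M.sys p), σ.k = E.kf ∧ σ.b = 0 ∧ (∀ i, Measurable (σ.M i)) ∧ (∀ i x, σ.M i x = 0 ∨ σ.M i x = 1) ∧
        M.Cls (C + 1) A p (E.withSt (E.st ++ [σ])) ∧ E.rd ≤ 2 ^ (ξ * E.n) * (E.withSt (E.st ++ [σ])).rd ∧
        (E.withSt (E.st ++ [σ])).PrepAt M.p0 M.d0 E.kf C (E.st ++ [σ]) ξ := by
  obtain ⟨τb, hτb, Hb⟩ := cy_fw_fin_bench M g hG hpl hΓ (ξ / 2) (half_pos hξ)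
  obtain ⟨ξ', hξd⟩ : ∃ ξ', ξ' = min ξ (τb / 2) := ⟨_, rfl⟩
  have hξ' : 0 < ξ' := by rw [hξd]; exact lt_min hξ (by positivity)
  have hξa : ξ' ≤ ξ := by rw [hξd]; exact min_le_left _ _
  have hξb : ξ' ≤ τb / 2 := by rw [hξd]; exact min_le_right _ _
  obtain ⟨τ, hτd⟩ : ∃ τ, τ = min (τb / 2) M.Gam := ⟨_, rfl⟩
  have hτ : 0 < τ := by rw [hτd]; exact lt_min (by positivity) hΓ
  have hτa : τ ≤ τb / 2 := by rw [hτd]; exact min_le_left _ _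
  have hτc : τ ≤ M.Gam := by rw [hτd]; exact min_le_right _ _
  refine ⟨τ, hτ, fun C => ?_⟩
  obtain ⟨A1, n1, H4⟩ := cy_k4_main M g hG hpl ξ' hξ' C
  obtain ⟨A2, n2, H2⟩ := Hb (C + 1)
  obtain ⟨Cr, hCr1, HR⟩ := gn_lvl_post_reg M g hG (C + 1)
  obtain ⟨n3, H3⟩ := gn_absorb (Cr * 2) (ξ / 2) (half_pos hξ)
  refine ⟨max A1 A2, max (max n1 n2) n3, fun p E hn hE hcnt hval => ?_⟩
  have hn1 : n1 ≤ E.n := le_trans (le_trans (le_max_left _ _) (le_max_left _ _)) hn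
  have hn2 : n2 ≤ E.n := le_trans (le_trans (le_max_right _ _) (le_max_left _ _)) hn
  have hn3 : n3 ≤ E.n := le_trans (le_max_right _ _) hn
  have hE1 : M.Cls C A1 p E := gn_cls_anti M hG.scale (le_max_left _ _) hE
  have hV : E.Valid := hE.2.1
  have hT := hG.tight p hE.1
  have hnn : (0 : ℝ) ≤ E.n := Nat.cast_nonneg _
  have hc : E.CutAt E.kf E.st [] :=
    ⟨(List.append_nil _).symm, fun σ hσ => (hV.st_dep σ hσ).2, fun σ hσ => absurd hσ (List.not_mem_nil), by unfold Xp.kf; omega, le_refl _⟩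
  have hval1 : (2 : ℝ) ^ (-(C : ℝ) * E.n) ≤ E.val := by
    refine le_trans (gn_two_mono ?_) hval
    have h1 : 0 ≤ (M.Gam - τ) * E.n := mul_nonneg (by linarith) hnn
    have h2 : 0 ≤ (C : ℝ) * E.n := mul_nonneg (Nat.cast_nonneg _) hnn
    linarith
  obtain ⟨Mk, β, hind, hlvl, hloss⟩ := H4 p E hn1 hE1 hval1 E.kf E.st [] hc
  have hM : ∀ i, IsMask (Mk i) := by
    intro i
    obtain ⟨S, hS, e⟩ := hind i
    rw [e]
    exact gn_mask_ind hS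
  have hcls : M.Cls (C + 1) (max A1 A2) p (E.ins E.kf 0 E.st [] Mk) := gn_ins_cls M g hG hE hc (Nat.zero_le _) hM
  have hcls2 : M.Cls (C + 1) A2 p (E.ins E.kf 0 E.st [] Mk) := gn_cls_anti M hG.scale (le_max_right _ _) hcls
  have hV' := hcls.2.1
  have hc0 : 0 < 2 ^ ((E.n : ℝ) / 2) / (E.e * Real.sqrt E.ka) :=
    div_pos (gn_two_pos _) (mul_pos hV.e_pos (Real.sqrt_pos.2 hV.ka_pos))
  have hrd0 : 0 ≤ (E.ins E.kf 0 E.st [] Mk).rd := gn_rd_nonneg _ hV'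
  have hval' : (2 : ℝ) ^ ((M.Gam - τb) * (E.ins E.kf 0 E.st [] Mk).n) ≤ (E.ins E.kf 0 E.st [] Mk).val := by
    have h1 : E.val ≤ 2 ^ (ξ' * E.n) * (E.ins E.kf 0 E.st [] Mk).val := by
      calc E.val = 2 ^ ((E.n : ℝ) / 2) / (E.e * Real.sqrt E.ka) * E.rd := rfl
        _ ≤ 2 ^ ((E.n : ℝ) / 2) / (E.e * Real.sqrt E.ka) * (2 ^ (ξ' * E.n) * (E.ins E.kf 0 E.st [] Mk).rd) :=
          mul_le_mul_of_nonneg_left hloss hc0.le
        _ = 2 ^ (ξ' * E.n) * (2 ^ ((E.n : ℝ) / 2) / (E.e * Real.sqrt E.ka) * (E.ins E.kf 0 E.st [] Mk).rd) := by ring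
        _ = _ := rfl
    have h2 : (2 : ℝ) ^ (ξ' * E.n) * 2 ^ ((M.Gam - τb) * E.n) ≤ 2 ^ (ξ' * E.n) * (E.ins E.kf 0 E.st [] Mk).val := by
      refine le_trans ?_ (hval.trans h1)
      rw [← gn_two_add]
      refine gn_two_mono ?_
      have : (ξ' + τ) * E.n ≤ τb * E.n := mul_le_mul_of_nonneg_right (by linarith) hnn
      linarith
    exact le_of_mul_le_mul_left h2 (gn_two_pos _)
  have htw : (E.ins E.kf 0 E.st [] Mk).tw ≤ (E.ins E.kf 0 E.st [] Mk).e / (E.ins E.kf 0 E.st [] Mk).ka * (E.ins E.kf 0 E.st [] Mk).s ^ (-(M.p0 + M.d0) - τb) := by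
    have h1 : E.tw ≤ E.e / E.ka * E.s ^ (-(M.p0 + M.d0) - τ) := hcnt
    have h2 : E.s ^ (-(M.p0 + M.d0) - τ) ≤ E.s ^ (-(M.p0 + M.d0) - τb) := gn_s_anti E (by linarith)
    exact h1.trans (mul_le_mul_of_nonneg_left h2 (div_pos hV.e_pos hV.ka_pos).le)
  obtain ⟨hβ, hraw⟩ := H2 p (E.ins E.kf 0 E.st [] Mk) hn2 hcls2 htw hval' E.st ⟨E.kf, 0, Mk⟩ β hlvl rfl
  have hj : ((E.kf - E.k0 : ℕ) : ℝ) = (E.n : ℝ) := by
    unfold Xp.kf
    rw [Nat.add_sub_cancel_left]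
  refine ⟨⟨E.kf, 0, Mk⟩, rfl, rfl, fun i => (hM i).1, fun i x => ?_, hcls, ?_, ?_, ?_⟩
  · obtain ⟨S, hS, e⟩ := hind i
    show Mk i x = 0 ∨ Mk i x = 1
    rw [e]
    by_cases hx : x ∈ S <;> simp [hx]
  · exact hloss.trans (mul_le_mul_of_nonneg_right (gn_two_mono (mul_le_mul_of_nonneg_right hξa hnn)) hrd0)
  · have h1 := gn_post_le_raw hT _ hV' hlvl
    have h2 : (E.ins E.kf 0 E.st [] Mk).post E.st ⟨E.kf, 0, Mk⟩ ≤ E.e * E.s ^ (-M.d0 - ξ / 2) := h1.trans hraw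
    refine le_trans h2 (mul_le_mul_of_nonneg_left ?_ hV.e_pos.le)
    rw [gn_s_rpow]
    refine gn_two_mono ?_
    show _ ≤ M.d0 * ((E.kf - E.k0 : ℕ) : ℝ) + ξ * E.n
    rw [hj]
    have : 0 ≤ ξ * E.n := mul_nonneg hξ.le hnn
    linarith
  · intro i hi b hb
    have h1 := (HR p (E.ins E.kf 0 E.st [] Mk) hE.1 hV' hcls.2.2.2.1 E.st [] ⟨E.kf, 0, Mk⟩ β hlvl i hi).2 b (by omega)
    refine gn_reg_mono hT h1 ?_
    show _ ≤ E.ka * 2 ^ (-(M.p0 * ((E.kf - E.k0 : ℕ) : ℝ)) + ξ * E.n)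
    rw [hj]
    have h3 := H3 E.n hn3
    have hβ' : β ≤ E.ka * E.s ^ (M.p0 - ξ / 2) := hβ
    rw [gn_s_rpow] at hβ'
    calc Cr * (2 * β) = Cr * 2 * β := by ring
      _ ≤ Cr * 2 * (E.ka * 2 ^ (-((M.p0 - ξ / 2) * E.n))) := mul_le_mul_of_nonneg_left hβ' (by linarith)
      _ ≤ 2 ^ (ξ / 2 * E.n) * (E.ka * 2 ^ (-((M.p0 - ξ / 2) * E.n))) :=
        mul_le_mul_of_nonneg_right h3 (mul_pos hV.ka_pos (gn_two_pos _)).le
      _ = E.ka * (2 ^ (ξ / 2 * E.n) * 2 ^ (-((M.p0 - ξ / 2) * E.n))) := by ring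
      _ = _ := by
        rw [← gn_two_add]
        congr 2
        ring

/-- **K7**: cuts near the root, `k - k0 ≤ a1 n`: nothing has to be inserted.   PLAN: `a1 = ξ / 8`.   Regularity: `gn_cut_reg` gives `Cs κ`; `Cs ≤ 2^(ξn/2)` (`gn_absorb`), `p0 (k - k0) ≤ 3 a1 n ≤ ξ n / 2` (`gn_p0_le`, or carry `p0 ≤ 3` as below).
Energy: `gn_at_norm_le`, `gn_ivs_card`: `Σ ≤ 2^(k-k0) e ≤ 2^(ξ n) e`, and `0 ≤ d0 (k - k0)`. -/
theorem cy_prep_root (M : Mdl) (g : ℝ) (hG : M.Gen g) (hpl : M.Flat) (hΓ : 0 < M.Gam) (ξ : ℝ) (hξ : 0 < ξ) :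
    ∃ a1 : ℝ, 0 < a1 ∧ ∀ C : ℕ, ∃ n0 : ℕ, ∀ (A : ℕ) (p : M.Par) (E : Xp (M.sys p)), n0 ≤ E.n → M.Cls C A p E →
      ∀ (k : ℕ) (st1 st2 : List (Stg (M.sys p))), E.CutAt k st1 st2 → ((k - E.k0 : ℕ) : ℝ) ≤ a1 * E.n → E.PrepAt M.p0 M.d0 k C st1 ξ := by
  refine ⟨ξ / 8, by positivity, fun C => ?_⟩
  obtain ⟨Cs, hCs1, hreg⟩ := gn_cut_reg M g hG C
  obtain ⟨n0, hn0⟩ := gn_absorb Cs (ξ / 2) (by positivity)
  refine ⟨n0, fun A p E hn hC k st1 st2 hc hk => ?_⟩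
  obtain ⟨hp, hV, hlen, hgen, -⟩ := hC
  have hT := hG.tight p hp
  have hj0 : (0 : ℝ) ≤ ((k - E.k0 : ℕ) : ℝ) := Nat.cast_nonneg _
  have hnn : (0 : ℝ) ≤ E.n := Nat.cast_nonneg _
  have hd0 := (gn_d0_le M g hG hΓ).1
  have hp0 : M.p0 ≤ 3 := by
    have := gn_p0_le M g hG hΓ
    linarith
  refine ⟨?_, fun i hi b hb => ?_⟩
  · calc ∑ i ∈ ivs E.k0 E.i0 k, ‖E.at' k i st1‖ ^ 2 ≤ ∑ _i ∈ ivs E.k0 E.i0 k, E.e :=
          Finset.sum_le_sum fun i _ => gn_at_norm_le hT E hV hc i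
      _ = E.e * 2 ^ ((k - E.k0 : ℕ) : ℝ) := by
          rw [Finset.sum_const, gn_ivs_card, nsmul_eq_mul, Real.rpow_natCast]
          push_cast
          ring
      _ ≤ E.e * 2 ^ (M.d0 * ((k - E.k0 : ℕ) : ℝ) + ξ * E.n) := by
          refine mul_le_mul_of_nonneg_left ?_ hV.e_pos.le
          refine Real.rpow_le_rpow_of_exponent_le (by norm_num) ?_
          have : 0 ≤ M.d0 * ((k - E.k0 : ℕ) : ℝ) := by positivity
          nlinarith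
  · have h1 := hreg p E hp hV hlen hgen k b st1 st2 hc hb i hi
    intro Q hQ
    refine (h1 Q hQ).trans (mul_le_mul_of_nonneg_right ?_ (hT.wt_pos Q k hQ).le)
    rw [mul_comm]
    refine mul_le_mul_of_nonneg_left ((hn0 E.n hn).trans ?_) hV.ka_pos.le
    refine Real.rpow_le_rpow_of_exponent_le (by norm_num) ?_
    have : M.p0 * ((k - E.k0 : ℕ) : ℝ) ≤ 3 * ((k - E.k0 : ℕ) : ℝ) := mul_le_mul_of_nonneg_right hp0 hj0
    nlinarith

/-- the experiment with one inserted stage of generation `0` stays in the class, with the package `C + 1` -/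
theorem cy_k8_cls (M : Mdl) (g : ℝ) (hG : M.Gen g) {C A : ℕ} {p : M.Par} {E : Xp (M.sys p)} (hE : M.Cls C A p E) {st1 st2 : List (Stg (M.sys p))}
    {σ : Stg (M.sys p)} (hst : E.st = st1 ++ st2) (hb : σ.b = 0) (hV : (E.withSt (st1 ++ σ :: st2)).Valid) :
    M.Cls (C + 1) A p (E.withSt (st1 ++ σ :: st2)) := by
  obtain ⟨hp, -, hlen, hgen, hadm⟩ := hE
  refine ⟨hp, hV, ?_, ⟨hgen.1.trans (Nat.le_succ _), hgen.2.1.trans (Nat.le_succ _), ?_⟩, ?_⟩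
  · show (st1 ++ σ :: st2).length ≤ C + 1
    rw [hst, List.length_append] at hlen
    rw [List.length_append, List.length_cons]
    omega
  · intro σ' hσ'
    have hσ'' : σ' ∈ st1 ++ σ :: st2 := hσ'
    rw [List.mem_append, List.mem_cons] at hσ''
    rcases hσ'' with h | h | h
    · exact (hgen.2.2 σ' (by rw [hst]; exact List.mem_append_left _ h)).trans (Nat.le_succ _)
    · rw [h, hb]
      exact Nat.zero_le _
    · exact (hgen.2.2 σ' (by rw [hst]; exact List.mem_append_right _ h)).trans (Nat.le_succ _)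
  · exact hG.scale C A (C + 1) A p E _ hp hadm ⟨rfl, rfl, rfl, rfl, rfl, rfl⟩ (Nat.mul_le_mul_right _ (Nat.le_succ _)) le_rfl

/-- the post energy of an inserted stage is at most the energy at the cut -/
theorem cy_k8_post {P : PkSys} (hT : P.Tight) (E : Xp P) (st1 st2 : List (Stg P)) (σ : Stg P) (hM : ∀ i, IsMask (σ.M i)) :
    (E.withSt (st1 ++ σ :: st2)).post st1 σ ≤ ∑ i ∈ ivs E.k0 E.i0 σ.k, ‖E.at' σ.k i st1‖ ^ 2 := by
  unfold Xp.post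
  refine Finset.sum_le_sum fun i _ => ?_
  rw [gn_lvl_at]
  have := gn_tz_norm_le hT (tmL σ.k i) σ.k σ.b (hM i) ((E.withSt (st1 ++ σ :: st2)).at' σ.k i st1)
  exact pow_le_pow_left₀ (norm_nonneg _) this 2

/-- **K8** ("Read mass at a gate", 02 l.601-611): NO lower bound on the depth of the cut.   PLAN.   `τ3` from `gn_ss3 a0 ξ`; `a1` from `cy_prep_root` at the accuracy `τ3`.
`k - k0 ≤ a1 n`: `cy_prep_root` + `gn_ss3`.   `a1 n ≤ k - k0`: `cy_osplit` at the cut (thought experiment), `gn_ss2` (with `min a0 a1`) gives `E_a 2^(-ξn) ≤ post`, and `post ≤ Σ ‖at'‖²` (`gn_lvl_at`, `gn_tz_norm_le`). -/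
theorem cy_read (M : Mdl) (g : ℝ) (hG : M.Gen g) (hpl : M.Flat) (hΓ : 0 < M.Gam) (a0 ξ : ℝ) (ha : 0 < a0) (hξ : 0 < ξ) :
    ∃ τ : ℝ, 0 < τ ∧ ∀ C : ℕ, ∃ A n0 : ℕ, ∀ (p : M.Par) (E : Xp (M.sys p)), n0 ≤ E.n → M.Cls C A p E →
      E.Cnt (M.p0 + M.d0) τ → 2 ^ ((M.Gam - τ) * E.n) ≤ E.val →
      ∀ (k : ℕ) (st1 st2 : List (Stg (M.sys p))), E.CutAt k st1 st2 → a0 * E.n ≤ ((E.kf - k : ℕ) : ℝ) →
      E.e * 2 ^ (M.d0 * ((k - E.k0 : ℕ) : ℝ) - ξ * E.n) ≤ ∑ i ∈ ivs E.k0 E.i0 k, ‖E.at' k i st1‖ ^ 2 := by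
  obtain ⟨τ3, hτ3, H3⟩ := gn_ss3 M g hG hΓ a0 ξ ha hξ
  obtain ⟨a1, ha1, Hr⟩ := cy_prep_root M g hG hpl hΓ τ3 hτ3
  obtain ⟨τ2, hτ2, H2⟩ := gn_ss2 M g hG hΓ (min a0 a1) ξ (lt_min ha ha1) hξ
  refine ⟨min (min τ3 (τ2 / 2)) M.Gam, lt_min (lt_min hτ3 (half_pos hτ2)) hΓ, fun C => ?_⟩
  obtain ⟨τ, hτdef⟩ : ∃ τ : ℝ, τ = min (min τ3 (τ2 / 2)) M.Gam := ⟨_, rfl⟩
  rw [← hτdef]
  have hτa : τ ≤ τ3 := by rw [hτdef]; exact (min_le_left _ _).trans (min_le_left _ _)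
  have hτb : τ ≤ τ2 / 2 := by rw [hτdef]; exact (min_le_left _ _).trans (min_le_right _ _)
  have hτc : τ ≤ M.Gam := by rw [hτdef]; exact min_le_right _ _
  obtain ⟨A3, n3, H3'⟩ := H3 C
  obtain ⟨nr, Hr'⟩ := Hr C
  obtain ⟨A2, n2, H2'⟩ := H2 (C + 1)
  obtain ⟨A4, n4, H4⟩ := cy_osplit M g hG hpl a0 (τ2 / 2) ha (half_pos hτ2) C
  refine ⟨A3 + A2 + A4, n3 + nr + n2 + n4, fun p E hn hE hcnt hval k st1 st2 hc hk => ?_⟩
  have hE3 := gn_cls_anti M hG.scale (show A3 ≤ A3 + A2 + A4 by omega) hE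
  have hE2 := gn_cls_anti M hG.scale (show A2 ≤ A3 + A2 + A4 by omega) hE
  have hE4 := gn_cls_anti M hG.scale (show A4 ≤ A3 + A2 + A4 by omega) hE
  have hp := hE.1
  have hV := hE.2.1
  have hT := hG.tight p hp
  have hnn : (0 : ℝ) ≤ E.n := Nat.cast_nonneg _
  by_cases hj : ((k - E.k0 : ℕ) : ℝ) ≤ a1 * E.n
  · have hprep := Hr' (A3 + A2 + A4) p E (by omega) hE k st1 st2 hc hj
    refine H3' p E (by omega) hE3 (le_trans (gn_two_mono (mul_le_mul_of_nonneg_right (by linarith) hnn)) hval) k 0 st1 st2 hc hk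
      (Nat.zero_le _) fun i hi => ⟨?_, hprep.2 i hi 0 (Nat.zero_le _)⟩
    rw [hpl p hp 0]
    exact Set.mem_univ _
  · push Not at hj
    have hvC : (2 : ℝ) ^ (-(C : ℝ) * E.n) ≤ E.val := by
      refine le_trans (gn_two_mono ?_) hval
      have h1 : 0 ≤ (M.Gam - τ) * E.n := mul_nonneg (by linarith) hnn
      have h2 : -(C : ℝ) * E.n ≤ 0 := by
        have : (0 : ℝ) ≤ (C : ℝ) * E.n := mul_nonneg (Nat.cast_nonneg _) hnn
        linarith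
      linarith
    obtain ⟨σ, β, hσk, hσb, hlvl, hV', hrd⟩ := H4 p E (by omega) hE4 hvC k st1 st2 hc hk
    have hcls := cy_k8_cls M g hG hE2 hc.1 hσb hV'
    have htw : (E.withSt (st1 ++ σ :: st2)).tw ≤ (E.withSt (st1 ++ σ :: st2)).e / (E.withSt (st1 ++ σ :: st2)).ka
        * (E.withSt (st1 ++ σ :: st2)).s ^ (-(M.p0 + M.d0) - τ2) := by
      show E.tw ≤ E.e / E.ka * E.s ^ (-(M.p0 + M.d0) - τ2)
      refine le_trans hcnt (mul_le_mul_of_nonneg_left (gn_s_anti E (by linarith)) ?_)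
      exact div_nonneg hV.e_pos.le hV.ka_pos.le
    have hval' : (2 : ℝ) ^ ((M.Gam - τ2) * ((E.withSt (st1 ++ σ :: st2)).n : ℝ)) ≤ (E.withSt (st1 ++ σ :: st2)).val := by
      show (2 : ℝ) ^ ((M.Gam - τ2) * (E.n : ℝ)) ≤ 2 ^ ((E.n : ℝ) / 2) / (E.e * Real.sqrt E.ka) * (E.withSt (st1 ++ σ :: st2)).rd
      have hc0 : 0 ≤ (2 : ℝ) ^ ((E.n : ℝ) / 2) / (E.e * Real.sqrt E.ka) := by
        have := hV.e_pos
        positivity
      have h1 : E.val ≤ 2 ^ (τ2 / 2 * E.n) * (2 ^ ((E.n : ℝ) / 2) / (E.e * Real.sqrt E.ka) * (E.withSt (st1 ++ σ :: st2)).rd) := by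
        unfold Xp.val
        refine (mul_le_mul_of_nonneg_left hrd hc0).trans (le_of_eq ?_)
        ring
      have h2 : (2 : ℝ) ^ (τ2 / 2 * E.n) * 2 ^ ((M.Gam - τ2) * (E.n : ℝ)) ≤ 2 ^ ((M.Gam - τ) * E.n) := by
        rw [← gn_two_add]
        refine gn_two_mono ?_
        have : (τ2 / 2 + (M.Gam - τ2)) * (E.n : ℝ) ≤ (M.Gam - τ) * E.n := mul_le_mul_of_nonneg_right (by linarith) hnn
        linarith
      exact le_of_mul_le_mul_left (h2.trans (hval.trans h1)) (gn_two_pos _)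
    have hkk : ((E.kf - k : ℕ) : ℝ) + ((k - E.k0 : ℕ) : ℝ) = E.n := by
      have h1 := hc.2.2.2.1
      have h2 := hc.2.2.2.2
      have h3 : E.kf - k + (k - E.k0) = E.n := by
        unfold Xp.kf at h2 ⊢
        omega
      exact_mod_cast h3
    have hm0 : min a0 a1 * (E.n : ℝ) ≤ a0 * E.n := mul_le_mul_of_nonneg_right (min_le_left _ _) hnn
    have hm1 : min a0 a1 * (E.n : ℝ) ≤ a1 * E.n := mul_le_mul_of_nonneg_right (min_le_right _ _) hnn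
    have key := (H2' p _ (by show n2 ≤ E.n; omega) hcls htw hval' st1 st2 σ β hlvl
      (by
        show min a0 a1 * (E.n : ℝ) ≤ ((σ.k - E.k0 : ℕ) : ℝ)
        rw [hσk]
        linarith)
      (by
        show ((σ.k - E.k0 : ℕ) : ℝ) ≤ (1 - min a0 a1) * (E.n : ℝ)
        rw [hσk]
        linarith)).2.2.1
    have hpost := cy_k8_post hT E st1 st2 σ (gn_lvl_mask _ hV' hlvl)
    rw [hσk] at hpost
    refine le_trans ?_ hpost
    have key' : E.e * (2 : ℝ) ^ (M.d0 * ((σ.k - E.k0 : ℕ) : ℝ) - ξ * (E.n : ℝ)) ≤ (E.withSt (st1 ++ σ :: st2)).post st1 σ := key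
    rw [hσk] at key'
    exact key'

/-- one gap with a barrier -/
theorem cy_k9_one (M : Mdl) (g : ℝ) (L : M.Loc g) (p : M.Par) (hp : M.gd p) (hT : (M.sys p).Tight) (bm N : ℕ) (Λ : ℝ) (hΛ : 1 ≤ Λ)
    (T : ℝ) (k : ℕ) (T1 : ℝ) (k1 c b1 : ℕ) (hcut : CutLe T k T1 k1) (hc : c ≤ bm) (hb1 : b1 ≤ bm) (B B1 : Set (M.sys p).X)
    (hB : MeasurableSet B) (hB1 : MeasurableSet B1) (hn : ∀ x, x ∉ B → ∀ x' ∈ B1, ¬ L.cn p Λ T k T1 k1 x x')
    (F : Lp (M.sys p).Fb 2 ((M.sys p).rho k)) :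
    Real.sqrt ((M.sys p).ms T1 k1 b1 B1 (ContinuousLinearMap.adjoint ((M.sys p).An T k c) F))
      ≤ Real.sqrt (∫ x in B, ‖(F : (M.sys p).X → (M.sys p).Fb) x‖ ^ 2 ∂((M.sys p).rho k))
        + |L.CN bm N| * Λ ^ (-(N : ℝ)) * 2 ^ (L.Cl * ((k1 : ℝ) - k)) * ‖F‖ := by
  classical
  have hΛ0 : 0 < Λ := by linarith
  have hsplit : (M.sys p).mulR k (B.indicator fun _ => 1) F + (M.sys p).mulR k (Bᶜ.indicator fun _ => 1) F = F := by
    have := gn_mulR_sum (P := M.sys p) k (Finset.univ : Finset Bool) (fun j => if j then B.indicator (fun _ => (1 : ℝ)) else Bᶜ.indicator fun _ => 1)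
      (fun j _ => by cases j <;> simp [gn_mask_ind hB, gn_mask_ind hB.compl]) (M := fun _ => 1)
      ⟨measurable_const, fun _ => ⟨zero_le_one, le_rfl⟩⟩
      (fun x => by
        by_cases hx : x ∈ B <;> simp [hx]) F
    rw [gn_mulR_one] at this
    simpa [add_comm] using this
  have h1 : (M.sys p).ms T1 k1 b1 B1 (ContinuousLinearMap.adjoint ((M.sys p).An T k c) ((M.sys p).mulR k (B.indicator fun _ => 1) F))
      ≤ ∫ x in B, ‖(F : (M.sys p).X → (M.sys p).Fb) x‖ ^ 2 ∂((M.sys p).rho k) := by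
    rw [← gn_mulR_ind_normsq k hB F]
    exact gn_en_adj_le hT T k c T1 k1 b1 (gn_mask_ind hB1) _
  have h2 := L.ker p hp bm N Λ hΛ T k T1 k1 c b1 hcut hc hb1 Bᶜ B1 hB.compl hB1 (fun x hx x' hx' => hn x hx x' hx') F
  have h3 := gn_en_tri (P := M.sys p) T1 k1 b1 (gn_mask_ind hB1)
    (ContinuousLinearMap.adjoint ((M.sys p).An T k c) ((M.sys p).mulR k (B.indicator fun _ => 1) F))
    (ContinuousLinearMap.adjoint ((M.sys p).An T k c) ((M.sys p).mulR k (Bᶜ.indicator fun _ => 1) F))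
  rw [← map_add, hsplit] at h3
  refine h3.trans (add_le_add (Real.sqrt_le_sqrt h1) ?_)
  refine (Real.sqrt_le_sqrt h2).trans (le_of_eq ?_)
  rw [← mul_pow, Real.sqrt_sq_eq_abs, abs_mul, abs_mul, abs_mul, abs_of_pos (Real.rpow_pos_of_pos hΛ0 _),
    abs_of_pos (Real.rpow_pos_of_pos (by norm_num : (0 : ℝ) < 2) _), abs_of_nonneg (norm_nonneg F)]

theorem cy_k9_pow (Cl : ℝ) (a b : ℝ) (h0 : 0 ≤ a) (hab : a ≤ b) : (2 : ℝ) ^ (Cl * a) ≤ 2 ^ (|Cl| * b) := by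
  refine Real.rpow_le_rpow_of_exponent_le (by norm_num) ?_
  calc Cl * a ≤ |Cl| * a := mul_le_mul_of_nonneg_right (le_abs_self _) h0
    _ ≤ |Cl| * b := mul_le_mul_of_nonneg_left hab (abs_nonneg _)

theorem cy_k9_ind (M : Mdl) (g : ℝ) (L : M.Loc g) (p : M.Par) (hp : M.gd p) (hT : (M.sys p).Tight) (bm N : ℕ) (Λ : ℝ) (hΛ : 1 ≤ Λ)
    (k' i' b' : ℕ) (hb' : b' ≤ bm) (S' : Set (M.sys p).X) (hS' : MeasurableSet S') (st : List (Stg (M.sys p))) :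
    ∀ (k c : ℕ) (B : Set (M.sys p).X) (F : Lp (M.sys p).Fb 2 ((M.sys p).rho k)), k ≤ k' → (∀ σ ∈ st, k ≤ σ.k ∧ σ.k ≤ k') →
      st.Pairwise (fun σ σ' => σ.k ≤ σ'.k) → (∀ σ ∈ st, σ.b ≤ bm) → (∀ σ ∈ st, ∀ i, IsMask (σ.M i)) → c ≤ bm → MeasurableSet B →
      Bar L p Λ k' i' (tmL k (ancI k' k i')) k B st S' →
      Real.sqrt ((M.sys p).ms (tmL k' i') k' b' S' (Xp.run k' i' st (ContinuousLinearMap.adjoint ((M.sys p).An (tmL k (ancI k' k i')) k c) F)))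
        ≤ Real.sqrt (∫ x in B, ‖(F : (M.sys p).X → (M.sys p).Fb) x‖ ^ 2 ∂((M.sys p).rho k))
          + ((st.length : ℝ) + 1) * |L.CN bm N| * Λ ^ (-(N : ℝ)) * 2 ^ (|L.Cl| * ((k' : ℝ) - k)) * ‖F‖ := by
  have hΛ0 : 0 < Λ := by linarith
  have hΛN : 0 < Λ ^ (-(N : ℝ)) := Real.rpow_pos_of_pos hΛ0 _
  induction st with
  | nil =>
    intro k c B F hk _ _ _ _ hc hB hbar
    have hcut : CutLe (tmL k (ancI k' k i')) k (tmL k' i') k' := gn_cutle_anc hk i'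
    rw [Bar] at hbar
    have h1 := cy_k9_one M g L p hp hT bm N Λ hΛ _ k _ k' c b' hcut hc hb' B S' hB hS' hbar F
    rw [Xp.run]
    refine h1.trans (add_le_add le_rfl ?_)
    have hkk : (0 : ℝ) ≤ (k' : ℝ) - k := by
      have : (k : ℝ) ≤ k' := by exact_mod_cast hk
      linarith
    have h2 := cy_k9_pow L.Cl _ _ hkk le_rfl
    simp only [List.length_nil, Nat.cast_zero, zero_add, one_mul]
    gcongr
  | cons σ st ih =>
    intro k c B F hk hdep hmono hgen hmsk hc hB hbar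
    rw [Bar] at hbar
    obtain ⟨B1, hB1, hn, hbar1⟩ := hbar
    have hσ := hdep σ List.mem_cons_self
    rw [List.pairwise_cons] at hmono
    obtain ⟨v, hv⟩ : ∃ v, v = ContinuousLinearMap.adjoint ((M.sys p).An (tmL k (ancI k' k i')) k c) F := ⟨_, rfl⟩
    obtain ⟨F1, hF1⟩ : ∃ F1, F1 = (M.sys p).mulR σ.k (σ.M (ancI k' σ.k i')) ((M.sys p).An (tmL σ.k (ancI k' σ.k i')) σ.k σ.b v) := ⟨_, rfl⟩
    have hM1 : IsMask (σ.M (ancI k' σ.k i')) := hmsk σ List.mem_cons_self _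
    have hih := ih σ.k σ.b B1 F1 hσ.2 (fun τ hτ => ⟨hmono.1 τ hτ, (hdep τ (List.mem_cons_of_mem _ hτ)).2⟩) hmono.2
      (fun τ hτ => hgen τ (List.mem_cons_of_mem _ hτ)) (fun τ hτ => hmsk τ (List.mem_cons_of_mem _ hτ)) (hgen σ List.mem_cons_self) hB1 hbar1
    rw [Xp.run, ← hv, PkSys.tz, ← hF1]
    refine hih.trans ?_
    -- the barrier term
    have hcut : CutLe (tmL k (ancI k' k i')) k (tmL σ.k (ancI k' σ.k i')) σ.k := by
      have := gn_cutle_anc hσ.1 (ancI k' σ.k i')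
      rwa [gn_anc_anc hσ.1 hσ.2] at this
    have h1 := cy_k9_one M g L p hp hT bm N Λ hΛ _ k _ σ.k c σ.b hcut hc (hgen σ List.mem_cons_self) B B1 hB hB1 hn F
    rw [← hv] at h1
    have h2 : ∫ x in B1, ‖(F1 : (M.sys p).X → (M.sys p).Fb) x‖ ^ 2 ∂((M.sys p).rho σ.k)
        ≤ (M.sys p).ms (tmL σ.k (ancI k' σ.k i')) σ.k σ.b B1 v := by
      rw [hF1, gn_ms_eq _ _ _ hB1]
      exact gn_mulR_setInt_le σ.k hM1 hB1 _
    have h3 : ‖F1‖ ≤ ‖F‖ := by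
      rw [hF1]
      refine (gn_mulR_norm_le σ.k hM1 _).trans ((hT.contr _ _ _ _).trans ?_)
      rw [hv]
      exact gn_adj_norm_le hT _ _ _ _
    have hk1 : (k : ℝ) ≤ σ.k := by exact_mod_cast hσ.1
    have hk2 : (σ.k : ℝ) ≤ k' := by exact_mod_cast hσ.2
    have p1 : (2 : ℝ) ^ (|L.Cl| * ((k' : ℝ) - σ.k)) ≤ 2 ^ (|L.Cl| * ((k' : ℝ) - k)) :=
      Real.rpow_le_rpow_of_exponent_le (by norm_num) (mul_le_mul_of_nonneg_left (by linarith) (abs_nonneg _))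
    have p2 : (2 : ℝ) ^ (L.Cl * ((σ.k : ℝ) - k)) ≤ 2 ^ (|L.Cl| * ((k' : ℝ) - k)) := cy_k9_pow L.Cl _ _ (by linarith) (by linarith)
    obtain ⟨W, hW⟩ : ∃ W : ℝ, W = 2 ^ (|L.Cl| * ((k' : ℝ) - k)) := ⟨_, rfl⟩
    have hW0 : 0 ≤ W := by rw [hW]; positivity
    rw [← hW] at p1 p2 ⊢
    have e1 : ((st.length : ℝ) + 1) * |L.CN bm N| * Λ ^ (-(N : ℝ)) * 2 ^ (|L.Cl| * ((k' : ℝ) - σ.k)) * ‖F1‖
        ≤ ((st.length : ℝ) + 1) * |L.CN bm N| * Λ ^ (-(N : ℝ)) * W * ‖F‖ := by gcongr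
    have e2 : |L.CN bm N| * Λ ^ (-(N : ℝ)) * 2 ^ (L.Cl * ((σ.k : ℝ) - k)) * ‖F‖ ≤ |L.CN bm N| * Λ ^ (-(N : ℝ)) * W * ‖F‖ := by gcongr
    have e3 := (Real.sqrt_le_sqrt h2).trans h1
    have e4 : (((σ :: st).length : ℝ) + 1) * |L.CN bm N| * Λ ^ (-(N : ℝ)) * W * ‖F‖
        = ((st.length : ℝ) + 1) * |L.CN bm N| * Λ ^ (-(N : ℝ)) * W * ‖F‖ + |L.CN bm N| * Λ ^ (-(N : ℝ)) * W * ‖F‖ := by
      rw [List.length_cons]
      push_cast
      ring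
    rw [e4]
    linarith

/-- **K9** (locality along a finite stack).   RESTATED by helper90 with `|L.Cl|` (for `L.Cl < 0` the errors of the intermediate cuts are not `≤ 2^(Cl (k'-k))`).   PROVED.   PLAN: induction on `st`, constant `Ct = (K+1) |CN bm N|`.   `v = An^* An v` (`gn_adj_an`), `An v = 1_B An v + 1_{Bᶜ} An v` (`gn_mulR_sum`).   `st = []`: first part `gn_en_adj_le` (`≤ ms B v`), second part `Loc.ker` with `S = Bᶜ`.
`st = σ :: st'`: `w = tz σ v`; induction hypothesis for `w` with the barrier `B1`: `√ms S' (run st' w) ≤ √ms B1 w' ...`; here `ms (T1) B1 (v)`-type term: `√(ms_{T1} B1 v) ≤ √(ms_T B v) + err` by the case `[]` applied to the cut `(T1, σ.k)`, and the mask only lowers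
`∫_{B1} |σ.M An v|²`;  write `w = An1^* (σ.M An1 v)` and split the ROW FUNCTION `σ.M An1 v` into `1_{B1}` and `1_{B1ᶜ}` (so state the induction for row functions `F`, `v = An^* F`, with `∫_B |F|²` in place of `ms B v`). -/
theorem cy_barrier (M : Mdl) (g : ℝ) (L : M.Loc g) (hT : ∀ p, M.gd p → (M.sys p).Tight) (bm K N : ℕ) :
    ∃ Ct : ℝ, 0 ≤ Ct ∧ ∀ (p : M.Par) (Λ : ℝ) (k k' i' c b' : ℕ) (st : List (Stg (M.sys p))) (B S' : Set (M.sys p).X) (F : Lp (M.sys p).Fb 2 ((M.sys p).rho k)),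
      M.gd p → 1 ≤ Λ → k ≤ k' → StOk k k' bm K st → c ≤ bm → b' ≤ bm → MeasurableSet B → MeasurableSet S' →
      Bar L p Λ k' i' (tmL k (ancI k' k i')) k B st S' →
      Real.sqrt ((M.sys p).ms (tmL k' i') k' b' S' (Xp.run k' i' st (ContinuousLinearMap.adjoint ((M.sys p).An (tmL k (ancI k' k i')) k c) F)))
        ≤ Real.sqrt (∫ x in B, ‖(F : (M.sys p).X → (M.sys p).Fb) x‖ ^ 2 ∂((M.sys p).rho k)) + Ct * Λ ^ (-(N : ℝ)) * 2 ^ (|L.Cl| * ((k' : ℝ) - k)) * ‖F‖ := by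
  refine ⟨((K : ℝ) + 1) * |L.CN bm N|, by positivity, ?_⟩
  intro p Λ k k' i' c b' st B S' F hp hΛ hk hst hc hb' hB hS' hbar
  have hΛ0 : 0 < Λ := by linarith
  refine (cy_k9_ind M g L p hp (hT p hp) bm N Λ hΛ k' i' b' hb' S' hS' st k c B F hk hst.dep hst.mono hst.gen hst.msk hc hB hbar).trans ?_
  refine add_le_add le_rfl ?_
  have : (st.length : ℝ) ≤ K := by exact_mod_cast hst.len
  have h1 : 0 < Λ ^ (-(N : ℝ)) := Real.rpow_pos_of_pos hΛ0 _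
  gcongr

end Claimed.Agent.R256
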