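-- KEEP
import Claimed.Agent.R256.Cyl.Defs
import Claimed.Agent.R256.Cyl.Kit

/-!
# Row 256 (LS paper), CYL, unit STEP (02 l.612-745), file 1 : DEFINITIONS          (chief helper255; prefix `cy_s`)

ONE BACKWARD STEP.   `j` = first gate, `i < j` the new depth, `δ = 2^-(k_j - k)`, `k` = depth of the new cut.
* `CyGp Y p`   THE GAP: `F` = the GATE EXPERIMENT (a prefix of the full experiment whose TERMINAL labels are the retained labels of the gate `j`; for `j = 1` the full experiment), the cut `(k, st1, st2)` of its stack,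
               the common widths `(rj, fj)` of its labels, the truncation `Λ` of the attachment.
* `X.Qm l`     the projected test `Q⁻_l` at the cut (02 l.630-640): base width `2 rj`, normal width `4 Λ fj`.
* `X.att I l`  the rows of the interval `I` of the cut that are attached to `l`;   `X.Un I` unattached rows;   `X.Am Mb I` ambiguous rows (`cyM > Mb`).
* `X.Ok`, `X.Pol C κ'`   structural validity; the polynomial package (`κ'` = regularity of the states `X.ps I` at the cut).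
* `CyCh X`, `CyCh.Ok`    a CHART SYSTEM (02 l.655-670): finitely many charts `G`, frames `fr I G` of common widths `(rj, fs)`, row sets `rw I G` partitioning the good rows.
* `X.Fam Qs I ρ`         the truncated family of a chart frame.
-/

set_option autoImplicit false

namespace Claimed.Agent.R256

open MeasureTheory

/-- the gap between the new cut and the first gate -/
structure CyGp (Y : SfCy) (p : Y.M.Par) where
  /-- the gate experiment -/
  F : Xp (Y.M.sys p)
  /-- the new cut -/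
  k : ℕ
  st1 : List (Stg (Y.M.sys p))
  st2 : List (Stg (Y.M.sys p))
  /-- common widths of the labels -/
  rj : ℝ
  fj : ℝ
  /-- truncation of the attachment -/
  Λ : ℝ

namespace CyGp

variable {Y : SfCy} {p : Y.M.Par} (X : CyGp Y p)

/-- the length at the cut -/
noncomputable def la : ℝ := (2 : ℝ)⁻¹ ^ X.k

/-- the relative scale `δ` of the gap -/
noncomputable def de : ℝ := (2 : ℝ)⁻¹ ^ (X.F.kf - X.k)

/-- the interval of the cut above a label -/
def an (l : Fin X.F.L) : ℕ := ancI X.F.kf X.k (X.F.iv l)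

/-- the time of a label -/
noncomputable def tl (l : Fin X.F.L) : ℝ := tmL X.F.kf (X.F.iv l)

/-- the projected test -/
noncomputable def Qm (l : Fin X.F.L) : CyT :=
  cyBack (Y.tq p (X.F.ts l)) (X.tl l - tmL X.k (X.an l)) (Y.tq p (X.F.ts l)).x (2 * X.rj) (4 * X.Λ * X.fj)

/-- the state at the cut -/
noncomputable def ps (I : ℕ) : (Y.M.sys p).Kc := X.F.at' X.k I X.st1

/-- the intervals of the cut -/
def iv : Finset ℕ := ivs X.F.k0 X.F.i0 X.k

/-- the rows attached to a label -/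
def att (I : ℕ) (l : Fin X.F.L) : Set (Y.M.sys p).X := {x | X.an l = I ∧ cyIn (X.Qm l) X.la (Y.co p (tmL X.k I) x)}

/-- unattached rows -/
def Un (I : ℕ) : Set (Y.M.sys p).X := {x | ∀ l, x ∉ X.att I l}

/-- ambiguous rows -/
def Am (Mb : ℝ) (I : ℕ) : Set (Y.M.sys p).X := {x | ∃ l l', x ∈ X.att I l ∧ x ∈ X.att I l' ∧ Mb < cyM (X.Qm l) (X.Qm l') X.la}

/-- the common weight of the labels -/
noncomputable def wj : ℝ := X.rj ^ (3 + Y.η) * X.fj ^ (1 - Y.η)

/-- the state behind the mask `1_S` at the cut -/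
noncomputable def cutS (I : ℕ) (S : Set (Y.M.sys p).X) : (Y.M.sys p).Kc :=
  (Y.M.sys p).tz (tmL X.k I) X.k 0 (S.indicator fun _ => 1) (X.ps I)

/-- the mass of the label `l` read on the state `φ` at the cut -/
noncomputable def rdm (l : Fin X.F.L) (φ : (Y.M.sys p).Kc) : ℝ :=
  (Y.M.sys p).en (X.tl l) X.F.kf X.F.bT (X.F.th l) (Xp.run X.F.kf (X.F.iv l) X.st2 φ)

/-- the truncated family of a chart frame -/
def Fam (Qs : CyT) (I : ℕ) (ρ : ℝ) : Set (Y.M.sys p).Tst := {Q | (Y.M.sys p).ok Q X.k ∧ CyTr (tmL X.k I) X.k Qs ρ (Y.tq p Q)}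

/-- structural validity -/
structure Ok : Prop where
  gd : Y.M.gd p
  valid : X.F.Valid
  cut : X.F.CutAt X.k X.st1 X.st2
  wid : ∀ l, (Y.tq p (X.F.ts l)).r = X.rj ∧ (Y.tq p (X.F.ts l)).f = X.fj
  rj_pos : 0 < X.rj
  fj_pos : 0 < X.fj
  fj_dl : Y.dl p X.F.kf ≤ X.fj
  lam : 1 ≤ X.Λ

/-- the polynomial package, in powers of `δ` -/
structure Pol (C : ℕ) (κ' : ℝ) : Prop where
  len : X.F.st.length ≤ C
  gen : X.F.GenLe C
  ka_pos : 0 < κ'
  reg : ∀ I ∈ X.iv, (Y.M.sys p).Reg (tmL X.k I) X.k 0 κ' (X.ps I)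
  en : ∀ I ∈ X.iv, ‖X.ps I‖ ^ 2 ≤ X.de ^ (-(C : ℝ)) * (κ' * X.wj)
  nlab : (X.F.L : ℝ) ≤ X.de ^ (-(C : ℝ))
  hyb : Y.hyb = true → X.de ^ (C : ℝ) ≤ Y.H p * 2 ^ X.k / X.fj ^ 2

end CyGp

/-- a chart system (data) -/
structure CyCh {Y : SfCy} {p : Y.M.Par} (X : CyGp Y p) where
  ι : Type
  fι : Fintype ι
  /-- the frame of a chart -/
  fr : ℕ → ι → CyT
  /-- the rows of a chart -/
  rw : ℕ → ι → Set (Y.M.sys p).X

attribute [instance] CyCh.fι

/-- a chart system (properties): ambiguity threshold `Mb`, size `1/ρs` of the attached labels in the frames, overlap `C0`, normal width `fs` of the frames -/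
structure CyCh.Ok {Y : SfCy} {p : Y.M.Par} {X : CyGp Y p} (c : CyCh X) (Mb ρs : ℝ) (C0 : ℕ) (fs : ℝ) : Prop where
  meas : ∀ I G, MeasurableSet (c.rw I G)
  disj : ∀ I G G', G ≠ G' → Disjoint (c.rw I G) (c.rw I G')
  /-- the charts partition the good rows -/
  cov : ∀ I, ⋃ G, c.rw I G = (X.Un I ∪ X.Am Mb I)ᶜ
  /-- the rows of a chart lie in the unit box of its frame -/
  box : ∀ I G, ∀ x ∈ c.rw I G, cyIn (c.fr I G) X.la (Y.co p (tmL X.k I) x)
  wid : ∀ I G, (c.fr I G).r = X.rj ∧ (c.fr I G).f = fs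
  /-- a label attached to a row of the chart is bounded in the frame -/
  bdd : ∀ I G l, ∀ x ∈ c.rw I G, x ∈ X.att I l → CyBdd ρs (cyNrm (tmL X.k I) X.k (c.fr I G) (X.tl l) (Y.tq p (X.F.ts l)))
  /-- bounded overlap -/
  ovl : ∀ I l (S : Finset c.ι), (∀ G ∈ S, ∃ x ∈ c.rw I G, x ∈ X.att I l) → S.card ≤ C0

theorem cy_sdefs_eqns_cite : True := by
  have := @CyGp.la.eq_1
  have := @CyGp.de.eq_1
  have := @CyGp.an.eq_1
  have := @CyGp.tl.eq_1
  have := @CyGp.Qm.eq_1
  have := @CyGp.ps.eq_1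
  have := @CyGp.iv.eq_1
  have := @CyGp.att.eq_1
  have := @CyGp.Un.eq_1
  have := @CyGp.Am.eq_1
  have := @CyGp.wj.eq_1
  have := @CyGp.cutS.eq_1
  have := @CyGp.rdm.eq_1
  have := @CyGp.Fam.eq_1
  trivial

end Claimed.Agent.R256
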