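-- KEEP
import Claimed.Agent.R256.Cyl.StepDefs
import Claimed.Agent.R256.Cyl.ChCell

/-!
# Row 256, CYL, post SG1 (chart system), file 7 : THE CHART SYSTEM OF A GAP          (architect helper202; prefix `cy_ch_`)

* `X.fst I x l`       `l` is the FIRST label attached to the row `x` of the interval `I`
* `cyChSys X Mb fs`   the chart system: indices = the union of the windows `cyChBox` of the projected tests `X.Qm l`; frame = `cyChFr`; rows of `G` = the good rows in the lattice cell `G.1` whose first label has the rounded data `G.2`.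
-/

set_option autoImplicit false

namespace Claimed.Agent.R256

open MeasureTheory

/-- `l` is the first label attached to `x` -/
def CyGp.fst {Y : SfCy} {p : Y.M.Par} (X : CyGp Y p) (I : ℕ) (x : (Y.M.sys p).X) (l : Fin X.F.L) : Prop :=
  x ∈ X.att I l ∧ ∀ l', l' < l → x ∉ X.att I l'

/-- the chart indices -/
noncomputable def CyGp.chIx {Y : SfCy} {p : Y.M.Par} (X : CyGp Y p) (fs : ℝ) : Finset CyIx :=
  Finset.univ.biUnion fun l : Fin X.F.L => cyChBox X.la X.rj (fs / 16) (X.Qm l)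

/-- the chart system -/
noncomputable def cyChSys {Y : SfCy} {p : Y.M.Par} (X : CyGp Y p) (Mb fs : ℝ) : CyCh X where
  ι := {G : CyIx // G ∈ X.chIx fs}
  fι := Finset.fintypeCoeSort (X.chIx fs)
  fr := fun _ G => cyChFr X.la X.rj (fs / 16) fs G.1
  rw := fun I G => {x | x ∉ X.Un I ∪ X.Am Mb I ∧ cyChCell X.la X.rj (Y.co p (tmL X.k I) x) = G.1.1 ∧
    ∃ l, X.fst I x l ∧ cyChDat X.la X.rj (fs / 16) (X.Qm l) G.1.1 = G.1.2}

theorem cy_ch_sys_eqns_cite : True := by
  have := @CyGp.fst.eq_1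
  have := @CyGp.chIx.eq_1
  have := @cyChSys.eq_1
  trivial

theorem cy_ch_fst_ex {Y : SfCy} {p : Y.M.Par} (X : CyGp Y p) (I : ℕ) (x : (Y.M.sys p).X) (h : x ∉ X.Un I) : ∃ l, X.fst I x l := by
  classical
  have h1 : ∃ l, x ∈ X.att I l := by
    by_contra hc
    push Not at hc
    exact h hc
  have hne : (Finset.univ.filter fun l => x ∈ X.att I l).Nonempty := by
    obtain ⟨l, hl⟩ := h1
    exact ⟨l, by simp [hl]⟩
  refine ⟨(Finset.univ.filter fun l => x ∈ X.att I l).min' hne, ?_, ?_⟩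
  · have := Finset.min'_mem _ hne
    simpa using this
  · intro l' hl' hm
    have := Finset.min'_le (Finset.univ.filter fun l => x ∈ X.att I l) l' (by simp [hm])
    exact absurd hl' (not_lt.mpr this)

theorem cy_ch_fst_uniq {Y : SfCy} {p : Y.M.Par} (X : CyGp Y p) (I : ℕ) (x : (Y.M.sys p).X) (l l' : Fin X.F.L) (h : X.fst I x l) (h' : X.fst I x l') : l = l' := by
  rcases lt_trichotomy l l' with hlt | heq | hgt
  · exact absurd h.1 (h'.2 l hlt)
  · exact heq
  · exact absurd h'.1 (h.2 l' hgt)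

/-- **L-256-CYL-CH-MEAS**.   The rows of a chart are measurable.
PLAN: the set is `(Un ∪ Am)ᶜ ∩ {cell = G.1.1} ∩ ⋃ l, ({x | X.fst I x l} ∩ {x | const})`.   `{x | X.fst I x l} = att I l ∩ ⋂ l' < l, (att I l')ᶜ` (`MeasurableSet.iInter`, finite/countable index), the last condition does not depend on `x` (`MeasurableSet.const`);
`cy_ch_cell_meas hco`. -/
theorem cy_ch_meas {Y : SfCy} {p : Y.M.Par} (X : CyGp Y p) (Mb fs : ℝ) (hco : ∀ T, Measurable fun x => cyVec (Y.co p T x))
    (hatt : ∀ I l, MeasurableSet (X.att I l)) (hUn : ∀ I, MeasurableSet (X.Un I)) (hAm : ∀ I, MeasurableSet (X.Am Mb I)) (I : ℕ) (G : (cyChSys X Mb fs).ι) :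
    MeasurableSet ((cyChSys X Mb fs).rw I G) := by
  have h1 : (cyChSys X Mb fs).rw I G = (X.Un I ∪ X.Am Mb I)ᶜ ∩ ({x | cyChCell X.la X.rj (Y.co p (tmL X.k I) x) = G.1.1} ∩
      ⋃ l : Fin X.F.L, ((X.att I l ∩ ⋂ l' : Fin X.F.L, {x | l' < l → x ∉ X.att I l'}) ∩
        {_x | cyChDat X.la X.rj (fs / 16) (X.Qm l) G.1.1 = G.1.2})) := by
    ext x
    simp only [cyChSys, CyGp.fst, Set.mem_ofPred_eq, Set.mem_inter_iff, Set.mem_compl_iff, Set.mem_iUnion, Set.mem_iInter]
  rw [h1]
  refine ((hUn I).union (hAm I)).compl.inter ((cy_ch_cell_meas (hco _) _ _ _).inter (MeasurableSet.iUnion fun l =>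
    ((hatt I l).inter (MeasurableSet.iInter fun l' => ?_)).inter (MeasurableSet.const _)))
  by_cases h : l' < l
  · have h2 : {x | l' < l → x ∉ X.att I l'} = (X.att I l')ᶜ := by
      ext x
      simp [h]
    rw [h2]
    exact (hatt I l').compl
  · have h2 : {x | l' < l → x ∉ X.att I l'} = Set.univ := by
      ext x
      simp [h]
    rw [h2]
    exact MeasurableSet.univ

end Claimed.Agent.R256
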