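-- KEEP
import Claimed.Agent.R256.Cyl.ChSys
import Claimed.Agent.R256.Cyl.ChRange
import Claimed.Agent.R256.Cyl.ChNrm
import Claimed.Agent.R256.Cyl.ChNum

/-!
# Row 256, CYL, post SG1 (chart system), file 9 : GLUE          (architect helper202; prefix `cy_ch_`)

`cy_ch_main` = `cy_s_chart` (StepGeo G1) with the measurability of the attachment sets (`cy_s_meas`, G5) as a hypothesis.
-/

set_option autoImplicit false

namespace Claimed.Agent.R256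

open MeasureTheory

theorem cy_ch_near_refl (l ρ a x b y : ℝ) (hl : 0 < l) (ha : 0 ≤ a) (Q : CyT) : CyChNear l ρ a x b y Q Q := by
  unfold CyChNear
  simp only [sub_self, abs_zero, zero_mul]
  exact ⟨ha, ha, ha, ha, mul_nonneg hl.le ha⟩

/-- what a row of a chart knows -/
theorem cy_ch_row {Y : SfCy} {p : Y.M.Par} (X : CyGp Y p) (Mb fs : ℝ) (I : ℕ) (G : (cyChSys X Mb fs).ι) (x : (Y.M.sys p).X) (hx : x ∈ (cyChSys X Mb fs).rw I G) :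
    ∃ l0, x ∈ X.att I l0 ∧ G.1 = (cyChCell X.la X.rj (Y.co p (tmL X.k I) x), cyChDat X.la X.rj (fs / 16) (X.Qm l0) (cyChCell X.la X.rj (Y.co p (tmL X.k I) x))) ∧
      ∀ l, x ∈ X.att I l → cyM (X.Qm l0) (X.Qm l) X.la ≤ Mb := by
  obtain ⟨hg, hc, l0, hf, hd⟩ := hx
  refine ⟨l0, hf.1, ?_, ?_⟩
  · rw [hc, hd]
  · intro l hl
    by_contra hcon
    push Not at hcon
    exact hg (Or.inr ⟨l0, l, hf.1, hl, hcon⟩)

/-- the positivity package -/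
theorem cy_ch_pos {Y : SfCy} {p : Y.M.Par} (X : CyGp Y p) (hX : X.Ok) (Mb fs : ℝ) (hMb : 1 ≤ Mb) (hfs : 448 * (Mb * (X.Λ * X.fj)) ≤ fs) :
    0 < X.la ∧ 0 < X.rj ∧ 0 < 4 * X.Λ * X.fj ∧ 0 < fs ∧ 7 * (Mb * (4 * X.Λ * X.fj)) ≤ fs / 16 ∧ 4 * X.Λ * X.fj ≤ fs / 112 := by
  have hl : 0 < X.la := by
    unfold CyGp.la
    positivity
  have hΛ : 0 < X.Λ := lt_of_lt_of_le one_pos hX.lam
  have hf := hX.fj_pos
  have hp : 0 < X.Λ * X.fj := mul_pos hΛ hf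
  have h1 : X.Λ * X.fj ≤ Mb * (X.Λ * X.fj) := le_mul_of_one_le_left hp.le hMb
  refine ⟨hl, hX.rj_pos, by positivity, by linarith, by linarith, by linarith⟩

/-- the frame of the chart is `u`-close to the first label, and `2u`-close to every attached label -/
theorem cy_ch_close {Y : SfCy} {p : Y.M.Par} (X : CyGp Y p) (hX : X.Ok) (Mb fs : ℝ) (hMb : 1 ≤ Mb) (hfs : 448 * (Mb * (X.Λ * X.fj)) ≤ fs)
    (I : ℕ) (x : (Y.M.sys p).X) (l0 l : Fin X.F.L) (h0 : x ∈ X.att I l0) (hl : x ∈ X.att I l) (hM : cyM (X.Qm l0) (X.Qm l) X.la ≤ Mb) :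
    CyChNear X.la X.rj (fs / 16) (cyChx X.rj (cyChCell X.la X.rj (Y.co p (tmL X.k I) x))) (cyChb X.la X.rj (cyChCell X.la X.rj (Y.co p (tmL X.k I) x)))
      (cyChy X.la X.rj (cyChCell X.la X.rj (Y.co p (tmL X.k I) x))) (X.Qm l0) (X.Qm l) := by
  obtain ⟨p1, p2, p3, p4, p5, p6⟩ := cy_ch_pos X hX Mb fs hMb hfs
  exact cy_ch_near_mono p1 (cy_ch_near_amb X.la X.rj (4 * X.Λ * X.fj) Mb _ _ _ p1 p2 p3 hMb (X.Qm l0) (X.Qm l) (Y.co p (tmL X.k I) x) rfl rfl rfl rfl h0.2 hl.2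
    (cy_ch_cell_at X.la X.rj p1 p2 _) hM) p5

theorem cy_ch_f_box {Y : SfCy} {p : Y.M.Par} (X : CyGp Y p) (hX : X.Ok) (Mb fs : ℝ) (hMb : 1 ≤ Mb) (hfs : 448 * (Mb * (X.Λ * X.fj)) ≤ fs)
    (I : ℕ) (G : (cyChSys X Mb fs).ι) (x : (Y.M.sys p).X) (hx : x ∈ (cyChSys X Mb fs).rw I G) : cyIn ((cyChSys X Mb fs).fr I G) X.la (Y.co p (tmL X.k I) x) := by
  obtain ⟨p1, p2, p3, p4, p5, p6⟩ := cy_ch_pos X hX Mb fs hMb hfs
  obtain ⟨l0, h0, hG, -⟩ := cy_ch_row X Mb fs I G x hx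
  obtain ⟨z, hz⟩ : ∃ z, z = Y.co p (tmL X.k I) x := ⟨_, rfl⟩
  rw [← hz] at hG ⊢
  have hat := cy_ch_cell_at X.la X.rj p1 p2 z
  have hr := cy_ch_round X.la X.rj (fs / 16) fs p1 p2 (by positivity) (X.Qm l0) (cyChCell X.la X.rj z)
  rw [← hG] at hr
  obtain ⟨n1, n2⟩ := cy_ch_near_nor X.la X.rj (fs / 16) _ _ _ p1 p2 _ _ z hr hat
  have hin : cyIn (X.Qm l0) X.la z := hz ▸ h0.2
  obtain ⟨-, -, -, v1, v2⟩ := hin
  have v1' : |cyVel (X.Qm l0) z| ≤ 4 * X.Λ * X.fj := v1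
  have v2' : |cyPos (X.Qm l0) z| ≤ X.la * (4 * X.Λ * X.fj) := v2
  have e1 : ((cyChSys X Mb fs).fr I G) = cyChFr X.la X.rj (fs / 16) fs G.1 := rfl
  rw [e1]
  have ex : (cyChFr X.la X.rj (fs / 16) fs G.1).x = cyChx X.rj (cyChCell X.la X.rj z) := by
    rw [hG]; rfl
  have eb : (cyChFr X.la X.rj (fs / 16) fs G.1).b = cyChb X.la X.rj (cyChCell X.la X.rj z) := by
    rw [hG]; rfl
  have ey : (cyChFr X.la X.rj (fs / 16) fs G.1).y = cyChy X.la X.rj (cyChCell X.la X.rj z) := by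
    rw [hG]; rfl
  refine ⟨?_, ?_, ?_, ?_, ?_⟩
  · rw [ex]; exact hat.1
  · rw [eb]; exact hat.2.1
  · unfold cyTilt
    rw [ex, eb, ey]; exact hat.2.2
  · show |cyVel (cyChFr X.la X.rj (fs / 16) fs G.1) z| ≤ fs
    have t := abs_sub_abs_le_abs_sub (cyVel (cyChFr X.la X.rj (fs / 16) fs G.1) z) (cyVel (X.Qm l0) z)
    rw [abs_sub_comm] at t
    linarith
  · show |cyPos (cyChFr X.la X.rj (fs / 16) fs G.1) z| ≤ X.la * fs
    have t := abs_sub_abs_le_abs_sub (cyPos (cyChFr X.la X.rj (fs / 16) fs G.1) z) (cyPos (X.Qm l0) z)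
    rw [abs_sub_comm] at t
    have : X.la * (4 * X.Λ * X.fj) + X.la * (4 * (fs / 16)) ≤ X.la * fs := by
      rw [← mul_add]
      exact mul_le_mul_of_nonneg_left (by linarith) p1.le
    linarith

theorem cy_ch_f_bdd {Y : SfCy} {p : Y.M.Par} (X : CyGp Y p) (hX : X.Ok) (Mb fs ρs : ℝ) (hMb : 1 ≤ Mb) (hfs : 448 * (Mb * (X.Λ * X.fj)) ≤ fs)
    (h26 : 26 ≤ ρs⁻¹) (h1 : ρs ≤ 1) (hlo : ρs ≤ X.fj / fs) (hhi : X.fj / fs ≤ 1)
    (I : ℕ) (G : (cyChSys X Mb fs).ι) (l : Fin X.F.L) (x : (Y.M.sys p).X) (hx : x ∈ (cyChSys X Mb fs).rw I G) (hl : x ∈ X.att I l) :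
    CyBdd ρs (cyNrm (tmL X.k I) X.k ((cyChSys X Mb fs).fr I G) (X.tl l) (Y.tq p (X.F.ts l))) := by
  obtain ⟨p1, p2, p3, p4, p5, p6⟩ := cy_ch_pos X hX Mb fs hMb hfs
  obtain ⟨l0, hl0, hG, hM⟩ := cy_ch_row X Mb fs I G x hx
  have hcl := cy_ch_close X hX Mb fs hMb hfs I x l0 l hl0 hl (hM l hl)
  obtain ⟨z, hz⟩ : ∃ z, z = Y.co p (tmL X.k I) x := ⟨_, rfl⟩
  rw [← hz] at hG hcl
  have hat := cy_ch_cell_at X.la X.rj p1 p2 z
  have hr := cy_ch_round X.la X.rj (fs / 16) fs p1 p2 (by positivity) (X.Qm l0) (cyChCell X.la X.rj z)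
  rw [← hG] at hr
  have hn := cy_ch_near_trans p1 p2 hr hcl
  have hin : cyIn (X.Qm l) X.la z := hz ▸ hl.2
  have hc := cy_ch_ctr X.la X.rj _ _ _ p1 p2 (X.Qm l) z rfl hin hat
  have hI : X.an l = I := hl.1
  obtain ⟨-, t1, t2⟩ := gn_cutle_anc hX.cut.2.2.2.2 (X.F.iv l)
  have e1 : ((cyChSys X Mb fs).fr I G) = cyChFr X.la X.rj (fs / 16) fs G.1 := rfl
  have ex : (cyChFr X.la X.rj (fs / 16) fs G.1).x = cyChx X.rj (cyChCell X.la X.rj z) := by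
    rw [hG]; rfl
  have eb : (cyChFr X.la X.rj (fs / 16) fs G.1).b = cyChb X.la X.rj (cyChCell X.la X.rj z) := by
    rw [hG]; rfl
  have ey : (cyChFr X.la X.rj (fs / 16) fs G.1).y = cyChy X.la X.rj (cyChCell X.la X.rj z) := by
    rw [hG]; rfl
  rw [← ex, ← eb, ← ey] at hn hc
  have hsz := cy_ch_nrm (tmL X.k (X.an l)) (X.tl l) X.la X.rj fs (fs / 16 + fs / 16) (2 * X.rj) (4 * X.Λ * X.fj) p1 p2 p4 (by positivity) t1 t2
    (cyChFr X.la X.rj (fs / 16) fs G.1) (Y.tq p (X.F.ts l)) rfl rfl hn hc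
  rw [e1, ← hI]
  have hone : (1 : ℝ) ≤ ρs⁻¹ := by linarith
  refine ⟨?_, ?_, ?_, ?_, ?_⟩
  · refine le_trans hsz (max_le h26 ?_)
    have : 2 * (fs / 16 + fs / 16) / fs = 1 / 4 := by
      field_simp
      norm_num
    rw [this]
    linarith
  · show ρs ≤ (Y.tq p (X.F.ts l)).r / X.rj
    rw [(hX.wid l).1, div_self p2.ne']
    exact h1
  · show (Y.tq p (X.F.ts l)).r / X.rj ≤ ρs⁻¹
    rw [(hX.wid l).1, div_self p2.ne']
    exact hone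
  · show ρs ≤ (Y.tq p (X.F.ts l)).f / fs
    rw [(hX.wid l).2]
    exact hlo
  · show (Y.tq p (X.F.ts l)).f / fs ≤ ρs⁻¹
    rw [(hX.wid l).2]
    exact hhi.trans hone

theorem cy_ch_f_ovl {Y : SfCy} {p : Y.M.Par} (X : CyGp Y p) (hX : X.Ok) (Mb fs : ℝ) (hMb : 1 ≤ Mb) (hfs : 448 * (Mb * (X.Λ * X.fj)) ≤ fs)
    (I : ℕ) (l : Fin X.F.L) (S : Finset (cyChSys X Mb fs).ι) (hS : ∀ G ∈ S, ∃ x ∈ (cyChSys X Mb fs).rw I G, x ∈ X.att I l) : S.card ≤ 7 * 7 * 35 * 5 ^ 5 := by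
  classical
  obtain ⟨p1, p2, p3, p4, p5, p6⟩ := cy_ch_pos X hX Mb fs hMb hfs
  have hsub : S.image (fun G : (cyChSys X Mb fs).ι => (G.1 : CyIx)) ⊆ cyChBox X.la X.rj (fs / 16) (X.Qm l) := by
    intro g hg
    obtain ⟨G, hGS, rfl⟩ := Finset.mem_image.mp hg
    obtain ⟨x, hx, hl⟩ := hS G hGS
    obtain ⟨l0, hl0, hG, hM⟩ := cy_ch_row X Mb fs I G x hx
    have hcl := cy_ch_close X hX Mb fs hMb hfs I x l0 l hl0 hl (hM l hl)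
    show (G.1 : CyIx) ∈ _
    rw [hG]
    exact cy_ch_range X.la X.rj (fs / 16) p1 p2 (by positivity) (X.Qm l0) (X.Qm l) _ rfl hl.2 hcl
  have hinj : Function.Injective (fun G : (cyChSys X Mb fs).ι => (G.1 : CyIx)) := Subtype.val_injective
  calc S.card = (S.image (fun G : (cyChSys X Mb fs).ι => (G.1 : CyIx))).card := (Finset.card_image_of_injective S hinj).symm
    _ ≤ (cyChBox X.la X.rj (fs / 16) (X.Qm l)).card := Finset.card_le_card hsub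
    _ ≤ 7 * 7 * 35 * 5 ^ 5 := cy_ch_box_card _ _ _ _

theorem cy_ch_f_cov {Y : SfCy} {p : Y.M.Par} (X : CyGp Y p) (hX : X.Ok) (Mb fs : ℝ) (hMb : 1 ≤ Mb) (hfs : 448 * (Mb * (X.Λ * X.fj)) ≤ fs) (I : ℕ) :
    ⋃ G, (cyChSys X Mb fs).rw I G = (X.Un I ∪ X.Am Mb I)ᶜ := by
  obtain ⟨p1, p2, p3, p4, p5, p6⟩ := cy_ch_pos X hX Mb fs hMb hfs
  apply Set.Subset.antisymm
  · intro x hx
    obtain ⟨G, hG⟩ := Set.mem_iUnion.mp hx
    exact hG.1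
  · intro x hx
    have hUn : x ∉ X.Un I := fun h => hx (Or.inl h)
    obtain ⟨l0, hf⟩ := cy_ch_fst_ex X I x hUn
    have hmem : (cyChCell X.la X.rj (Y.co p (tmL X.k I) x), cyChDat X.la X.rj (fs / 16) (X.Qm l0) (cyChCell X.la X.rj (Y.co p (tmL X.k I) x))) ∈ X.chIx fs := by
      unfold CyGp.chIx
      refine Finset.mem_biUnion.mpr ⟨l0, Finset.mem_univ _, ?_⟩
      exact cy_ch_range X.la X.rj (fs / 16) p1 p2 (by positivity) (X.Qm l0) (X.Qm l0) _ rfl hf.1.2 (cy_ch_near_refl _ _ _ _ _ _ p1 (by positivity) _)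
    exact Set.mem_iUnion.mpr ⟨⟨_, hmem⟩, hx, rfl, l0, hf, rfl⟩

theorem cy_ch_f_disj {Y : SfCy} {p : Y.M.Par} (X : CyGp Y p) (Mb fs : ℝ) (I : ℕ) (G G' : (cyChSys X Mb fs).ι) (hne : G ≠ G') :
    Disjoint ((cyChSys X Mb fs).rw I G) ((cyChSys X Mb fs).rw I G') := by
  rw [Set.disjoint_left]
  intro x hx hx'
  obtain ⟨-, hc, l0, hf, hd⟩ := hx
  obtain ⟨-, hc', l0', hf', hd'⟩ := hx'
  have hl : l0 = l0' := cy_ch_fst_uniq X I x l0 l0' hf hf'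
  subst hl
  apply hne
  apply Subtype.ext
  have e1 : G.1.1 = G'.1.1 := hc.symm.trans hc'
  refine Prod.ext e1 ?_
  rw [← hd, ← hd', e1]

/-- the chart system is a chart system -/
theorem cy_ch_ok {Y : SfCy} {p : Y.M.Par} (X : CyGp Y p) (hX : X.Ok) (Mb fs ρs : ℝ) (hMb : 1 ≤ Mb) (hfs : 448 * (Mb * (X.Λ * X.fj)) ≤ fs)
    (h26 : 26 ≤ ρs⁻¹) (h1 : ρs ≤ 1) (hlo : ρs ≤ X.fj / fs) (hhi : X.fj / fs ≤ 1) (hco : ∀ T, Measurable fun x => cyVec (Y.co p T x))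
    (hatt : ∀ I l, MeasurableSet (X.att I l)) (hUn : ∀ I, MeasurableSet (X.Un I)) (hAm : ∀ I, MeasurableSet (X.Am Mb I)) :
    (cyChSys X Mb fs).Ok Mb ρs (7 * 7 * 35 * 5 ^ 5) fs where
  meas := cy_ch_meas X Mb fs hco hatt hUn hAm
  disj := cy_ch_f_disj X Mb fs
  cov := cy_ch_f_cov X hX Mb fs hMb hfs
  box := cy_ch_f_box X hX Mb fs hMb hfs
  wid := fun _ _ => ⟨rfl, rfl⟩
  bdd := cy_ch_f_bdd X hX Mb fs ρs hMb hfs h26 h1 hlo hhi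
  ovl := cy_ch_f_ovl X hX Mb fs hMb hfs

/-- **G1 = CHART** with the measurability of the attachment sets as a hypothesis -/
theorem cy_ch_main {Y : SfCy} (H : CyHyp Y) (D0 : ℝ) (hD0 : 0 < D0)
    (hm : ∀ (p : Y.M.Par) (X : CyGp Y p), X.Ok → (∀ I l, MeasurableSet (X.att I l)) ∧ (∀ I, MeasurableSet (X.Un I)) ∧ ∀ Mb I, MeasurableSet (X.Am Mb I)) :
    ∃ (Dst Ds : ℝ) (C0 : ℕ), 0 < Dst ∧ 0 < Ds ∧
    ∀ (p : Y.M.Par) (X : CyGp Y p), X.Ok → X.Λ ≤ X.de⁻¹ → X.de ≤ 1 / 2 →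
      ∃ c : CyCh X, c.Ok (X.de ^ (-D0)) (X.de ^ Ds) C0 (X.de ^ (-Dst) * X.fj) := by
  refine ⟨D0 + 10, D0 + 11, 7 * 7 * 35 * 5 ^ 5, by linarith, by linarith, ?_⟩
  intro p X hX hΛ hde
  have hde0 : 0 < X.de := by
    unfold CyGp.de
    positivity
  obtain ⟨n1, n2, n4, n5, n6, n7⟩ := cy_ch_num D0 X.de X.Λ X.fj hD0 hde0 hde hX.lam hΛ hX.fj_pos
  obtain ⟨m1, m2, m3⟩ := hm p X hX
  exact ⟨cyChSys X (X.de ^ (-D0)) (X.de ^ (-(D0 + 10)) * X.fj), cy_ch_ok X hX _ _ _ n1 n2 n4 n5 n6 n7 (H.co_meas p hX.gd) m1 m2 (m3 _)⟩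

end Claimed.Agent.R256
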