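-- KEEP
import Claimed.Agent.R256.Cyl.Defs

/-!
# Row 256 (LS paper), CYL, MODEL-FREE GEOMETRY OF FRAMES : normalised coordinates, transport, volumes          (architect helper180; prefix `cy_nr_`)

No state, no operator, no model.   `u = cyU Q0 l z = (cyBase Q0 l z, cyNor Q0 l z) : CyU = (ℝ × ℝ × ℝ) × (ℝ × ℝ)` = the coordinates of the row `z : Cy5` normalised by the frame `Q0` at the length `l`.
* `cyRay u : SfRay`      the ray with the time-zero coordinates `u`   (time zero of the frame = the time of the frame)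
* `cyFr Q0 t`            the frame moved along its own centre ray by the time `t` (same widths, shear extended)
* `cyTh a τ`, `cyTh5 a τ`   the triangular maps `u ↦ (a₁u₁, a₂(u₂+τu₁), a₃(u₃+τu₁²))`, `(…, a₄u₄, a₅(u₅+τu₄))`
LEAVES (every `sorry` below; the docstring is the plan):
 NR-A (algebra)  `cy_nr_in_mem`, `cy_nr_ray_flow`, `cy_nr_ray`, `cy_nr_mem`, `cy_nr_mem_flow`, `cy_nr_wt`, `cy_nr_fr_flow`
 NR-J (Jacobians) `cy_nr_th_meas`, `cy_nr_th_vol`, `cy_nr_th5_meas`, `cy_nr_th5_vol`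
 NR-V (volumes of tests) `cy_nr_slice`, `cy_nr_memB_meas`, `cy_nr_mem_meas`, `cy_nr_vol3`, `cy_nr_vol5`, `cy_nr_vol5box`
-/

set_option autoImplicit false

namespace Claimed.Agent.R256

open MeasureTheory

/-- normalised coordinates -/
abbrev CyU : Type := (ℝ × ℝ × ℝ) × (ℝ × ℝ)

/-- the coordinates of `z` normalised by the frame `Q0` at the length `l` -/
noncomputable def cyU (Q0 : CyT) (l : ℝ) (z : Cy5) : CyU := (cyBase Q0 l z, cyNor Q0 l z)

/-- the ray with the time-zero coordinates `u` -/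
def cyRay (u : CyU) : SfRay := ⟨u.1.1, u.1.2.1, u.1.2.2, u.2.1, u.2.2⟩

/-- the frame `Q0` moved along its own centre ray by the time `t` -/
def cyFr (Q0 : CyT) (t : ℝ) : CyT :=
  { Q0 with b := Q0.b + t * Q0.x, y := Q0.y + t * Q0.x ^ 2, be := Q0.be + t * Q0.K, d := Q0.d + t * Q0.c }

/-- the triangular map of the base coordinates -/
def cyTh (a : ℝ × ℝ × ℝ) (τ : ℝ) (u : ℝ × ℝ × ℝ) : ℝ × ℝ × ℝ :=
  (a.1 * u.1, a.2.1 * (u.2.1 + τ * u.1), a.2.2 * (u.2.2 + τ * u.1 ^ 2))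

/-- the triangular map of all coordinates -/
def cyTh5 (a : ℝ × ℝ × ℝ) (a' : ℝ × ℝ) (τ : ℝ) (u : CyU) : CyU :=
  (cyTh a τ u.1, (a'.1 * u.2.1, a'.2 * (u.2.2 + τ * u.2.1)))

/-- the base part of `SfTest.Mem` -/
def SfTest.MemB (Q : SfTest) (l : ℝ) (b : ℝ × ℝ × ℝ) : Prop :=
  |b.1 - Q.x| ≤ Q.r ∧ |b.2.1 + Q.T * b.1 - Q.b| ≤ l * Q.r ∧
  |b.2.2 + Q.T * b.1 ^ 2 - Q.y - 2 * Q.x * (b.2.1 + Q.T * b.1 - Q.b)| ≤ l * Q.r ^ 2

theorem cy_nr_eqns_cite : True := by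
  have := @cyU.eq_1
  have := @cyRay.eq_1
  have := @cyFr.eq_1
  have := @cyTh.eq_1
  have := @cyTh5.eq_1
  have := @SfTest.MemB.eq_1
  trivial

/-! ## NR-A : algebra -/

/-- (unfold `cyIn, cyTilt, cyVel, cyPos, SfTest.Mem, sfTestAt, sfRayAt, SfRay.Bt, Yt, Dt`; each of the five expressions agrees after `ring_nf`: `B - T X + T X = B` …) -/
theorem cy_nr_in_mem (T : ℝ) (Q : CyT) (l : ℝ) (z : Cy5) : cyIn Q l z ↔ (sfTestAt T Q).Mem l (sfRayAt T z) := by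
  unfold cyIn cyTilt cyVel cyPos SfTest.Mem sfTestAt sfRayAt SfRay.Bt SfRay.Yt SfRay.Dt
  simp only
  have e1 : z.B - T * z.X + T * z.X = z.B := by ring
  have e2 : z.Y - T * z.X ^ 2 + T * z.X ^ 2 = z.Y := by ring
  have e3 : z.D - T * z.N + T * z.N = z.D := by ring
  rw [e1, e2, e3]

/-- the time-zero ray does not change along the free flow -/
theorem cy_nr_ray_flow (T t : ℝ) (z : Cy5) : sfRayAt (T + t) (cyFlow t z) = sfRayAt T z := by
  unfold sfRayAt cyFlow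
  simp only [SfRay.mk.injEq, true_and]
  refine ⟨by ring, by ring, by ring⟩

/-- the ray in the frame = the normalised coordinates at the time of the frame (unfold everything; `SfRay.mk.injEq`; five identities by `ring_nf`/`congr 1; ring`) -/
theorem cy_nr_ray (T0 L : ℝ) (Q0 : CyT) (z : Cy5) : (sfFrameOf T0 L Q0).ray (sfRayAt T0 z) = cyRay (cyU Q0 L z) := by
  unfold SfFrame.ray sfFrameOf sfRayAt cyRay cyU cyBase cyNor cyTilt cyVel cyPos SfTest.shA SfTest.shS SfTest.beAt sfTestAt SfRay.Bt SfRay.Yt SfRay.Dt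
  simp only [SfRay.mk.injEq, true_and]
  refine ⟨by congr 1; ring, by congr 1; ring, by congr 1; ring, by congr 1; ring⟩

/-- membership in normalised form (`cy_nr_in_mem`, `sf_frame_mem` of `Soft/Frame.lean` = black box) -/
theorem cy_nr_mem (T0 : ℝ) (k0 : ℕ) (Q0 : CyT) (hr : 0 < Q0.r) (hf : 0 < Q0.f) (T : ℝ) (Q : CyT) (l : ℝ) (z : Cy5) :
    cyIn Q l z ↔ (cyNrm T0 k0 Q0 T Q).Mem (l / (2 : ℝ)⁻¹ ^ k0) ((sfFrameOf T0 ((2 : ℝ)⁻¹ ^ k0) Q0).ray (sfRayAt T z)) := by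
  rw [cy_nr_in_mem T Q l z]
  have hP : (sfFrameOf T0 ((2 : ℝ)⁻¹ ^ k0) Q0).Pos := ⟨by show (0 : ℝ) < (2 : ℝ)⁻¹ ^ k0; positivity, hr, hf⟩
  exact (sf_frame_mem (sfFrameOf T0 ((2 : ℝ)⁻¹ ^ k0) Q0) hP (sfTestAt T Q) l (sfRayAt T z)).symm

/-- the same for a free classical ray, in the coordinates at the time of the frame -/
theorem cy_nr_mem_flow (T0 : ℝ) (k0 : ℕ) (Q0 : CyT) (hr : 0 < Q0.r) (hf : 0 < Q0.f) (t : ℝ) (Q : CyT) (l : ℝ) (z : Cy5) :
    cyIn Q l (cyFlow t z) ↔ (cyNrm T0 k0 Q0 (T0 + t) Q).Mem (l / (2 : ℝ)⁻¹ ^ k0) (cyRay (cyU Q0 ((2 : ℝ)⁻¹ ^ k0) z)) := by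
  rw [cy_nr_mem T0 k0 Q0 hr hf (T0 + t) Q l (cyFlow t z), cy_nr_ray_flow, cy_nr_ray]

/-- weights (`Real.mul_rpow`, `div_mul_cancel₀`) -/
theorem cy_nr_wt (η T0 : ℝ) (k0 : ℕ) (Q0 : CyT) (hr : 0 < Q0.r) (hf : 0 < Q0.f) (T : ℝ) (Q : CyT) (hQr : 0 < Q.r) (hQf : 0 < Q.f) :
    cyWt η Q = cyWt η Q0 * (cyNrm T0 k0 Q0 T Q).w η := by
  unfold cyWt SfTest.w cyNrm SfFrame.tst sfFrameOf sfTestAt
  simp only
  rw [Real.div_rpow hQr.le hr.le, Real.div_rpow hQf.le hf.le]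
  have h1 : Q0.r ^ (3 + η) ≠ 0 := (Real.rpow_pos_of_pos hr _).ne'
  have h2 : Q0.f ^ (1 - η) ≠ 0 := (Real.rpow_pos_of_pos hf _).ne'
  field_simp

/-- **transport of the frame** to the time `T0 + t` and the length `l'`:   with `σ = l/l'`, `τ = t/l`:
`cyU (cyFr Q0 t) l' (cyFlow t z) = cyTh5 (1, σ, σ) (1, σ) τ (cyU Q0 l z)`.
(`B_t - b0(t) = (B - b0) + t (X - x0)`;  tilt`_t` = tilt + `t (X - x0)²`;  `cy_vel_flow`, `cy_pos_flow` with `cyFr` = `cyExt` in the shear;  `field_simp`.) -/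
theorem cy_nr_fr_flow (Q0 : CyT) (hr : 0 < Q0.r) (hf : 0 < Q0.f) (l l' t : ℝ) (hl : 0 < l) (hl' : 0 < l') (z : Cy5) :
    cyU (cyFr Q0 t) l' (cyFlow t z) = cyTh5 (1, l / l', l / l') (1, l / l') (t / l) (cyU Q0 l z) := by
  unfold cyU cyTh5 cyTh cyBase cyNor cyTilt cyVel cyPos cyFr cyFlow
  simp only [Prod.mk.injEq]
  refine ⟨⟨?_, ?_, ?_⟩, ?_, ?_⟩
  · ring
  · field_simp; ring
  · field_simp; ring
  · rw [one_mul]; congr 1; ring
  · field_simp; ring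

/-! ## NR-J : Jacobians of the triangular maps -/

/-- skew products scale the product measure -/
theorem cy_nr_j_skew {α β : Type} [MeasurableSpace α] [MeasurableSpace β] (μ : Measure α) (ν : Measure β) [SFinite μ] [SFinite ν]
    (f : α → α) (hf : Measurable f) (G : α → β → β) (hG : Measurable (fun p : α × β => G p.1 p.2)) (c₁ c₂ : ENNReal)
    (hfv : Measure.map f μ = c₁ • μ) (hGv : ∀ u A, MeasurableSet A → ν (G u ⁻¹' A) = c₂ * ν A)
    (S : Set (α × β)) (hS : MeasurableSet S) :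
    (μ.prod ν) ((fun p : α × β => (f p.1, G p.1 p.2)) ⁻¹' S) = c₁ * c₂ * (μ.prod ν) S := by
  have hF : Measurable (fun p : α × β => (f p.1, G p.1 p.2)) := (hf.comp measurable_fst).prodMk hG
  rw [Measure.prod_apply (hF hS), Measure.prod_apply hS]
  have hh : Measurable (fun v : α => ν (Prod.mk v ⁻¹' S)) := measurable_measure_prodMk_left hS
  have e : ∀ u : α, ν (Prod.mk u ⁻¹' ((fun p : α × β => (f p.1, G p.1 p.2)) ⁻¹' S)) = c₂ * ν (Prod.mk (f u) ⁻¹' S) := by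
    intro u
    rw [← hGv u _ (measurable_prodMk_left hS)]
    rfl
  simp_rw [e]
  have hm : Measurable (fun u : α => ν (Prod.mk (f u) ⁻¹' S)) := hh.comp hf
  rw [lintegral_const_mul _ hm]
  have e2 : ∫⁻ u, ν (Prod.mk (f u) ⁻¹' S) ∂μ = c₁ * ∫⁻ v, ν (Prod.mk v ⁻¹' S) ∂μ := by
    rw [← lintegral_map hh hf, hfv, lintegral_smul_measure, smul_eq_mul]
  rw [e2]; ring

/-- the affine map of the line -/
theorem cy_nr_j_line (a b : ℝ) (ha : 0 < a) (A : Set ℝ) :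
    volume ((fun y : ℝ => a * (y + b)) ⁻¹' A) = ENNReal.ofReal a⁻¹ * volume A := by
  have e : (fun y : ℝ => a * (y + b)) ⁻¹' A = (fun y => y + b) ⁻¹' ((fun y => a * y) ⁻¹' A) := rfl
  rw [e, measure_preimage_add_right, Real.volume_preimage_mul_left ha.ne', abs_of_pos (inv_pos.mpr ha)]

theorem cy_nr_j_line_map (a b : ℝ) (ha : 0 < a) :
    Measure.map (fun y : ℝ => a * (y + b)) volume = ENNReal.ofReal a⁻¹ • (volume : Measure ℝ) := by
  ext A hA
  rw [Measure.map_apply (by fun_prop) hA, cy_nr_j_line a b ha A, Measure.smul_apply, smul_eq_mul]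

/-- planar triangular maps -/
theorem cy_nr_j_plane (a a' b : ℝ) (ha : 0 < a) (ha' : 0 < a') (g : ℝ → ℝ) (hg : Measurable g) (S : Set (ℝ × ℝ)) (hS : MeasurableSet S) :
    volume ((fun p : ℝ × ℝ => (a * (p.1 + b), a' * (p.2 + g p.1))) ⁻¹' S) = ENNReal.ofReal a⁻¹ * ENNReal.ofReal a'⁻¹ * volume S := by
  rw [Measure.volume_eq_prod]
  exact cy_nr_j_skew volume volume (fun y => a * (y + b)) (by fun_prop) (fun u y => a' * (y + g u)) (by fun_prop) _ _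
    (cy_nr_j_line_map a b ha) (fun u A _ => cy_nr_j_line a' (g u) ha' A) S hS

theorem cy_nr_th_meas (a : ℝ × ℝ × ℝ) (τ : ℝ) : Measurable (cyTh a τ) := by
  unfold cyTh
  fun_prop

/-- PLAN: `cyTh a τ = D ∘ S₂ ∘ S₁`-type composition;  shears are measure preserving (`MeasurePreserving.skew_product` with `g u₁ = (· + c u₁)`, `map_add_right_eq_self`; first on `ℝ × (ℝ × ℝ)` with the translation by `(τu₁, τu₁²)`),
the diagonal map scales: `Measure.prod` of `Real.map_volume_mul_left` (`map (a * ·) volume = ofReal |a⁻¹| • volume`).   Alternative: Tonelli three times with `Real.volume_preimage_mul_left`, `measure_preimage_add`. -/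
theorem cy_nr_th_vol (a : ℝ × ℝ × ℝ) (h1 : 0 < a.1) (h2 : 0 < a.2.1) (h3 : 0 < a.2.2) (τ : ℝ) (S : Set (ℝ × ℝ × ℝ)) (hS : MeasurableSet S) :
    volume (cyTh a τ ⁻¹' S) = ENNReal.ofReal (a.1 * a.2.1 * a.2.2)⁻¹ * volume S := by
  have key := cy_nr_j_skew (volume : Measure ℝ) (volume : Measure (ℝ × ℝ)) (fun y => a.1 * (y + 0)) (by fun_prop)
    (fun u p => (a.2.1 * (p.1 + τ * u), a.2.2 * (p.2 + τ * u ^ 2))) (by fun_prop) _ _
    (cy_nr_j_line_map a.1 0 h1)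
    (fun u A hA => cy_nr_j_plane a.2.1 a.2.2 (τ * u) h2 h3 (fun _ => τ * u ^ 2) measurable_const A hA) S hS
  have e : cyTh a τ = fun p : ℝ × ℝ × ℝ => (a.1 * (p.1 + 0), (a.2.1 * (p.2.1 + τ * p.1), a.2.2 * (p.2.2 + τ * p.1 ^ 2))) := by
    funext p
    unfold cyTh
    rw [add_zero]
  rw [e, Measure.volume_eq_prod ℝ (ℝ × ℝ), key]
  congr 1
  rw [← ENNReal.ofReal_mul (by positivity), ← ENNReal.ofReal_mul (by positivity)]
  congr 1
  field_simp

theorem cy_nr_th5_meas (a : ℝ × ℝ × ℝ) (a' : ℝ × ℝ) (τ : ℝ) : Measurable (cyTh5 a a' τ) := by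
  unfold cyTh5 cyTh
  fun_prop

/-- (the product of `cyTh` and of the planar map `(u₄,u₅) ↦ (a₄u₄, a₅(u₅+τu₄))`: `MeasurePreserving.prod`-type argument, or `Measure.map_prod_map`) -/
theorem cy_nr_th5_vol (a : ℝ × ℝ × ℝ) (a' : ℝ × ℝ) (h1 : 0 < a.1) (h2 : 0 < a.2.1) (h3 : 0 < a.2.2) (h4 : 0 < a'.1) (h5 : 0 < a'.2) (τ : ℝ)
    (S : Set CyU) (hS : MeasurableSet S) :
    volume (cyTh5 a a' τ ⁻¹' S) = ENNReal.ofReal (a.1 * a.2.1 * a.2.2 * a'.1 * a'.2)⁻¹ * volume S := by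
  have hmap : Measure.map (cyTh a τ) volume = ENNReal.ofReal (a.1 * a.2.1 * a.2.2)⁻¹ • (volume : Measure (ℝ × ℝ × ℝ)) := by
    ext A hA
    rw [Measure.map_apply (cy_nr_th_meas a τ) hA, cy_nr_th_vol a h1 h2 h3 τ A hA, Measure.smul_apply, smul_eq_mul]
  have key := cy_nr_j_skew (volume : Measure (ℝ × ℝ × ℝ)) (volume : Measure (ℝ × ℝ)) (cyTh a τ) (cy_nr_th_meas a τ)
    (fun _ p => (a'.1 * (p.1 + 0), a'.2 * (p.2 + τ * p.1))) (by fun_prop) _ _ hmap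
    (fun _ A hA => cy_nr_j_plane a'.1 a'.2 0 h4 h5 (fun x => τ * x) (by fun_prop) A hA) S hS
  have e : cyTh5 a a' τ = fun p : CyU => (cyTh a τ p.1, (a'.1 * (p.2.1 + 0), a'.2 * (p.2.2 + τ * p.2.1))) := by
    funext p
    unfold cyTh5
    rw [add_zero]
  rw [e, Measure.volume_eq_prod (ℝ × ℝ × ℝ) (ℝ × ℝ), key]
  congr 1
  rw [← ENNReal.ofReal_mul (by positivity), ← ENNReal.ofReal_mul (by positivity)]
  congr 1
  field_simp

/-! ## NR-V : volumes of tests -/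

/-- the interval -/
theorem cy_nr_v_int (c w : ℝ) : volume {y : ℝ | |y - c| ≤ w} = ENNReal.ofReal (2 * w) := by
  have e : {y : ℝ | |y - c| ≤ w} = Metric.closedBall c w := by
    ext y
    simp only [Set.mem_ofPred_eq, Metric.mem_closedBall, Real.dist_eq]
  rw [e, Real.volume_closedBall]

theorem cy_nr_v_and {α : Type} [MeasurableSpace α] {p q : α → Prop} (hp : MeasurableSet {a | p a}) (hq : MeasurableSet {a | q a}) :
    MeasurableSet {a | p a ∧ q a} := hp.inter hq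

theorem cy_nr_v_le {α : Type} [MeasurableSpace α] {f : α → ℝ} (hf : Measurable f) (c : ℝ) : MeasurableSet {a | f a ≤ c} :=
  measurableSet_le hf measurable_const

/-- a set over the base `A` with small sections -/
theorem cy_nr_v_fib {α β : Type} [MeasurableSpace α] [MeasurableSpace β] (μ : Measure α) (ν : Measure β) [SFinite ν]
    (S : Set (α × β)) (hS : MeasurableSet S) (A : Set α) (hA : MeasurableSet A) (c : ENNReal)
    (h1 : ∀ p ∈ S, p.1 ∈ A) (h2 : ∀ a, ν (Prod.mk a ⁻¹' S) ≤ c) : (μ.prod ν) S ≤ μ A * c := by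
  rw [Measure.prod_apply hS]
  calc ∫⁻ a, ν (Prod.mk a ⁻¹' S) ∂μ ≤ ∫⁻ a, A.indicator (fun _ => c) a ∂μ := by
        apply lintegral_mono
        intro a
        by_cases ha : a ∈ A
        · simp only [Set.indicator_of_mem ha]
          exact h2 a
        · have e : Prod.mk a ⁻¹' S = ∅ := by
            ext b
            simp only [Set.mem_preimage, Set.mem_empty_iff_false, iff_false]
            exact fun hb => ha (h1 _ hb)
          simp only [e, measure_empty, zero_le]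
    _ = μ A * c := by rw [lintegral_indicator_const hA, mul_comm]

/-- one more coordinate in an interval of half length `w` around a measurable centre (`Measure.prod_apply`, sections are `Icc`, `Real.volume_Icc`, `lintegral_indicator_const`) -/
theorem cy_nr_slice {α : Type} [MeasurableSpace α] (μ : Measure α) [SFinite μ] (S : Set α) (hS : MeasurableSet S) (g : α → ℝ) (hg : Measurable g) (w : ℝ) (hw : 0 ≤ w) :
    MeasurableSet {p : α × ℝ | p.1 ∈ S ∧ |p.2 - g p.1| ≤ w} ∧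
    (μ.prod volume) {p : α × ℝ | p.1 ∈ S ∧ |p.2 - g p.1| ≤ w} = μ S * ENNReal.ofReal (2 * w) := by
  have hm : MeasurableSet {p : α × ℝ | p.1 ∈ S ∧ |p.2 - g p.1| ≤ w} := by
    refine cy_nr_v_and (hS.preimage measurable_fst) (cy_nr_v_le ?_ _)
    fun_prop
  refine ⟨hm, ?_⟩
  rw [Measure.prod_apply hm]
  have e : ∀ a : α, volume (Prod.mk a ⁻¹' {p : α × ℝ | p.1 ∈ S ∧ |p.2 - g p.1| ≤ w}) = S.indicator (fun _ => ENNReal.ofReal (2 * w)) a := by
    intro a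
    by_cases ha : a ∈ S
    · rw [Set.indicator_of_mem ha, ← cy_nr_v_int (g a) w]
      congr 1
      ext y
      simp only [Set.mem_preimage, Set.mem_ofPred_eq, ha, true_and]
    · rw [Set.indicator_of_notMem ha]
      have e : Prod.mk a ⁻¹' {p : α × ℝ | p.1 ∈ S ∧ |p.2 - g p.1| ≤ w} = ∅ := by
        ext y
        simp only [Set.mem_preimage, Set.mem_ofPred_eq, ha, false_and, Set.mem_empty_iff_false]
      rw [e, measure_empty]
  simp_rw [e]
  rw [lintegral_indicator_const hS, mul_comm]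

theorem cy_nr_memB_meas (Q : SfTest) (l : ℝ) : MeasurableSet {b : ℝ × ℝ × ℝ | Q.MemB l b} := by
  unfold SfTest.MemB
  refine cy_nr_v_and (cy_nr_v_le ?_ _) (cy_nr_v_and (cy_nr_v_le ?_ _) (cy_nr_v_le ?_ _)) <;> fun_prop

theorem cy_nr_mem_meas (Q : SfTest) (l : ℝ) : MeasurableSet {u : CyU | Q.Mem l (cyRay u)} := by
  unfold SfTest.Mem cyRay SfRay.Bt SfRay.Yt SfRay.Dt
  refine cy_nr_v_and (cy_nr_v_le ?_ _) (cy_nr_v_and (cy_nr_v_le ?_ _) (cy_nr_v_and (cy_nr_v_le ?_ _)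
    (cy_nr_v_and (cy_nr_v_le ?_ _) (cy_nr_v_le ?_ _)))) <;> fun_prop

theorem cy_nr_mem_memB (Q : SfTest) (l : ℝ) (u : CyU) (h : Q.Mem l (cyRay u)) : Q.MemB l u.1 := by
  exact ⟨h.1, h.2.1, h.2.2.1⟩

/-- planar sets : an interval and an interval around a measurable centre -/
theorem cy_nr_v_plane (c w w' : ℝ) (hw' : 0 ≤ w') (g : ℝ → ℝ) (hg : Measurable g) :
    volume {p : ℝ × ℝ | |p.1 - c| ≤ w ∧ |p.2 - g p.1| ≤ w'} = ENNReal.ofReal (2 * w) * ENNReal.ofReal (2 * w') := by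
  have hS : MeasurableSet {y : ℝ | |y - c| ≤ w} := measurableSet_le (by fun_prop) measurable_const
  have := (cy_nr_slice (volume : Measure ℝ) {y : ℝ | |y - c| ≤ w} hS g hg w' hw').2
  rw [cy_nr_v_int] at this
  rw [Measure.volume_eq_prod, ← this]
  rfl

/-- the base volume of a test is `≤ 8 l² r⁴`   (Tonelli: for fixed `u₁` the section in `(u₂,u₃)`, for fixed `(u₁,u₂)` the section in `u₃` is an interval; or `cy_nr_th_vol` + a box) -/
theorem cy_nr_vol3 (Q : SfTest) (l : ℝ) (hl : 0 ≤ l) (hr : 0 ≤ Q.r) :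
    volume {b : ℝ × ℝ × ℝ | Q.MemB l b} ≤ ENNReal.ofReal (8 * l ^ 2 * Q.r ^ 4) := by
  have hA : MeasurableSet {y : ℝ | |y - Q.x| ≤ Q.r} := measurableSet_le (by fun_prop) measurable_const
  have key := cy_nr_v_fib (volume : Measure ℝ) (volume : Measure (ℝ × ℝ)) {b : ℝ × ℝ × ℝ | Q.MemB l b} (cy_nr_memB_meas Q l)
    {y : ℝ | |y - Q.x| ≤ Q.r} hA (ENNReal.ofReal (2 * (l * Q.r)) * ENNReal.ofReal (2 * (l * Q.r ^ 2)))
    (fun p hp => hp.1) (by
      intro a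
      rw [← cy_nr_v_plane (Q.b - Q.T * a) (l * Q.r) (l * Q.r ^ 2) (by positivity)
        (fun u => -(Q.T * a ^ 2 - Q.y - 2 * Q.x * (u + Q.T * a - Q.b))) (by fun_prop)]
      apply measure_mono
      intro p hp
      obtain ⟨-, h2, h3⟩ := hp
      refine ⟨?_, ?_⟩
      · have e : p.1 - (Q.b - Q.T * a) = p.1 + Q.T * a - Q.b := by ring
        rw [e]; exact h2
      · have e : p.2 - -(Q.T * a ^ 2 - Q.y - 2 * Q.x * (p.1 + Q.T * a - Q.b)) = p.2 + Q.T * a ^ 2 - Q.y - 2 * Q.x * (p.1 + Q.T * a - Q.b) := by ring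
        rw [e]; exact h3)
  rw [Measure.volume_eq_prod ℝ (ℝ × ℝ)]
  refine key.trans (le_of_eq ?_)
  rw [cy_nr_v_int, ← ENNReal.ofReal_mul (by positivity), ← ENNReal.ofReal_mul (by positivity)]
  congr 1
  ring

/-- the section of a test over a base point -/
theorem cy_nr_v_sec (Q : SfTest) (l : ℝ) (hl : 0 ≤ l) (hf : 0 ≤ Q.f) (S : Set CyU) (hS : ∀ u ∈ S, Q.Mem l (cyRay u)) (a : ℝ × ℝ × ℝ) :
    volume (Prod.mk a ⁻¹' S) ≤ ENNReal.ofReal (2 * Q.f) * ENNReal.ofReal (2 * (l * Q.f)) := by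
  rw [← cy_nr_v_plane (Q.c + Q.al * a.1 + Q.be * a.1 ^ 2 + Q.K * ((a.2.2 + Q.T * a.1 ^ 2) - 2 * a.1 * (a.2.1 + Q.T * a.1))) Q.f (l * Q.f) (by positivity)
    (fun n => -(Q.T * n - Q.d - Q.al * (a.2.1 + Q.T * a.1) - Q.be * (a.2.2 + Q.T * a.1 ^ 2) + Q.K * (a.2.1 + Q.T * a.1) ^ 2)) (by fun_prop)]
  apply measure_mono
  intro p hp
  obtain ⟨-, -, -, h4, h5⟩ := hS _ hp
  simp only [cyRay, SfRay.Bt, SfRay.Yt, SfRay.Dt] at h4 h5
  refine ⟨?_, ?_⟩
  · refine le_of_eq_of_le (congrArg _ ?_) h4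
    ring
  · refine le_of_eq_of_le (congrArg _ ?_) h5
    ring

/-- the volume of a test is `≤ 32 l³ r⁴ f²` -/
theorem cy_nr_vol5 (Q : SfTest) (l : ℝ) (hl : 0 ≤ l) (hr : 0 ≤ Q.r) (hf : 0 ≤ Q.f) :
    volume {u : CyU | Q.Mem l (cyRay u)} ≤ ENNReal.ofReal (32 * l ^ 3 * Q.r ^ 4 * Q.f ^ 2) := by
  have key := cy_nr_v_fib (volume : Measure (ℝ × ℝ × ℝ)) (volume : Measure (ℝ × ℝ)) {u : CyU | Q.Mem l (cyRay u)} (cy_nr_mem_meas Q l)
    {b : ℝ × ℝ × ℝ | Q.MemB l b} (cy_nr_memB_meas Q l) (ENNReal.ofReal (2 * Q.f) * ENNReal.ofReal (2 * (l * Q.f)))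
    (fun p hp => cy_nr_mem_memB Q l p hp) (cy_nr_v_sec Q l hl hf _ (fun _ h => h))
  rw [Measure.volume_eq_prod (ℝ × ℝ × ℝ) (ℝ × ℝ)]
  refine key.trans ((mul_le_mul_left (cy_nr_vol3 Q l hl hr) _).trans (le_of_eq ?_))
  rw [← ENNReal.ofReal_mul (by positivity), ← ENNReal.ofReal_mul (by positivity)]
  congr 1
  ring

/-- the box -/
theorem cy_nr_v_box (R : ℝ) (hR : 0 ≤ R) :
    MeasurableSet {b : ℝ × ℝ × ℝ | max |b.1| (max |b.2.1| |b.2.2|) ≤ R} ∧
    volume {b : ℝ × ℝ × ℝ | max |b.1| (max |b.2.1| |b.2.2|) ≤ R} ≤ ENNReal.ofReal (8 * R ^ 3) := by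
  have hm : MeasurableSet {b : ℝ × ℝ × ℝ | max |b.1| (max |b.2.1| |b.2.2|) ≤ R} := measurableSet_le (by fun_prop) measurable_const
  refine ⟨hm, ?_⟩
  have hA : MeasurableSet {y : ℝ | |y - 0| ≤ R} := measurableSet_le (by fun_prop) measurable_const
  have key := cy_nr_v_fib (volume : Measure ℝ) (volume : Measure (ℝ × ℝ)) _ hm
    {y : ℝ | |y - 0| ≤ R} hA (ENNReal.ofReal (2 * R) * ENNReal.ofReal (2 * R))
    (fun p hp => by
      have h : max |p.1| (max |p.2.1| |p.2.2|) ≤ R := hp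
      show |p.1 - 0| ≤ R
      rw [sub_zero]
      exact (le_max_left _ _).trans h) (by
      intro a
      rw [← cy_nr_v_plane 0 R R hR (fun _ => 0) measurable_const]
      apply measure_mono
      intro p hp
      have h : max |a| (max |p.1| |p.2|) ≤ R := hp
      refine ⟨?_, ?_⟩
      · rw [sub_zero]; exact ((le_max_left _ _).trans (le_max_right _ _)).trans h
      · rw [sub_zero]; exact ((le_max_right _ _).trans (le_max_right _ _)).trans h)
  rw [Measure.volume_eq_prod ℝ (ℝ × ℝ)]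
  refine key.trans (le_of_eq ?_)
  rw [cy_nr_v_int, ← ENNReal.ofReal_mul (by positivity), ← ENNReal.ofReal_mul (by positivity)]
  congr 1
  ring

/-- the volume of the part of a test over the base box of size `R` is `≤ (2R)³ · 4 l f²` -/
theorem cy_nr_vol5box (Q : SfTest) (l R : ℝ) (hl : 0 ≤ l) (hR : 0 ≤ R) (hf : 0 ≤ Q.f) :
    volume {u : CyU | Q.Mem l (cyRay u) ∧ max |u.1.1| (max |u.1.2.1| |u.1.2.2|) ≤ R} ≤ ENNReal.ofReal (32 * R ^ 3 * l * Q.f ^ 2) := by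
  have hm : MeasurableSet {u : CyU | Q.Mem l (cyRay u) ∧ max |u.1.1| (max |u.1.2.1| |u.1.2.2|) ≤ R} := by
    refine cy_nr_v_and (cy_nr_mem_meas Q l) (cy_nr_v_le ?_ _)
    fun_prop
  have key := cy_nr_v_fib (volume : Measure (ℝ × ℝ × ℝ)) (volume : Measure (ℝ × ℝ)) _ hm
    {b : ℝ × ℝ × ℝ | max |b.1| (max |b.2.1| |b.2.2|) ≤ R} (cy_nr_v_box R hR).1 (ENNReal.ofReal (2 * Q.f) * ENNReal.ofReal (2 * (l * Q.f)))
    (fun p hp => hp.2) (cy_nr_v_sec Q l hl hf _ (fun _ h => h.1))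
  rw [Measure.volume_eq_prod (ℝ × ℝ × ℝ) (ℝ × ℝ)]
  refine key.trans ((mul_le_mul_left (cy_nr_v_box R hR).2 _).trans (le_of_eq ?_))
  rw [← ENNReal.ofReal_mul (by positivity), ← ENNReal.ofReal_mul (by positivity)]
  congr 1
  ring

end Claimed.Agent.R256
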