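-- KEEP
import Claimed.Agent.R256.Cyl.Nrm

/-!
# Row 256 (LS paper), CYL, MODEL-FREE POLY : Lemma cyl:polynomial-tests for an abstract measure on normalised coordinates          (architect helper180; prefix `cy_pn_`, `cy_nu_`)

`ν : Measure CyU` = the row energy measure of a state in the coordinates `u = (base, normal)` normalised by the frame, at the time of the frame.   `CyNu ν R e δ` = (base support, normal tails, marginal base density, joint density).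
Classical model: `ν` = push forward of the root energy measure (later states are dominated by it).   Hybrid model: `ν` = push forward of the row measure of the later cut under `x ↦` time-zero ray in the frame (joint density: packet bound `1/H'`).
**EXIT** `cy_pn_main`: a test `Q : SfTest` (time `Q.T ∈ [0,1]`, relative length `lam ≤ 1`) with `ν(Q) > s^D e w(Q)` has `CyBdd (s^D') Q`.      `cy_nu_mono`, `cy_nu_tr`: change of the constants, transport of `CyNu` to a later frame.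
LEAVES (each `sorry`; plan in the docstring):  NU (`cy_nu_mono`, `cy_nu_tr`), PN-4 (`cy_pn_four`), PN-N (`cy_pn_num`), PN-C (`cy_pn_pt`, `cy_pn_cen`), PN-SV (`cy_pn_sh_v`), PN-SP (`cy_pn_sh_p`), PN-S (`cy_pn_shear`), PN-G (`cy_pn_main`).
-/

set_option autoImplicit false

namespace Claimed.Agent.R256

open MeasureTheory

/-- sup norm of the base part -/
def cyUb (u : CyU) : ℝ := max |u.1.1| (max |u.1.2.1| |u.1.2.2|)

/-- sup norm of the normal part -/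
def cyUn (u : CyU) : ℝ := max |u.2.1| |u.2.2|

/-- base support in the box `R`, normal tails `≤ δ e` outside the box `R`, marginal base density and joint density `≤ R e` -/
structure CyNu (ν : Measure CyU) (R e δ : ℝ) : Prop where
  supp : ν {u | R < cyUb u} = 0
  tail : ν {u | R < cyUn u} ≤ ENNReal.ofReal (δ * e)
  dens : ∀ S : Set (ℝ × ℝ × ℝ), MeasurableSet S → ν (Prod.fst ⁻¹' S) ≤ ENNReal.ofReal (R * e) * volume S
  densJ : ∀ S : Set CyU, MeasurableSet S → ν S ≤ ENNReal.ofReal (R * e) * volume S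

theorem cy_pn_eqns_cite : True := by
  have := @cyUb.eq_1
  have := @cyUn.eq_1
  trivial

theorem cy_nu_ub (Q0 : CyT) (l : ℝ) (z : Cy5) : cyUb (cyU Q0 l z) = cyBaseSz Q0 l z := rfl

theorem cy_nu_un (Q0 : CyT) (l : ℝ) (z : Cy5) : cyUn (cyU Q0 l z) = cyNorSz Q0 l z := rfl

/-! ## NU : change of the constants, transport -/

/-- (`measure_mono` on `{R' < ·} ⊆ {R < ·}`, `ENNReal.ofReal_le_ofReal`, `mul_le_mul_left`) -/
theorem cy_nu_mono {ν : Measure CyU} {R e δ R' e' δ' : ℝ} (h : CyNu ν R e δ) (hR : R ≤ R') (hRe : R * e ≤ R' * e') (hδ : δ * e ≤ δ' * e') :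
    CyNu ν R' e' δ' := by
  refine ⟨?_, ?_, ?_, ?_⟩
  · exact measure_mono_null (fun u hu => lt_of_le_of_lt hR hu) h.supp
  · exact (measure_mono (fun u hu => lt_of_le_of_lt hR hu)).trans (h.tail.trans (ENNReal.ofReal_le_ofReal hδ))
  · intro S hS
    exact (h.dens S hS).trans (mul_le_mul_left (ENNReal.ofReal_le_ofReal hRe) _)
  · intro S hS
    exact (h.densJ S hS).trans (mul_le_mul_left (ENNReal.ofReal_le_ofReal hRe) _)

/-- a smaller measure -/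
theorem cy_nu_le {ν ν' : Measure CyU} {R e δ : ℝ} (h : CyNu ν R e δ) (hle : ν' ≤ ν) : CyNu ν' R e δ := by
  refine ⟨?_, ?_, ?_, ?_⟩
  · exact le_antisymm ((hle _).trans h.supp.le) zero_le
  · exact (hle _).trans h.tail
  · intro S hS
    exact (hle _).trans (h.dens S hS)
  · intro S hS
    exact (hle _).trans (h.densJ S hS)

/-- NU helper: measurability of the super-level sets -/
theorem cy_nu_ub_meas (c : ℝ) : MeasurableSet {u : CyU | c < cyUb u} := by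
  unfold cyUb
  exact measurableSet_lt measurable_const (by fun_prop)

theorem cy_nu_un_meas (c : ℝ) : MeasurableSet {u : CyU | c < cyUn u} := by
  unfold cyUn
  exact measurableSet_lt measurable_const (by fun_prop)

/-- NU helper: the base box under the triangular map -/
theorem cy_nu_tr_ub {R σ τ : ℝ} (hR : 1 ≤ R) (hσ : 1 ≤ σ) (hτ0 : 0 ≤ τ) (hτ1 : τ ≤ 1) (u : CyU) (hu : cyUb u ≤ R) :
    cyUb (cyTh5 (1, σ, σ) (1, σ) τ u) ≤ 2 * σ * R ^ 2 := by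
  unfold cyUb at hu
  have h1 : |u.1.1| ≤ R := (le_max_left _ _).trans hu
  have h2 : |u.1.2.1| ≤ R := ((le_max_left _ _).trans (le_max_right _ _)).trans hu
  have h3 : |u.1.2.2| ≤ R := ((le_max_right _ _).trans (le_max_right _ _)).trans hu
  have hRR : R ≤ R ^ 2 := by nlinarith
  have hσR : R ^ 2 ≤ σ * R ^ 2 := by nlinarith [sq_nonneg R]
  have hτu : |τ * u.1.1| ≤ R := by
    rw [abs_mul, abs_of_nonneg hτ0]
    calc τ * |u.1.1| ≤ 1 * R := mul_le_mul hτ1 h1 (abs_nonneg _) (by norm_num)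
      _ = R := one_mul R
  have hτu2 : |τ * u.1.1 ^ 2| ≤ R ^ 2 := by
    rw [abs_mul, abs_of_nonneg hτ0, abs_pow]
    calc τ * |u.1.1| ^ 2 ≤ 1 * R ^ 2 := mul_le_mul hτ1 (pow_le_pow_left₀ (abs_nonneg _) h1 2) (by positivity) (by norm_num)
      _ = R ^ 2 := one_mul _
  unfold cyUb cyTh5 cyTh
  simp only
  refine max_le ?_ (max_le ?_ ?_)
  · rw [one_mul]; linarith
  · rw [abs_mul, abs_of_pos (by linarith : 0 < σ)]
    have : |u.1.2.1 + τ * u.1.1| ≤ 2 * R ^ 2 := (abs_add_le _ _).trans (by linarith)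
    calc σ * |u.1.2.1 + τ * u.1.1| ≤ σ * (2 * R ^ 2) := mul_le_mul_of_nonneg_left this (by linarith)
      _ = 2 * σ * R ^ 2 := by ring
  · rw [abs_mul, abs_of_pos (by linarith : 0 < σ)]
    have : |u.1.2.2 + τ * u.1.1 ^ 2| ≤ 2 * R ^ 2 := (abs_add_le _ _).trans (by linarith)
    calc σ * |u.1.2.2 + τ * u.1.1 ^ 2| ≤ σ * (2 * R ^ 2) := mul_le_mul_of_nonneg_left this (by linarith)
      _ = 2 * σ * R ^ 2 := by ring

/-- NU helper: the normal box under the triangular map -/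
theorem cy_nu_tr_un {R σ τ : ℝ} (hR : 1 ≤ R) (hσ : 1 ≤ σ) (hτ0 : 0 ≤ τ) (hτ1 : τ ≤ 1) (u : CyU) (hu : cyUn u ≤ R) :
    cyUn (cyTh5 (1, σ, σ) (1, σ) τ u) ≤ 2 * σ * R ^ 2 := by
  unfold cyUn at hu
  have h1 : |u.2.1| ≤ R := (le_max_left _ _).trans hu
  have h2 : |u.2.2| ≤ R := (le_max_right _ _).trans hu
  have hRR : R ≤ R ^ 2 := by nlinarith
  have hσR : R ^ 2 ≤ σ * R ^ 2 := by nlinarith [sq_nonneg R]
  have hτu : |τ * u.2.1| ≤ R := by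
    rw [abs_mul, abs_of_nonneg hτ0]
    calc τ * |u.2.1| ≤ 1 * R := mul_le_mul hτ1 h1 (abs_nonneg _) (by norm_num)
      _ = R := one_mul R
  unfold cyUn cyTh5
  simp only
  refine max_le ?_ ?_
  · rw [one_mul]; linarith
  · rw [abs_mul, abs_of_pos (by linarith : 0 < σ)]
    have : |u.2.2 + τ * u.2.1| ≤ 2 * R ^ 2 := (abs_add_le _ _).trans (by linarith)
    calc σ * |u.2.2 + τ * u.2.1| ≤ σ * (2 * R ^ 2) := mul_le_mul_of_nonneg_left this (by linarith)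
      _ = 2 * σ * R ^ 2 := by ring

/-- **transport to a later frame** (`cy_nr_fr_flow`: `σ = l/l' ≥ 1`, `τ = t/l ∈ [0,1]`).
supp: if `cyUb u ≤ R` then `cyUb (cyTh5 .. u) ≤ 2σR²` (`|u₁| ≤ R`, `σ|u₂+τu₁| ≤ 2σR`, `σ|u₃+τu₁²| ≤ σ(R+R²)`), so the preimage of `{2σR² < cyUb}` lies in `{R < cyUb}`; the sets `{c < cyUb}`, `{c < cyUn}` are measurable (continuous functions).
tail: the same with `σ|u₅+τu₄| ≤ 2σR`.   dens: `cyTh5 ⁻¹' (fst ⁻¹' S) = fst ⁻¹' (cyTh ⁻¹' S)`, `cy_nr_th_meas`, `cy_nr_th_vol` (factor `(1·σ·σ)⁻¹ ≤ 1`), `R e ≤ 2σR² e`.   densJ: `cy_nr_th5_vol`. -/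
theorem cy_nu_tr {ν ν' : Measure CyU} {R e δ σ τ : ℝ} (h : CyNu ν R e δ) (hR : 1 ≤ R) (he : 0 ≤ e) (hσ : 1 ≤ σ) (hτ0 : 0 ≤ τ) (hτ1 : τ ≤ 1)
    (hle : ∀ S : Set CyU, MeasurableSet S → ν' S ≤ ν (cyTh5 (1, σ, σ) (1, σ) τ ⁻¹' S)) : CyNu ν' (2 * σ * R ^ 2) e δ := by
  have hσ0 : 0 < σ := by linarith
  have hRR : R ≤ R ^ 2 := by nlinarith
  have hσR : R ^ 2 ≤ σ * R ^ 2 := by nlinarith [sq_nonneg R]
  have hfac : ∀ c : ℝ, 0 ≤ c → c ≤ 1 → ∀ x : ENNReal, ENNReal.ofReal (R * e) * (ENNReal.ofReal c * x) ≤ ENNReal.ofReal (2 * σ * R ^ 2 * e) * x := by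
    intro c hc0 hc1 x
    rw [← mul_assoc, ← ENNReal.ofReal_mul (by positivity)]
    refine mul_le_mul_left (ENNReal.ofReal_le_ofReal ?_) _
    calc R * e * c ≤ R * e * 1 := mul_le_mul_of_nonneg_left hc1 (by positivity)
      _ = R * e := mul_one _
      _ ≤ 2 * σ * R ^ 2 * e := mul_le_mul_of_nonneg_right (by linarith) he
  refine ⟨?_, ?_, ?_, ?_⟩
  · refine le_antisymm ((hle _ (cy_nu_ub_meas _)).trans ?_) zero_le
    refine (measure_mono ?_).trans h.supp.le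
    intro u hu
    by_contra hcon
    have h1 := cy_nu_tr_ub hR hσ hτ0 hτ1 u (not_lt.1 hcon)
    exact absurd hu (not_lt.2 h1)
  · refine (hle _ (cy_nu_un_meas _)).trans ((measure_mono ?_).trans h.tail)
    intro u hu
    by_contra hcon
    have h1 := cy_nu_tr_un hR hσ hτ0 hτ1 u (not_lt.1 hcon)
    exact absurd hu (not_lt.2 h1)
  · intro S hS
    refine (hle _ (measurable_fst hS)).trans ?_
    have e1 : cyTh5 (1, σ, σ) (1, σ) τ ⁻¹' (Prod.fst ⁻¹' S) = Prod.fst ⁻¹' (cyTh (1, σ, σ) τ ⁻¹' S) := rfl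
    rw [e1]
    refine (h.dens _ (cy_nr_th_meas _ _ hS)).trans ?_
    rw [cy_nr_th_vol (1, σ, σ) one_pos hσ0 hσ0 τ S hS]
    refine hfac _ (by positivity) ?_ _
    apply inv_le_one_of_one_le₀
    show 1 ≤ 1 * σ * σ
    nlinarith
  · intro S hS
    refine (hle _ hS).trans ?_
    refine (h.densJ _ (cy_nr_th5_meas _ _ _ hS)).trans ?_
    rw [cy_nr_th5_vol (1, σ, σ) (1, σ) one_pos hσ0 hσ0 one_pos hσ0 τ S hS]
    refine hfac _ (by positivity) ?_ _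
    apply inv_le_one_of_one_le₀
    show 1 ≤ 1 * σ * σ * 1 * σ
    have : 1 ≤ σ * σ := by nlinarith
    nlinarith

/-! ## widths -/

/-- **PN-4** the four volume bounds (cyl:volume-bound).   `M = {u | Q.Mem lam (cyRay u)}` is measurable (`cy_nr_mem_meas`).
(1) `densJ` + `cy_nr_vol5` (`lam³ ≤ 1`): `ν M ≤ R e · 32 r⁴ f²`;   (2) `M ⊆ fst ⁻¹' {MemB}` (`cy_nr_mem_memB`), `dens` + `cy_nr_vol3`: `≤ R e · 8 r⁴`;   (3) `ν M ≤ ν univ ≤ e`;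
(4) `ν M ≤ ν (M ∩ {cyUb ≤ R}) + ν {R < cyUb}`, `supp`, `densJ` + `cy_nr_vol5box`: `≤ R e · 32 R³ f²`.   All are `≤ 32 R⁴ e ·` the respective factor (`1 ≤ R`);  `le_min`, `ENNReal.ofReal_mul`. -/
theorem cy_pn_four {ν : Measure CyU} {R e δ : ℝ} (h : CyNu ν R e δ) (htot : ν Set.univ ≤ ENNReal.ofReal e) (hR : 1 ≤ R) (he : 0 < e) (Q : SfTest) (lam : ℝ)
    (hl0 : 0 ≤ lam) (hl1 : lam ≤ 1) (hr : 0 < Q.r) (hf : 0 < Q.f) :
    ν {u | Q.Mem lam (cyRay u)} ≤ ENNReal.ofReal (32 * R ^ 4 * e * min (min (Q.r ^ 4 * Q.f ^ 2) (Q.r ^ 4)) (min 1 (Q.f ^ 2))) := by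
  have hR0 : 0 < R := by linarith
  have hR4 : 1 ≤ R ^ 4 := one_le_pow₀ hR
  have hRR4 : R ≤ R ^ 4 := by
    calc R = R ^ 1 := (pow_one R).symm
      _ ≤ R ^ 4 := pow_le_pow_right₀ hR (by norm_num)
  have hl2 : lam ^ 2 ≤ 1 := pow_le_one₀ hl0 hl1
  have hl3 : lam ^ 3 ≤ 1 := pow_le_one₀ hl0 hl1
  have hm := cy_nr_mem_meas Q lam
  -- it is enough to bound by each of the four factors
  have key : ∀ x : ℝ, ν {u | Q.Mem lam (cyRay u)} ≤ ENNReal.ofReal (32 * R ^ 4 * e * x) →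
      ∀ y : ℝ, ν {u | Q.Mem lam (cyRay u)} ≤ ENNReal.ofReal (32 * R ^ 4 * e * y) →
      ν {u | Q.Mem lam (cyRay u)} ≤ ENNReal.ofReal (32 * R ^ 4 * e * min x y) := by
    intro x hx y hy
    rcases le_total x y with hxy | hxy
    · rwa [min_eq_left hxy]
    · rwa [min_eq_right hxy]
  refine key _ (key _ ?_ _ ?_) _ (key _ ?_ _ ?_)
  · refine (h.densJ _ hm).trans ((mul_le_mul_right (cy_nr_vol5 Q lam hl0 hr.le hf.le) _).trans ?_)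
    rw [← ENNReal.ofReal_mul (by positivity)]
    apply ENNReal.ofReal_le_ofReal
    have h0 : 0 ≤ e * (Q.r ^ 4 * Q.f ^ 2) := by positivity
    calc R * e * (32 * lam ^ 3 * Q.r ^ 4 * Q.f ^ 2) = 32 * (R * lam ^ 3) * (e * (Q.r ^ 4 * Q.f ^ 2)) := by ring
      _ ≤ 32 * (R ^ 4 * 1) * (e * (Q.r ^ 4 * Q.f ^ 2)) := by
          refine mul_le_mul_of_nonneg_right ?_ h0
          refine mul_le_mul_of_nonneg_left ?_ (by norm_num)
          exact mul_le_mul hRR4 hl3 (by positivity) (by positivity)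
      _ = 32 * R ^ 4 * e * (Q.r ^ 4 * Q.f ^ 2) := by ring
  · have hsub : {u : CyU | Q.Mem lam (cyRay u)} ⊆ Prod.fst ⁻¹' {b : ℝ × ℝ × ℝ | Q.MemB lam b} := fun u hu => cy_nr_mem_memB Q lam u hu
    refine (measure_mono hsub).trans ((h.dens _ (cy_nr_memB_meas Q lam)).trans ((mul_le_mul_right (cy_nr_vol3 Q lam hl0 hr.le) _).trans ?_))
    rw [← ENNReal.ofReal_mul (by positivity)]
    apply ENNReal.ofReal_le_ofReal
    have h0 : 0 ≤ e * Q.r ^ 4 := by positivity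
    calc R * e * (8 * lam ^ 2 * Q.r ^ 4) = (8 * (R * lam ^ 2)) * (e * Q.r ^ 4) := by ring
      _ ≤ (32 * (R ^ 4 * 1)) * (e * Q.r ^ 4) := by
          refine mul_le_mul_of_nonneg_right ?_ h0
          have : R * lam ^ 2 ≤ R ^ 4 * 1 := mul_le_mul hRR4 hl2 (by positivity) (by positivity)
          have h00 : 0 ≤ R ^ 4 * 1 := by positivity
          linarith
      _ = 32 * R ^ 4 * e * Q.r ^ 4 := by ring
  · refine (measure_mono (Set.subset_univ _)).trans (htot.trans (ENNReal.ofReal_le_ofReal ?_))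
    nlinarith
  · have hsub : {u : CyU | Q.Mem lam (cyRay u)} ⊆ {u : CyU | Q.Mem lam (cyRay u) ∧ max |u.1.1| (max |u.1.2.1| |u.1.2.2|) ≤ R} ∪ {u | R < cyUb u} := by
      intro u hu
      by_cases hb : cyUb u ≤ R
      · exact Or.inl ⟨hu, hb⟩
      · exact Or.inr (not_le.1 hb)
    have hm2 : MeasurableSet {u : CyU | Q.Mem lam (cyRay u) ∧ max |u.1.1| (max |u.1.2.1| |u.1.2.2|) ≤ R} := by
      refine cy_nr_v_and hm (cy_nr_v_le ?_ _)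
      fun_prop
    refine (measure_mono hsub).trans ((measure_union_le _ _).trans ?_)
    rw [h.supp, add_zero]
    refine (h.densJ _ hm2).trans ((mul_le_mul_right (cy_nr_vol5box Q lam R hl0 hR0.le hf.le) _).trans ?_)
    rw [← ENNReal.ofReal_mul (by positivity)]
    apply ENNReal.ofReal_le_ofReal
    have h0 : 0 ≤ 32 * R ^ 4 * e * Q.f ^ 2 := by positivity
    calc R * e * (32 * R ^ 3 * lam * Q.f ^ 2) = (32 * R ^ 4 * e * Q.f ^ 2) * lam := by ring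
      _ ≤ (32 * R ^ 4 * e * Q.f ^ 2) * 1 := mul_le_mul_of_nonneg_left hl1 h0
      _ = 32 * R ^ 4 * e * Q.f ^ 2 := mul_one _

theorem cy_pn_num_lin (η a g q E : ℝ) (h0 : 0 < η) (h1 : η < 1) (hq : 0 ≤ q) (hE : 4 ≤ E * (1 - η) ^ 2)
    (J1 : (3 + η) * a + (1 - η) * g < q + (4 * a + 2 * g)) (J2 : (3 + η) * a + (1 - η) * g < q + 4 * a)
    (J3 : (3 + η) * a + (1 - η) * g < q) (J4 : (3 + η) * a + (1 - η) * g < q + 2 * g) :
    -(E * q) ≤ a ∧ a ≤ E * q ∧ -(E * q) ≤ g ∧ g ≤ E * q := by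
  have hd : 0 < 1 - η := by linarith
  have hd1 : 1 - η < 1 := by linarith
  have hp : 0 < 1 + η := by linarith
  have hd2 : 0 < (1 - η) ^ 2 := by positivity
  have hE0 : 0 < E := by
    by_contra hcon
    have : E ≤ 0 := not_lt.1 hcon
    nlinarith
  have hd2le : (1 - η) ^ 2 ≤ 1 - η := by nlinarith
  have hE1 : 4 ≤ E * (1 - η) := by nlinarith
  have hE2 : 4 ≤ E := by nlinarith
  -- lower bound of a
  have A1 : -q < (1 - η) * a := by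
    have e1 := mul_lt_mul_of_pos_left J1 hd
    have e2 := mul_lt_mul_of_pos_left J2 hp
    nlinarith
  -- lower bound of g
  have G1 : -q < (1 + η) * g := by
    have e1 := mul_lt_mul_of_pos_left J1 (by linarith : 0 < 3 + η)
    have e2 := mul_lt_mul_of_pos_left J4 hd
    nlinarith
  -- upper bound of a
  have A2 : (1 + η) * (3 + η) * a < 2 * q := by
    have e1 := mul_lt_mul_of_pos_left J3 hp
    have e2 := mul_lt_mul_of_pos_left G1 hd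
    nlinarith
  -- upper bound of g
  have G2 : (1 - η) ^ 2 * g < 4 * q := by
    have e1 := mul_lt_mul_of_pos_left J3 hd
    have e2 := mul_lt_mul_of_pos_left A1 (by linarith : 0 < 3 + η)
    nlinarith
  have hEq : 0 ≤ E * q := by positivity
  refine ⟨?_, ?_, ?_, ?_⟩
  · -- (1-η) * (-(E q)) ≤ -q < (1-η) a
    have : (1 - η) * (-(E * q)) < (1 - η) * a := by
      have : q * 4 ≤ q * (E * (1 - η)) := mul_le_mul_of_nonneg_left hE1 hq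
      nlinarith
    exact le_of_lt (lt_of_mul_lt_mul_left this hd.le)
  · have h3 : 0 < (1 + η) * (3 + η) := by positivity
    have : (1 + η) * (3 + η) * a < (1 + η) * (3 + η) * (E * q) := by
      have h4 : 3 ≤ (1 + η) * (3 + η) := by nlinarith
      have h5 : q * 4 ≤ q * E := mul_le_mul_of_nonneg_left hE2 hq
      have h6 : 3 * (E * q) ≤ (1 + η) * (3 + η) * (E * q) := mul_le_mul_of_nonneg_right h4 hEq
      nlinarith
    exact le_of_lt (lt_of_mul_lt_mul_left this h3.le)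
  · have : (1 + η) * (-(E * q)) < (1 + η) * g := by
      have h5 : q * 4 ≤ q * E := mul_le_mul_of_nonneg_left hE2 hq
      have h6 : 1 * (E * q) ≤ (1 + η) * (E * q) := mul_le_mul_of_nonneg_right (by linarith) hEq
      nlinarith
    exact le_of_lt (lt_of_mul_lt_mul_left this hp.le)
  · have : (1 - η) ^ 2 * g < (1 - η) ^ 2 * (E * q) := by
      have h5 : q * 4 ≤ q * (E * (1 - η) ^ 2) := mul_le_mul_of_nonneg_left hE hq
      nlinarith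
    exact le_of_lt (lt_of_mul_lt_mul_left this hd2.le)

/-- **PN-N** real numbers only.   `E : ℕ` with `4/(1-η)² ≤ E`.   Write (J1) `r^(3+η) f^(1-η) < P r⁴ f²`, (J2) `.. < P r⁴`, (J3) `.. < P`, (J4) `.. < P f²`.   Take logarithms: `a = log r`, `g = log f`, `q = log P ≥ 0`:
(J1) `-q < (1-η)a + (1+η)g`, (J2) `(1-η)g < q + (1-η)a`, (J3) `(3+η)a + (1-η)g < q`, (J4) `(3+η)a < q + (1+η)g`.   Linear arithmetic:
`a > -q/(1-η)` (J1+J2), `g > -q/(1+η)` (J1+J4), `a < q` (J3 + lower bound of `g`), `g < 4q/(1-η)²` (J3 + lower bound of `a`).   All are `≤ E q` in modulus.   Back: `Real.log_le_log_iff`, `Real.log_pow`, `Real.log_rpow`, `Real.log_mul`, `Real.log_inv`. -/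
theorem cy_pn_num (η : ℝ) (h0 : 0 < η) (h1 : η < 1) : ∃ E : ℕ, ∀ P r f : ℝ, 1 ≤ P → 0 < r → 0 < f →
    r ^ (3 + η) * f ^ (1 - η) < P * min (min (r ^ 4 * f ^ 2) (r ^ 4)) (min 1 (f ^ 2)) →
    (P ^ E)⁻¹ ≤ r ∧ r ≤ P ^ E ∧ (P ^ E)⁻¹ ≤ f ∧ f ≤ P ^ E := by
  have hd : 0 < 1 - η := by linarith
  have hd2 : 0 < (1 - η) ^ 2 := by positivity
  obtain ⟨E, hE⟩ := exists_nat_ge (4 / (1 - η) ^ 2)
  refine ⟨E, fun P r f hP hr hf h => ?_⟩
  have hP0 : 0 < P := by linarith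
  have hE' : 4 ≤ (E : ℝ) * (1 - η) ^ 2 := by rwa [div_le_iff₀ hd2] at hE
  have hL : 0 < r ^ (3 + η) * f ^ (1 - η) := by positivity
  have hlogL : Real.log (r ^ (3 + η) * f ^ (1 - η)) = (3 + η) * Real.log r + (1 - η) * Real.log f := by
    rw [Real.log_mul (by positivity) (by positivity), Real.log_rpow hr, Real.log_rpow hf]
  have key : ∀ X : ℝ, min (min (r ^ 4 * f ^ 2) (r ^ 4)) (min 1 (f ^ 2)) ≤ X → 0 < X →
      (3 + η) * Real.log r + (1 - η) * Real.log f < Real.log P + Real.log X := by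
    intro X hX hX0
    have h2 : r ^ (3 + η) * f ^ (1 - η) < P * X := lt_of_lt_of_le h (mul_le_mul_of_nonneg_left hX hP0.le)
    have h3 := Real.log_lt_log hL h2
    rwa [hlogL, Real.log_mul hP0.ne' hX0.ne'] at h3
  have J1 := key (r ^ 4 * f ^ 2) ((min_le_left _ _).trans (min_le_left _ _)) (by positivity)
  have J2 := key (r ^ 4) ((min_le_left _ _).trans (min_le_right _ _)) (by positivity)
  have J3 := key 1 ((min_le_right _ _).trans (min_le_left _ _)) one_pos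
  have J4 := key (f ^ 2) ((min_le_right _ _).trans (min_le_right _ _)) (by positivity)
  rw [Real.log_mul (by positivity) (by positivity), Real.log_pow, Real.log_pow] at J1
  rw [Real.log_pow] at J2 J4
  rw [Real.log_one, add_zero] at J3
  push_cast at J1 J2 J4
  obtain ⟨c1, c2, c3, c4⟩ := cy_pn_num_lin η (Real.log r) (Real.log f) (Real.log P) E h0 h1 (Real.log_nonneg hP) hE' J1 J2 J3 J4
  have hPE : 0 < P ^ E := by positivity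
  have hlogPE : Real.log (P ^ E) = E * Real.log P := Real.log_pow _ _
  refine ⟨?_, ?_, ?_, ?_⟩
  · rw [← Real.log_le_log_iff (by positivity) hr, Real.log_inv, hlogPE]; exact c1
  · rw [← Real.log_le_log_iff hr hPE, hlogPE]; exact c2
  · rw [← Real.log_le_log_iff (by positivity) hf, Real.log_inv, hlogPE]; exact c3
  · rw [← Real.log_le_log_iff hf hPE, hlogPE]; exact c4

/-- the widths of a heavy test (glue of PN-4, PN-N) -/
theorem cy_pn_width (η : ℝ) (h0 : 0 < η) (h1 : η < 1) : ∃ E : ℕ, ∀ (ν : Measure CyU) (R e δ c0 lam : ℝ) (Q : SfTest), CyNu ν R e δ → ν Set.univ ≤ ENNReal.ofReal e →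
    1 ≤ R → 0 < e → 0 < c0 → c0 ≤ 1 → 0 ≤ lam → lam ≤ 1 → 0 < Q.r → 0 < Q.f →
    ENNReal.ofReal (c0 * e * Q.w η) < ν {u | Q.Mem lam (cyRay u)} →
    ((32 * R ^ 4 / c0) ^ E)⁻¹ ≤ Q.r ∧ Q.r ≤ (32 * R ^ 4 / c0) ^ E ∧ ((32 * R ^ 4 / c0) ^ E)⁻¹ ≤ Q.f ∧ Q.f ≤ (32 * R ^ 4 / c0) ^ E := by
  obtain ⟨E, hE⟩ := cy_pn_num η h0 h1
  refine ⟨E, fun ν R e δ c0 lam Q h htot hR he hc0 hc1 hl0 hl1 hr hf hH => ?_⟩
  have h4 := cy_pn_four h htot hR he Q lam hl0 hl1 hr hf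
  have h5 := lt_of_lt_of_le hH h4
  have h6 := (ENNReal.ofReal_lt_ofReal_iff_of_nonneg (by
    have : 0 ≤ Q.w η := by unfold SfTest.w; positivity
    positivity)).1 h5
  refine hE _ Q.r Q.f ?_ hr hf ?_
  · rw [le_div_iff₀ hc0]
    have : (1 : ℝ) ≤ R ^ 4 := one_le_pow₀ hR
    nlinarith
  · have h7 : c0 * e * Q.w η = (c0 * e) * (Q.r ^ (3 + η) * Q.f ^ (1 - η)) := rfl
    rw [h7] at h6
    have h8 : 32 * R ^ 4 * e * min (min (Q.r ^ 4 * Q.f ^ 2) (Q.r ^ 4)) (min 1 (Q.f ^ 2))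
        = (c0 * e) * (32 * R ^ 4 / c0 * min (min (Q.r ^ 4 * Q.f ^ 2) (Q.r ^ 4)) (min 1 (Q.f ^ 2))) := by
      field_simp
    rw [h8] at h6
    exact lt_of_mul_lt_mul_left h6 (by positivity)

/-! ## centres -/

/-- **PN-C (1)** a set that is heavier than the tail meets both boxes   (otherwise `M ⊆ {R < cyUb} ∪ {R < cyUn}`, `measure_union_le`) -/
theorem cy_pn_pt {ν : Measure CyU} {R e δ : ℝ} (h : CyNu ν R e δ) (M : Set CyU) (hM : ENNReal.ofReal (δ * e) < ν M) :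
    ∃ u ∈ M, cyUb u ≤ R ∧ cyUn u ≤ R := by
  by_contra hcon
  push Not at hcon
  have hsub : M ⊆ {u | R < cyUb u} ∪ {u | R < cyUn u} := fun u hu => by
    by_cases hb : cyUb u ≤ R
    · exact Or.inr (hcon u hu hb)
    · exact Or.inl (not_le.1 hb)
  have h1 := (measure_mono (μ := ν) hsub).trans (measure_union_le _ _)
  rw [h.supp, zero_add] at h1
  exact absurd (h1.trans h.tail) (not_le.2 hM)

/-- **PN-C (2)** the base centres (triangle inequalities: `|x| ≤ |u₁| + r`;  `|b| ≤ |u₂ + T u₁| + lam r`;  `|y| ≤ |u₃ + T u₁²| + 2|x||u₂ + T u₁ - b| + lam r²`) -/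
theorem cy_pn_cen (Q : SfTest) (lam R : ℝ) (u : CyU) (hu : Q.Mem lam (cyRay u)) (hb : cyUb u ≤ R) (hT0 : 0 ≤ Q.T) (hT1 : Q.T ≤ 1) (hl0 : 0 ≤ lam) (hl1 : lam ≤ 1)
    (hR : 1 ≤ R) (hr : 0 < Q.r) :
    |Q.x| ≤ R + Q.r ∧ |Q.b| ≤ 2 * R + Q.r ∧ |Q.y| ≤ 2 * R ^ 2 + 2 * (R + Q.r) * Q.r + Q.r ^ 2 := by
  unfold cyUb at hb
  have h1 : |u.1.1| ≤ R := (le_max_left _ _).trans hb
  have h2 : |u.1.2.1| ≤ R := ((le_max_left _ _).trans (le_max_right _ _)).trans hb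
  have h3 : |u.1.2.2| ≤ R := ((le_max_right _ _).trans (le_max_right _ _)).trans hb
  obtain ⟨m1, m2, m3, -, -⟩ := hu
  simp only [cyRay, SfRay.Bt, SfRay.Yt] at m1 m2 m3
  have hRR : R ≤ R ^ 2 := by nlinarith
  have hτu : |Q.T * u.1.1| ≤ R := by
    rw [abs_mul, abs_of_nonneg hT0]
    calc Q.T * |u.1.1| ≤ 1 * R := mul_le_mul hT1 h1 (abs_nonneg _) (by norm_num)
      _ = R := one_mul R
  have hτu2 : |Q.T * u.1.1 ^ 2| ≤ R ^ 2 := by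
    rw [abs_mul, abs_of_nonneg hT0, abs_pow]
    calc Q.T * |u.1.1| ^ 2 ≤ 1 * R ^ 2 := mul_le_mul hT1 (pow_le_pow_left₀ (abs_nonneg _) h1 2) (by positivity) (by norm_num)
      _ = R ^ 2 := one_mul _
  have hlr : lam * Q.r ≤ Q.r := by nlinarith
  have hlr2 : lam * Q.r ^ 2 ≤ Q.r ^ 2 := by nlinarith [sq_nonneg Q.r]
  have hx : |Q.x| ≤ R + Q.r := by
    have e : Q.x = u.1.1 - (u.1.1 - Q.x) := by ring
    rw [e]
    exact (abs_sub _ _).trans (by linarith)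
  have hB : |u.1.2.1 + Q.T * u.1.1| ≤ 2 * R := (abs_add_le _ _).trans (by linarith)
  have hY : |u.1.2.2 + Q.T * u.1.1 ^ 2| ≤ 2 * R ^ 2 := (abs_add_le _ _).trans (by linarith)
  refine ⟨hx, ?_, ?_⟩
  · have e : Q.b = (u.1.2.1 + Q.T * u.1.1) - (u.1.2.1 + Q.T * u.1.1 - Q.b) := by ring
    rw [e]
    exact (abs_sub _ _).trans (by linarith)
  · have e : Q.y = (u.1.2.2 + Q.T * u.1.1 ^ 2) - 2 * Q.x * (u.1.2.1 + Q.T * u.1.1 - Q.b)
        - (u.1.2.2 + Q.T * u.1.1 ^ 2 - Q.y - 2 * Q.x * (u.1.2.1 + Q.T * u.1.1 - Q.b)) := by ring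
    rw [e]
    have h5 : |2 * Q.x * (u.1.2.1 + Q.T * u.1.1 - Q.b)| ≤ 2 * (R + Q.r) * Q.r := by
      rw [abs_mul, abs_mul, abs_two]
      exact mul_le_mul (by linarith) (m2.trans hlr) (abs_nonneg _) (by positivity)
    refine (abs_sub _ _).trans ?_
    have h6 := abs_sub (u.1.2.2 + Q.T * u.1.1 ^ 2) (2 * Q.x * (u.1.2.1 + Q.T * u.1.1 - Q.b))
    linarith

/-! ## shear coefficients -/

/-- PN-S helper: the common skeleton of the two sublevel bounds -/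
theorem cy_pn_sh_core {ν : Measure CyU} {R e δ : ℝ} (h : CyNu ν R e δ) (hR : 1 ≤ R) (he : 0 < e) (T : ℝ) (M : Set CyU) (V : Set (ℝ × ℝ × ℝ)) (hV : MeasurableSet V)
    (B : ℝ) (hB : 0 ≤ B) (hvol : volume V ≤ ENNReal.ofReal B)
    (hsub : ∀ u ∈ M, cyUb u ≤ R → cyUn u ≤ R → cyTh ((2 * R)⁻¹, (2 * R)⁻¹, ((2 * R) ^ 2)⁻¹) T u.1 ∈ V) :
    ν M ≤ ENNReal.ofReal (δ * e) + ENNReal.ofReal (16 * R ^ 5 * e * B) := by
  have hR0 : 0 < R := by linarith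
  have hcov : M ⊆ ({u | R < cyUb u} ∪ {u | R < cyUn u}) ∪ Prod.fst ⁻¹' (cyTh ((2 * R)⁻¹, (2 * R)⁻¹, ((2 * R) ^ 2)⁻¹) T ⁻¹' V) := by
    intro u hu
    by_cases hb : cyUb u ≤ R
    · by_cases hn : cyUn u ≤ R
      · exact Or.inr (hsub u hu hb hn)
      · exact Or.inl (Or.inr (not_le.1 hn))
    · exact Or.inl (Or.inl (not_le.1 hb))
  refine (measure_mono hcov).trans ((measure_union_le _ _).trans (add_le_add ?_ ?_))
  · refine (measure_union_le _ _).trans ?_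
    rw [h.supp, zero_add]
    exact h.tail
  · refine (h.dens _ (cy_nr_th_meas _ _ hV)).trans ?_
    rw [cy_nr_th_vol _ (by positivity) (by positivity) (by positivity) T V hV]
    refine (mul_le_mul_right (mul_le_mul_right hvol _) _).trans ?_
    rw [← ENNReal.ofReal_mul (by positivity), ← ENNReal.ofReal_mul (by positivity)]
    apply le_of_eq
    congr 1
    show R * e * (((2 * R)⁻¹ * (2 * R)⁻¹ * ((2 * R) ^ 2)⁻¹)⁻¹ * B) = 16 * R ^ 5 * e * B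
    field_simp
    ring

/-- PN-S helper: the rescaled base point lies in the unit box -/
theorem cy_pn_sh_box {R T : ℝ} (hR : 1 ≤ R) (hT0 : 0 ≤ T) (hT1 : T ≤ 1) (u : CyU) (hb : cyUb u ≤ R) :
    |(cyTh ((2 * R)⁻¹, (2 * R)⁻¹, ((2 * R) ^ 2)⁻¹) T u.1).1| ≤ 1 ∧ |(cyTh ((2 * R)⁻¹, (2 * R)⁻¹, ((2 * R) ^ 2)⁻¹) T u.1).2.1| ≤ 1 ∧
    |(cyTh ((2 * R)⁻¹, (2 * R)⁻¹, ((2 * R) ^ 2)⁻¹) T u.1).2.2| ≤ 1 ∧
    u.1.1 = 2 * R * (cyTh ((2 * R)⁻¹, (2 * R)⁻¹, ((2 * R) ^ 2)⁻¹) T u.1).1 ∧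
    u.1.2.1 + T * u.1.1 = 2 * R * (cyTh ((2 * R)⁻¹, (2 * R)⁻¹, ((2 * R) ^ 2)⁻¹) T u.1).2.1 ∧
    u.1.2.2 + T * u.1.1 ^ 2 = (2 * R) ^ 2 * (cyTh ((2 * R)⁻¹, (2 * R)⁻¹, ((2 * R) ^ 2)⁻¹) T u.1).2.2 := by
  have hR0 : 0 < R := by linarith
  unfold cyUb at hb
  have h1 : |u.1.1| ≤ R := (le_max_left _ _).trans hb
  have h2 : |u.1.2.1| ≤ R := ((le_max_left _ _).trans (le_max_right _ _)).trans hb
  have h3 : |u.1.2.2| ≤ R := ((le_max_right _ _).trans (le_max_right _ _)).trans hb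
  have hRR : R ≤ R ^ 2 := by nlinarith
  have hτu : |T * u.1.1| ≤ R := by
    rw [abs_mul, abs_of_nonneg hT0]
    calc T * |u.1.1| ≤ 1 * R := mul_le_mul hT1 h1 (abs_nonneg _) (by norm_num)
      _ = R := one_mul R
  have hτu2 : |T * u.1.1 ^ 2| ≤ R ^ 2 := by
    rw [abs_mul, abs_of_nonneg hT0, abs_pow]
    calc T * |u.1.1| ^ 2 ≤ 1 * R ^ 2 := mul_le_mul hT1 (pow_le_pow_left₀ (abs_nonneg _) h1 2) (by positivity) (by norm_num)
      _ = R ^ 2 := one_mul _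
  have hB : |u.1.2.1 + T * u.1.1| ≤ 2 * R := (abs_add_le _ _).trans (by linarith)
  have hY : |u.1.2.2 + T * u.1.1 ^ 2| ≤ (2 * R) ^ 2 := (abs_add_le _ _).trans (by nlinarith)
  have hsc : ∀ (c x : ℝ), 0 < c → |x| ≤ c → |c⁻¹ * x| ≤ 1 := by
    intro c x hc hx
    rw [abs_mul, abs_of_pos (inv_pos.2 hc), inv_mul_le_iff₀ hc, mul_one]
    exact hx
  unfold cyTh
  simp only
  refine ⟨hsc _ _ (by positivity) (by linarith), hsc _ _ (by positivity) hB, hsc _ _ (by positivity) hY, ?_, ?_, ?_⟩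
  · field_simp
  · field_simp
  · field_simp

/-- PN-S helper: the rescaled coefficients are not smaller -/
theorem cy_pn_sh_max {R : ℝ} (hR : 1 ≤ R) (c al be K : ℝ) :
    max |c| (max |al| (max |be| |K|)) ≤ max |c| (max |al * (2 * R)| (max |be * (2 * R) ^ 2| |K * (2 * R) ^ 2|)) := by
  have h1 : (1 : ℝ) ≤ 2 * R := by linarith
  have h2 : (1 : ℝ) ≤ (2 * R) ^ 2 := one_le_pow₀ h1
  have hs : ∀ x y : ℝ, 1 ≤ y → |x| ≤ |x * y| := by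
    intro x y hy
    rw [abs_mul, abs_of_pos (by linarith : 0 < y)]
    exact le_mul_of_one_le_right (abs_nonneg _) hy
  exact max_le_max le_rfl (max_le_max (hs _ _ h1) (max_le_max (hs _ _ h2) (hs _ _ h2)))

/-- PN-S helper: the final comparison of the constants -/
theorem cy_pn_sh_fin {Cv F m m' : ℝ} (hF : 0 < F) (hm : 0 < m) (hmm : m ≤ m') :
    |Cv| * (F / m') ^ (1 / 4 : ℝ) ≤ (|Cv| + 1) * (F / m) ^ (1 / 4 : ℝ) := by
  have hm' : 0 < m' := lt_of_lt_of_le hm hmm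
  have h1 : (F / m') ^ (1 / 4 : ℝ) ≤ (F / m) ^ (1 / 4 : ℝ) :=
    Real.rpow_le_rpow (by positivity) (div_le_div_of_nonneg_left hF.le hm hmm) (by norm_num)
  exact mul_le_mul (by linarith) h1 (by positivity) (by positivity)

/-- **PN-SV** the velocity polynomial.   `Cv` from `cy_sub_vel`, `Cs = 16 (|Cv| + 1)`.   `M = {Mem}`, `ρ = 2R`, `F = f + R`.   `ν M ≤ ν {R < cyUb} + ν {R < cyUn} + ν (M ∩ {cyUb ≤ R} ∩ {cyUn ≤ R})`.
For `u` in the last set put `a = cyTh (ρ⁻¹, ρ⁻¹, (ρ²)⁻¹) Q.T u.1`, i.e. `X = u₁ = ρ a₁`, `B_T = u₂ + T u₁ = ρ a₂`, `Y_T = u₃ + T u₁² = ρ² a₃`; `|a_i| ≤ 1` (`|B_T| ≤ 2R`, `|Y_T| ≤ R + R² ≤ 4R²`);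
the 4th inequality of `Mem` and `|u₄| ≤ R` give `|c + (al ρ) a₁ + (be ρ²) a₁² + (K ρ²)(a₃ - 2 a₁ a₂)| ≤ F = (F / m') m'`, `m' = max |c| (max |al ρ| (max |be ρ²| |K ρ²|)) ≥ mv` (`ρ ≥ 1`).
So the set lies in `fst ⁻¹' (cyTh .. ⁻¹' V)`, `V` = the set of `cy_sub_vel` for `(c, al ρ, be ρ², K ρ²)` and `F/m'` (closed, measurable); `dens`, `cy_nr_th_vol` (factor `ρ⁴ = 16 R⁴`), `(F/m')^(1/4) ≤ (F/mv)^(1/4)`. -/
theorem cy_pn_sh_v : ∃ Cs : ℝ, 0 < Cs ∧ ∀ (ν : Measure CyU) (R e δ lam : ℝ) (Q : SfTest), CyNu ν R e δ → 1 ≤ R → 0 < e → 0 ≤ lam → lam ≤ 1 → 0 ≤ Q.T → Q.T ≤ 1 → 0 < Q.f →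
    0 < max |Q.c| (max |Q.al| (max |Q.be| |Q.K|)) →
    ν {u | Q.Mem lam (cyRay u)} ≤ ENNReal.ofReal (δ * e) + ENNReal.ofReal (Cs * R ^ 5 * e * ((Q.f + 2 * R) / max |Q.c| (max |Q.al| (max |Q.be| |Q.K|))) ^ (1 / 4 : ℝ)) := by
  obtain ⟨Cv, hCv⟩ := cy_sub_vel
  refine ⟨16 * (|Cv| + 1), by positivity, fun ν R e δ lam Q h hR he hl0 hl1 hT0 hT1 hf hm => ?_⟩
  have hR0 : 0 < R := by linarith
  have hF : 0 < Q.f + 2 * R := by linarith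
  have hmm := cy_pn_sh_max hR Q.c Q.al Q.be Q.K
  have hm' := lt_of_lt_of_le hm hmm
  have hvol := hCv Q.c (Q.al * (2 * R)) (Q.be * (2 * R) ^ 2) (Q.K * (2 * R) ^ 2) ((Q.f + 2 * R) / max |Q.c| (max |Q.al * (2 * R)| (max |Q.be * (2 * R) ^ 2| |Q.K * (2 * R) ^ 2|)))
    (by positivity) hm'
  rw [div_mul_cancel₀ _ hm'.ne'] at hvol
  have hVm : MeasurableSet {u : ℝ × ℝ × ℝ | |u.1| ≤ 1 ∧ |u.2.1| ≤ 1 ∧ |u.2.2| ≤ 1 ∧
      |Q.c + Q.al * (2 * R) * u.1 + Q.be * (2 * R) ^ 2 * u.1 ^ 2 + Q.K * (2 * R) ^ 2 * (u.2.2 - 2 * u.1 * u.2.1)| ≤ Q.f + 2 * R} := by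
    refine cy_nr_v_and (cy_nr_v_le ?_ _) (cy_nr_v_and (cy_nr_v_le ?_ _) (cy_nr_v_and (cy_nr_v_le ?_ _) (cy_nr_v_le ?_ _))) <;> fun_prop
  have hvol' := hvol.trans (ENNReal.ofReal_le_ofReal (mul_le_mul_of_nonneg_right (le_abs_self Cv) (by positivity)))
  have key := cy_pn_sh_core h hR he Q.T {u | Q.Mem lam (cyRay u)} _ hVm _ (by positivity) hvol' (by
    intro u hu hb hn
    obtain ⟨b1, b2, b3, e1, e2, e3⟩ := cy_pn_sh_box hR hT0 hT1 u hb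
    refine ⟨b1, b2, b3, ?_⟩
    obtain ⟨-, -, -, m4, -⟩ := hu
    simp only [cyRay, SfRay.Bt, SfRay.Yt] at m4
    have hn1 : |u.2.1| ≤ R := (le_max_left _ _).trans hn
    rw [e2, e3] at m4
    generalize (cyTh ((2 * R)⁻¹, (2 * R)⁻¹, ((2 * R) ^ 2)⁻¹) Q.T u.1) = a at *
    rw [e1] at m4
    have e : Q.c + Q.al * (2 * R) * a.1 + Q.be * (2 * R) ^ 2 * a.1 ^ 2 + Q.K * (2 * R) ^ 2 * (a.2.2 - 2 * a.1 * a.2.1)
        = u.2.1 - (u.2.1 - Q.c - Q.al * (2 * R * a.1) - Q.be * (2 * R * a.1) ^ 2 - Q.K * ((2 * R) ^ 2 * a.2.2 - 2 * (2 * R * a.1) * (2 * R * a.2.1))) := by ring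
    rw [e]
    exact (abs_sub _ _).trans (by linarith))
  refine key.trans (add_le_add le_rfl (ENNReal.ofReal_le_ofReal ?_))
  have h5 := cy_pn_sh_fin (Cv := Cv) hF hm hmm
  calc 16 * R ^ 5 * e * (|Cv| * ((Q.f + 2 * R) / max |Q.c| (max |Q.al * (2 * R)| (max |Q.be * (2 * R) ^ 2| |Q.K * (2 * R) ^ 2|))) ^ (1 / 4 : ℝ))
      ≤ 16 * R ^ 5 * e * ((|Cv| + 1) * ((Q.f + 2 * R) / max |Q.c| (max |Q.al| (max |Q.be| |Q.K|))) ^ (1 / 4 : ℝ)) :=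
        mul_le_mul_of_nonneg_left h5 (by positivity)
    _ = 16 * (|Cv| + 1) * R ^ 5 * e * ((Q.f + 2 * R) / max |Q.c| (max |Q.al| (max |Q.be| |Q.K|))) ^ (1 / 4 : ℝ) := by ring

/-- **PN-SP** the position polynomial: the same with the 5th inequality of `Mem`: `|D_T| = |u₅ + T u₄| ≤ 2R`, `|d + (al ρ) a₂ + (be ρ²) a₃ - (K ρ²) a₂²| ≤ lam f + 2R ≤ f + 2R`, `cy_sub_pos`. -/
theorem cy_pn_sh_p : ∃ Cs : ℝ, 0 < Cs ∧ ∀ (ν : Measure CyU) (R e δ lam : ℝ) (Q : SfTest), CyNu ν R e δ → 1 ≤ R → 0 < e → 0 ≤ lam → lam ≤ 1 → 0 ≤ Q.T → Q.T ≤ 1 → 0 < Q.f →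
    0 < max |Q.d| (max |Q.al| (max |Q.be| |Q.K|)) →
    ν {u | Q.Mem lam (cyRay u)} ≤ ENNReal.ofReal (δ * e) + ENNReal.ofReal (Cs * R ^ 5 * e * ((Q.f + 2 * R) / max |Q.d| (max |Q.al| (max |Q.be| |Q.K|))) ^ (1 / 4 : ℝ)) := by
  obtain ⟨Cv, hCv⟩ := cy_sub_pos
  refine ⟨16 * (|Cv| + 1), by positivity, fun ν R e δ lam Q h hR he hl0 hl1 hT0 hT1 hf hm => ?_⟩
  have hR0 : 0 < R := by linarith
  have hF : 0 < Q.f + 2 * R := by linarith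
  have hmm := cy_pn_sh_max hR Q.d Q.al Q.be Q.K
  have hm' := lt_of_lt_of_le hm hmm
  have hvol := hCv Q.d (Q.al * (2 * R)) (Q.be * (2 * R) ^ 2) (Q.K * (2 * R) ^ 2) ((Q.f + 2 * R) / max |Q.d| (max |Q.al * (2 * R)| (max |Q.be * (2 * R) ^ 2| |Q.K * (2 * R) ^ 2|)))
    (by positivity) hm'
  rw [div_mul_cancel₀ _ hm'.ne'] at hvol
  have hVm : MeasurableSet {u : ℝ × ℝ × ℝ | |u.1| ≤ 1 ∧ |u.2.1| ≤ 1 ∧ |u.2.2| ≤ 1 ∧
      |Q.d + Q.al * (2 * R) * u.2.1 + Q.be * (2 * R) ^ 2 * u.2.2 - Q.K * (2 * R) ^ 2 * u.2.1 ^ 2| ≤ Q.f + 2 * R} := by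
    refine cy_nr_v_and (cy_nr_v_le ?_ _) (cy_nr_v_and (cy_nr_v_le ?_ _) (cy_nr_v_and (cy_nr_v_le ?_ _) (cy_nr_v_le ?_ _))) <;> fun_prop
  have hvol' := hvol.trans (ENNReal.ofReal_le_ofReal (mul_le_mul_of_nonneg_right (le_abs_self Cv) (by positivity)))
  have key := cy_pn_sh_core h hR he Q.T {u | Q.Mem lam (cyRay u)} _ hVm _ (by positivity) hvol' (by
    intro u hu hb hn
    obtain ⟨b1, b2, b3, e1, e2, e3⟩ := cy_pn_sh_box hR hT0 hT1 u hb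
    refine ⟨b1, b2, b3, ?_⟩
    obtain ⟨-, -, -, -, m5⟩ := hu
    simp only [cyRay, SfRay.Bt, SfRay.Yt, SfRay.Dt] at m5
    have hn1 : |u.2.1| ≤ R := (le_max_left _ _).trans hn
    have hn2 : |u.2.2| ≤ R := (le_max_right _ _).trans hn
    have hD : |u.2.2 + Q.T * u.2.1| ≤ 2 * R := by
      refine (abs_add_le _ _).trans ?_
      have : |Q.T * u.2.1| ≤ R := by
        rw [abs_mul, abs_of_nonneg hT0]
        calc Q.T * |u.2.1| ≤ 1 * R := mul_le_mul hT1 hn1 (abs_nonneg _) (by norm_num)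
          _ = R := one_mul R
      linarith
    have hlf : lam * Q.f ≤ Q.f := by nlinarith
    rw [e2, e3] at m5
    generalize (cyTh ((2 * R)⁻¹, (2 * R)⁻¹, ((2 * R) ^ 2)⁻¹) Q.T u.1) = a at *
    have e : Q.d + Q.al * (2 * R) * a.2.1 + Q.be * (2 * R) ^ 2 * a.2.2 - Q.K * (2 * R) ^ 2 * a.2.1 ^ 2
        = (u.2.2 + Q.T * u.2.1) - (u.2.2 + Q.T * u.2.1 - Q.d - Q.al * (2 * R * a.2.1) - Q.be * ((2 * R) ^ 2 * a.2.2) + Q.K * (2 * R * a.2.1) ^ 2) := by ring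
    rw [e]
    exact (abs_sub _ _).trans (by linarith))
  refine key.trans (add_le_add le_rfl (ENNReal.ofReal_le_ofReal ?_))
  have h5 := cy_pn_sh_fin (Cv := Cv) hF hm hmm
  calc 16 * R ^ 5 * e * (|Cv| * ((Q.f + 2 * R) / max |Q.d| (max |Q.al * (2 * R)| (max |Q.be * (2 * R) ^ 2| |Q.K * (2 * R) ^ 2|))) ^ (1 / 4 : ℝ))
      ≤ 16 * R ^ 5 * e * ((|Cv| + 1) * ((Q.f + 2 * R) / max |Q.d| (max |Q.al| (max |Q.be| |Q.K|))) ^ (1 / 4 : ℝ)) :=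
        mul_le_mul_of_nonneg_left h5 (by positivity)
    _ = 16 * (|Cv| + 1) * R ^ 5 * e * ((Q.f + 2 * R) / max |Q.d| (max |Q.al| (max |Q.be| |Q.K|))) ^ (1 / 4 : ℝ) := by ring

/-- PN-S helper: one of the two maxima -/
theorem cy_pn_shear_one {x : ENNReal} {R e δ c1 C Cs F m : ℝ} (hR : 1 ≤ R) (he : 0 < e) (hc1 : 0 < c1) (hδ : δ ≤ c1 / 2) (hC : 0 < C) (hCs : C ≤ Cs) (hF : 0 < F) (hm : 0 < m)
    (hlo : ENNReal.ofReal (c1 * e) < x) (hhi : x ≤ ENNReal.ofReal (δ * e) + ENNReal.ofReal (C * R ^ 5 * e * (F / m) ^ (1 / 4 : ℝ))) :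
    m ≤ F * (2 * Cs * R ^ 5 / c1) ^ 4 := by
  have hR0 : 0 < R := by linarith
  have hCs0 : 0 < Cs := lt_of_lt_of_le hC hCs
  obtain ⟨y, hy⟩ : ∃ y : ℝ, y = (F / m) ^ (1 / 4 : ℝ) := ⟨_, rfl⟩
  have hy0 : 0 ≤ y := by rw [hy]; positivity
  have hy4 : y ^ 4 = F / m := by
    rw [hy, ← Real.rpow_natCast, ← Real.rpow_mul (by positivity)]
    norm_num
  rw [← hy] at hhi
  have h1 : ENNReal.ofReal (c1 * e) < ENNReal.ofReal (c1 / 2 * e + C * R ^ 5 * e * y) := by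
    rw [ENNReal.ofReal_add (by positivity) (by positivity)]
    refine lt_of_lt_of_le hlo (hhi.trans (add_le_add (ENNReal.ofReal_le_ofReal ?_) le_rfl))
    exact mul_le_mul_of_nonneg_right hδ he.le
  have h2 := (ENNReal.ofReal_lt_ofReal_iff_of_nonneg (by positivity)).1 h1
  have h3 : c1 / 2 < C * R ^ 5 * y := by
    have : e * (c1 / 2) < e * (C * R ^ 5 * y) := by nlinarith
    exact lt_of_mul_lt_mul_left this he.le
  have h4 : c1 / 2 < Cs * R ^ 5 * y := by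
    refine lt_of_lt_of_le h3 ?_
    exact mul_le_mul_of_nonneg_right (mul_le_mul_of_nonneg_right hCs (by positivity)) hy0
  have h5 : 1 ≤ (2 * Cs * R ^ 5 / c1) * y := by
    rw [div_mul_eq_mul_div, le_div_iff₀ hc1]
    nlinarith
  have h6 : 1 ≤ ((2 * Cs * R ^ 5 / c1) * y) ^ 4 := one_le_pow₀ h5
  rw [mul_pow, hy4] at h6
  have h7 : (2 * Cs * R ^ 5 / c1) ^ 4 * (F / m) = F * (2 * Cs * R ^ 5 / c1) ^ 4 / m := by ring
  rw [h7, le_div_iff₀ hm, one_mul] at h6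
  exact h6

/-- **PN-S** the shear coefficients of a test that is heavier than twice the tail.   `Cs = max` of the two constants.   For `m ∈ {mv, mp}`: if `m = 0` trivial; otherwise `c1 e < δ e + Cs R⁵ e (F/m)^(1/4)`, `δ ≤ c1/2`:
`c1/2 < Cs R⁵ (F/m)^(1/4)`, 4th power (`Real.rpow_natCast`, `← Real.rpow_mul`): `(c1/(2 Cs R⁵))⁴ < F/m`, i.e. `m < F (2 Cs R⁵/c1)⁴`. -/
theorem cy_pn_shear : ∃ Cs : ℝ, 0 < Cs ∧ ∀ (ν : Measure CyU) (R e δ c1 lam : ℝ) (Q : SfTest), CyNu ν R e δ → 1 ≤ R → 0 < e → 0 ≤ lam → lam ≤ 1 → 0 ≤ Q.T → Q.T ≤ 1 → 0 < Q.f →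
    0 < c1 → δ ≤ c1 / 2 → ENNReal.ofReal (c1 * e) < ν {u | Q.Mem lam (cyRay u)} →
    max |Q.c| (max |Q.d| (max |Q.al| (max |Q.be| |Q.K|))) ≤ (Q.f + 2 * R) * (2 * Cs * R ^ 5 / c1) ^ 4 := by
  obtain ⟨Cv, hCv0, hCv⟩ := cy_pn_sh_v
  obtain ⟨Cp, hCp0, hCp⟩ := cy_pn_sh_p
  refine ⟨max Cv Cp, lt_max_of_lt_left hCv0, fun ν R e δ c1 lam Q h hR he hl0 hl1 hT0 hT1 hf hc1 hδ hH => ?_⟩
  have hR0 : 0 < R := by linarith
  have hF : 0 < Q.f + 2 * R := by linarith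
  have hCs0 : 0 < max Cv Cp := lt_max_of_lt_left hCv0
  have hB0 : 0 ≤ (Q.f + 2 * R) * (2 * max Cv Cp * R ^ 5 / c1) ^ 4 := by positivity
  have hv : max |Q.c| (max |Q.al| (max |Q.be| |Q.K|)) ≤ (Q.f + 2 * R) * (2 * max Cv Cp * R ^ 5 / c1) ^ 4 := by
    rcases (le_max_of_le_left (abs_nonneg Q.c) : 0 ≤ max |Q.c| (max |Q.al| (max |Q.be| |Q.K|))).eq_or_lt with h0 | h0
    · rw [← h0]; exact hB0
    · exact cy_pn_shear_one hR he hc1 hδ hCv0 (le_max_left _ _) hF h0 hH (hCv ν R e δ lam Q h hR he hl0 hl1 hT0 hT1 hf h0)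
  have hp : max |Q.d| (max |Q.al| (max |Q.be| |Q.K|)) ≤ (Q.f + 2 * R) * (2 * max Cv Cp * R ^ 5 / c1) ^ 4 := by
    rcases (le_max_of_le_left (abs_nonneg Q.d) : 0 ≤ max |Q.d| (max |Q.al| (max |Q.be| |Q.K|))).eq_or_lt with h0 | h0
    · rw [← h0]; exact hB0
    · exact cy_pn_shear_one hR he hc1 hδ hCp0 (le_max_right _ _) hF h0 hH (hCp ν R e δ lam Q h hR he hl0 hl1 hT0 hT1 hf h0)
  exact max_le ((le_max_left _ _).trans hv) hp

/-! ## EXIT -/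

/-- PN-G helper: the centres -/
theorem cy_pn_g_cen {Z R r x b y : ℝ} (hZ1 : 1 ≤ Z) (hR : 1 ≤ R) (hr : 0 < r) (hRZ : R ≤ Z) (hrZ : r ≤ Z) (hx : |x| ≤ R + r) (hb : |b| ≤ 2 * R + r)
    (hy : |y| ≤ 2 * R ^ 2 + 2 * (R + r) * r + r ^ 2) : |x| ≤ 7 * Z ^ 2 ∧ |b| ≤ 7 * Z ^ 2 ∧ |y| ≤ 7 * Z ^ 2 := by
  have hZZ : Z ≤ Z ^ 2 := by nlinarith
  have e1 : R ^ 2 ≤ Z ^ 2 := pow_le_pow_left₀ (by linarith) hRZ 2
  have e2 : r ^ 2 ≤ Z ^ 2 := pow_le_pow_left₀ hr.le hrZ 2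
  have e3 : (R + r) * r ≤ (Z + Z) * Z := mul_le_mul (by linarith) hrZ hr.le (by linarith)
  have e4 : (Z + Z) * Z = 2 * Z ^ 2 := by ring
  refine ⟨by linarith, by linarith, by linarith⟩

/-- PN-G helper: the widths -/
theorem cy_pn_g_P {S : ℝ} (hS2 : 2 ≤ S) (C D E : ℕ) : (32 * (S ^ C) ^ 4 / (S ^ D)⁻¹) ^ E ≤ S ^ ((4 * C + D + 5) * E) := by
  have hS0 : 0 < S := by linarith
  have h32 : (32 : ℝ) ≤ S ^ 5 := by
    calc (32 : ℝ) = 2 ^ 5 := by norm_num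
      _ ≤ S ^ 5 := pow_le_pow_left₀ (by norm_num) hS2 5
  have e1 : 32 * (S ^ C) ^ 4 / (S ^ D)⁻¹ ≤ S ^ (4 * C + D + 5) := by
    rw [div_inv_eq_mul]
    calc 32 * (S ^ C) ^ 4 * S ^ D ≤ S ^ 5 * (S ^ C) ^ 4 * S ^ D := by gcongr
      _ = S ^ (4 * C + D + 5) := by rw [← pow_mul, ← pow_add, ← pow_add]; congr 1; ring
  calc (32 * (S ^ C) ^ 4 / (S ^ D)⁻¹) ^ E ≤ (S ^ (4 * C + D + 5)) ^ E := pow_le_pow_left₀ (by positivity) e1 E
    _ = S ^ ((4 * C + D + 5) * E) := by rw [← pow_mul]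

/-- PN-G helper: the weight -/
theorem cy_pn_g_w {S η : ℝ} (hS0 : 0 < S) (h0 : 0 < η) (h1 : η < 1) (W : ℕ) (Q : SfTest) (hrlo : (S ^ W)⁻¹ ≤ Q.r) (hflo : (S ^ W)⁻¹ ≤ Q.f) :
    (S ^ (4 * W))⁻¹ ≤ Q.w η := by
  have hSW : 0 < (S ^ W)⁻¹ := by positivity
  have hr : 0 < Q.r := lt_of_lt_of_le hSW hrlo
  have hf : 0 < Q.f := lt_of_lt_of_le hSW hflo
  unfold SfTest.w
  calc (S ^ (4 * W))⁻¹ = ((S ^ W)⁻¹) ^ (3 + η) * ((S ^ W)⁻¹) ^ (1 - η) := by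
        rw [← Real.rpow_add hSW, show (3 + η) + (1 - η) = ((4 : ℕ) : ℝ) by push_cast; ring, Real.rpow_natCast, inv_pow, ← pow_mul]
        congr 2
        ring
    _ ≤ Q.r ^ (3 + η) * Q.f ^ (1 - η) :=
        mul_le_mul (Real.rpow_le_rpow hSW.le hrlo (by linarith)) (Real.rpow_le_rpow hSW.le hflo (by linarith)) (by positivity) (by positivity)

/-- PN-G helper: the shear bound in powers of `S` -/
theorem cy_pn_g_sh {S Cs f : ℝ} (hS2 : 2 ≤ S) (hCs0 : 0 < Cs) (hSC : Cs ≤ S) (C D W : ℕ) (hf : 0 < f) (hfhi : f ≤ S ^ W) :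
    (f + 2 * S ^ C) * (2 * Cs * (S ^ C) ^ 5 / (S ^ (D + 4 * W))⁻¹) ^ 4 ≤ S ^ (21 * C + 4 * D + 17 * W + 30) := by
  have hS0 : 0 < S := by linarith
  have hS1 : 1 ≤ S := by linarith
  have hmono : ∀ {a b : ℕ}, a ≤ b → S ^ a ≤ S ^ b := fun hab => pow_le_pow_right₀ hS1 hab
  have e1 : f + 2 * S ^ C ≤ S ^ (2 + (C + W)) := by
    have h3 : (3 : ℝ) ≤ S ^ 2 := by nlinarith
    have ha : f ≤ S ^ (C + W) := hfhi.trans (hmono (by omega))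
    have hb : S ^ C ≤ S ^ (C + W) := hmono (by omega)
    calc f + 2 * S ^ C ≤ 3 * S ^ (C + W) := by linarith
      _ ≤ S ^ 2 * S ^ (C + W) := mul_le_mul_of_nonneg_right h3 (by positivity)
      _ = S ^ (2 + (C + W)) := by rw [← pow_add]
  have e2 : 2 * Cs * (S ^ C) ^ 5 / (S ^ (D + 4 * W))⁻¹ ≤ S ^ (5 * C + D + 4 * W + 2) := by
    rw [div_inv_eq_mul]
    calc 2 * Cs * (S ^ C) ^ 5 * S ^ (D + 4 * W) ≤ S * S * (S ^ C) ^ 5 * S ^ (D + 4 * W) := by gcongr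
      _ = S ^ (5 * C + D + 4 * W + 2) := by
          rw [← pow_mul, ← pow_two, ← pow_add, ← pow_add]; congr 1; ring
  calc (f + 2 * S ^ C) * (2 * Cs * (S ^ C) ^ 5 / (S ^ (D + 4 * W))⁻¹) ^ 4 ≤ S ^ (2 + (C + W)) * (S ^ (5 * C + D + 4 * W + 2)) ^ 4 :=
        mul_le_mul e1 (pow_le_pow_left₀ (by positivity) e2 4) (by positivity) (by positivity)
    _ = S ^ (2 + (C + W) + (5 * C + D + 4 * W + 2) * 4) := by rw [← pow_mul, ← pow_add]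
    _ ≤ _ := hmono (by omega)

/-- PN-G helper: `7 Z²` -/
theorem cy_pn_g_7 {S : ℝ} (hS2 : 2 ≤ S) (C D W : ℕ) : 7 * (S ^ (C + W)) ^ 2 ≤ S ^ (21 * C + 4 * D + 17 * W + 30) := by
  have hS0 : 0 < S := by linarith
  have hS1 : 1 ≤ S := by linarith
  have h8 : (8 : ℝ) ≤ S ^ 3 := by
    calc (8 : ℝ) = 2 ^ 3 := by norm_num
      _ ≤ S ^ 3 := pow_le_pow_left₀ (by norm_num) hS2 3
  calc 7 * (S ^ (C + W)) ^ 2 ≤ S ^ 3 * (S ^ (C + W)) ^ 2 := mul_le_mul_of_nonneg_right (by linarith) (by positivity)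
    _ = S ^ (3 + (C + W) * 2) := by rw [← pow_mul, ← pow_add]
    _ ≤ _ := pow_le_pow_right₀ hS1 (by omega)

/-- **PN-G = POLY for an abstract measure**.   CONSTANTS: `E` from `cy_pn_width`, `Cs` from `cy_pn_shear`;  `W = (4C + D + 5) E`,  `A = D + 4W + 1`,  `D' = 21C + 4D + 17W + 30`,  `s0 = min (1/2) (1/Cs)`.
Put `S = s⁻¹ ≥ 2`, `S ≥ Cs`;  `s^(-(k:ℝ)) = S^k`, `s^(k:ℝ) = (S^k)⁻¹` (`Real.rpow_neg`, `Real.rpow_natCast`, `inv_pow`).   `R = S^C`, `c0 = s^D`:  `32 R⁴/c0 = 32 S^(4C+D) ≤ S^(4C+D+5)`, so `cy_pn_width`: `r, f ∈ [S^-W, S^W]`.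
`Q.w η = r^(3+η) f^(1-η) ≥ (S^-W)^(3+η) (S^-W)^(1-η) = S^(-4W)` (`Real.rpow_le_rpow`, `← Real.rpow_add`).   `c1 = s^(D+4W) ≤ s^D Q.w η`;  `δ = s^A = s · c1 ≤ c1/2`.
`cy_pn_pt` (`δ e < c1 e < ν M`) + `cy_pn_cen`:  `|x| ≤ 2 S^(C+W)`, `|b| ≤ 3 S^(C+W)`, `|y| ≤ 7 S^(2C+2W)`.   `cy_pn_shear`:  `≤ 3 S^(C+W) (2 S · S^(5C) S^(D+4W))⁴ ≤ S^(C+W+2) S^(4(5C+D+4W+2))`.   All exponents are `≤ D'`. -/
theorem cy_pn_main (η : ℝ) (h0 : 0 < η) (h1 : η < 1) (C D : ℕ) : ∃ (D' A : ℕ) (s0 : ℝ), 0 < s0 ∧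
    ∀ (s e lam : ℝ) (ν : Measure CyU) (Q : SfTest), 0 < s → s ≤ s0 → 0 < e → CyNu ν (s ^ (-(C : ℝ))) e (s ^ (A : ℝ)) → ν Set.univ ≤ ENNReal.ofReal e →
      0 ≤ Q.T → Q.T ≤ 1 → 0 ≤ lam → lam ≤ 1 → 0 < Q.r → 0 < Q.f →
      ENNReal.ofReal (s ^ (D : ℝ) * e * Q.w η) < ν {u | Q.Mem lam (cyRay u)} → CyBdd (s ^ (D' : ℝ)) Q := by
  obtain ⟨E, hE⟩ := cy_pn_width η h0 h1
  obtain ⟨Cs, hCs0, hCs⟩ := cy_pn_shear
  obtain ⟨W, hW⟩ : ∃ W : ℕ, W = (4 * C + D + 5) * E := ⟨_, rfl⟩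
  refine ⟨21 * C + 4 * D + 17 * W + 30, D + 4 * W + 1, min (1 / 2) (1 / Cs), by positivity, ?_⟩
  intro s e lam ν Q hs hs0 he hν htot hT0 hT1 hl0 hl1 hr hf hH
  obtain ⟨S, hS⟩ : ∃ S : ℝ, S = s⁻¹ := ⟨_, rfl⟩
  have hS0 : 0 < S := by rw [hS]; positivity
  have hS2 : 2 ≤ S := by
    rw [hS, le_inv_comm₀ (by norm_num) hs]
    exact hs0.trans ((min_le_left _ _).trans (by norm_num))
  have hSC : Cs ≤ S := by
    rw [hS, le_inv_comm₀ hCs0 hs]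
    exact hs0.trans ((min_le_right _ _).trans (by rw [one_div]))
  have hS1 : 1 ≤ S := by linarith
  have hpow : ∀ k : ℕ, s ^ (k : ℝ) = (S ^ k)⁻¹ := by
    intro k
    rw [Real.rpow_natCast, hS, inv_pow, inv_inv]
  have hneg : s ^ (-(C : ℝ)) = S ^ C := by
    rw [Real.rpow_neg hs.le, hpow, inv_inv]
  have hmono : ∀ {a b : ℕ}, a ≤ b → S ^ a ≤ S ^ b := fun hab => pow_le_pow_right₀ hS1 hab
  have hone : ∀ a : ℕ, 1 ≤ S ^ a := fun a => one_le_pow₀ hS1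
  rw [hneg, hpow] at hν
  rw [hpow] at hH
  rw [hpow]
  have hR : 1 ≤ S ^ C := hone C
  -- widths
  have hc0 : 0 < (S ^ D)⁻¹ := by positivity
  have hc01 : (S ^ D)⁻¹ ≤ 1 := inv_le_one_of_one_le₀ (hone D)
  obtain ⟨hr1, hr2, hf1, hf2⟩ := hE ν (S ^ C) e _ ((S ^ D)⁻¹) lam Q hν htot hR he hc0 hc01 hl0 hl1 hr hf hH
  have hP : (32 * (S ^ C) ^ 4 / (S ^ D)⁻¹) ^ E ≤ S ^ W := hW ▸ cy_pn_g_P hS2 C D E
  have hPpos : 0 < (32 * (S ^ C) ^ 4 / (S ^ D)⁻¹) ^ E := by positivity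
  have hPinv : (S ^ W)⁻¹ ≤ ((32 * (S ^ C) ^ 4 / (S ^ D)⁻¹) ^ E)⁻¹ := inv_anti₀ hPpos hP
  have hrlo : (S ^ W)⁻¹ ≤ Q.r := hPinv.trans hr1
  have hrhi : Q.r ≤ S ^ W := hr2.trans hP
  have hflo : (S ^ W)⁻¹ ≤ Q.f := hPinv.trans hf1
  have hfhi : Q.f ≤ S ^ W := hf2.trans hP
  -- the weight
  have hw : (S ^ (4 * W))⁻¹ ≤ Q.w η := cy_pn_g_w hS0 h0 h1 W Q hrlo hflo
  have hc1 : 0 < (S ^ (D + 4 * W))⁻¹ := by positivity
  have hc1w : (S ^ (D + 4 * W))⁻¹ ≤ (S ^ D)⁻¹ * Q.w η := by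
    rw [pow_add, mul_inv]
    exact mul_le_mul_of_nonneg_left hw (by positivity)
  have hδ : (S ^ (D + 4 * W + 1))⁻¹ ≤ (S ^ (D + 4 * W))⁻¹ / 2 := by
    rw [pow_succ, mul_inv, div_eq_mul_inv]
    refine mul_le_mul_of_nonneg_left ?_ (by positivity)
    exact inv_anti₀ (by norm_num) hS2
  have hH1 : ENNReal.ofReal ((S ^ (D + 4 * W))⁻¹ * e) < ν {u | Q.Mem lam (cyRay u)} := by
    refine lt_of_le_of_lt (ENNReal.ofReal_le_ofReal ?_) hH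
    calc (S ^ (D + 4 * W))⁻¹ * e ≤ (S ^ D)⁻¹ * Q.w η * e := mul_le_mul_of_nonneg_right hc1w he.le
      _ = (S ^ D)⁻¹ * e * Q.w η := by ring
  have hH2 : ENNReal.ofReal ((S ^ (D + 4 * W + 1))⁻¹ * e) < ν {u | Q.Mem lam (cyRay u)} := by
    refine lt_of_le_of_lt (ENNReal.ofReal_le_ofReal ?_) hH1
    refine mul_le_mul_of_nonneg_right ?_ he.le
    linarith
  -- centres
  obtain ⟨u, huM, hub, -⟩ := cy_pn_pt hν _ hH2
  obtain ⟨hx, hb, hy⟩ := cy_pn_cen Q lam (S ^ C) u huM hub hT0 hT1 hl0 hl1 hR hr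
  obtain ⟨hx', hb', hy'⟩ := cy_pn_g_cen (Z := S ^ (C + W)) (hone _) hR hr (hmono (by omega)) (hrhi.trans (hmono (by omega))) hx hb hy
  have h7Z := cy_pn_g_7 hS2 C D W
  -- shear
  have hsh := hCs ν (S ^ C) e _ ((S ^ (D + 4 * W))⁻¹) lam Q hν hR he hl0 hl1 hT0 hT1 hf hc1 hδ hH1
  have hsh' := cy_pn_g_sh hS2 hCs0 hSC C D W hf hfhi
  have hWD : S ^ W ≤ S ^ (21 * C + 4 * D + 17 * W + 30) := hmono (by omega)
  have hWDi : (S ^ (21 * C + 4 * D + 17 * W + 30))⁻¹ ≤ (S ^ W)⁻¹ := inv_anti₀ (by positivity) hWD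
  refine ⟨?_, hWDi.trans hrlo, ?_, hWDi.trans hflo, ?_⟩
  · rw [inv_inv]
    unfold SfTest.size
    exact max_le (hx'.trans h7Z) (max_le (hb'.trans h7Z) (max_le (hy'.trans h7Z) (hsh.trans hsh')))
  · rw [inv_inv]; exact hrhi.trans hWD
  · rw [inv_inv]; exact hfhi.trans hWD

end Claimed.Agent.R256
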