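-- KEEP
import Claimed.Agent.R256.Cyl.PolyN

/-!
# Row 256 (LS paper), CYL, INST-CL 1 : the operators of the classical cylinder          (architect helper180; prefix `cy_cl_`)

`P = p.sys η`:  `Kc = L²(Ω, m; Fb)`, `An = id`, so `tz = mulR`, `ms T k b S v = ∫_S |v|² dm` does not depend on `(T, k, b)`.
* `clMu p v`            the energy measure `|v|² dm` on `Ω`            * `clNu p Q0 L T0 v`    its push forward under `ω ↦ cyU Q0 L (p.co T0 ω)`
EXITS: `cy_cl_ms`, `cy_cl_mu_run` (masks decrease the energy measure), `cy_cl_tight`, `cy_cl_rep`, `cyClLoc` (+ `cy_cl_loc_cn`), `cy_cl_sgl`, `cy_cl_set_nu`, `cy_cl_nu_set` (`CySet` ⟷ `CyNu (clNu ..)`).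
ALL PROVED (modulo the black boxes `gn_*`, `cy_back_cover`).
The generic lemmas of `Gen/BasA, BasB, BasC` (`gn_mulR_coe`, `gn_ms_eq`, `gn_ms_eq_mu`, `gn_mu_finite`, `gn_ms_nonneg`, `gn_norm_sq` …) are black boxes.
-/

set_option autoImplicit false

namespace Claimed.Agent.R256

open MeasureTheory

-- makes `(p.sys η).Kc = Lp p.Fb 2 p.m`, `(p.sys η).X = p.Om`, `(cylCl η).sys p = p.sys η` … visible to `rw`, `simp`, instance search
attribute [local implicit_reducible] CclPar.sys cylCl sfCl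

/-- the energy measure of a classical state -/
noncomputable def clMu (p : CclPar) (v : Lp p.Fb 2 p.m) : Measure p.Om :=
  p.m.withDensity fun x => ENNReal.ofReal (‖(v : p.Om → p.Fb) x‖ ^ 2)

/-- its push forward to the coordinates normalised by the frame `Q0` (time `T0`, length `L`) -/
noncomputable def clNu (p : CclPar) (Q0 : CyT) (L T0 : ℝ) (v : Lp p.Fb 2 p.m) : Measure CyU :=
  (clMu p v).map fun ω => cyU Q0 L (p.co T0 ω)

theorem cy_cl_eqns_cite : True := by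
  have := @clMu.eq_1
  have := @clNu.eq_1
  trivial

/-! ## CL-OP : the operators -/

theorem cy_cl_an (η : ℝ) (p : CclPar) (T : ℝ) (k b : ℕ) (v : (p.sys η).Kc) : (p.sys η).An T k b v = v := rfl

theorem cy_cl_mu (η : ℝ) (p : CclPar) (T : ℝ) (k b : ℕ) (v : (p.sys η).Kc) : (p.sys η).mu T k b v = clMu p v := rfl

/-- (`An = id`; `ContinuousLinearMap.adjoint` of the identity: `ext`/`ContinuousLinearMap.eq_adjoint_iff`, or `star_one`) -/
theorem cy_cl_adj (η : ℝ) (p : CclPar) (T : ℝ) (k b : ℕ) (F : Lp (p.sys η).Fb 2 ((p.sys η).rho k)) :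
    ContinuousLinearMap.adjoint ((p.sys η).An T k b) F = F := by
  exact DFunLike.congr_fun (ContinuousLinearMap.adjoint_id (𝕜 := ℂ) (E := Lp p.Fb 2 p.m)) F

theorem cy_cl_tz (η : ℝ) (p : CclPar) (T : ℝ) (k b : ℕ) (M : p.Om → ℝ) (v : (p.sys η).Kc) :
    (p.sys η).tz T k b M v = (p.sys η).mulR k M v := by
  unfold PkSys.tz
  rw [cy_cl_adj]
  rfl

/-- (`gn_mu_finite`) -/
theorem cy_cl_mu_fin (p : CclPar) (v : Lp p.Fb 2 p.m) : IsFiniteMeasure (clMu p v) :=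
  gn_mu_finite (P := p.sys 0) 0 0 0 v

/-- (`gn_ms_eq_mu`, `gn_mu_finite`, `cy_cl_mu`, `ofReal_measureReal`) -/
theorem cy_cl_ms (η : ℝ) (p : CclPar) (T : ℝ) (k b : ℕ) (S : Set p.Om) (hS : MeasurableSet S) (v : (p.sys η).Kc) :
    ENNReal.ofReal ((p.sys η).ms T k b S v) = clMu p v S := by
  have := cy_cl_mu_fin p v
  rw [gn_ms_eq_mu (P := p.sys η) T k b hS v, cy_cl_mu, ofReal_measureReal]

/-- (`withDensity_apply`, `gn_norm_sq` / `gn_sq_integrable`, `ofReal_integral_eq_lintegral_ofReal`) -/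
theorem cy_cl_mu_univ (p : CclPar) (v : Lp p.Fb 2 p.m) : clMu p v Set.univ = ENNReal.ofReal (‖v‖ ^ 2) := by
  rw [clMu, withDensity_apply _ MeasurableSet.univ, Measure.restrict_univ, gn_norm_sq,
    ofReal_integral_eq_lintegral_ofReal (gn_sq_integrable v) (Filter.Eventually.of_forall fun x => by positivity)]

/-- one mask (`cy_cl_tz`, `gn_mulR_coe`: `mulR k M v = M • v` a.e., `‖M x • v x‖ ≤ ‖v x‖`; `withDensity_mono`) -/
theorem cy_cl_mu_tz (η : ℝ) (p : CclPar) (T : ℝ) (k b : ℕ) (M : p.Om → ℝ) (hM : IsMask M) (v : (p.sys η).Kc) :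
    clMu p ((p.sys η).tz T k b M v) ≤ clMu p v := by
  rw [cy_cl_tz]
  unfold clMu
  refine withDensity_mono ?_
  have h := gn_mulR_coe (P := p.sys η) k hM v
  filter_upwards [h] with x hx
  rw [hx]
  apply ENNReal.ofReal_le_ofReal
  have key : ∀ a : p.Fb, ‖((M x : ℝ) : ℂ) • a‖ ≤ ‖a‖ := by
    intro a
    rw [norm_smul, Complex.norm_real, Real.norm_eq_abs, abs_of_nonneg (hM.2 x).1]
    exact mul_le_of_le_one_left (norm_nonneg _) (hM.2 x).2
  exact pow_le_pow_left₀ (norm_nonneg _) (key _) 2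

/-- a stack of masks decreases the energy measure -/
theorem cy_cl_mu_run (η : ℝ) (p : CclPar) (k' i : ℕ) (st : List (Stg (p.sys η))) (hst : ∀ σ ∈ st, ∀ j, IsMask (σ.M j)) (v : (p.sys η).Kc) :
    clMu p (Xp.run (P := p.sys η) k' i st v) ≤ clMu p v := by
  induction st generalizing v with
  | nil => exact le_rfl
  | cons σ l ih =>
    rw [Xp.run]
    exact (ih (fun τ hτ j => hst τ (List.mem_cons_of_mem _ hτ) j) _).trans (cy_cl_mu_tz η p _ _ _ _ (hst σ List.mem_cons_self _) v)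

theorem cy_cl_co_flow (p : CclPar) (T t : ℝ) (ω : p.Om) : p.co (T + t) ω = cyFlow t (p.co T ω) := by
  simp only [CclPar.co, cyFlow, Cy5.mk.injEq]
  refine ⟨trivial, ?_, ?_, trivial, ?_⟩ <;> ring

/-! ## CL-MS : measurability -/

theorem cy_cl_vec_meas (p : CclPar) (h : p.Ok) (T : ℝ) : Measurable fun ω => cyVec (p.co T ω) := by
  have := h.mX; have := h.mB; have := h.mY; have := h.mN; have := h.mD
  unfold cyVec CclPar.co
  fun_prop

theorem cy_cl_u_meas (p : CclPar) (h : p.Ok) (Q0 : CyT) (L T : ℝ) : Measurable fun ω => cyU Q0 L (p.co T ω) := by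
  have := h.mX; have := h.mB; have := h.mY; have := h.mN; have := h.mD
  unfold cyU cyBase cyNor cyTilt cyVel cyPos CclPar.co
  fun_prop

theorem cy_cl_cell_meas (p : CclPar) (h : p.Ok) (Q : CyT) (l T : ℝ) : MeasurableSet {ω | cyIn Q l (p.co T ω)} := by
  have := h.mX; have := h.mB; have := h.mY; have := h.mN; have := h.mD
  have h1 : MeasurableSet {ω | |(p.co T ω).X - Q.x| ≤ Q.r} := measurableSet_le (by unfold CclPar.co; fun_prop) (by fun_prop)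
  have h2 : MeasurableSet {ω | |(p.co T ω).B - Q.b| ≤ l * Q.r} := measurableSet_le (by unfold CclPar.co; fun_prop) (by fun_prop)
  have h3 : MeasurableSet {ω | |cyTilt Q (p.co T ω)| ≤ l * Q.r ^ 2} := measurableSet_le (by unfold cyTilt CclPar.co; fun_prop) (by fun_prop)
  have h4 : MeasurableSet {ω | |cyVel Q (p.co T ω)| ≤ Q.f} := measurableSet_le (by unfold cyVel CclPar.co; fun_prop) (by fun_prop)
  have h5 : MeasurableSet {ω | |cyPos Q (p.co T ω)| ≤ l * Q.f} := measurableSet_le (by unfold cyPos CclPar.co; fun_prop) (by fun_prop)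
  exact h1.inter (h2.inter (h3.inter (h4.inter h5)))

/-! ## CL-TI : `Tight`, `Rep` -/

theorem cy_cl_pl (η : ℝ) (p : CclPar) (b : ℕ) : (p.sys η).Pl b = Set.univ := by
  ext v
  simp only [PkSys.Pl, Set.mem_ofPred_eq, Set.mem_univ, iff_true]
  intro T k
  rfl

/-- (`contr`, `same`: `rfl`-type;  `Pl b = univ`;  `sfin`: `h.sf`;  `cellM`: `cy_cl_cell_meas`;  `wt_pos`: `Real.rpow_pos_of_pos`;  `ok_mono`: trivial) -/
theorem cy_cl_tight (η : ℝ) (p : CclPar) (h : p.Ok) : (p.sys η).Tight where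
  contr := fun T k b v => le_rfl
  mono := fun b => by rw [cy_cl_pl, cy_cl_pl]
  syn := fun T k b F => by rw [cy_cl_pl]; trivial
  same := fun T k b b' v _ _ => rfl
  sfin := fun k => h.sf
  cellM := fun Q T k => cy_cl_cell_meas p h Q _ T
  wt_pos := fun Q k hQ => mul_pos (Real.rpow_pos_of_pos hQ.1 _) (Real.rpow_pos_of_pos hQ.2 _)
  ok_mono := fun Q k k' _ hQ => hQ

/-- (`Cr = 1`; `cy_cl_adj`; `gn_ms_eq` with `cy_cl_cell_meas`, `An = id`) -/
theorem cy_cl_rep (η : ℝ) : (cylCl η).Rep := by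
  intro bm
  refine ⟨1, le_rfl, ?_⟩
  intro p T k c b' κ F hp _ _ hF Q hQ
  change (CclPar.sys η p).ms T k b' ((CclPar.sys η p).cell Q T k) (ContinuousLinearMap.adjoint ((CclPar.sys η p).An T k c) F) ≤ 1 * κ * (CclPar.sys η p).wt Q
  have hm : MeasurableSet ((CclPar.sys η p).cell Q T k) := cy_cl_cell_meas p hp Q _ T
  rw [cy_cl_adj η p T k c F, gn_ms_eq (P := CclPar.sys η p) T k b' hm F, one_mul]
  exact hF Q hQ

/-! ## CL-LOC : the correspondence is the identity of exact indices -/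

/-- (cyl:correspondence) with `d_ℓ = 0`, in the form of the field `CyHyp.cn` -/
def clCn (p : CclPar) (Λ T : ℝ) (k : ℕ) (T' : ℝ) (_k' : ℕ) (x x' : p.Om) : Prop :=
  x = x' ∧ |(p.co T' x').N - (p.co T x).N| ≤ Λ * 0 ∧ |(p.co T' x').D - (p.co T x).D - (T' - T) * (p.co T x).N| ≤ Λ * ((2 : ℝ)⁻¹ ^ k * 0)

theorem cy_cl_cn_iff (p : CclPar) (Λ T : ℝ) (k : ℕ) (T' : ℝ) (k' : ℕ) (x x' : p.Om) : clCn p Λ T k T' k' x x' ↔ x = x' := by
  constructor
  · exact fun h => h.1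
  · rintro rfl
    refine ⟨rfl, ?_, ?_⟩
    · simp [CclPar.co]
    · simp only [CclPar.co, mul_zero]
      rw [show p.D x + T' * p.N x - (p.D x + T * p.N x) - (T' - T) * p.N x = 0 by ring]
      simp

/-- W2: `S ∩ S' = ∅`, so the left side is `0` (`cy_cl_adj`, `gn_ms_eq`, `gn_mulR_ind_setInt`, `Set.inter` empty, `Measure.restrict_empty`) -/
theorem cy_cl_ker (η : ℝ) (p : CclPar) (T' : ℝ) (k k' b b' : ℕ) (T : ℝ) (S S' : Set p.Om) (hS : MeasurableSet S) (hS' : MeasurableSet S')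
    (hd : ∀ x ∈ S, x ∉ S') (F : Lp (p.sys η).Fb 2 ((p.sys η).rho k)) :
    (p.sys η).ms T' k' b' S' (ContinuousLinearMap.adjoint ((p.sys η).An T k b) ((p.sys η).mulR k (S.indicator fun _ => 1) F)) = 0 := by
  rw [cy_cl_adj, gn_ms_eq (P := p.sys η) T' k' b' hS']
  have h := gn_mulR_ind_setInt (P := p.sys η) k hS hS' F
  have e : S' ∩ S = ∅ := by
    ext x
    simp only [Set.mem_inter_iff, Set.mem_empty_iff_false, iff_false, not_and]
    exact fun h1 h2 => hd x h2 h1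
  rw [e, Measure.restrict_empty, integral_zero_measure] at h
  exact h

/-- G2 from `cy_back_cover` (black box) with `l = 2^-k`, `l' = 2^-k'`, `t = T' - T`, `z = co T x`, `z' = co T' x = cyFlow t z` (`cy_cl_co_flow`, `cy_succ_flow` + monotonicity of `cySucc` in the two tolerances: unfold);
`(l'/l)^(1+η/2) = 2^(-((1+η/2)(k'-k)))` (`Real.rpow_natCast`, `Real.rpow_neg`, `← Real.rpow_mul`);  `128 Λ ≤ 128 Λ^128` (`Real.rpow` with `1 ≤ Λ`). -/
theorem cy_cl_cov (η : ℝ) (h0 : 0 < η) (h1 : η < 1) (p : CclPar) (Λ : ℝ) (hΛ : 1 ≤ Λ) (T : ℝ) (k : ℕ) (T' : ℝ) (k' : ℕ) (hc : CutLe T k T' k')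
    (Q : CyT) (hr : 0 < Q.r) (hf : 0 < Q.f) :
    ∃ (m : ℕ) (Qs : Fin m → CyT), (∀ i, 0 < (Qs i).r ∧ 0 < (Qs i).f) ∧
      (∀ x, cyIn Q ((2 : ℝ)⁻¹ ^ k') (p.co T' x) → ∃ i, cyIn (Qs i) ((2 : ℝ)⁻¹ ^ k) (p.co T x)) ∧
      ∑ i, cyWt η (Qs i) ≤ 128 * Λ ^ (128 : ℝ) * 2 ^ (-((1 + η / 2) * ((k' : ℝ) - k))) * cyWt η Q := by
  obtain ⟨hk, hT0, hT1⟩ := hc
  have hl : (0 : ℝ) < (2 : ℝ)⁻¹ ^ k := by positivity
  have hl' : (0 : ℝ) < (2 : ℝ)⁻¹ ^ k' := by positivity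
  have hll : (2 : ℝ)⁻¹ ^ k' ≤ (2 : ℝ)⁻¹ ^ k := pow_le_pow_of_le_one (by norm_num) (by norm_num) hk
  have hΛ0 : 0 < Λ := by linarith
  obtain ⟨m, Qs, a1, a2, a3⟩ := cy_back_cover h0 h1 Q hr hf ((2 : ℝ)⁻¹ ^ k) ((2 : ℝ)⁻¹ ^ k') (T' - T) Λ hl' hll (by linarith) (by linarith) hΛ
  refine ⟨m, Qs, ?_, ?_, ?_⟩
  · intro i
    rw [(a1 i).1, (a1 i).2]
    constructor
    · have : 0 < Real.sqrt ((2 : ℝ)⁻¹ ^ k' / (2 : ℝ)⁻¹ ^ k) := Real.sqrt_pos.2 (by positivity)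
      positivity
    · positivity
  · intro x hx
    apply a2 (p.co T x) (p.co T' x) hx
    have e : p.co T' x = cyFlow (T' - T) (p.co T x) := by
      rw [← cy_cl_co_flow]; congr 1; ring
    rw [e]
    obtain ⟨b1, b2, b3, b4, b5⟩ := cy_succ_flow (T' - T) (p.co T x)
    exact ⟨b1, b2, b3, b4.trans (by positivity), b5.trans (by positivity)⟩
  · refine a3.trans ?_
    have hw : 0 ≤ cyWt η Q := by unfold cyWt; positivity
    apply mul_le_mul_of_nonneg_right _ hw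
    have e1 : ((2 : ℝ)⁻¹ ^ k' / (2 : ℝ)⁻¹ ^ k) ^ (1 + η / 2) = 2 ^ (-((1 + η / 2) * ((k' : ℝ) - k))) := by
      have e2 : (2 : ℝ)⁻¹ ^ k' / (2 : ℝ)⁻¹ ^ k = 2 ^ (-((k' : ℝ) - k)) := by
        rw [neg_sub, Real.rpow_sub (by norm_num), Real.rpow_natCast, Real.rpow_natCast, inv_pow, inv_pow]
        field_simp
      rw [e2, ← Real.rpow_mul (by norm_num)]
      congr 1; ring
    rw [e1]
    apply mul_le_mul_of_nonneg_right _ (by positivity)
    have : Λ ≤ Λ ^ (128 : ℝ) := by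
      calc Λ = Λ ^ (1 : ℝ) := (Real.rpow_one _).symm
        _ ≤ Λ ^ (128 : ℝ) := Real.rpow_le_rpow_of_exponent_le hΛ (by norm_num)
    linarith

/-- **LOC** -/
noncomputable def cyClLoc (η : ℝ) (h0 : 0 < η) (h1 : η < 1) : (cylCl η).Loc (1 + η / 2) where
  cn := fun p Λ T k T' k' x x' => clCn p Λ T k T' k' x x'
  Cl := 0
  Cg := 128
  CN := fun _ _ => 0
  cn_mono := fun p Λ Λ' T k T' k' x x' _ h => (cy_cl_cn_iff p Λ' T k T' k' x x').2 ((cy_cl_cn_iff p Λ T k T' k' x x').1 h)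
  ker := by
    intro p _ bm N Λ _ T k T' k' b b' _ _ _ S S' hS hS' hn F
    have := cy_cl_ker η p T' k k' b b' T S S' hS hS' (fun x hx hx' => hn x hx x hx' ((cy_cl_cn_iff p Λ T k T' k' x x).2 rfl)) F
    exact this.le.trans (by positivity)
  cov := by
    intro p _ Λ hΛ T k T' k' hc Q hQ
    obtain ⟨m, Qs, a1, a2, a3⟩ := cy_cl_cov η h0 h1 p Λ hΛ T k T' k' hc Q hQ.1 hQ.2
    refine ⟨m, Qs, a1, ?_, a3⟩
    intro x x' hx' hcn
    obtain rfl := (cy_cl_cn_iff p Λ T k T' k' x x').1 hcn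
    exact a2 x hx'

theorem cy_cl_sgl (η : ℝ) (h0 : 0 < η) (h1 : η < 1) : (cylCl η).Sgl (1 + η / 2) :=
  gn_sgl _ _ (cyClLoc η h0 h1) fun p hp => cy_cl_tight η p hp

/-! ## CL-SET : `CySet` in terms of `clNu` -/

/-- (`Measure.map_apply` with `cy_cl_u_meas`) -/
theorem cy_cl_nu_apply (p : CclPar) (h : p.Ok) (Q0 : CyT) (L T0 : ℝ) (v : Lp p.Fb 2 p.m) (S : Set CyU) (hS : MeasurableSet S) :
    clNu p Q0 L T0 v S = clMu p v {ω | cyU Q0 L (p.co T0 ω) ∈ S} := by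
  unfold clNu
  rw [Measure.map_apply (cy_cl_u_meas p h Q0 L T0) hS]
  rfl

/-- the mass of the rows whose normalised coordinates lie in `S` -/
theorem cy_cl_ms_nu (η : ℝ) (p : CclPar) (h : p.Ok) (Q0 : CyT) (L T0 : ℝ) (T : ℝ) (k b : ℕ) (v : (p.sys η).Kc) (S : Set CyU) (hS : MeasurableSet S) :
    ENNReal.ofReal ((p.sys η).ms T k b {ω | cyU Q0 L (p.co T0 ω) ∈ S} v) = clNu p Q0 L T0 v S := by
  rw [cy_cl_nu_apply p h Q0 L T0 v S hS]
  exact cy_cl_ms η p T k b _ (cy_cl_u_meas p h Q0 L T0 hS) v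

theorem cy_cl_ub_meas : Measurable cyUb := by unfold cyUb; fun_prop

theorem cy_cl_un_meas : Measurable cyUn := by unfold cyUn; fun_prop

/-- `CySet` ⟹ `CyNu`   (each field by `cy_cl_ms_nu` on the measurable sets `{R < cyUb}`, `{R < cyUn}`, `fst ⁻¹' S`, `S`; `cy_nu_ub`, `cy_nu_un`; `supp`: `ofReal 0 = 0`; `tail`: `ENNReal.ofReal_le_ofReal`) -/
theorem cy_cl_set_nu (η : ℝ) (p : CclPar) (h : p.Ok) (C A : ℕ) (E : Xp (p.sys η)) (Q0 : CyT) (hS : CySet (p.sys η) p.co η True C A E Q0) :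
    CyNu (clNu p Q0 ((2 : ℝ)⁻¹ ^ E.k0) (tmL E.k0 E.i0) E.v) (E.s ^ (-(C : ℝ))) E.e (E.s ^ (A : ℝ)) := by
  refine ⟨?_, ?_, ?_, ?_⟩
  · rw [← cy_cl_ms_nu η p h Q0 _ _ (tmL E.k0 E.i0) E.k0 E.b0 E.v _ (measurableSet_lt measurable_const cy_cl_ub_meas)]
    have e := hS.supp
    change (p.sys η).ms _ _ _ {ω | cyU Q0 _ (p.co _ ω) ∈ {u | E.s ^ (-(C : ℝ)) < cyUb u}} E.v = 0 at e
    rw [e, ENNReal.ofReal_zero]
  · rw [← cy_cl_ms_nu η p h Q0 _ _ (tmL E.k0 E.i0) E.k0 E.b0 E.v _ (measurableSet_lt measurable_const cy_cl_un_meas)]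
    exact ENNReal.ofReal_le_ofReal hS.tail
  · intro S mS
    rw [← cy_cl_ms_nu η p h Q0 _ _ (tmL E.k0 E.i0) E.k0 E.b0 E.v _ (measurable_fst mS)]
    exact hS.dens S mS
  · intro S mS
    rw [← cy_cl_ms_nu η p h Q0 _ _ (tmL E.k0 E.i0) E.k0 E.b0 E.v _ mS]
    exact hS.densJ trivial S mS

/-- `CyNu` ⟹ `CySet`   (`supp`: `ofReal x = 0` and `0 ≤ x` (`gn_ms_nonneg`) give `x = 0`;  `tail`: `ENNReal.ofReal_le_ofReal_iff` with `0 ≤ s^A e`) -/
theorem cy_cl_nu_set (η : ℝ) (p : CclPar) (h : p.Ok) (C A : ℕ) (E : Xp (p.sys η)) (Q0 : CyT) (hr : 0 < Q0.r) (hf : 0 < Q0.f) (he : 0 ≤ E.e)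
    (h1 : E.s ^ (C : ℝ) * (E.ka * cyWt η Q0) ≤ E.e) (h2 : E.e ≤ E.s ^ (-(C : ℝ)) * (E.ka * cyWt η Q0))
    (hN : CyNu (clNu p Q0 ((2 : ℝ)⁻¹ ^ E.k0) (tmL E.k0 E.i0) E.v) (E.s ^ (-(C : ℝ))) E.e (E.s ^ (A : ℝ))) :
    CySet (p.sys η) p.co η True C A E Q0 := by
  refine ⟨hr, hf, h1, h2, ?_, ?_, ?_, ?_⟩
  · have e := hN.supp
    rw [← cy_cl_ms_nu η p h Q0 _ _ (tmL E.k0 E.i0) E.k0 E.b0 E.v _ (measurableSet_lt measurable_const cy_cl_ub_meas), ENNReal.ofReal_eq_zero] at e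
    exact le_antisymm e (gn_ms_nonneg _ _ _ _ _)
  · have e := hN.tail
    rw [← cy_cl_ms_nu η p h Q0 _ _ (tmL E.k0 E.i0) E.k0 E.b0 E.v _ (measurableSet_lt measurable_const cy_cl_un_meas),
      ENNReal.ofReal_le_ofReal_iff (mul_nonneg (Real.rpow_nonneg (gn_s_pos E).le _) he)] at e
    exact e
  · intro S mS
    have e := hN.dens S mS
    rw [← cy_cl_ms_nu η p h Q0 _ _ (tmL E.k0 E.i0) E.k0 E.b0 E.v _ (measurable_fst mS)] at e
    exact e
  · intro _ S mS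
    have e := hN.densJ S mS
    rw [← cy_cl_ms_nu η p h Q0 _ _ (tmL E.k0 E.i0) E.k0 E.b0 E.v _ mS] at e
    exact e

end Claimed.Agent.R256
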