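-- KEEP
import Claimed.Agent.R256.Cyl.ClOp

/-!
# Row 256 (LS paper), CYL, INST-CL 2 : the setup of the classical cylinder          (architect helper180; prefix `cy_cl_`)

EXITS: `cy_cl_root : AdmRoot`, `cy_cl_scale : AdmScale`, `cy_cl_tail : TailAdm`, `cy_cl_poly : CyPoly (sfCl η)`, `cy_cl_floor : Floor`, `cy_cl_gen : (cylCl η).Gen (1 + η/2)`.
Everything is reduced to the model-free files `Cyl/Nrm`, `Cyl/PolyN` by `cy_cl_set_nu`, `cy_cl_nu_set`, `cy_cl_mu_run` (`Cyl/ClOp`).   Powers: `gn_s_rpow : E.s ^ y = 2 ^ (-(y * E.n))`, `gn_s_pos`, `gn_s_le_one`, `gn_s_anti`, `gn_two_mono` (`Gen/BasA`).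
ALL PROVED (modulo the black boxes of `Cyl/PolyN`, `Gen`).
-/

set_option autoImplicit false

namespace Claimed.Agent.R256

open MeasureTheory

attribute [local implicit_reducible] CclPar.sys cylCl sfCl

/-- **CL-ROOT**.   `obtain ⟨Q0, h⟩`, same `Q0`;  `E'.s = E.s` (`Xp.s`, `E'.n = E.n`);  rewrite the six equalities of `SameRoot` in every field of `CySet`. -/
theorem cy_cl_root (η : ℝ) : (cylCl η).AdmRoot := by
  intro C A p E E' hadm hroot hn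
  obtain ⟨Q0, h⟩ := hadm
  obtain ⟨e1, e2, e3, e4, e5, e6⟩ := hroot
  have hs : E'.s = E.s := by unfold Xp.s; rw [hn]
  refine ⟨Q0, ⟨h.r_pos, h.f_pos, ?_, ?_, ?_, ?_, ?_, ?_⟩⟩
  · rw [hs, e5, e4]; exact h.ek_lo
  · rw [hs, e5, e4]; exact h.ek_hi
  · rw [hs, e1, e2, e3, e6]; exact h.supp
  · rw [hs, e1, e2, e3, e4, e6]; exact h.tail
  · rw [hs, e1, e2, e3, e4, e6]; exact h.dens
  · rw [hs, e1, e2, e3, e4, e6]; exact h.densJ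

/-- **CL-SCALE**.   Same `Q0`.   `0 ≤ E.e` (field `tail`, `gn_ms_nonneg`, `0 < s^A`), hence `0 ≤ ka * cyWt η Q0` (field `ek_hi`).   `E'.s^C' ≤ E.s^C`, `E.s^(-C) ≤ E'.s^(-C')`, `E.s^A ≤ E'.s^A'` (`gn_s_rpow`, `gn_two_mono`, casts of `C n ≤ C' n'`, `A' n' ≤ A n`).
`cy_cl_set_nu`, `cy_nu_mono`, `cy_cl_nu_set` (the root data of `E'` are those of `E`: rewrite `SameRoot`). -/
theorem cy_cl_scale (η : ℝ) : (cylCl η).AdmScale := by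
  intro C A C' A' p E E' hp hadm hroot hC hA
  obtain ⟨Q0, h⟩ := hadm
  obtain ⟨e1, e2, e3, e4, e5, e6⟩ := hroot
  have hsA : 0 < E.s ^ (A : ℝ) := Real.rpow_pos_of_pos (gn_s_pos E) _
  have he : 0 ≤ E.e := by
    have h1 := (gn_ms_nonneg _ _ _ _ _).trans h.tail
    exact nonneg_of_mul_nonneg_right h1 hsA
  have hsC : 0 < E.s ^ (-(C : ℝ)) := Real.rpow_pos_of_pos (gn_s_pos E) _
  have hX : 0 ≤ E.ka * cyWt η Q0 := nonneg_of_mul_nonneg_right (he.trans h.ek_hi) hsC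
  have hC' : ((C : ℝ) * E.n) ≤ (C' : ℝ) * E'.n := by exact_mod_cast hC
  have hA' : ((A' : ℝ) * E'.n) ≤ (A : ℝ) * E.n := by exact_mod_cast hA
  have p1 : E'.s ^ (C' : ℝ) ≤ E.s ^ (C : ℝ) := by
    rw [gn_s_rpow, gn_s_rpow]; exact gn_two_mono (by linarith)
  have p2 : E.s ^ (-(C : ℝ)) ≤ E'.s ^ (-(C' : ℝ)) := by
    rw [gn_s_rpow, gn_s_rpow]; exact gn_two_mono (by linarith)
  have p3 : E.s ^ (A : ℝ) ≤ E'.s ^ (A' : ℝ) := by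
    rw [gn_s_rpow, gn_s_rpow]; exact gn_two_mono (by linarith)
  have hN := cy_cl_set_nu η p hp C A E Q0 h
  have hN' := cy_nu_mono hN p2 (mul_le_mul_of_nonneg_right p2 he) (mul_le_mul_of_nonneg_right p3 he)
  refine ⟨Q0, cy_cl_nu_set η p hp C' A' E' Q0 h.r_pos h.f_pos (by rw [e4]; exact he) ?_ ?_ ?_⟩
  · rw [e4, e5]; exact (mul_le_mul_of_nonneg_right p1 hX).trans h.ek_lo
  · rw [e4, e5]; exact h.ek_hi.trans (mul_le_mul_of_nonneg_right p2 hX)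
  · rw [e1, e2, e3, e4]; exact hN'

/-- the row measure of a later state in the transported frame is dominated by the transported root measure -/
theorem cy_cl_tail_nu (η : ℝ) (p : CclPar) (h : p.Ok) (Q0 : CyT) (hr : 0 < Q0.r) (hf : 0 < Q0.f) (T0 t L L' : ℝ) (hL : 0 < L) (hL' : 0 < L')
    (k' i : ℕ) (st : List (Stg (p.sys η))) (hst : ∀ σ ∈ st, ∀ j, IsMask (σ.M j)) (v : (p.sys η).Kc) (S : Set CyU) (hS : MeasurableSet S) :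
    clNu p (cyFr Q0 t) L' (T0 + t) (Xp.run (P := p.sys η) k' i st v) S ≤ clNu p Q0 L T0 v (cyTh5 (1, L / L', L / L') (1, L / L') (t / L) ⁻¹' S) := by
  rw [cy_cl_nu_apply p h _ _ _ _ S hS, cy_cl_nu_apply p h _ _ _ _ _ (cy_nr_th5_meas _ _ _ hS)]
  refine (cy_cl_mu_run η p k' i st hst v _).trans (le_of_eq ?_)
  congr 1
  ext ω
  simp only [Set.mem_ofPred_eq, Set.mem_preimage]
  rw [cy_cl_co_flow, cy_nr_fr_flow Q0 hr hf L L' t hL hL']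

set_option maxHeartbeats 1000000 in
/-- **CL-TAIL**.   CONSTANTS: `C' = ⌈(3C+3)/h⌉₊`, `A = A' + C`, `n0 = 1`.   Let `⟨Q0, H⟩` be the setup of `E`, `T0 = tmL E.k0 E.i0`, `T0' = tmL E'.k0 E'.i0`, `t = T0' - T0`, `L = 2^-k0`, `L' = 2^-k0'`, `σ = L/L' = 2^(k0'-k0)`, `τ = t/L`.   Frame of `E'`: `cyFr Q0 t` (same widths, same weight).
TIME: `gn_cutle_anc` (+ `IsTail.anc`): `0 ≤ t ≤ L`, so `τ ∈ [0,1]`;  `1 ≤ σ ≤ 2^n = s⁻¹` (`k0 ≤ k0'`, `k0' + n' ≤ k0 + n`), `n' ≤ n`.   SCALES (`s = E.s`, `s' = E'.s`): `s ≤ s'`, `s ≤ 1/2`, `s'^C' ≤ s^(3C+3)` (`h n ≤ n'`, `h C' ≥ 3C+3`), `s^A' ≤ s'^A'`.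
MEASURE: `cy_cl_set_nu` for `E`;  `cy_nu_tr` with `hle := cy_cl_tail_nu` (`E'.v = run ..`, `StOk.msk`; `T0 + t = T0'`) gives `CyNu ν' (2σ s^(-2C)) e s^A`;  `cy_nu_mono` to `(s'^(-C'), e', s'^A')`:
`2σ s^(-2C) ≤ s^(-(2C+2)) ≤ s'^(-C')`;  `2σ s^(-2C) e ≤ s^(-(2C+2)) s^(-C) e' ≤ s'^(-C') e'` (`e ≤ s^-C e'`);  `s^A e ≤ s^(A-C) e' = s^A' e' ≤ s'^A' e'`.
`ek_lo`: `κ' w0 ≤ s^-C κ w0 ≤ s^(-2C) e ≤ s^(-3C) e'`;   `ek_hi`: `e' ≤ e ≤ s^-C κ w0 ≤ s^(-2C) κ' w0`.   `cy_cl_nu_set` (`0 < e'` from `E'.Valid`). -/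
theorem cy_cl_tail (η : ℝ) : (cylCl η).TailAdm := by
  intro C h hh
  refine ⟨⌈(3 * (C : ℝ) + 3) / h⌉₊, fun A' => ⟨A' + C, 1, ?_⟩⟩
  intro p E E' hn hcls hV' htl hh'
  obtain ⟨Q0, H⟩ := hcls.2.2.2.2
  have hp : CclPar.Ok p := hcls.1
  have hV : E.Valid := hcls.2.1
  obtain ⟨st', hst, hv⟩ := htl.st
  have hcut := gn_cutle_anc htl.k_lo E'.i0
  rw [htl.anc] at hcut
  obtain ⟨_, c1, c2⟩ := hcut
  have hL : (0 : ℝ) < (2 : ℝ)⁻¹ ^ E.k0 := by positivity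
  have hL' : (0 : ℝ) < (2 : ℝ)⁻¹ ^ E'.k0 := by positivity
  have hT : tmL E.k0 E.i0 + (tmL E'.k0 E'.i0 - tmL E.k0 E.i0) = tmL E'.k0 E'.i0 := by ring
  have hkf : E'.k0 + E'.n ≤ E.k0 + E.n := htl.k_hi
  have hk0 := htl.k_lo
  have n1 : (1 : ℝ) ≤ E.n := by exact_mod_cast hn
  have n2 : (E'.n : ℝ) ≤ E.n := by exact_mod_cast (by omega : E'.n ≤ E.n)
  have n3 : (E'.k0 : ℝ) - E.k0 ≤ E.n := by
    have : E'.k0 ≤ E.k0 + E.n := by omega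
    have : (E'.k0 : ℝ) ≤ E.k0 + E.n := by exact_mod_cast this
    linarith
  have n4 : (0 : ℝ) ≤ (E'.k0 : ℝ) - E.k0 := by
    have : (E.k0 : ℝ) ≤ E'.k0 := by exact_mod_cast hk0
    linarith
  set C' : ℕ := ⌈(3 * (C : ℝ) + 3) / h⌉₊ with hC'
  have c3 : (3 * (C : ℝ) + 3) * E.n ≤ (C' : ℝ) * E'.n := by
    have a1 : (3 * (C : ℝ) + 3) / h ≤ C' := Nat.le_ceil _
    have a2 : 3 * (C : ℝ) + 3 ≤ C' * h := (div_le_iff₀ hh).1 a1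
    calc (3 * (C : ℝ) + 3) * E.n ≤ (C' * h) * E.n := mul_le_mul_of_nonneg_right a2 (by positivity)
      _ = C' * (h * E.n) := by ring
      _ ≤ C' * E'.n := mul_le_mul_of_nonneg_left hh' (by positivity)
  have hCn : (0 : ℝ) ≤ (C : ℝ) * E.n := by positivity
  -- the basic quantities
  have hsp := gn_s_pos E
  have hsp' := gn_s_pos E'
  set u : ℝ := E.s ^ (C : ℝ) with hu
  have hu0 : 0 < u := Real.rpow_pos_of_pos hsp _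
  have hR : E.s ^ (-(C : ℝ)) = u⁻¹ := Real.rpow_neg hsp.le _
  have hu2 : u = 2 ^ (-((C : ℝ) * E.n)) := gn_s_rpow E _
  set g : ℝ := E'.s ^ (C' : ℝ) with hg
  have hg0 : 0 < g := Real.rpow_pos_of_pos hsp' _
  have hG : E'.s ^ (-(C' : ℝ)) = g⁻¹ := Real.rpow_neg hsp'.le _
  have hg2 : g = 2 ^ (-((C' : ℝ) * E'.n)) := gn_s_rpow E' _
  have hu3 : u ^ 3 = 2 ^ (-(3 * (C : ℝ) * E.n)) := by
    rw [hu2, ← Real.rpow_natCast, ← Real.rpow_mul (by norm_num)]; congr 1; push_cast; ring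
  have hu22 : u ^ 2 = 2 ^ (-(2 * (C : ℝ) * E.n)) := by
    rw [hu2, ← Real.rpow_natCast, ← Real.rpow_mul (by norm_num)]; congr 1; push_cast; ring
  have hgu : g ≤ u ^ 3 := by
    rw [hg2, hu3]; exact gn_two_mono (by nlinarith)
  have hu1 : u ≤ 1 := by
    rw [hu2]; exact Real.rpow_le_one_of_one_le_of_nonpos (by norm_num) (by linarith)
  -- σ
  have hσ : (2 : ℝ)⁻¹ ^ E.k0 / (2 : ℝ)⁻¹ ^ E'.k0 = 2 ^ ((E'.k0 : ℝ) - E.k0) := by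
    rw [Real.rpow_sub (by norm_num), Real.rpow_natCast, Real.rpow_natCast, inv_pow, inv_pow]
    field_simp
  have hσ1 : 1 ≤ (2 : ℝ)⁻¹ ^ E.k0 / (2 : ℝ)⁻¹ ^ E'.k0 := by
    rw [hσ]; exact Real.one_le_rpow (by norm_num) n4
  -- 2 σ R² g ≤ u   (i.e. 2σR² ≤ u g⁻¹)
  have hbig : 2 * ((2 : ℝ)⁻¹ ^ E.k0 / (2 : ℝ)⁻¹ ^ E'.k0) * (u⁻¹) ^ 2 ≤ u * g⁻¹ := by
    have e1 : 2 * ((2 : ℝ)⁻¹ ^ E.k0 / (2 : ℝ)⁻¹ ^ E'.k0) * (u⁻¹) ^ 2 = 2 ^ (1 + ((E'.k0 : ℝ) - E.k0) + 2 * (C : ℝ) * E.n) := by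
      rw [hσ, inv_pow, hu22, ← Real.rpow_neg (by norm_num), Real.rpow_add (by norm_num), Real.rpow_add (by norm_num), Real.rpow_one, neg_neg]
    have e2 : u * g⁻¹ = 2 ^ (-((C : ℝ) * E.n) + (C' : ℝ) * E'.n) := by
      rw [hu2, hg2, ← Real.rpow_neg (by norm_num), Real.rpow_add (by norm_num), neg_neg]
    rw [e1, e2]
    exact gn_two_mono (by nlinarith)
  -- energies and regularities
  have he' : 0 < E'.e := hV'.e_pos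
  have he : 0 < E.e := hV.e_pos
  have hw0 : 0 < cyWt η Q0 := by
    have := H.r_pos; have := H.f_pos
    unfold cyWt; positivity
  have f1 : u * E.e ≤ E'.e := htl.e_lo
  have f2 : E'.e ≤ E.e := htl.e_hi
  have f3 : u * E.ka ≤ E'.ka := htl.ka_lo
  have f4 : E'.ka ≤ u⁻¹ * E.ka := by rw [← hR]; exact htl.ka_hi
  have f5 : u * (E.ka * cyWt η Q0) ≤ E.e := H.ek_lo
  have f6 : E.e ≤ u⁻¹ * (E.ka * cyWt η Q0) := by rw [← hR]; exact H.ek_hi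
  have hka' : 0 < E'.ka := hV'.ka_pos
  have hN := cy_cl_set_nu η p hp C (A' + C) E Q0 H
  rw [hR] at hN
  have hN1 := cy_nu_tr (ν' := clNu p (cyFr Q0 (tmL E'.k0 E'.i0 - tmL E.k0 E.i0)) ((2 : ℝ)⁻¹ ^ E'.k0) (tmL E.k0 E.i0 + (tmL E'.k0 E'.i0 - tmL E.k0 E.i0))
      (Xp.run (P := CclPar.sys η p) E'.k0 E'.i0 st' E.v)) (σ := (2 : ℝ)⁻¹ ^ E.k0 / (2 : ℝ)⁻¹ ^ E'.k0) (τ := (tmL E'.k0 E'.i0 - tmL E.k0 E.i0) / (2 : ℝ)⁻¹ ^ E.k0)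
      hN ((one_le_inv₀ hu0).2 hu1) he.le hσ1 (div_nonneg (by linarith) hL.le) ((div_le_one hL).2 (by linarith))
      (fun S hS => cy_cl_tail_nu η p hp Q0 H.r_pos H.f_pos _ _ _ _ hL hL' E'.k0 E'.i0 st' hst.msk E.v S hS)
  rw [hT] at hN1
  have hv' : Xp.run (P := CclPar.sys η p) E'.k0 E'.i0 st' E.v = E'.v := hv.symm
  rw [hv'] at hN1
  have hgi : 0 < g⁻¹ := inv_pos.2 hg0
  have hN2 : CyNu (clNu p (cyFr Q0 (tmL E'.k0 E'.i0 - tmL E.k0 E.i0)) ((2 : ℝ)⁻¹ ^ E'.k0) (tmL E'.k0 E'.i0) E'.v) (E'.s ^ (-(C' : ℝ))) E'.e (E'.s ^ (A' : ℝ)) := by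
    rw [hG]
    refine cy_nu_mono hN1 ?_ ?_ ?_
    · refine hbig.trans ?_
      calc u * g⁻¹ ≤ 1 * g⁻¹ := mul_le_mul_of_nonneg_right hu1 hgi.le
        _ = g⁻¹ := one_mul _
    · calc 2 * ((2 : ℝ)⁻¹ ^ E.k0 / (2 : ℝ)⁻¹ ^ E'.k0) * (u⁻¹) ^ 2 * E.e ≤ (u * g⁻¹) * E.e := mul_le_mul_of_nonneg_right hbig he.le
        _ = g⁻¹ * (u * E.e) := by ring
        _ ≤ g⁻¹ * E'.e := mul_le_mul_of_nonneg_left f1 hgi.le
    · have e1 : E.s ^ ((A' + C : ℕ) : ℝ) = E.s ^ (A' : ℝ) * u := by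
        rw [hu, ← Real.rpow_add hsp]; congr 1; push_cast; ring
      have e2 : E.s ^ (A' : ℝ) ≤ E'.s ^ (A' : ℝ) := by
        rw [gn_s_rpow, gn_s_rpow]
        exact gn_two_mono (by
          have : (0 : ℝ) ≤ A' := by positivity
          nlinarith)
      rw [e1]
      calc E.s ^ (A' : ℝ) * u * E.e = E.s ^ (A' : ℝ) * (u * E.e) := by ring
        _ ≤ E.s ^ (A' : ℝ) * E'.e := mul_le_mul_of_nonneg_left f1 (Real.rpow_nonneg hsp.le _)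
        _ ≤ E'.s ^ (A' : ℝ) * E'.e := mul_le_mul_of_nonneg_right e2 he'.le
  refine ⟨cyFr Q0 (tmL E'.k0 E'.i0 - tmL E.k0 E.i0), cy_cl_nu_set η p hp C' A' E' _ H.r_pos H.f_pos he'.le ?_ ?_ hN2⟩
  · change g * (E'.ka * cyWt η Q0) ≤ E'.e
    -- κ' w0 ≤ u⁻³ e'
    have g1 : u * (E'.ka * cyWt η Q0) ≤ E.ka * cyWt η Q0 := by
      have := mul_le_mul_of_nonneg_right f4 hw0.le
      calc u * (E'.ka * cyWt η Q0) ≤ u * (u⁻¹ * E.ka * cyWt η Q0) := mul_le_mul_of_nonneg_left this hu0.le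
        _ = E.ka * cyWt η Q0 := by field_simp
    calc g * (E'.ka * cyWt η Q0) ≤ u ^ 3 * (E'.ka * cyWt η Q0) := mul_le_mul_of_nonneg_right hgu (by positivity)
      _ = u * (u * (u * (E'.ka * cyWt η Q0))) := by ring
      _ ≤ u * (u * (E.ka * cyWt η Q0)) := by gcongr
      _ ≤ u * E.e := by gcongr
      _ ≤ E'.e := f1
  · change E'.e ≤ E'.s ^ (-(C' : ℝ)) * (E'.ka * cyWt η Q0)
    rw [hG]
    have g2 : u ^ 2 * E.e ≤ E'.ka * cyWt η Q0 := by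
      calc u ^ 2 * E.e ≤ u ^ 2 * (u⁻¹ * (E.ka * cyWt η Q0)) := by gcongr
        _ = (u * E.ka) * cyWt η Q0 := by field_simp
        _ ≤ E'.ka * cyWt η Q0 := by gcongr
    have g3 : g ≤ u ^ 2 := hgu.trans (by nlinarith [pow_pos hu0 2])
    rw [le_inv_mul_iff₀ hg0]
    calc g * E'.e ≤ u ^ 2 * E.e := mul_le_mul g3 f2 he'.le (by positivity)
      _ ≤ _ := g2

/-- `s^C e ≤ κ w0` -/
theorem cy_cl_ek {s e X : ℝ} (C : ℕ) (hs : 0 < s) (h : e ≤ s ^ (-(C : ℝ)) * X) : s ^ (C : ℝ) * e ≤ X := by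
  have h1 : 0 < s ^ (C : ℝ) := Real.rpow_pos_of_pos hs _
  calc s ^ (C : ℝ) * e ≤ s ^ (C : ℝ) * (s ^ (-(C : ℝ)) * X) := mul_le_mul_of_nonneg_left h h1.le
    _ = X := by rw [← mul_assoc, ← Real.rpow_add hs]; simp

/-- **CL-POLY**.   `cy_pn_main η C (D + C)` gives `D', A, s0`;  `n0` with `2⁻¹^n0 ≤ s0` (`exists_pow_lt_of_lt_one`).   Given the data put `T0 = tmL E.k0 E.i0`, `L = 2^-k0`, `T = tmL k i`, `t = T - T0`, `ν = clNu p Q0 L T0 E.v`, `Q' = cyNrm T0 E.k0 Q0 T Q`, `lam = 2^-k / L`.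
* `CyNu ν ..`: `cy_cl_set_nu`;  `ν univ = clMu univ = ofReal ‖v‖² ≤ ofReal e` (`cy_cl_nu_apply`, `cy_cl_mu_univ`, `Valid.budget`).
* `Q'.T = t / L ∈ [0,1]` (`gn_cutle_anc`), `0 ≤ lam ≤ 1`, `Q'.r = Q.r / Q0.r > 0`, `Q'.f > 0` (unfold `cyNrm, SfFrame.tst, sfFrameOf, sfTestAt`).
* `s^(D+C) e Q'.w ≤ s^D (κ w(Q0)) Q'.w = s^D (κ wt Q)` (`ek_hi`, `cy_nr_wt`, `Real.rpow_add`) `< ms (cell) (run ..)`;  `ofReal ms = clMu (run ..) cell ≤ clMu v cell` (`cy_cl_ms`, `cy_cl_cell_meas`, `cy_cl_mu_run`, `StOk.msk`);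
  `cell = {ω | cyIn Q 2^-k (p.co (T0 + t) ω)} = {ω | cyU Q0 L (p.co T0 ω) ∈ {u | Q'.Mem lam (cyRay u)}}` (`cy_cl_co_flow`, `cy_nr_mem_flow`), `cy_cl_nu_apply` with `cy_nr_mem_meas`.
`(sfCl η).M = cylCl η`, `(sfCl η).tq p Q = Q`, `(sfCl η).af C A p E Q0 = (p.Ok ∧ CySet ..)` hold by `rfl` (use `show`/`change`). -/
theorem cy_cl_poly (η : ℝ) (h0 : 0 < η) (h1 : η < 1) : CyPoly (sfCl η) := by
  intro C D
  obtain ⟨D', A, s0, hs0, H⟩ := cy_pn_main η h0 h1 C (D + C)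
  obtain ⟨n0, hn0⟩ := exists_pow_lt_of_lt_one hs0 (show (2 : ℝ)⁻¹ < 1 by norm_num)
  refine ⟨D', A, n0, ?_⟩
  intro p E Q0 hn hcls haf k i b st' Q hk0 hkf hanc hb hst hok hheavy
  obtain ⟨hp, hset⟩ := haf
  have hV : E.Valid := hcls.2.1
  have hs : E.s ≤ s0 := by
    have : E.s ≤ (2 : ℝ)⁻¹ ^ n0 := pow_le_pow_of_le_one (by norm_num) (by norm_num) hn
    linarith
  have hcut := gn_cutle_anc hk0 i
  rw [hanc] at hcut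
  obtain ⟨_, c1, c2⟩ := hcut
  have hL : (0 : ℝ) < (2 : ℝ)⁻¹ ^ E.k0 := by positivity
  have hl : (0 : ℝ) < (2 : ℝ)⁻¹ ^ k := by positivity
  have hlL : (2 : ℝ)⁻¹ ^ k ≤ (2 : ℝ)⁻¹ ^ E.k0 := pow_le_pow_of_le_one (by norm_num) (by norm_num) hk0
  have hr0 := hset.r_pos
  have hf0 := hset.f_pos
  have hQr : 0 < CyT.r Q := hok.1
  have hQf : 0 < CyT.f Q := hok.2
  have hT : tmL E.k0 E.i0 + (tmL k i - tmL E.k0 E.i0) = tmL k i := by ring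
  have hw := cy_nr_wt η (tmL E.k0 E.i0) E.k0 Q0 hr0 hf0 (tmL k i) Q hQr hQf
  have hw0 : 0 ≤ (cyNrm (tmL E.k0 E.i0) E.k0 Q0 (tmL k i) Q).w η := by
    have a1 : 0 < (cyNrm (tmL E.k0 E.i0) E.k0 Q0 (tmL k i) Q).r := div_pos hQr hr0
    have a2 : 0 < (cyNrm (tmL E.k0 E.i0) E.k0 Q0 (tmL k i) Q).f := div_pos hQf hf0
    unfold SfTest.w
    positivity
  have hsp := gn_s_pos E
  refine H E.s E.e ((2 : ℝ)⁻¹ ^ k / (2 : ℝ)⁻¹ ^ E.k0) (clNu p Q0 ((2 : ℝ)⁻¹ ^ E.k0) (tmL E.k0 E.i0) E.v) _ hsp hs hV.e_pos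
    (cy_cl_set_nu η p hp C A E Q0 hset) ?_ ?_ ?_ (by positivity) ((div_le_one hL).2 hlL) (div_pos hQr hr0) (div_pos hQf hf0) ?_
  · rw [cy_cl_nu_apply p hp _ _ _ _ _ MeasurableSet.univ]
    have : {ω | cyU Q0 ((2 : ℝ)⁻¹ ^ E.k0) (p.co (tmL E.k0 E.i0) ω) ∈ (Set.univ : Set CyU)} = Set.univ := by
      ext; simp
    rw [this, cy_cl_mu_univ]
    exact ENNReal.ofReal_le_ofReal hV.budget
  · exact div_nonneg (show 0 ≤ tmL k i - tmL E.k0 E.i0 by linarith) hL.le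
  · exact (div_le_one hL).2 (show tmL k i - tmL E.k0 E.i0 ≤ (2 : ℝ)⁻¹ ^ E.k0 by linarith)
  · have hm : MeasurableSet {ω | cyIn Q ((2 : ℝ)⁻¹ ^ k) (p.co (tmL k i) ω)} := cy_cl_cell_meas p hp Q _ _
    have e1 : E.s ^ (((D + C : ℕ)) : ℝ) * E.e * (cyNrm (tmL E.k0 E.i0) E.k0 Q0 (tmL k i) Q).w η ≤ E.s ^ (D : ℝ) * (E.ka * cyWt η Q) := by
      rw [hw]
      have a := cy_cl_ek C hsp hset.ek_hi
      have b : 0 ≤ E.s ^ (D : ℝ) := (Real.rpow_pos_of_pos hsp _).le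
      push_cast
      rw [Real.rpow_add hsp]
      calc E.s ^ (D : ℝ) * E.s ^ (C : ℝ) * E.e * (cyNrm (tmL E.k0 E.i0) E.k0 Q0 (tmL k i) Q).w η
          = E.s ^ (D : ℝ) * ((E.s ^ (C : ℝ) * E.e) * (cyNrm (tmL E.k0 E.i0) E.k0 Q0 (tmL k i) Q).w η) := by ring
        _ ≤ E.s ^ (D : ℝ) * ((E.ka * cyWt η Q0) * (cyNrm (tmL E.k0 E.i0) E.k0 Q0 (tmL k i) Q).w η) :=
            mul_le_mul_of_nonneg_left (mul_le_mul_of_nonneg_right a hw0) b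
        _ = _ := by ring
    have e2 : E.s ^ (D : ℝ) * (E.ka * cyWt η Q) < (CclPar.sys η p).ms (tmL k i) k b {ω | cyIn Q ((2 : ℝ)⁻¹ ^ k) (p.co (tmL k i) ω)} (Xp.run (P := CclPar.sys η p) k i st' E.v) := hheavy
    have e3 : 0 ≤ E.s ^ (D : ℝ) * (E.ka * cyWt η Q) := by
      have : 0 ≤ cyWt η Q := by unfold cyWt; positivity
      have := hV.ka_pos
      positivity
    refine lt_of_le_of_lt (ENNReal.ofReal_le_ofReal e1) ?_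
    refine lt_of_lt_of_le ((ENNReal.ofReal_lt_ofReal_iff (lt_of_le_of_lt e3 e2)).2 e2) ?_
    have e4 := cy_cl_ms η p (tmL k i) k b _ hm (Xp.run (P := CclPar.sys η p) k i st' E.v)
    have e5 := cy_cl_nu_apply p hp Q0 ((2 : ℝ)⁻¹ ^ E.k0) (tmL E.k0 E.i0) E.v _
      (cy_nr_mem_meas (cyNrm (tmL E.k0 E.i0) E.k0 Q0 (tmL k i) Q) ((2 : ℝ)⁻¹ ^ k / (2 : ℝ)⁻¹ ^ E.k0))
    refine (le_of_eq e4).trans ?_
    refine le_trans ?_ (le_of_eq e5.symm)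
    refine (cy_cl_mu_run η p k i st' hst.msk E.v _).trans (le_of_eq ?_)
    congr 1
    ext ω
    simp only [Set.mem_ofPred_eq]
    rw [← hT, cy_cl_co_flow, cy_nr_mem_flow (tmL E.k0 E.i0) E.k0 Q0 hr0 hf0]

/-- **CL-FLOOR** from `cy_cl_poly`.   `D1, A, n0` from `cy_cl_poly η C D`;  `D' = C + 4 D1`.   `Cls` contains `adm = ∃ Q0, CySet ..` and `gd p`, so `af C A p E Q0`.   `CyBdd (s^D1) Q'` gives `s^D1 ≤ Q'.r, Q'.f`, so `Q'.w η ≥ (s^D1)^(3+η) (s^D1)^(1-η) = s^(4 D1)`;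
`wt Q = cyWt η Q0 * Q'.w η` (`cy_nr_wt`), `s^C e ≤ κ cyWt η Q0` (from `ek_hi`: multiply by `s^C`, `s^C s^-C = 1`). -/
theorem cy_cl_floor (η : ℝ) (h0 : 0 < η) (h1 : η < 1) : (cylCl η).Floor := by
  intro C D
  obtain ⟨D1, A, n0, H⟩ := cy_cl_poly η h0 h1 C D
  refine ⟨C + 4 * D1, A, n0, ?_⟩
  intro p E hn hcls k i b st' Q hk0 hkf hanc hb hst hok hheavy
  obtain ⟨Q0, hset⟩ := hcls.2.2.2.2
  have hp := hcls.1
  have hV : E.Valid := hcls.2.1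
  obtain ⟨_, hr1, _, hf1, _⟩ := H p E Q0 hn hcls ⟨hp, hset⟩ k i b st' Q hk0 hkf hanc hb hst hok hheavy
  have hsp := gn_s_pos E
  have hw := cy_nr_wt η (tmL E.k0 E.i0) E.k0 Q0 hset.r_pos hset.f_pos (tmL k i) Q hok.1 hok.2
  have hD1 : 0 < E.s ^ (D1 : ℝ) := Real.rpow_pos_of_pos hsp _
  have hw4 : E.s ^ ((4 * D1 : ℕ) : ℝ) ≤ (cyNrm (tmL E.k0 E.i0) E.k0 Q0 (tmL k i) Q).w η := by
    unfold SfTest.w
    calc E.s ^ ((4 * D1 : ℕ) : ℝ) = (E.s ^ (D1 : ℝ)) ^ (3 + η) * (E.s ^ (D1 : ℝ)) ^ (1 - η) := by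
          rw [← Real.rpow_mul hsp.le, ← Real.rpow_mul hsp.le, ← Real.rpow_add hsp]
          congr 1; push_cast; ring
      _ ≤ _ := mul_le_mul (Real.rpow_le_rpow hD1.le hr1 (by linarith)) (Real.rpow_le_rpow hD1.le hf1 (by linarith))
          (Real.rpow_nonneg hD1.le _) (Real.rpow_nonneg (hD1.le.trans hr1) _)
  have a := cy_cl_ek C hsp hset.ek_hi
  have hX : 0 ≤ E.ka * cyWt η Q0 := by
    have : 0 ≤ cyWt η Q0 := by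
      have := hset.r_pos; have := hset.f_pos
      unfold cyWt; positivity
    have := hV.ka_pos
    positivity
  change E.s ^ ((C + 4 * D1 : ℕ) : ℝ) * E.e ≤ E.ka * cyWt η Q
  rw [hw]
  have e : E.s ^ ((C + 4 * D1 : ℕ) : ℝ) = E.s ^ (C : ℝ) * E.s ^ ((4 * D1 : ℕ) : ℝ) := by
    rw [← Real.rpow_add hsp]; congr 1; push_cast; ring
  rw [e]
  calc E.s ^ (C : ℝ) * E.s ^ ((4 * D1 : ℕ) : ℝ) * E.e = (E.s ^ (C : ℝ) * E.e) * E.s ^ ((4 * D1 : ℕ) : ℝ) := by ring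
    _ ≤ (E.ka * cyWt η Q0) * (cyNrm (tmL E.k0 E.i0) E.k0 Q0 (tmL k i) Q).w η :=
        mul_le_mul a hw4 (Real.rpow_nonneg hsp.le _) hX
    _ = _ := by ring

/-- **GEN** for the classical cylinder -/
theorem cy_cl_gen (η : ℝ) (h0 : 0 < η) (h1 : η < 1) : (cylCl η).Gen (1 + η / 2) where
  g_pos := by linarith
  tight := fun p hp => cy_cl_tight η p hp
  rep := cy_cl_rep η
  sgl := cy_cl_sgl η h0 h1
  root := cy_cl_root η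
  scale := cy_cl_scale η
  tail := cy_cl_tail η
  floor := cy_cl_floor η h0 h1

end Claimed.Agent.R256
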