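-- KEEP
import Claimed.Agent.R256.Cyl.ClOp

/-!
# Row 256 (LS paper), CYL, INST-CL 3 : jitter closure of the classical cylinder          (architect helper180; prefix `cy_cj_`)

**EXIT** `cy_cj_main (η) : CyJit (sfCl η)`   (02 l.690-700).   Construction: exact index `Ω' = Ω × ℝ⁵`, `m' = m × π`, `π = cyPi` = Lebesgue measure on the unit cube;  the coordinates of `(ω, θ)` at the root time `T0` are the jittered coordinates
`cyJit Qs (cyJitPar Qs L ζ θ) (p.co T0 ω)`;  state, masks = pull backs under `(ω, θ) ↦ ω`;  label weights = pull backs times the indicator of the cube (so that `th_supp` holds for ALL `θ`);  tests = the prescribed `tsq`.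
LEAVES: CJ-A (`cy_cj_jit_flow`, `cy_cj_co`), CJ-OK (`cy_cj_pi_prob`, `cy_cj_ok`), CJ-L (`cy_cj_lift_coe`, `cy_cj_lift_norm`, `cy_cj_lift_mulR`, `cy_cj_lift_run`), CJ-F (`cy_cj_fub`), CJ-M (`cy_cj_m`, `cy_cj_law`), CJ-V (`cy_cj_valid`).
-/

set_option autoImplicit false

namespace Claimed.Agent.R256

open MeasureTheory

attribute [local implicit_reducible] CclPar.sys cylCl sfCl

/-- Lebesgue measure on the unit cube of jitter parameters -/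
noncomputable def cyPi : Measure (ℝ × ℝ × ℝ × ℝ × ℝ) := volume.restrict cyCube

/-- **CJ-OK (1)**  (`Measure.restrict_apply_univ`, `cyCube` is a product of five `Icc 0 1`: `Measure.volume_eq_prod`, `Measure.prod_prod`, `Real.volume_Icc`) -/
theorem cy_cj_pi_prob : IsProbabilityMeasure cyPi := by
  refine ⟨?_⟩
  unfold cyPi cyCube
  rw [Measure.restrict_apply_univ]
  simp only [Measure.volume_eq_prod, Measure.prod_prod, Real.volume_Icc]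
  simp

instance cyPiProb : IsProbabilityMeasure cyPi := cy_cj_pi_prob

/-- the jittered coordinates at the root time -/
def clJitZ (p : CclPar) (Qs : CyT) (L ζ T0 : ℝ) (x : p.Om × (ℝ × ℝ × ℝ × ℝ × ℝ)) : Cy5 :=
  cyJit Qs (cyJitPar Qs L ζ x.2) (p.co T0 x.1)

/-- the jittered parameter -/
noncomputable def clJitP (p : CclPar) (Qs : CyT) (L ζ T0 : ℝ) : CclPar where
  Om := p.Om × (ℝ × ℝ × ℝ × ℝ × ℝ)
  m := p.m.prod cyPi
  Fb := p.Fb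
  X := fun x => (cyFlow (-T0) (clJitZ p Qs L ζ T0 x)).X
  B := fun x => (cyFlow (-T0) (clJitZ p Qs L ζ T0 x)).B
  Y := fun x => (cyFlow (-T0) (clJitZ p Qs L ζ T0 x)).Y
  N := fun x => (cyFlow (-T0) (clJitZ p Qs L ζ T0 x)).N
  D := fun x => (cyFlow (-T0) (clJitZ p Qs L ζ T0 x)).D

/-- the pull back of a state -/
noncomputable def clLift (p : CclPar) (v : Lp p.Fb 2 p.m) : Lp p.Fb 2 (p.m.prod cyPi) :=
  ((Lp.memLp v).comp_fst cyPi).toLp _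

/-- the pull back of a stage -/
def clLiftS (η : ℝ) (p : CclPar) (Qs : CyT) (L ζ T0 : ℝ) (σ : Stg (p.sys η)) : Stg ((clJitP p Qs L ζ T0).sys η) :=
  ⟨σ.k, σ.b, fun i x => σ.M i x.1⟩

/-- the jittered experiment -/
noncomputable def clJitE (η : ℝ) (p : CclPar) (Qs : CyT) (ζ : ℝ) (E : Xp (p.sys η)) (tsq : Fin E.L → CyT) :
    Xp ((clJitP p Qs ((2 : ℝ)⁻¹ ^ E.k0) ζ (tmL E.k0 E.i0)).sys η) where
  k0 := E.k0
  i0 := E.i0
  n := E.n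
  v := clLift p E.v
  e := E.e
  ka := E.ka
  b0 := E.b0
  st := E.st.map (clLiftS η p Qs ((2 : ℝ)⁻¹ ^ E.k0) ζ (tmL E.k0 E.i0))
  bT := E.bT
  L := E.L
  iv := E.iv
  ts := tsq
  th := fun l x => (Prod.snd ⁻¹' cyCube).indicator (fun y => E.th l y.1) x

theorem cy_cj_eqns_cite : True := by
  have := @cyPi.eq_1
  have := @clJitZ.eq_1
  have := @clJitP.eq_1
  have := @clLift.eq_1
  have := @clLiftS.eq_1
  have := @clJitE.eq_1
  trivial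

/-! ## CJ-A : algebra -/

/-- equivariance of the jitter under the free flow (unfold `cyFlow, cyJit, cyJitB, cyExt, cyVel, cyPos`; `Cy5.mk.injEq`; five identities by `ring`) -/
theorem cy_cj_jit_flow (Qs : CyT) (a z : Cy5) (t : ℝ) : cyFlow t (cyJit Qs a z) = cyJit (cyExt Qs t) (cyFlow t a) (cyFlow t z) := by
  simp only [cyFlow, cyJit, cyJitB, cyExt, cyVel, cyPos, Cy5.mk.injEq]
  refine ⟨trivial, ?_, ?_, ?_, ?_⟩ <;> ring

/-- the coordinates of the jittered system (`CclPar.co`, `clJitP`, `cyFlow`: `B₀ + T X = (B - T0 X) + T X` …) -/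
theorem cy_cj_co (p : CclPar) (Qs : CyT) (L ζ T0 T : ℝ) (x : p.Om × (ℝ × ℝ × ℝ × ℝ × ℝ)) :
    (clJitP p Qs L ζ T0).co T x = cyFlow (T - T0) (clJitZ p Qs L ζ T0 x) := by
  simp only [CclPar.co, clJitP, cyFlow, Cy5.mk.injEq]
  refine ⟨trivial, ?_, ?_, trivial, ?_⟩ <;> ring

/-- at the root time -/
theorem cy_cj_co0 (p : CclPar) (Qs : CyT) (L ζ T0 : ℝ) (x : p.Om × (ℝ × ℝ × ℝ × ℝ × ℝ)) :
    (clJitP p Qs L ζ T0).co T0 x = clJitZ p Qs L ζ T0 x := by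
  rw [cy_cj_co]
  simp [cyFlow]

/-- at a later time: the jitter of the docstring of `CyJit` applied to the old coordinates -/
theorem cy_cj_coT (p : CclPar) (Qs : CyT) (L ζ T0 T : ℝ) (x : p.Om × (ℝ × ℝ × ℝ × ℝ × ℝ)) :
    (clJitP p Qs L ζ T0).co T x = cyJit (cyExt Qs (T - T0)) (cyFlow (T - T0) (cyJitPar Qs L ζ x.2)) (p.co T x.1) := by
  rw [cy_cj_co, clJitZ, cy_cj_jit_flow, ← cy_cl_co_flow]
  congr 2
  ring

/-! ## CJ-OK -/

/-- **CJ-OK (2)**  `sf`: product of σ-finite measures (instance, with `haveI := h.sf`);  the five coordinates are polynomials in `p.X x.1, …, p.D x.1` and the components of `x.2` (unfold everything; `fun_prop`/`measurability` with `h.mX.comp measurable_fst` …) -/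
theorem cy_cj_ok (p : CclPar) (h : p.Ok) (Qs : CyT) (L ζ T0 : ℝ) : (clJitP p Qs L ζ T0).Ok := by
  have := h.sf
  have mX := h.mX.comp (measurable_fst : Measurable (Prod.fst : p.Om × (ℝ × ℝ × ℝ × ℝ × ℝ) → p.Om))
  have mB := h.mB.comp (measurable_fst : Measurable (Prod.fst : p.Om × (ℝ × ℝ × ℝ × ℝ × ℝ) → p.Om))
  have mY := h.mY.comp (measurable_fst : Measurable (Prod.fst : p.Om × (ℝ × ℝ × ℝ × ℝ × ℝ) → p.Om))
  have mN := h.mN.comp (measurable_fst : Measurable (Prod.fst : p.Om × (ℝ × ℝ × ℝ × ℝ × ℝ) → p.Om))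
  have mD := h.mD.comp (measurable_fst : Measurable (Prod.fst : p.Om × (ℝ × ℝ × ℝ × ℝ × ℝ) → p.Om))
  simp only [Function.comp_def] at mX mB mY mN mD
  refine ⟨?_, ?_, ?_, ?_, ?_, ?_⟩
  · change SigmaFinite (p.m.prod cyPi)
    infer_instance
  · change Measurable fun x : p.Om × (ℝ × ℝ × ℝ × ℝ × ℝ) => (cyFlow (-T0) (clJitZ p Qs L ζ T0 x)).X
    simp only [cyFlow, clJitZ, cyJit, cyJitB, cyJitPar, cyVel, cyPos, CclPar.co]
    fun_prop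
  · change Measurable fun x : p.Om × (ℝ × ℝ × ℝ × ℝ × ℝ) => (cyFlow (-T0) (clJitZ p Qs L ζ T0 x)).B
    simp only [cyFlow, clJitZ, cyJit, cyJitB, cyJitPar, cyVel, cyPos, CclPar.co]
    fun_prop
  · change Measurable fun x : p.Om × (ℝ × ℝ × ℝ × ℝ × ℝ) => (cyFlow (-T0) (clJitZ p Qs L ζ T0 x)).Y
    simp only [cyFlow, clJitZ, cyJit, cyJitB, cyJitPar, cyVel, cyPos, CclPar.co]
    fun_prop
  · change Measurable fun x : p.Om × (ℝ × ℝ × ℝ × ℝ × ℝ) => (cyFlow (-T0) (clJitZ p Qs L ζ T0 x)).N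
    simp only [cyFlow, clJitZ, cyJit, cyJitB, cyJitPar, cyVel, cyPos, CclPar.co]
    fun_prop
  · change Measurable fun x : p.Om × (ℝ × ℝ × ℝ × ℝ × ℝ) => (cyFlow (-T0) (clJitZ p Qs L ζ T0 x)).D
    simp only [cyFlow, clJitZ, cyJit, cyJitB, cyJitPar, cyVel, cyPos, CclPar.co]
    fun_prop

/-! ## CJ-L : pull backs -/

theorem cy_cj_lift_coe (p : CclPar) (v : Lp p.Fb 2 p.m) : (clLift p v : p.Om × (ℝ × ℝ × ℝ × ℝ × ℝ) → p.Fb) =ᵐ[p.m.prod cyPi] fun x => (v : p.Om → p.Fb) x.1 :=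
  MemLp.coeFn_toLp _

/-- (`gn_norm_sq` on both sides, `cy_cj_lift_coe`, `integral_prod` / `integral_fun_fst`, `π` is a probability measure; needs `SFinite p.m`) -/
theorem cy_cj_lift_norm (p : CclPar) (h : p.Ok) (v : Lp p.Fb 2 p.m) : ‖clLift p v‖ = ‖v‖ := by
  have := h.sf
  have h1 : ‖clLift p v‖ ^ 2 = ‖v‖ ^ 2 := by
    rw [gn_norm_sq, gn_norm_sq]
    have e1 : ∫ x, ‖(clLift p v : p.Om × (ℝ × ℝ × ℝ × ℝ × ℝ) → p.Fb) x‖ ^ 2 ∂(p.m.prod cyPi) = ∫ x, ‖(v : p.Om → p.Fb) x.1‖ ^ 2 ∂(p.m.prod cyPi) := by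
      refine integral_congr_ae ?_
      filter_upwards [cy_cj_lift_coe p v] with x hx
      rw [hx]
    rw [e1, integral_fun_fst (fun ω => ‖(v : p.Om → p.Fb) ω‖ ^ 2)]
    simp
  exact (sq_eq_sq₀ (norm_nonneg _) (norm_nonneg _)).1 h1

/-- plain form of `cy_cj_lift_mulR` -/
theorem cy_cj_lift_mul_aux (p : CclPar) (M : p.Om → ℝ) (v : Lp p.Fb 2 p.m) (A : Lp p.Fb 2 (p.m.prod cyPi)) (B : Lp p.Fb 2 p.m)
    (hA : (A : p.Om × (ℝ × ℝ × ℝ × ℝ × ℝ) → p.Fb) =ᵐ[p.m.prod cyPi] fun x => ((M x.1 : ℝ) : ℂ) • (clLift p v : p.Om × (ℝ × ℝ × ℝ × ℝ × ℝ) → p.Fb) x)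
    (hB : (B : p.Om → p.Fb) =ᵐ[p.m] fun ω => ((M ω : ℝ) : ℂ) • (v : p.Om → p.Fb) ω) : A = clLift p B := by
  apply Lp.ext
  have a2 := cy_cj_lift_coe p v
  have a3 := cy_cj_lift_coe p B
  have a4 := (Measure.quasiMeasurePreserving_fst (μ := p.m) (ν := cyPi)).ae_eq_comp hB
  filter_upwards [hA, a2, a3, a4] with x h1 h2 h3 h4
  rw [h1, h3, h2]
  exact h4.symm

/-- (`Lp.ext`; `gn_mulR_coe` upstairs and downstairs; an a.e. equality on `Ω` lifts to `Ω × ℝ⁵`: `Measure.quasiMeasurePreserving_fst.ae_eq_comp` / `Measure.ae_prod…`) -/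
theorem cy_cj_lift_mulR (η : ℝ) (p : CclPar) (h : p.Ok) (Qs : CyT) (L ζ T0 : ℝ) (k : ℕ) (M : p.Om → ℝ) (hM : IsMask M) (v : (p.sys η).Kc) :
    ((clJitP p Qs L ζ T0).sys η).mulR k (fun x => M x.1) (clLift p v) = clLift p ((p.sys η).mulR k M v) := by
  have hM' : IsMask (fun x : p.Om × (ℝ × ℝ × ℝ × ℝ × ℝ) => M x.1) := ⟨hM.1.comp measurable_fst, fun x => hM.2 x.1⟩
  exact cy_cj_lift_mul_aux p M v _ _ (gn_mulR_coe (P := (clJitP p Qs L ζ T0).sys η) k hM' (clLift p v)) (gn_mulR_coe (P := p.sys η) k hM v)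

/-- (induction on `st`; `Xp.run`, `cy_cl_tz` upstairs and downstairs, `cy_cj_lift_mulR`) -/
theorem cy_cj_lift_run (η : ℝ) (p : CclPar) (h : p.Ok) (Qs : CyT) (L ζ T0 : ℝ) (k' i : ℕ) (st : List (Stg (p.sys η))) (hst : ∀ σ ∈ st, ∀ j, IsMask (σ.M j))
    (v : (p.sys η).Kc) :
    Xp.run (P := (clJitP p Qs L ζ T0).sys η) k' i (st.map (clLiftS η p Qs L ζ T0)) (clLift p v) = clLift p (Xp.run (P := p.sys η) k' i st v) := by
  induction st generalizing v with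
  | nil => rfl
  | cons σ l ih =>
    have e1 := cy_cl_tz η (clJitP p Qs L ζ T0) (tmL σ.k (ancI k' σ.k i)) σ.k σ.b (fun x => σ.M (ancI k' σ.k i) x.1) (clLift p v)
    have e2 := cy_cl_tz η p (tmL σ.k (ancI k' σ.k i)) σ.k σ.b (σ.M (ancI k' σ.k i)) v
    have e3 := cy_cj_lift_mulR η p h Qs L ζ T0 σ.k (σ.M (ancI k' σ.k i)) (hst σ List.mem_cons_self _) v
    have e4 := ih (fun τ hτ j => hst τ (List.mem_cons_of_mem _ hτ) j) ((p.sys η).tz (tmL σ.k (ancI k' σ.k i)) σ.k σ.b (σ.M (ancI k' σ.k i)) v)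
    have e5 : ((clJitP p Qs L ζ T0).sys η).tz (tmL σ.k (ancI k' σ.k i)) σ.k σ.b (fun x => σ.M (ancI k' σ.k i) x.1) (clLift p v)
        = clLift p ((p.sys η).tz (tmL σ.k (ancI k' σ.k i)) σ.k σ.b (σ.M (ancI k' σ.k i)) v) :=
      e1.trans (e3.trans (congrArg (clLift p) e2.symm))
    show Xp.run (P := (clJitP p Qs L ζ T0).sys η) k' i (l.map (clLiftS η p Qs L ζ T0))
      (((clJitP p Qs L ζ T0).sys η).tz (tmL σ.k (ancI k' σ.k i)) σ.k σ.b (fun x => σ.M (ancI k' σ.k i) x.1) (clLift p v)) = _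
    rw [e5]
    exact e4

/-! ## CJ-F : Fubini -/

/-- plain form of `cy_cj_fub` -/
theorem cy_cj_fub_aux (p : CclPar) (h : p.Ok) (G : p.Om × (ℝ × ℝ × ℝ × ℝ × ℝ) → ℝ) (hG : IsMask G) (v : Lp p.Fb 2 p.m) :
    ∫ x, G x * ‖(clLift p v : p.Om × (ℝ × ℝ × ℝ × ℝ × ℝ) → p.Fb) x‖ ^ 2 ∂(p.m.prod cyPi)
      = ∫ θ in cyCube, ∫ ω, G (ω, θ) * ‖(v : p.Om → p.Fb) ω‖ ^ 2 ∂p.m := by
  have := h.sf
  have hint0 : Integrable (fun x : p.Om × (ℝ × ℝ × ℝ × ℝ × ℝ) => ‖(v : p.Om → p.Fb) x.1‖ ^ 2) (p.m.prod cyPi) :=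
    (gn_sq_integrable (μ := p.m) v).comp_fst cyPi
  have hint : Integrable (fun x : p.Om × (ℝ × ℝ × ℝ × ℝ × ℝ) => G x * ‖(v : p.Om → p.Fb) x.1‖ ^ 2) (p.m.prod cyPi) := by
    refine Integrable.mono' hint0 (hG.1.aestronglyMeasurable.mul hint0.aestronglyMeasurable) (Filter.Eventually.of_forall fun x => ?_)
    rw [Real.norm_eq_abs, abs_of_nonneg (mul_nonneg (hG.2 x).1 (by positivity))]
    exact mul_le_of_le_one_left (by positivity) (hG.2 x).2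
  have e1 : ∫ x, G x * ‖(clLift p v : p.Om × (ℝ × ℝ × ℝ × ℝ × ℝ) → p.Fb) x‖ ^ 2 ∂(p.m.prod cyPi) = ∫ x, G x * ‖(v : p.Om → p.Fb) x.1‖ ^ 2 ∂(p.m.prod cyPi) := by
    refine integral_congr_ae ?_
    filter_upwards [cy_cj_lift_coe p v] with x hx
    rw [hx]
  rw [e1, integral_prod_symm _ hint]
  rfl

/-- **CJ-F**   `en` upstairs `= ∫ G |v ∘ fst|² d(m × π)` (`PkSys.en`, `An = id`, `cy_cj_lift_coe`);  the integrand is integrable (`|G| ≤ 1`, `gn_sq_integrable`, `Integrable.comp_fst`, `Integrable.bdd_mul`);  `integral_prod_symm` (`SFinite p.m` from `h.sf`);  `cyPi = volume.restrict cyCube`. -/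
theorem cy_cj_fub (η : ℝ) (p : CclPar) (h : p.Ok) (Qs : CyT) (L ζ T0 : ℝ) (T : ℝ) (k b : ℕ) (T' : ℝ) (k' b' : ℕ) (G : p.Om × (ℝ × ℝ × ℝ × ℝ × ℝ) → ℝ) (hG : IsMask G)
    (v : (p.sys η).Kc) :
    ((clJitP p Qs L ζ T0).sys η).en T k b G (clLift p v) = ∫ θ in cyCube, (p.sys η).en T' k' b' (fun ω => G (ω, θ)) v := by
  exact cy_cj_fub_aux p h G hG v

/-! ## CJ-M : masses and the law of the root rows -/

/-- the cube is measurable -/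
theorem cy_cj_cube_meas : MeasurableSet cyCube := by
  unfold cyCube
  exact measurableSet_Icc.prod (measurableSet_Icc.prod (measurableSet_Icc.prod (measurableSet_Icc.prod measurableSet_Icc)))

/-- the cube has volume one -/
theorem cy_cj_cube_vol : (volume : Measure (ℝ × ℝ × ℝ × ℝ × ℝ)).real cyCube = 1 := by
  have h := cy_cj_pi_prob.measure_univ
  unfold cyPi at h
  rw [Measure.restrict_apply_univ] at h
  simp [Measure.real, h]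

/-- **CJ-M (1)**   `Xp.m`, `Xp.fin`, `cy_cj_lift_run` (`gn_valid_stm`), `cy_cj_fub` with `G = th'` (a mask: `gn_th_mask`, indicator of a measurable set);  for `θ ∈ cyCube` the inner function is `E.th l`: `setIntegral_congr_fun`, `setIntegral_const`, `π univ = 1`. -/
theorem cy_cj_m (η : ℝ) (p : CclPar) (h : p.Ok) (Qs : CyT) (ζ : ℝ) (E : Xp (p.sys η)) (hE : E.Valid) (tsq : Fin E.L → CyT) (l : Fin E.L) :
    (clJitE η p Qs ζ E tsq).m l = E.m l := by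
  have hG : IsMask (fun x : p.Om × (ℝ × ℝ × ℝ × ℝ × ℝ) => (Prod.snd ⁻¹' cyCube).indicator (fun y : p.Om × (ℝ × ℝ × ℝ × ℝ × ℝ) => E.th l y.1) x) := by
    refine ⟨((hE.th_meas l).comp measurable_fst).indicator (measurable_snd cy_cj_cube_meas), fun x => ?_⟩
    beta_reduce
    by_cases hx : x ∈ (Prod.snd ⁻¹' cyCube : Set (p.Om × (ℝ × ℝ × ℝ × ℝ × ℝ)))
    · rw [Set.indicator_of_mem hx]
      exact (gn_th_mask E hE l).2 x.1
    · rw [Set.indicator_of_notMem hx]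
      exact ⟨le_rfl, zero_le_one⟩
  have e1 := cy_cj_lift_run η p h Qs ((2 : ℝ)⁻¹ ^ E.k0) ζ (tmL E.k0 E.i0) E.kf (E.iv l) E.st (gn_valid_stm E hE) E.v
  have e2 := cy_cj_fub η p h Qs ((2 : ℝ)⁻¹ ^ E.k0) ζ (tmL E.k0 E.i0) (tmL E.kf (E.iv l)) E.kf E.bT (tmL E.kf (E.iv l)) E.kf E.bT _ hG
    (Xp.run (P := p.sys η) E.kf (E.iv l) E.st E.v)
  have e3 : (clJitE η p Qs ζ E tsq).m l = ((clJitP p Qs ((2 : ℝ)⁻¹ ^ E.k0) ζ (tmL E.k0 E.i0)).sys η).en (tmL E.kf (E.iv l)) E.kf E.bT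
      (fun x : p.Om × (ℝ × ℝ × ℝ × ℝ × ℝ) => (Prod.snd ⁻¹' cyCube).indicator (fun y : p.Om × (ℝ × ℝ × ℝ × ℝ × ℝ) => E.th l y.1) x)
      (clLift p (Xp.run (P := p.sys η) E.kf (E.iv l) E.st E.v)) := by
    rw [← e1]
    rfl
  rw [e3, e2]
  have e4 : ∫ θ in cyCube, (p.sys η).en (tmL E.kf (E.iv l)) E.kf E.bT
      (fun ω => (Prod.snd ⁻¹' cyCube).indicator (fun y : p.Om × (ℝ × ℝ × ℝ × ℝ × ℝ) => E.th l y.1) (ω, θ)) (Xp.run (P := p.sys η) E.kf (E.iv l) E.st E.v)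
      = ∫ _θ in cyCube, E.m l := by
    refine setIntegral_congr_fun cy_cj_cube_meas fun θ hθ => ?_
    beta_reduce
    have e5 : (fun ω : p.Om => (Prod.snd ⁻¹' cyCube).indicator (fun y : p.Om × (ℝ × ℝ × ℝ × ℝ × ℝ) => E.th l y.1) (ω, θ)) = E.th l := by
      funext ω
      exact Set.indicator_of_mem (s := (Prod.snd ⁻¹' cyCube : Set (p.Om × (ℝ × ℝ × ℝ × ℝ × ℝ)))) hθ _
    exact congrArg (fun f : p.Om → ℝ => (p.sys η).en (tmL E.kf (E.iv l)) E.kf E.bT f (Xp.run (P := p.sys η) E.kf (E.iv l) E.st E.v)) e5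
  rw [e4, setIntegral_const, cy_cj_cube_vol, one_smul]

/-- **CJ-M (2)**   `PkSys.ms`, `cy_cj_fub` with `G` = the indicator of the measurable set `{x | cyVec (co' T0 x) ∈ U}` (`cy_cl_vec_meas` for the jittered parameter, `cy_cj_ok`; `gn_mask_ind`);  `cy_cj_co0`, `clJitZ`. -/
theorem cy_cj_law (η : ℝ) (p : CclPar) (h : p.Ok) (Qs : CyT) (L ζ T0 : ℝ) (k b : ℕ) (v : (p.sys η).Kc) (U : Set (ℝ × ℝ × ℝ × ℝ × ℝ)) (hU : MeasurableSet U) :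
    ((clJitP p Qs L ζ T0).sys η).ms T0 k b {x | cyVec ((clJitP p Qs L ζ T0).co T0 x) ∈ U} (clLift p v)
      = ∫ θ in cyCube, (p.sys η).ms T0 k b {x | cyVec (cyJit Qs (cyJitPar Qs L ζ θ) (p.co T0 x)) ∈ U} v := by
  have hS : MeasurableSet {x : p.Om × (ℝ × ℝ × ℝ × ℝ × ℝ) | cyVec ((clJitP p Qs L ζ T0).co T0 x) ∈ U} :=
    cy_cl_vec_meas (clJitP p Qs L ζ T0) (cy_cj_ok p h Qs L ζ T0) T0 hU
  have e2 := cy_cj_fub η p h Qs L ζ T0 T0 k b T0 k b _ (gn_mask_ind hS) v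
  unfold PkSys.ms
  refine e2.trans ?_
  congr 1
  funext θ
  congr 1
  funext ω
  by_cases hω : cyVec (cyJit Qs (cyJitPar Qs L ζ θ) (p.co T0 ω)) ∈ U
  · have h1 : ((ω, θ) : p.Om × (ℝ × ℝ × ℝ × ℝ × ℝ)) ∈ {x : p.Om × (ℝ × ℝ × ℝ × ℝ × ℝ) | cyVec ((clJitP p Qs L ζ T0).co T0 x) ∈ U} := by
      change cyVec ((clJitP p Qs L ζ T0).co T0 (ω, θ)) ∈ U
      rw [cy_cj_co0]
      exact hω
    have h2 : ω ∈ {x : p.Om | cyVec (cyJit Qs (cyJitPar Qs L ζ θ) (p.co T0 x)) ∈ U} := hω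
    rw [Set.indicator_of_mem h1]
    exact (Set.indicator_of_mem h2 (fun _ => (1 : ℝ))).symm
  · have h1 : ((ω, θ) : p.Om × (ℝ × ℝ × ℝ × ℝ × ℝ)) ∉ {x : p.Om × (ℝ × ℝ × ℝ × ℝ × ℝ) | cyVec ((clJitP p Qs L ζ T0).co T0 x) ∈ U} := by
      change ¬ cyVec ((clJitP p Qs L ζ T0).co T0 (ω, θ)) ∈ U
      rw [cy_cj_co0]
      exact hω
    have h2 : ω ∉ {x : p.Om | cyVec (cyJit Qs (cyJitPar Qs L ζ θ) (p.co T0 x)) ∈ U} := hω
    rw [Set.indicator_of_notMem h1]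
    exact (Set.indicator_of_notMem h2 (fun _ => (1 : ℝ))).symm

/-! ## CJ-V : validity -/

/-- **CJ-V**   field by field.   `budget`: `cy_cj_lift_norm`;  `plat`: `cy_cl_pl`;  `reg`: the hypothesis;  `st_*`: `List.mem_map`, `List.pairwise_map`, `Measurable.comp .. measurable_fst`;  `iv_in`: old;  `ts_ok`, `w_pos`: `htq` (`cyWt`, `Real.rpow_pos_of_pos`);
`th_meas`: `Measurable.indicator` (`cyCube` is closed / a product of `Icc`);  `th_nn`, `th_sum`: `Set.indicator` cases;  `th_supp`: `th' l x ≠ 0` forces `x.2 ∈ cyCube` and `E.th l x.1 ≠ 0`, so `cyIn (E.ts l) .. (p.co T_l x.1)` (`hE.th_supp`), `hin`, `cy_cj_coT`. -/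
theorem cy_cj_valid (η : ℝ) (p : CclPar) (h : p.Ok) (Qs : CyT) (ζ : ℝ) (E : Xp (p.sys η)) (hE : E.Valid) (tsq : Fin E.L → CyT)
    (htq : ∀ l, 0 < (tsq l).r ∧ 0 < (tsq l).f)
    (hin : ∀ l, ∀ θ ∈ cyCube, ∀ z, cyIn (E.ts l) ((2 : ℝ)⁻¹ ^ E.kf) z →
      cyIn (tsq l) ((2 : ℝ)⁻¹ ^ E.kf) (cyJit (cyExt Qs (tmL E.kf (E.iv l) - tmL E.k0 E.i0))
        (cyFlow (tmL E.kf (E.iv l) - tmL E.k0 E.i0) (cyJitPar Qs ((2 : ℝ)⁻¹ ^ E.k0) ζ θ)) z))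
    (κ' : ℝ) (hκ : 0 < κ')
    (hreg : ((clJitP p Qs ((2 : ℝ)⁻¹ ^ E.k0) ζ (tmL E.k0 E.i0)).sys η).Reg (tmL E.k0 E.i0) E.k0 E.b0 κ' (clLift p E.v)) :
    Xp.Valid { clJitE η p Qs ζ E tsq with ka := κ' } := by
  have hth : ∀ (l : Fin E.L) (x : p.Om × (ℝ × ℝ × ℝ × ℝ × ℝ)), x.2 ∈ cyCube →
      (Prod.snd ⁻¹' cyCube).indicator (fun y : p.Om × (ℝ × ℝ × ℝ × ℝ × ℝ) => E.th l y.1) x = E.th l x.1 := fun l x hx =>
    Set.indicator_of_mem (s := (Prod.snd ⁻¹' cyCube : Set (p.Om × (ℝ × ℝ × ℝ × ℝ × ℝ)))) hx _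
  have hth0 : ∀ (l : Fin E.L) (x : p.Om × (ℝ × ℝ × ℝ × ℝ × ℝ)), x.2 ∉ cyCube →
      (Prod.snd ⁻¹' cyCube).indicator (fun y : p.Om × (ℝ × ℝ × ℝ × ℝ × ℝ) => E.th l y.1) x = 0 := fun l x hx =>
    Set.indicator_of_notMem (s := (Prod.snd ⁻¹' cyCube : Set (p.Om × (ℝ × ℝ × ℝ × ℝ × ℝ)))) hx _
  refine ⟨hE.e_pos, hκ, ?_, ?_, hreg, ?_, ?_, ?_, ?_, hE.iv_in, fun l => htq l, ?_, ?_, ?_, ?_, ?_⟩
  · change ‖clLift p E.v‖ ^ 2 ≤ E.e
    rw [cy_cj_lift_norm p h]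
    exact hE.budget
  · rw [cy_cl_pl]
    exact Set.mem_univ _
  · intro σ hσ
    obtain ⟨τ, hτ, rfl⟩ := List.mem_map.1 hσ
    exact hE.st_dep τ hτ
  · exact List.pairwise_map.2 hE.st_mono
  · intro σ hσ i
    obtain ⟨τ, hτ, rfl⟩ := List.mem_map.1 hσ
    exact (hE.st_meas τ hτ i).comp measurable_fst
  · intro σ hσ i x
    obtain ⟨τ, hτ, rfl⟩ := List.mem_map.1 hσ
    exact hE.st_bd τ hτ i _
  · intro l
    exact mul_pos (Real.rpow_pos_of_pos (htq l).1 _) (Real.rpow_pos_of_pos (htq l).2 _)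
  · intro l
    exact ((hE.th_meas l).comp measurable_fst).indicator (measurable_snd cy_cj_cube_meas)
  · intro l x
    change 0 ≤ (Prod.snd ⁻¹' cyCube).indicator (fun y : p.Om × (ℝ × ℝ × ℝ × ℝ × ℝ) => E.th l y.1) x
    by_cases hx : (x : p.Om × (ℝ × ℝ × ℝ × ℝ × ℝ)).2 ∈ cyCube
    · rw [hth l x hx]
      exact hE.th_nn l _
    · rw [hth0 l x hx]
  · intro l x hx
    change (Prod.snd ⁻¹' cyCube).indicator (fun y : p.Om × (ℝ × ℝ × ℝ × ℝ × ℝ) => E.th l y.1) x ≠ 0 at hx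
    have hx2 : (x : p.Om × (ℝ × ℝ × ℝ × ℝ × ℝ)).2 ∈ cyCube := by
      by_contra hc
      exact hx (hth0 l x hc)
    rw [hth l x hx2] at hx
    have h1 : cyIn (E.ts l) ((2 : ℝ)⁻¹ ^ E.kf) (p.co (tmL E.kf (E.iv l)) (x : p.Om × (ℝ × ℝ × ℝ × ℝ × ℝ)).1) := hE.th_supp l _ hx
    have h2 := hin l _ hx2 _ h1
    have h3 := cy_cj_coT p Qs ((2 : ℝ)⁻¹ ^ E.k0) ζ (tmL E.k0 E.i0) (tmL E.kf (E.iv l)) x
    change cyIn (tsq l) ((2 : ℝ)⁻¹ ^ E.kf) ((clJitP p Qs ((2 : ℝ)⁻¹ ^ E.k0) ζ (tmL E.k0 E.i0)).co (tmL E.kf (E.iv l)) x)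
    exact h3 ▸ h2
  · intro i x
    change ∑ l, (if E.iv l = i then (Prod.snd ⁻¹' cyCube).indicator (fun y : p.Om × (ℝ × ℝ × ℝ × ℝ × ℝ) => E.th l y.1) x else 0) ≤ 1
    by_cases hx : (x : p.Om × (ℝ × ℝ × ℝ × ℝ × ℝ)).2 ∈ cyCube
    · simp only [hth _ x hx]
      exact hE.th_sum i _
    · simp only [hth0 _ x hx]
      simp

/-! ## EXIT -/

theorem cy_cj_main (η : ℝ) : CyJit (sfCl η) := by
  intro p hp E hE Qs ζ _ _ _ tsq htq hin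
  refine ⟨clJitP p Qs ((2 : ℝ)⁻¹ ^ E.k0) ζ (tmL E.k0 E.i0), clJitE η p Qs ζ E tsq, cy_cj_ok p hp _ _ _ _, rfl, fun _ => rfl, rfl, rfl, rfl, rfl, rfl, rfl, ?_, ?_, ⟨rfl, ?_⟩, ?_, ?_⟩
  · exact List.length_map _
  · intro bm hb
    refine ⟨hb.1, hb.2.1, ?_⟩
    intro σ hσ
    obtain ⟨τ, hτ, rfl⟩ := List.mem_map.1 hσ
    exact hb.2.2 τ hτ
  · intro l
    exact ⟨rfl, cy_cj_m η p hp Qs ζ E hE tsq l⟩
  · intro κ' hκ hreg
    exact cy_cj_valid η p hp Qs ζ E hE tsq (fun l => ⟨(htq l).1, (htq l).2.1⟩) hin κ' hκ hreg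
  · intro U hU
    exact cy_cj_law η p hp Qs _ ζ _ E.k0 E.b0 E.v U hU

end Claimed.Agent.R256
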