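-- KEEP
import Claimed.Agent.R256.Cyl.Alg

/-!
# Row 256 (LS paper), CYL, unit FCR ("full chart regularity", 02 l.672-722), file 1 : NORMALISED OBJECTS          (architect helper120; prefix `cy_fc_`)

Everything happens in the NORMALISED coordinates of the chart frame `Qs`:  `w = cyU Qs l z = (cyBase Qs l z, cyNor Qs l z) ∈ CyV = ℝ³ × ℝ²`  (`cyU`, `CyU = CyV` of `Cyl/Nrm.lean`, helper180).   In these coordinates
* a test is a `q : CyT` used at the length `1`:  `cyCv q = {w | cyIn q 1 (cyOfV w)}`;  its weight is `cyWt η q`;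
* the jitter of size `ζ` with the parameter `θ ∈ cyCube` is `cyJv ζ θ` (Heisenberg translation of the base, translation of the normal part);
* the jittered copy of a measure `ν` is `cyJm ζ ν` = image of `(vol|cube) × ν` under `(θ, w) ↦ cyJv ζ θ w`.
PLAN OF THE UNIT (files):   `FcrDefs` (this) → `FcrTool` (measurability, Fubini tools T1, T2, sections, volumes, sublevel) → `FcrCase` (the five cases, `cy_fc_full`) |
`FcrDict` (model ↔ normalised measure) | `FcrLab` (labels persist on doubled tests) | `FcrSet` (the setup `CySet` of the jittered copy) → `Fcr` (constants, rate, arithmetic: `cy_fc_main`).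
-/

set_option autoImplicit false

namespace Claimed.Agent.R256

open MeasureTheory

/-- normalised coordinates: base part, normal part -/
abbrev CyV := (ℝ × ℝ × ℝ) × (ℝ × ℝ)

/-- jitter parameters -/
abbrev CyTh := ℝ × ℝ × ℝ × ℝ × ℝ

/-- a point of `CyV` as five coordinates -/
def cyOfV (w : CyV) : Cy5 := ⟨w.1.1, w.1.2.1, w.1.2.2, w.2.1, w.2.2⟩

/-- the normalised jitter -/
def cyJv (ζ : ℝ) (θ : CyTh) (w : CyV) : CyV :=
  ((w.1.1 + ζ * θ.1, w.1.2.1 + ζ * θ.2.1, w.1.2.2 + ζ * θ.2.2.1 + 2 * (ζ * θ.1) * w.1.2.1), (w.2.1 + ζ * θ.2.2.2.1, w.2.2 + ζ * θ.2.2.2.2))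

/-- the cell of a normalised test -/
def cyCv (q : CyT) : Set CyV := {w | cyIn q 1 (cyOfV w)}

/-- the base cell of a normalised test -/
def cyCb (q : CyT) : Set (ℝ × ℝ × ℝ) :=
  {u | |u.1 - q.x| ≤ q.r ∧ |u.2.1 - q.b| ≤ q.r ∧ |u.2.2 - q.y - 2 * q.x * (u.2.1 - q.b)| ≤ q.r ^ 2}

/-- size of the base part -/
noncomputable def cyBs (w : CyV) : ℝ := max |w.1.1| (max |w.1.2.1| |w.1.2.2|)

/-- size of the normal part -/
noncomputable def cyNs (w : CyV) : ℝ := max |w.2.1| |w.2.2|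

/-- the unit cube of jitter parameters (same set as `cyCube` of `Cyl/Contract.lean`) -/
def cyCubeN : Set CyTh := Set.Icc 0 1 ×ˢ Set.Icc 0 1 ×ˢ Set.Icc 0 1 ×ˢ Set.Icc 0 1 ×ˢ Set.Icc 0 1

/-- **the jittered copy of a measure** -/
noncomputable def cyJm (ζ : ℝ) (ν : Measure CyV) : Measure CyV :=
  (((volume : Measure CyTh).restrict cyCubeN).prod ν).map fun a => cyJv ζ a.1 a.2

/-- the truncated family, normalised: widths in `[ρ,1]`, Planck floor `h0`, shear coefficients `≤ 1/ρ`, all centres free -/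
def CyTrN (ρ h0 : ℝ) (q : CyT) : Prop :=
  ρ ≤ q.r ∧ q.r ≤ 1 ∧ ρ ≤ q.f ∧ q.f ≤ 1 ∧ h0 ≤ q.f ∧ |q.al| ≤ ρ⁻¹ ∧ |q.be| ≤ ρ⁻¹ ∧ |q.K| ≤ ρ⁻¹

/-- the pull-back of a normalised test under the jitter:  `cyJv ζ θ w ∈ cyCv q ↔ w ∈ cyCv (cyPull ζ θ q)` -/
def cyPull (ζ : ℝ) (θ : CyTh) (q : CyT) : CyT where
  x := q.x - ζ * θ.1
  b := q.b - ζ * θ.2.1
  y := q.y - ζ * θ.2.2.1 - 2 * (ζ * θ.1) * (q.b - ζ * θ.2.1)
  r := q.r
  f := q.f
  c := q.c - ζ * θ.2.2.2.1 + q.al * (ζ * θ.1) + q.be * (ζ * θ.1) ^ 2 + q.K * (ζ * θ.2.2.1 - 2 * (ζ * θ.1) * (ζ * θ.2.1))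
  d := q.d - ζ * θ.2.2.2.2 + q.al * (ζ * θ.2.1) + q.be * (ζ * θ.2.2.1) - q.K * (ζ * θ.2.1) ^ 2
  al := q.al + 2 * q.be * (ζ * θ.1) - 2 * q.K * (ζ * θ.2.1)
  be := q.be
  K := q.K

/-- the test with the base of `q`, normal width `1`, no shear, normal centres `c, d` -/
def cyFlat (q : CyT) (c d : ℝ) : CyT := { q with f := 1, c := c, d := d, al := 0, be := 0, K := 0 }

/-- the test with the shear and the normal width of `q`, base width `1`, base centre `x, b, y` -/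
def cyUnitB (q : CyT) (x b y : ℝ) : CyT := { q with r := 1, x := x, b := b, y := y }

/-- what is known about the chart measure `ν` (normalised):  base support in the unit box, normal tails, regularity `b1` on the truncated family -/
structure CyFcHyp (η Λ b1 τ h0 ρ1 : ℝ) (ν : Measure CyV) : Prop where
  fin : IsFiniteMeasure ν
  supp : ν {w | 1 < cyBs w} = 0
  tail : ν.real {w | Λ < cyNs w} ≤ τ
  reg : ∀ q, CyTrN ρ1 h0 q → ν.real (cyCv q) ≤ b1 * cyWt η q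

/-- the numerical conditions (`Cs` = the constant of the sublevel estimate `cy_fc_sub`) -/
structure CyFcNum (η ζ Λ b1 τ h0 ρ1 ρ2 ρ3 Cs : ℝ) : Prop where
  eta : 0 < η ∧ η < 1
  z0 : 0 < ζ
  z1 : ζ ≤ 1 / 3
  L1 : 1 ≤ Λ
  b0 : 0 < b1
  t0 : 0 ≤ τ
  h : 0 ≤ h0 ∧ h0 ≤ 1
  r1 : 0 < ρ1
  r12 : ρ1 ≤ ρ2
  r2 : ρ2 ≤ 1
  r3 : ρ3 ≤ 1
  r13 : 3 * ρ1 ≤ ρ3
  /-- tiny widths -/
  n2 : 32 * ((Λ + 2) ^ 2 + 1) * ζ⁻¹ ^ 5 * ρ2 ^ (1 - η) ≤ 1
  /-- big coefficients -/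
  n3 : Cs * ((Λ + 2) ^ 2 + 1) * (2 * Λ + 4) ^ 2 * ζ⁻¹ ^ 5 * ρ3 ^ (1 / 4 : ℝ) ≤ ρ2 ^ 4 / 2
  /-- tails -/
  n3' : τ ≤ b1 * ρ2 ^ 4 / 2
  n4 : 8 * τ * ζ⁻¹ ^ 3 ≤ b1

theorem cy_fc_defs_eqns_cite : True := by
  have := @cyOfV.eq_1
  have := @cyJv.eq_1
  have := @cyCv.eq_1
  have := @cyCb.eq_1
  have := @cyBs.eq_1
  have := @cyNs.eq_1
  have := @cyCubeN.eq_1
  have := @cyJm.eq_1
  have := @CyTrN.eq_1
  have := @cyPull.eq_1
  have := @cyFlat.eq_1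
  have := @cyUnitB.eq_1
  trivial

end Claimed.Agent.R256
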