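-- KEEP
import Claimed.Agent.R256.Cyl.FcrDefs

/-!
# Row 256 (LS paper), CYL, unit FCR, file 2 : TOOLS  (paper free: Lebesgue measure on `ℝ⁵`, Tonelli, elementary geometry)          (architect helper120; prefix `cy_fc_`)

Every theorem with a hole belongs to ONE LEAF `L-256-FCR-<name>` (section headers).   Prove IN PLACE, statements verbatim (defect: one line to helper120); auxiliary lemmas directly above your theorem,
prefix `cy_fc_<leaf>_`; pull before landing and splice only your hunk.   You may cite every other statement of this file.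
-/

set_option autoImplicit false

namespace Claimed.Agent.R256

open MeasureTheory

/-! ## LEAF L-256-FCR-MEAS : measurability -/

/-- all five components are polynomials in the coordinates: `fun_prop` / `Measurable.prodMk`, `measurable_fst`, `measurable_snd`, `.add`, `.mul`, `.const_mul`. -/
theorem cy_fc_meas_jv (ζ : ℝ) : Measurable fun a : CyTh × CyV => cyJv ζ a.1 a.2 := by
  unfold cyJv
  fun_prop

theorem cy_fc_meas_jv1 (ζ : ℝ) (θ : CyTh) : Measurable (cyJv ζ θ) :=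
  (cy_fc_meas_jv ζ).comp (measurable_const.prodMk measurable_id)

/-- `cyCv q` is closed: five conditions `|polynomial| ≤ const` (`measurableSet_le`, unfold `cyIn`, `cyTilt`, `cyVel`, `cyPos`, `cyOfV`). -/
theorem cy_fc_meas_cv (q : CyT) : MeasurableSet (cyCv q) := by
  unfold cyCv cyIn cyTilt cyVel cyPos cyOfV
  simp only [Set.ofPred_and]
  refine MeasurableSet.inter ?_ (MeasurableSet.inter ?_ (MeasurableSet.inter ?_ (MeasurableSet.inter ?_ ?_))) <;>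
    exact measurableSet_le (by fun_prop) measurable_const

theorem cy_fc_meas_cb (q : CyT) : MeasurableSet (cyCb q) := by
  unfold cyCb
  simp only [Set.ofPred_and]
  refine MeasurableSet.inter ?_ (MeasurableSet.inter ?_ ?_) <;>
    exact measurableSet_le (by fun_prop) measurable_const

theorem cy_fc_meas_bs : Measurable cyBs := by
  unfold cyBs
  fun_prop

theorem cy_fc_meas_ns : Measurable cyNs := by
  unfold cyNs
  fun_prop

theorem cy_fc_meas_cube : MeasurableSet cyCubeN := by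
  unfold cyCubeN
  exact measurableSet_Icc.prod (measurableSet_Icc.prod (measurableSet_Icc.prod (measurableSet_Icc.prod measurableSet_Icc)))

/-- `Measure.volume_eq_prod`, `Measure.prod_prod`, `Real.volume_Icc`. -/
theorem cy_fc_vol_cube : (volume : Measure CyTh) cyCubeN = 1 := by
  unfold cyCubeN
  simp only [Measure.volume_eq_prod, Measure.prod_prod, Real.volume_Icc]
  norm_num

/-! ## LEAF L-256-FCR-JM : the jittered measure (Tonelli) -/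

/-- `Measure.map_apply (cy_fc_meas_jv ζ) hS`, `Measure.prod_apply_symm` / `Measure.prod_apply` (the preimage is measurable), `Measure.restrict_apply`. -/
theorem cy_fc_jm_apply (ζ : ℝ) (ν : Measure CyV) [SFinite ν] {S : Set CyV} (hS : MeasurableSet S) :
    cyJm ζ ν S = ∫⁻ w, volume ({θ : CyTh | cyJv ζ θ w ∈ S} ∩ cyCubeN) ∂ν := by
  unfold cyJm
  rw [Measure.map_apply (cy_fc_meas_jv ζ) hS, Measure.prod_apply_symm ((cy_fc_meas_jv ζ) hS)]
  refine lintegral_congr fun w => ?_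
  have hm : MeasurableSet {θ : CyTh | cyJv ζ θ w ∈ S} :=
    ((cy_fc_meas_jv ζ).comp (measurable_id.prodMk measurable_const)) hS
  exact Measure.restrict_apply hm

theorem cy_fc_jm_apply' (ζ : ℝ) (ν : Measure CyV) [SFinite ν] {S : Set CyV} (hS : MeasurableSet S) :
    cyJm ζ ν S = ∫⁻ θ in cyCubeN, ν (cyJv ζ θ ⁻¹' S) := by
  unfold cyJm
  rw [Measure.map_apply (cy_fc_meas_jv ζ) hS, Measure.prod_apply ((cy_fc_meas_jv ζ) hS)]
  rfl

/-- total mass `= ν univ` (`cy_fc_jm_apply'` with `S = univ`, `cy_fc_vol_cube`). -/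
theorem cy_fc_jm_finite (ζ : ℝ) (ν : Measure CyV) [IsFiniteMeasure ν] : IsFiniteMeasure (cyJm ζ ν) := by
  refine ⟨?_⟩
  rw [cy_fc_jm_apply' ζ ν MeasurableSet.univ]
  simp only [Set.preimage_univ, lintegral_const, Measure.restrict_apply MeasurableSet.univ, Set.univ_inter, cy_fc_vol_cube, mul_one]
  exact measure_lt_top ν _

/-- **T1** (density by sections).  PLAN: `cy_fc_jm_apply`; the integrand vanishes off `G` (`hSG`: the section is empty) and is `≤ ofReal c` on `G`:  `∫⁻ ≤ ∫⁻ G.indicator (ofReal c) = ofReal c * ν G`;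
`Measure.real`, `ENNReal.toReal_mono`, `ENNReal.toReal_mul`, `ENNReal.toReal_ofReal hc`. -/
theorem cy_fc_T1 (ζ : ℝ) (ν : Measure CyV) [IsFiniteMeasure ν] {S G : Set CyV} (hS : MeasurableSet S) (hG : MeasurableSet G)
    (hSG : ∀ θ ∈ cyCubeN, ∀ w, cyJv ζ θ w ∈ S → w ∈ G) {c : ℝ} (hc : 0 ≤ c)
    (hsec : ∀ w, volume ({θ : CyTh | cyJv ζ θ w ∈ S} ∩ cyCubeN) ≤ ENNReal.ofReal c) : (cyJm ζ ν).real S ≤ c * ν.real G := by
  have h1 : cyJm ζ ν S ≤ ENNReal.ofReal c * ν G := by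
    rw [cy_fc_jm_apply ζ ν hS]
    calc ∫⁻ w, volume ({θ : CyTh | cyJv ζ θ w ∈ S} ∩ cyCubeN) ∂ν
        ≤ ∫⁻ w, G.indicator (fun _ => ENNReal.ofReal c) w ∂ν := by
          refine lintegral_mono fun w => ?_
          by_cases hw : w ∈ G
          · rw [Set.indicator_of_mem hw]
            exact hsec w
          · rw [Set.indicator_of_notMem hw]
            have : {θ : CyTh | cyJv ζ θ w ∈ S} ∩ cyCubeN = ∅ := by
              ext θ
              simp only [Set.mem_inter_iff, Set.mem_ofPred_eq, Set.mem_empty_iff_false, iff_false, not_and]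
              exact fun h1 h2 => hw (hSG θ h2 w h1)
            rw [this, measure_empty]
      _ = ENNReal.ofReal c * ν G := by
          rw [lintegral_indicator hG, lintegral_const, Measure.restrict_apply MeasurableSet.univ, Set.univ_inter]
  have h2 : ENNReal.ofReal c * ν G ≠ ⊤ := ENNReal.mul_ne_top ENNReal.ofReal_ne_top (measure_ne_top ν G)
  have h3 := ENNReal.toReal_mono h2 h1
  rw [ENNReal.toReal_mul, ENNReal.toReal_ofReal hc] at h3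
  exact h3

/-- **T2** (average of pull-backs).  PLAN: `cy_fc_jm_apply'`; `ν (..) ≤ ofReal c` for `θ` in the cube (`ofReal_measureReal`/`ENNReal.le_ofReal_iff_toReal_le`); `setLIntegral_mono`-type bound, `cy_fc_vol_cube`. -/
theorem cy_fc_T2 (ζ : ℝ) (ν : Measure CyV) [IsFiniteMeasure ν] {S : Set CyV} (hS : MeasurableSet S) {c : ℝ} (hc : 0 ≤ c)
    (h : ∀ θ ∈ cyCubeN, ν.real (cyJv ζ θ ⁻¹' S) ≤ c) : (cyJm ζ ν).real S ≤ c := by
  have h1 : cyJm ζ ν S ≤ ENNReal.ofReal c := by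
    rw [cy_fc_jm_apply' ζ ν hS]
    calc ∫⁻ θ in cyCubeN, ν (cyJv ζ θ ⁻¹' S)
        ≤ ∫⁻ _ in cyCubeN, ENNReal.ofReal c := by
          refine setLIntegral_mono measurable_const fun θ hθ => ?_
          rw [← ofReal_measureReal (measure_ne_top ν _)]
          exact ENNReal.ofReal_le_ofReal (h θ hθ)
      _ = ENNReal.ofReal c := by
          rw [lintegral_const, Measure.restrict_apply MeasurableSet.univ, Set.univ_inter, cy_fc_vol_cube, mul_one]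
  have h3 := ENNReal.toReal_mono ENNReal.ofReal_ne_top h1
  rwa [ENNReal.toReal_ofReal hc] at h3

/-! ## LEAF L-256-FCR-SEC : sections of the jitter (change of variables) -/

/-- reassociation of the five variables -/
def cyFcRe : CyV ≃ᵐ CyTh :=
  (MeasurableEquiv.prodAssoc (α := ℝ) (β := ℝ × ℝ) (γ := ℝ × ℝ)).trans
    (MeasurableEquiv.prodCongr (MeasurableEquiv.refl ℝ) (MeasurableEquiv.prodAssoc (α := ℝ) (β := ℝ) (γ := ℝ × ℝ)))

theorem cy_fc_SEC_re : MeasurePreserving cyFcRe (volume : Measure CyV) (volume : Measure CyTh) := by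
  have h1 : MeasurePreserving (MeasurableEquiv.prodAssoc (α := ℝ) (β := ℝ × ℝ) (γ := ℝ × ℝ))
      (((volume : Measure ℝ).prod (volume : Measure (ℝ × ℝ))).prod (volume : Measure (ℝ × ℝ)))
      ((volume : Measure ℝ).prod ((volume : Measure (ℝ × ℝ)).prod (volume : Measure (ℝ × ℝ)))) := measurePreserving_prodAssoc _ _ _
  have h2 : MeasurePreserving (MeasurableEquiv.prodAssoc (α := ℝ) (β := ℝ) (γ := ℝ × ℝ))
      (((volume : Measure ℝ).prod (volume : Measure ℝ)).prod (volume : Measure (ℝ × ℝ)))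
      ((volume : Measure ℝ).prod ((volume : Measure ℝ).prod (volume : Measure (ℝ × ℝ)))) := measurePreserving_prodAssoc _ _ _
  have h3 := (MeasurePreserving.id (volume : Measure ℝ)).prod h2
  exact h3.comp h1

theorem cy_fc_SEC_re_symm (θ : CyTh) : cyFcRe.symm θ = ((θ.1, θ.2.1, θ.2.2.1), (θ.2.2.2.1, θ.2.2.2.2)) := rfl

theorem cy_fc_SEC_h3 : (volume : Measure (ℝ × ℝ × ℝ)).IsAddHaarMeasure :=
  (inferInstance : ((volume : Measure ℝ).prod (volume : Measure (ℝ × ℝ))).IsAddHaarMeasure)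

theorem cy_fc_SEC_h4 : (volume : Measure (ℝ × ℝ × ℝ × ℝ)).IsAddHaarMeasure :=
  have := cy_fc_SEC_h3
  (inferInstance : ((volume : Measure ℝ).prod (volume : Measure (ℝ × ℝ × ℝ))).IsAddHaarMeasure)

theorem cy_fc_SEC_h5 : (volume : Measure CyTh).IsAddHaarMeasure :=
  have := cy_fc_SEC_h4
  Measure.prod.instIsAddHaarMeasure (volume : Measure ℝ) (volume : Measure (ℝ × ℝ × ℝ × ℝ))

/-- shear and translation -/
theorem cy_fc_SEC_sh (w : CyV) : MeasurePreserving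
    (fun t : CyTh => ((w.1.1 + t.1, w.1.2.1 + t.2.1, w.1.2.2 + t.2.2.1 + 2 * t.1 * w.1.2.1, w.2.1 + t.2.2.2.1, w.2.2 + t.2.2.2.2) : CyTh))
    volume volume := by
  have hf : MeasurePreserving (fun t : ℝ => w.1.1 + t) volume volume := measurePreserving_add_left volume _
  have hg : ∀ a : ℝ, Measure.map (fun s : ℝ × ℝ × ℝ × ℝ => ((w.1.2.1 + s.1, w.1.2.2 + s.2.1 + 2 * a * w.1.2.1, w.2.1 + s.2.2.1, w.2.2 + s.2.2.2) : ℝ × ℝ × ℝ × ℝ))
      (volume : Measure (ℝ × ℝ × ℝ × ℝ)) = volume := by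
    intro a
    have := cy_fc_SEC_h4
    have h1 := (measurePreserving_add_left (volume : Measure (ℝ × ℝ × ℝ × ℝ)) (w.1.2.1, w.1.2.2 + 2 * a * w.1.2.1, w.2.1, w.2.2)).map_eq
    rw [← h1]
    congr 1
    funext s
    refine Prod.ext rfl (Prod.ext ?_ rfl)
    show w.1.2.2 + s.2.1 + 2 * a * w.1.2.1 = w.1.2.2 + 2 * a * w.1.2.1 + s.2.1
    ring
  have := hf.skew_product (g := fun a (s : ℝ × ℝ × ℝ × ℝ) => ((w.1.2.1 + s.1, w.1.2.2 + s.2.1 + 2 * a * w.1.2.1, w.2.1 + s.2.2.1, w.2.2 + s.2.2.2) : ℝ × ℝ × ℝ × ℝ))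
    (μc := volume) (μd := volume) (by unfold Function.uncurry; fun_prop) (Filter.Eventually.of_forall hg)
  exact this

/-- `θ ↦ cyJv ζ θ w` is the composition of the reassociation `ℝ×ℝ×ℝ×ℝ×ℝ ≃ (ℝ×ℝ×ℝ)×(ℝ×ℝ)` (volume preserving: `MeasurableEquiv.prodAssoc`, `measurePreserving_prodAssoc`-type lemmas, or Tonelli by hand),
the dilation by `ζ` in each of the five variables, the shear `θ₃ ↦ θ₃ + 2 θ₁ w₂` and a translation.
PLAN (Tonelli by hand, robust): `volume T = ∫⁻ θ₁, ∫⁻ θ₂, ∫⁻ θ₃, ∫⁻ θ₄, ∫⁻ θ₅, 1_T` (`Measure.volume_eq_prod`, `lintegral_prod`), and for a measurable `g : ℝ → ℝ≥0∞`:  `∫⁻ t, g (a + ζ * t) = ofReal ζ⁻¹ * ∫⁻ s, g s`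
(`lintegral_comp_mul_left`-type: `Measure.map_mul_left`/`Real.map_volume_mul_left`, `lintegral_add_left_eq_self`): apply it to the innermost variable five times.  Equality holds; only `≤` is asked. -/
theorem cy_fc_sec5 {ζ : ℝ} (hζ : 0 < ζ) (w : CyV) {S : Set CyV} (hS : MeasurableSet S) :
    volume {θ : CyTh | cyJv ζ θ w ∈ S} ≤ ENNReal.ofReal (ζ⁻¹ ^ 5) * volume S := by
  have := cy_fc_SEC_h5
  have hre := cy_fc_SEC_re.symm cyFcRe
  have hsh := cy_fc_SEC_sh w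
  have hcomp := hre.comp hsh
  have e1 : {θ : CyTh | cyJv ζ θ w ∈ S} = (fun θ : CyTh => ζ • θ) ⁻¹' ((cyFcRe.symm ∘ fun t : CyTh =>
      ((w.1.1 + t.1, w.1.2.1 + t.2.1, w.1.2.2 + t.2.2.1 + 2 * t.1 * w.1.2.1, w.2.1 + t.2.2.2.1, w.2.2 + t.2.2.2.2) : CyTh)) ⁻¹' S) := by
    ext θ
    rfl
  rw [e1, Measure.addHaar_preimage_smul volume hζ.ne', hcomp.measure_preimage hS.nullMeasurableSet]
  have hfr : Module.finrank ℝ CyTh = 5 := by simp
  rw [hfr, abs_of_pos (by positivity), inv_pow]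

/-- the same for the base part; `θ₄, θ₅` range over `[0,1]²` (area `1`), drop the constraints on `θ₁, θ₂, θ₃`. -/
theorem cy_fc_sec3 {ζ : ℝ} (hζ : 0 < ζ) (w : CyV) {S : Set (ℝ × ℝ × ℝ)} (hS : MeasurableSet S) :
    volume ({θ : CyTh | (cyJv ζ θ w).1 ∈ S} ∩ cyCubeN) ≤ ENNReal.ofReal (ζ⁻¹ ^ 3) * volume S := by
  have hB : MeasurableSet (Set.Icc w.2.1 (w.2.1 + ζ) ×ˢ Set.Icc w.2.2 (w.2.2 + ζ)) := measurableSet_Icc.prod measurableSet_Icc
  have h1 := cy_fc_sec5 hζ w (hS.prod hB)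
  have hsub : {θ : CyTh | (cyJv ζ θ w).1 ∈ S} ∩ cyCubeN ⊆ {θ : CyTh | cyJv ζ θ w ∈ S ×ˢ (Set.Icc w.2.1 (w.2.1 + ζ) ×ˢ Set.Icc w.2.2 (w.2.2 + ζ))} := by
    rintro θ ⟨h2, -, -, -, t4, t5⟩
    refine ⟨h2, ⟨?_, ?_⟩, ⟨?_, ?_⟩⟩
    · show w.2.1 ≤ w.2.1 + ζ * θ.2.2.2.1
      nlinarith [t4.1]
    · show w.2.1 + ζ * θ.2.2.2.1 ≤ w.2.1 + ζ
      nlinarith [t4.2]
    · show w.2.2 ≤ w.2.2 + ζ * θ.2.2.2.2
      nlinarith [t5.1]
    · show w.2.2 + ζ * θ.2.2.2.2 ≤ w.2.2 + ζ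
      nlinarith [t5.2]
  refine (measure_mono hsub).trans (h1.trans (le_of_eq ?_))
  rw [Measure.volume_eq_prod (α := ℝ × ℝ × ℝ) (β := ℝ × ℝ), Measure.prod_prod, Measure.volume_eq_prod (α := ℝ) (β := ℝ), Measure.prod_prod,
    Real.volume_Icc, Real.volume_Icc, add_sub_cancel_left, add_sub_cancel_left, mul_comm (volume S), ← mul_assoc,
    ← ENNReal.ofReal_mul hζ.le, ← ENNReal.ofReal_mul (by positivity)]
  congr 2
  field_simp

/-! ## LEAF L-256-FCR-VOL : volumes of cells -/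

theorem cy_fc_VOL_fib {α β : Type*} [MeasurableSpace α] [MeasurableSpace β] (μ : Measure α) (ν : Measure β) [SFinite ν]
    {S : Set (α × β)} (hS : MeasurableSet S) {I : Set α} (hI : MeasurableSet I) (c : ENNReal) (h1 : ∀ p ∈ S, p.1 ∈ I)
    (h2 : ∀ a, ν (Prod.mk a ⁻¹' S) ≤ c) : μ.prod ν S ≤ μ I * c := by
  rw [Measure.prod_apply hS]
  calc ∫⁻ a, ν (Prod.mk a ⁻¹' S) ∂μ ≤ ∫⁻ a, I.indicator (fun _ => c) a ∂μ := by
        refine lintegral_mono fun a => ?_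
        by_cases ha : a ∈ I
        · rw [Set.indicator_of_mem ha]
          exact h2 a
        · rw [Set.indicator_of_notMem ha]
          have : Prod.mk a ⁻¹' S = ∅ := by
            ext b
            simp only [Set.mem_preimage, Set.mem_empty_iff_false, iff_false]
            exact fun hb => ha (h1 _ hb)
          rw [this, measure_empty]
    _ = μ I * c := by
        rw [lintegral_indicator hI, lintegral_const, Measure.restrict_apply MeasurableSet.univ, Set.univ_inter, mul_comm]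

theorem cy_fc_VOL_int (a r : ℝ) : volume {t : ℝ | |t - a| ≤ r} ≤ ENNReal.ofReal (2 * r) := by
  have : {t : ℝ | |t - a| ≤ r} ⊆ Set.Icc (a - r) (a + r) := by
    intro t ht
    have ht' : |t - a| ≤ r := ht
    have := abs_le.mp ht'
    exact ⟨by linarith, by linarith⟩
  refine (measure_mono this).trans (le_of_eq ?_)
  rw [Real.volume_Icc]
  congr 1
  ring

/-- PLAN: Tonelli in the order `u₁, u₂, u₃`: for fixed `u₁, u₂` the section in `u₃` is an interval of length `2 r²` (`Real.volume_Icc`, `abs_sub_le_iff`); `u₁`, `u₂` range over intervals of length `2r`. -/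
theorem cy_fc_vol3 (q : CyT) (hr : 0 ≤ q.r) : volume (cyCb q) ≤ ENNReal.ofReal (8 * q.r ^ 4) := by
  have hA : MeasurableSet {v : ℝ × ℝ | |v.1 - q.b| ≤ q.r ∧ |v.2 - q.y - 2 * q.x * (v.1 - q.b)| ≤ q.r ^ 2} := by
    simp only [Set.ofPred_and]
    refine MeasurableSet.inter ?_ ?_ <;> exact measurableSet_le (by fun_prop) measurable_const
  have hI : ∀ a : ℝ, MeasurableSet {t : ℝ | |t - a| ≤ q.r} := fun a => measurableSet_le (by fun_prop) measurable_const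
  have h2 : (volume : Measure (ℝ × ℝ)) {v : ℝ × ℝ | |v.1 - q.b| ≤ q.r ∧ |v.2 - q.y - 2 * q.x * (v.1 - q.b)| ≤ q.r ^ 2}
      ≤ ENNReal.ofReal (2 * q.r) * ENNReal.ofReal (2 * q.r ^ 2) := by
    rw [Measure.volume_eq_prod]
    refine (cy_fc_VOL_fib volume volume hA (hI q.b) (ENNReal.ofReal (2 * q.r ^ 2)) (fun p hp => hp.1) (fun a => ?_)).trans
      (mul_le_mul_left (cy_fc_VOL_int _ _) _)
    refine (measure_mono ?_).trans (cy_fc_VOL_int (q.y + 2 * q.x * (a - q.b)) (q.r ^ 2))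
    intro t ht
    have h3 : |t - q.y - 2 * q.x * (a - q.b)| ≤ q.r ^ 2 := ht.2
    show |t - (q.y + 2 * q.x * (a - q.b))| ≤ q.r ^ 2
    rwa [sub_add_eq_sub_sub]
  have h3 : (volume : Measure (ℝ × ℝ × ℝ)) (cyCb q) ≤ ENNReal.ofReal (2 * q.r) * (ENNReal.ofReal (2 * q.r) * ENNReal.ofReal (2 * q.r ^ 2)) := by
    rw [Measure.volume_eq_prod]
    refine (cy_fc_VOL_fib volume volume (cy_fc_meas_cb q) (hI q.x) _ (fun p hp => hp.1) (fun a => ?_)).trans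
      (mul_le_mul_left (cy_fc_VOL_int _ _) _)
    refine (measure_mono ?_).trans h2
    intro v hv
    exact hv.2
  refine h3.trans (le_of_eq ?_)
  rw [← ENNReal.ofReal_mul (by positivity), ← ENNReal.ofReal_mul (by positivity)]
  congr 1
  ring

/-- PLAN: `volume` on `CyV` is the product; for a fixed base point `u ∈ cyCb q` the section in `(w₄, w₅)` is a product of two intervals of length `2f`; off `cyCb q` it is empty.  `Measure.prod_apply`, `cy_fc_vol3`. -/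
theorem cy_fc_vol5 (q : CyT) (hr : 0 ≤ q.r) (hf : 0 ≤ q.f) : volume (cyCv q) ≤ ENNReal.ofReal (32 * q.r ^ 4 * q.f ^ 2) := by
  have h3 : (volume : Measure CyV) (cyCv q) ≤ volume (cyCb q) * (ENNReal.ofReal (2 * q.f) * ENNReal.ofReal (2 * q.f)) := by
    rw [Measure.volume_eq_prod]
    refine cy_fc_VOL_fib volume volume (cy_fc_meas_cv q) (cy_fc_meas_cb q) _ (fun p hp => ?_) (fun u => ?_)
    · obtain ⟨b1, b2, b3, -⟩ := hp
      have b2' : |p.1.2.1 - q.b| ≤ 1 * q.r := b2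
      have b3' : |p.1.2.2 - q.y - 2 * q.x * (p.1.2.1 - q.b)| ≤ 1 * q.r ^ 2 := b3
      rw [one_mul] at b2' b3'
      exact ⟨b1, b2', b3'⟩
    have hsub : Prod.mk u ⁻¹' cyCv q ⊆
        {t : ℝ | |t - (q.c + q.al * u.1 + q.be * u.1 ^ 2 + q.K * (u.2.2 - 2 * u.1 * u.2.1))| ≤ q.f} ×ˢ
        {t : ℝ | |t - (q.d + q.al * u.2.1 + q.be * u.2.2 - q.K * u.2.1 ^ 2)| ≤ q.f} := by
      intro v hv
      obtain ⟨-, -, -, v4, v5⟩ := hv
      have v4' : |v.1 - q.c - q.al * u.1 - q.be * u.1 ^ 2 - q.K * (u.2.2 - 2 * u.1 * u.2.1)| ≤ q.f := v4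
      have v5' : |v.2 - q.d - q.al * u.2.1 - q.be * u.2.2 + q.K * u.2.1 ^ 2| ≤ 1 * q.f := v5
      refine ⟨?_, ?_⟩
      · show |v.1 - (q.c + q.al * u.1 + q.be * u.1 ^ 2 + q.K * (u.2.2 - 2 * u.1 * u.2.1))| ≤ q.f
        refine le_trans (le_of_eq ?_) v4'
        congr 1
        ring
      · show |v.2 - (q.d + q.al * u.2.1 + q.be * u.2.2 - q.K * u.2.1 ^ 2)| ≤ q.f
        rw [one_mul] at v5'
        refine le_trans (le_of_eq ?_) v5'
        congr 1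
        ring
    refine (measure_mono hsub).trans ?_
    rw [Measure.volume_eq_prod, Measure.prod_prod]
    exact mul_le_mul' (cy_fc_VOL_int _ _) (cy_fc_VOL_int _ _)
  refine h3.trans ((mul_le_mul_left (cy_fc_vol3 q hr) _).trans (le_of_eq ?_))
  rw [← ENNReal.ofReal_mul (by positivity), ← ENNReal.ofReal_mul (by positivity)]
  congr 1
  ring

/-! ## LEAF L-256-FCR-SUB : the sublevel estimate in the box -/

theorem cy_fc_SUB_fib {α β : Type*} [MeasurableSpace α] [MeasurableSpace β] (μ : Measure α) (ν : Measure β) [SFinite μ] [SFinite ν]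
    {S : Set (α × β)} (hS : MeasurableSet S) {I : Set β} (hI : MeasurableSet I) (c : ENNReal) (h1 : ∀ p ∈ S, p.2 ∈ I)
    (h2 : ∀ b, μ ((fun a => (a, b)) ⁻¹' S) ≤ c) : μ.prod ν S ≤ c * ν I := by
  rw [Measure.prod_apply_symm hS]
  calc ∫⁻ b, μ ((fun a => (a, b)) ⁻¹' S) ∂ν ≤ ∫⁻ b, I.indicator (fun _ => c) b ∂ν := by
        refine lintegral_mono fun b => ?_
        by_cases hb : b ∈ I
        · rw [Set.indicator_of_mem hb]
          exact h2 b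
        · rw [Set.indicator_of_notMem hb]
          have : (fun a => (a, b)) ⁻¹' S = ∅ := by
            ext a
            simp only [Set.mem_preimage, Set.mem_empty_iff_false, iff_false]
            exact fun ha => hb (h1 _ ha)
          rw [this, measure_empty]
    _ = c * ν I := by
        rw [lintegral_indicator hI, lintegral_const, Measure.restrict_apply MeasurableSet.univ, Set.univ_inter]

/-- anisotropic dilation of `ℝ³` -/
theorem cy_fc_SUB_dil {a b c : ℝ} (ha : 0 < a) (hb : 0 < b) (hc : 0 < c) {S : Set (ℝ × ℝ × ℝ)} (hS : MeasurableSet S) :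
    volume S = ENNReal.ofReal (a * b * c) * volume {v : ℝ × ℝ × ℝ | (a * v.1, b * v.2.1, c * v.2.2) ∈ S} := by
  have hm : ∀ t : ℝ, Measurable fun x : ℝ => t * x := fun t => measurable_const_mul t
  have hD : Measurable (Prod.map (fun x : ℝ => a * x) (Prod.map (fun x : ℝ => b * x) (fun x : ℝ => c * x))) :=
    (hm a).prodMap ((hm b).prodMap (hm c))
  have h1 : Measure.map (Prod.map (fun x : ℝ => a * x) (Prod.map (fun x : ℝ => b * x) (fun x : ℝ => c * x))) (volume : Measure (ℝ × ℝ × ℝ))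
      = (ENNReal.ofReal |a⁻¹| * (ENNReal.ofReal |b⁻¹| * ENNReal.ofReal |c⁻¹|)) • (volume : Measure (ℝ × ℝ × ℝ)) := by
    rw [Measure.volume_eq_prod ℝ (ℝ × ℝ), Measure.volume_eq_prod ℝ ℝ, ← Measure.map_prod_map _ _ (hm a) ((hm b).prodMap (hm c)),
      ← Measure.map_prod_map _ _ (hm b) (hm c), Real.map_volume_mul_left ha.ne', Real.map_volume_mul_left hb.ne',
      Real.map_volume_mul_left hc.ne']
    simp only [Measure.prod_smul_left, Measure.prod_smul_right, smul_smul]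
    congr 1
    ring
  have h2 : volume {v : ℝ × ℝ × ℝ | (a * v.1, b * v.2.1, c * v.2.2) ∈ S}
      = (ENNReal.ofReal |a⁻¹| * (ENNReal.ofReal |b⁻¹| * ENNReal.ofReal |c⁻¹|)) * volume S := by
    have h3 := congrArg (fun μ : Measure (ℝ × ℝ × ℝ) => μ S) h1
    simp only [Measure.smul_apply, smul_eq_mul] at h3
    rw [← h3, Measure.map_apply hD hS]
    rfl
  rw [h2, ← mul_assoc, abs_of_pos (inv_pos.mpr ha), abs_of_pos (inv_pos.mpr hb), abs_of_pos (inv_pos.mpr hc),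
    ← ENNReal.ofReal_mul (by positivity), ← ENNReal.ofReal_mul (by positivity), ← ENNReal.ofReal_mul (by positivity)]
  have : a * b * c * (a⁻¹ * (b⁻¹ * c⁻¹)) = 1 := by field_simp
  rw [this, ENNReal.ofReal_one, one_mul]

/-- the base section: sublevel set in the box of size `2` -/
theorem cy_fc_SUB_base {C : ℝ} (hC : ∀ (c al be K ρ : ℝ), 0 < ρ → 0 < max |c| (max |al| (max |be| |K|)) →
      volume {u : ℝ × ℝ × ℝ | |u.1| ≤ 1 ∧ |u.2.1| ≤ 1 ∧ |u.2.2| ≤ 1 ∧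
        |c + al * u.1 + be * u.1 ^ 2 + K * (u.2.2 - 2 * u.1 * u.2.1)| ≤ ρ * max |c| (max |al| (max |be| |K|))} ≤ ENNReal.ofReal (C * ρ ^ (1 / 4 : ℝ)))
    (c al be K f ρ3 : ℝ) (h3 : 0 < ρ3) (hf : f ≤ 1) (hbig : ρ3⁻¹ < max |al| (max |be| |K|)) :
    volume {u : ℝ × ℝ × ℝ | |u.1| ≤ 2 ∧ |u.2.1| ≤ 2 ∧ |u.2.2| ≤ 2 ∧ |c + al * u.1 + be * u.1 ^ 2 + K * (u.2.2 - 2 * u.1 * u.2.1)| ≤ f}
      ≤ ENNReal.ofReal (16 * max C 0 * ρ3 ^ (1 / 4 : ℝ)) := by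
  have hA : MeasurableSet {u : ℝ × ℝ × ℝ | |u.1| ≤ 2 ∧ |u.2.1| ≤ 2 ∧ |u.2.2| ≤ 2 ∧
      |c + al * u.1 + be * u.1 ^ 2 + K * (u.2.2 - 2 * u.1 * u.2.1)| ≤ f} := by
    simp only [Set.ofPred_and]
    refine MeasurableSet.inter ?_ (MeasurableSet.inter ?_ (MeasurableSet.inter ?_ ?_)) <;>
      exact measurableSet_le (by fun_prop) measurable_const
  set m : ℝ := max |c| (max |2 * al| (max |4 * be| |4 * K|)) with hm
  have hi3 : 0 < ρ3⁻¹ := inv_pos.mpr h3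
  have hmbig : ρ3⁻¹ < m := by
    refine lt_of_lt_of_le hbig (max_le ?_ (max_le ?_ ?_))
    · refine le_trans ?_ ((le_max_left _ _).trans (le_max_right _ _))
      rw [abs_mul, abs_two]
      linarith [abs_nonneg al]
    · refine le_trans ?_ ((le_max_left _ _).trans ((le_max_right _ _).trans (le_max_right _ _)))
      rw [abs_mul, abs_of_pos (by norm_num : (0 : ℝ) < 4)]
      linarith [abs_nonneg be]
    · refine le_trans ?_ ((le_max_right _ _).trans ((le_max_right _ _).trans (le_max_right _ _)))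
      rw [abs_mul, abs_of_pos (by norm_num : (0 : ℝ) < 4)]
      linarith [abs_nonneg K]
  have hm0 : 0 < m := hi3.trans hmbig
  have hρ : m⁻¹ < ρ3 := by
    rw [inv_lt_comm₀ hm0 h3]
    exact hmbig
  have h1 := hC c (2 * al) (4 * be) (4 * K) m⁻¹ (inv_pos.mpr hm0) hm0
  rw [inv_mul_cancel₀ hm0.ne'] at h1
  rw [cy_fc_SUB_dil (a := 2) (b := 2) (c := 4) (by norm_num) (by norm_num) (by norm_num) hA]
  have hsub : {v : ℝ × ℝ × ℝ | ((2 * v.1, 2 * v.2.1, 4 * v.2.2) : ℝ × ℝ × ℝ) ∈ {u : ℝ × ℝ × ℝ | |u.1| ≤ 2 ∧ |u.2.1| ≤ 2 ∧ |u.2.2| ≤ 2 ∧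
      |c + al * u.1 + be * u.1 ^ 2 + K * (u.2.2 - 2 * u.1 * u.2.1)| ≤ f}} ⊆
      {u : ℝ × ℝ × ℝ | |u.1| ≤ 1 ∧ |u.2.1| ≤ 1 ∧ |u.2.2| ≤ 1 ∧
        |c + 2 * al * u.1 + 4 * be * u.1 ^ 2 + 4 * K * (u.2.2 - 2 * u.1 * u.2.1)| ≤ 1} := by
    rintro v ⟨v1, v2, v3, v4⟩
    have v1' : |2 * v.1| ≤ 2 := v1
    have v2' : |2 * v.2.1| ≤ 2 := v2
    have v3' : |4 * v.2.2| ≤ 2 := v3
    have v4' : |c + al * (2 * v.1) + be * (2 * v.1) ^ 2 + K * (4 * v.2.2 - 2 * (2 * v.1) * (2 * v.2.1))| ≤ f := v4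
    rw [abs_mul, abs_two] at v1' v2'
    rw [abs_mul, abs_of_pos (by norm_num : (0 : ℝ) < 4)] at v3'
    refine ⟨by linarith, by linarith, by linarith, ?_⟩
    refine le_trans (le_of_eq ?_) (v4'.trans hf)
    congr 1
    ring
  have h2 : ENNReal.ofReal (C * m⁻¹ ^ (1 / 4 : ℝ)) ≤ ENNReal.ofReal (max C 0 * ρ3 ^ (1 / 4 : ℝ)) := by
    apply ENNReal.ofReal_le_ofReal
    have e1 : m⁻¹ ^ (1 / 4 : ℝ) ≤ ρ3 ^ (1 / 4 : ℝ) := Real.rpow_le_rpow (inv_pos.mpr hm0).le hρ.le (by norm_num)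
    have e2 : 0 ≤ m⁻¹ ^ (1 / 4 : ℝ) := Real.rpow_nonneg (inv_pos.mpr hm0).le _
    calc C * m⁻¹ ^ (1 / 4 : ℝ) ≤ max C 0 * m⁻¹ ^ (1 / 4 : ℝ) := mul_le_mul_of_nonneg_right (le_max_left _ _) e2
      _ ≤ max C 0 * ρ3 ^ (1 / 4 : ℝ) := mul_le_mul_of_nonneg_left e1 (le_max_right _ _)
  calc ENNReal.ofReal (2 * 2 * 4) * volume {v : ℝ × ℝ × ℝ | ((2 * v.1, 2 * v.2.1, 4 * v.2.2) : ℝ × ℝ × ℝ) ∈
        {u : ℝ × ℝ × ℝ | |u.1| ≤ 2 ∧ |u.2.1| ≤ 2 ∧ |u.2.2| ≤ 2 ∧ |c + al * u.1 + be * u.1 ^ 2 + K * (u.2.2 - 2 * u.1 * u.2.1)| ≤ f}}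
      ≤ ENNReal.ofReal (2 * 2 * 4) * ENNReal.ofReal (max C 0 * ρ3 ^ (1 / 4 : ℝ)) :=
        mul_le_mul_right (((measure_mono hsub).trans h1).trans h2) _
    _ = ENNReal.ofReal (16 * max C 0 * ρ3 ^ (1 / 4 : ℝ)) := by
        rw [← ENNReal.ofReal_mul (by norm_num)]
        congr 1
        ring

/-- **big coefficients**.   PLAN.  Let `C` be the constant of `cy_sub_vel` (`Cyl/Alg.lean`), `Cs = 16 * max C 0`.   For fixed `(w₄, w₅)` with `|w₄|, |w₅| ≤ Λ + 1` the base section is contained in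
`{u | |u₁|,|u₂|,|u₃| ≤ 2, |c' + al u₁ + be u₁² + K (u₃ - 2 u₁ u₂)| ≤ f}`, `c' = c - w₄` (up to the sign: `cyVel`).   Heisenberg dilation `u = (2v₁, 2v₂, 4v₃)` (Jacobian `16`; `|v_i| ≤ 1`): the polynomial becomes
`c' + 2al v₁ + 4be v₁² + 4K (v₃ - 2v₁v₂)`; its largest coefficient `m ≥ max |al| |be| |K| > 1/ρ3`; `f ≤ 1 = (1/m) m`, `1/m < ρ3`: `cy_sub_vel` with `ρ = 1/m` gives volume `≤ C (1/m)^(1/4) ≤ C ρ3^(1/4)`.
The set of `(w₄,w₅)` has area `(2Λ+2)² ≤ (2Λ+4)²`.   Tonelli (`Measure.prod_apply_symm` or `lintegral_prod_symm`). -/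
theorem cy_fc_sub : ∃ Cs : ℝ, 0 ≤ Cs ∧ ∀ (q : CyT) (Λ ρ3 : ℝ), 0 ≤ Λ → 0 < ρ3 → q.f ≤ 1 → ρ3⁻¹ < max |q.al| (max |q.be| |q.K|) →
    volume (cyCv q ∩ {w | cyBs w ≤ 2} ∩ {w | cyNs w ≤ Λ + 1}) ≤ ENNReal.ofReal (Cs * (2 * Λ + 4) ^ 2 * ρ3 ^ (1 / 4 : ℝ)) := by
  obtain ⟨C, hC⟩ := cy_sub_vel
  refine ⟨16 * max C 0, by positivity, fun q Λ ρ3 hΛ h3 hf hbig => ?_⟩
  have hW : MeasurableSet (cyCv q ∩ {w | cyBs w ≤ 2} ∩ {w | cyNs w ≤ Λ + 1}) :=
    ((cy_fc_meas_cv q).inter (measurableSet_le cy_fc_meas_bs measurable_const)).inter (measurableSet_le cy_fc_meas_ns measurable_const)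
  have hI : MeasurableSet ({t : ℝ | |t - 0| ≤ Λ + 1} ×ˢ {t : ℝ | |t - 0| ≤ Λ + 1}) :=
    (measurableSet_le (by fun_prop) measurable_const).prod (measurableSet_le (by fun_prop) measurable_const)
  have hp : 0 ≤ ρ3 ^ (1 / 4 : ℝ) := Real.rpow_nonneg h3.le _
  have h1 : (volume : Measure CyV) (cyCv q ∩ {w | cyBs w ≤ 2} ∩ {w | cyNs w ≤ Λ + 1})
      ≤ ENNReal.ofReal (16 * max C 0 * ρ3 ^ (1 / 4 : ℝ)) * volume ({t : ℝ | |t - 0| ≤ Λ + 1} ×ˢ {t : ℝ | |t - 0| ≤ Λ + 1}) := by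
    rw [Measure.volume_eq_prod (ℝ × ℝ × ℝ) (ℝ × ℝ)]
    refine cy_fc_SUB_fib volume volume hW hI _ (fun p hp => ?_) (fun v => ?_)
    · have h2 : cyNs p ≤ Λ + 1 := hp.2
      refine ⟨?_, ?_⟩
      · show |p.2.1 - 0| ≤ Λ + 1
        rw [sub_zero]
        exact (le_max_left _ _).trans h2
      · show |p.2.2 - 0| ≤ Λ + 1
        rw [sub_zero]
        exact (le_max_right _ _).trans h2
    · refine (measure_mono ?_).trans (cy_fc_SUB_base hC (q.c - v.1) q.al q.be q.K q.f ρ3 h3 hf hbig)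
      rintro u ⟨⟨⟨-, -, -, u4, -⟩, ub⟩, -⟩
      have ub' : cyBs (u, v) ≤ 2 := ub
      have u4' : |v.1 - q.c - q.al * u.1 - q.be * u.1 ^ 2 - q.K * (u.2.2 - 2 * u.1 * u.2.1)| ≤ q.f := u4
      refine ⟨(le_max_left _ _).trans ub', (le_max_left _ _).trans ((le_max_right _ _).trans ub'),
        (le_max_right _ _).trans ((le_max_right _ _).trans ub'), ?_⟩
      rw [← abs_neg] at u4'
      refine le_trans (le_of_eq ?_) u4'
      congr 1
      ring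
  refine h1.trans ?_
  rw [Measure.volume_eq_prod ℝ ℝ, Measure.prod_prod]
  calc ENNReal.ofReal (16 * max C 0 * ρ3 ^ (1 / 4 : ℝ)) * (volume {t : ℝ | |t - 0| ≤ Λ + 1} * volume {t : ℝ | |t - 0| ≤ Λ + 1})
      ≤ ENNReal.ofReal (16 * max C 0 * ρ3 ^ (1 / 4 : ℝ)) * (ENNReal.ofReal (2 * (Λ + 1)) * ENNReal.ofReal (2 * (Λ + 1))) :=
        mul_le_mul_right (mul_le_mul' (cy_fc_VOL_int _ _) (cy_fc_VOL_int _ _)) _
    _ = ENNReal.ofReal (16 * max C 0 * ρ3 ^ (1 / 4 : ℝ) * (2 * (Λ + 1) * (2 * (Λ + 1)))) := by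
        rw [← ENNReal.ofReal_mul (by positivity), ← ENNReal.ofReal_mul (by positivity)]
    _ ≤ ENNReal.ofReal (16 * max C 0 * (2 * Λ + 4) ^ 2 * ρ3 ^ (1 / 4 : ℝ)) := by
        apply ENNReal.ofReal_le_ofReal
        have e1 : 2 * (Λ + 1) * (2 * (Λ + 1)) ≤ (2 * Λ + 4) ^ 2 := by nlinarith
        have e2 : 0 ≤ 16 * max C 0 * ρ3 ^ (1 / 4 : ℝ) := by positivity
        calc 16 * max C 0 * ρ3 ^ (1 / 4 : ℝ) * (2 * (Λ + 1) * (2 * (Λ + 1))) ≤ 16 * max C 0 * ρ3 ^ (1 / 4 : ℝ) * (2 * Λ + 4) ^ 2 :=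
              mul_le_mul_of_nonneg_left e1 e2
          _ = 16 * max C 0 * (2 * Λ + 4) ^ 2 * ρ3 ^ (1 / 4 : ℝ) := by ring

/-! ## LEAF L-256-FCR-GEO : elementary geometry of normalised tests -/

/-- **pull-back**: unfold everything (`cyCv`, `cyIn`, `cyTilt`, `cyVel`, `cyPos`, `cyOfV`, `cyJv`, `cyPull`); each of the five quantities inside `|·|` is EQUAL on both sides (`ring_nf` / `congr 1; ring`). -/
theorem cy_fc_pull (ζ : ℝ) (θ : CyTh) (q : CyT) (w : CyV) : cyJv ζ θ w ∈ cyCv q ↔ w ∈ cyCv (cyPull ζ θ q) := by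
  unfold cyCv cyIn cyTilt cyVel cyPos cyOfV cyJv cyPull
  simp only [Set.mem_ofPred_eq]
  refine and_congr ?_ (and_congr ?_ (and_congr ?_ (and_congr ?_ ?_))) <;>
  · refine Eq.to_iff ?_
    congr 2
    ring

theorem cy_fc_pull_wt (η ζ : ℝ) (θ : CyTh) (q : CyT) : cyWt η (cyPull ζ θ q) = cyWt η q := rfl

/-- `|al + 2 be ζθ₁ - 2 K ζθ₂| ≤ (1 + 4ζ)/ρ3 ≤ 3/ρ3 ≤ 1/ρ1`. -/
theorem cy_fc_pull_tr {ζ ρ1 ρ2 ρ3 h0 : ℝ} (hζ0 : 0 ≤ ζ) (hζ : ζ ≤ 1 / 3) (h1 : 0 < ρ1) (h12 : ρ1 ≤ ρ2) (h13 : 3 * ρ1 ≤ ρ3) {θ : CyTh} (hθ : θ ∈ cyCubeN)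
    {q : CyT} (hr : ρ2 ≤ q.r) (hr1 : q.r ≤ 1) (hf : ρ2 ≤ q.f) (hf1 : q.f ≤ 1) (hh : h0 ≤ q.f)
    (hc : max |q.al| (max |q.be| |q.K|) ≤ ρ3⁻¹) : CyTrN ρ1 h0 (cyPull ζ θ q) := by
  have h3 : 0 < ρ3 := by linarith
  have ha : |q.al| ≤ ρ3⁻¹ := (le_max_left _ _).trans hc
  have hb : |q.be| ≤ ρ3⁻¹ := (le_max_left _ _).trans ((le_max_right _ _).trans hc)
  have hk : |q.K| ≤ ρ3⁻¹ := (le_max_right _ _).trans ((le_max_right _ _).trans hc)
  have h31 : 3 * ρ3⁻¹ ≤ ρ1⁻¹ := by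
    rw [← div_eq_mul_inv, div_le_iff₀ h3, ← div_eq_inv_mul, le_div_iff₀ h1]
    exact h13
  have hi3 : 0 < ρ3⁻¹ := inv_pos.mpr h3
  obtain ⟨t1, t2, -⟩ := hθ
  have t1' : |ζ * θ.1| ≤ 1 / 3 := by
    rw [abs_of_nonneg (mul_nonneg hζ0 t1.1)]
    nlinarith [t1.1, t1.2]
  have t2' : |ζ * θ.2.1| ≤ 1 / 3 := by
    rw [abs_of_nonneg (mul_nonneg hζ0 t2.1)]
    nlinarith [t2.1, t2.2]
  refine ⟨h12.trans hr, hr1, h12.trans hf, hf1, hh, ?_, hb.trans (by linarith), hk.trans (by linarith)⟩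
  show |q.al + 2 * q.be * (ζ * θ.1) - 2 * q.K * (ζ * θ.2.1)| ≤ ρ1⁻¹
  have e1 : |2 * q.be * (ζ * θ.1)| ≤ 2 * ρ3⁻¹ * (1 / 3) := by
    rw [abs_mul, abs_mul, abs_two]
    exact mul_le_mul (by linarith) t1' (abs_nonneg _) (by positivity)
  have e2 : |2 * q.K * (ζ * θ.2.1)| ≤ 2 * ρ3⁻¹ * (1 / 3) := by
    rw [abs_mul, abs_mul, abs_two]
    exact mul_le_mul (by linarith) t2' (abs_nonneg _) (by positivity)
  have e3 := abs_sub (q.al + 2 * q.be * (ζ * θ.1)) (2 * q.K * (ζ * θ.2.1))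
  have e4 := abs_add_le q.al (2 * q.be * (ζ * θ.1))
  linarith

/-- `|w₁ + ζθ₁| ≤ |w₁| + ζ`, `|w₃ + ζθ₃ + 2ζθ₁w₂| ≤ |w₃| + ζ + 2ζ|w₂|`: if `cyBs w ≤ 1` then `cyBs (cyJv ζ θ w) ≤ 1 + 3ζ ≤ 2`. -/
theorem cy_fc_bs_jv {ζ : ℝ} (hζ0 : 0 ≤ ζ) (hζ : ζ ≤ 1 / 3) {θ : CyTh} (hθ : θ ∈ cyCubeN) {w : CyV} (h : 2 < cyBs (cyJv ζ θ w)) : 1 < cyBs w := by
  by_contra hcon
  rw [not_lt] at hcon
  have w1 : |w.1.1| ≤ 1 := (le_max_left _ _).trans hcon
  have w2 : |w.1.2.1| ≤ 1 := (le_max_left _ _).trans ((le_max_right _ _).trans hcon)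
  have w3 : |w.1.2.2| ≤ 1 := (le_max_right _ _).trans ((le_max_right _ _).trans hcon)
  obtain ⟨t1, t2, t3, -⟩ := hθ
  have s1 : |ζ * θ.1| ≤ 1 / 3 := by
    rw [abs_of_nonneg (mul_nonneg hζ0 t1.1)]
    nlinarith [t1.1, t1.2]
  have s2 : |ζ * θ.2.1| ≤ 1 / 3 := by
    rw [abs_of_nonneg (mul_nonneg hζ0 t2.1)]
    nlinarith [t2.1, t2.2]
  have s3 : |ζ * θ.2.2.1| ≤ 1 / 3 := by
    rw [abs_of_nonneg (mul_nonneg hζ0 t3.1)]
    nlinarith [t3.1, t3.2]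
  have : cyBs (cyJv ζ θ w) ≤ 2 := by
    unfold cyBs cyJv
    refine max_le ?_ (max_le ?_ ?_)
    · exact (abs_add_le _ _).trans (by linarith)
    · exact (abs_add_le _ _).trans (by linarith)
    · refine (abs_add_three _ _ _).trans ?_
      have e1 : |2 * (ζ * θ.1) * w.1.2.1| ≤ 2 * (1 / 3) * 1 := by
        rw [abs_mul, abs_mul, abs_two]
        exact mul_le_mul (by linarith) w2 (abs_nonneg _) (by norm_num)
      linarith
  linarith

theorem cy_fc_ns_jv {ζ Λ : ℝ} (hζ0 : 0 ≤ ζ) (hζ : ζ ≤ 1) {θ : CyTh} (hθ : θ ∈ cyCubeN) {w : CyV} (h : Λ + 1 < cyNs (cyJv ζ θ w)) : Λ < cyNs w := by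
  by_contra hcon
  rw [not_lt] at hcon
  have w1 : |w.2.1| ≤ Λ := (le_max_left _ _).trans hcon
  have w2 : |w.2.2| ≤ Λ := (le_max_right _ _).trans hcon
  obtain ⟨-, -, -, t4, t5⟩ := hθ
  have s1 : |ζ * θ.2.2.2.1| ≤ 1 := by
    rw [abs_of_nonneg (mul_nonneg hζ0 t4.1)]
    nlinarith [t4.1, t4.2]
  have s2 : |ζ * θ.2.2.2.2| ≤ 1 := by
    rw [abs_of_nonneg (mul_nonneg hζ0 t5.1)]
    nlinarith [t5.1, t5.2]
  have : cyNs (cyJv ζ θ w) ≤ Λ + 1 := by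
    unfold cyNs cyJv
    refine max_le ?_ ?_
    · exact (abs_add_le _ _).trans (by linarith)
    · exact (abs_add_le _ _).trans (by linarith)
  linarith

/-- centres `-Λ + 1 + 2j`, `0 ≤ j < ⌈Λ⌉₊ + 1` (or `⌊Λ⌋₊ + 1`). -/
theorem cy_fc_cov1 {Λ : ℝ} (hΛ : 0 ≤ Λ) : ∃ F : Finset ℝ, (F.card : ℝ) ≤ Λ + 2 ∧ ∀ t : ℝ, |t| ≤ Λ → ∃ c ∈ F, |t - c| ≤ 1 := by
  classical
  refine ⟨(Finset.range (⌊Λ⌋₊ + 1)).image (fun j : ℕ => -Λ + 1 + 2 * (j : ℝ)), ?_, ?_⟩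
  · have h1 : (((Finset.range (⌊Λ⌋₊ + 1)).image (fun j : ℕ => -Λ + 1 + 2 * (j : ℝ))).card : ℝ) ≤ ((⌊Λ⌋₊ + 1 : ℕ) : ℝ) := by
      have := Finset.card_image_le (s := Finset.range (⌊Λ⌋₊ + 1)) (f := fun j : ℕ => -Λ + 1 + 2 * (j : ℝ))
      rw [Finset.card_range] at this
      exact_mod_cast this
    have h2 := Nat.floor_le hΛ
    push_cast at h1
    linarith
  · intro t ht
    have ht' := abs_le.mp ht
    have h0 : 0 ≤ (t + Λ) / 2 := by linarith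
    refine ⟨-Λ + 1 + 2 * ((⌊(t + Λ) / 2⌋₊ : ℕ) : ℝ), Finset.mem_image.mpr ⟨⌊(t + Λ) / 2⌋₊, ?_, rfl⟩, ?_⟩
    · rw [Finset.mem_range, Nat.lt_succ_iff]
      exact Nat.floor_le_floor (by linarith)
    · have h1 := Nat.floor_le h0
      have h2 := Nat.lt_floor_add_one ((t + Λ) / 2)
      rw [abs_le]; constructor <;> linarith

/-- the cylinder over the base cell is covered by flat tests -/
theorem cy_fc_cov_flat {Λ : ℝ} {F : Finset ℝ} (hF : ∀ t : ℝ, |t| ≤ Λ → ∃ c ∈ F, |t - c| ≤ 1) (q : CyT) {w : CyV} (hb : w.1 ∈ cyCb q) (hn : cyNs w ≤ Λ) :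
    ∃ c ∈ F, ∃ d ∈ F, w ∈ cyCv (cyFlat q c d) := by
  obtain ⟨c, hc, hc1⟩ := hF w.2.1 ((le_max_left _ _).trans hn)
  obtain ⟨d, hd, hd1⟩ := hF w.2.2 ((le_max_right _ _).trans hn)
  obtain ⟨b1, b2, b3⟩ := hb
  refine ⟨c, hc, d, hd, b1, ?_, ?_, ?_, ?_⟩
  · show |w.1.2.1 - q.b| ≤ 1 * q.r
    rw [one_mul]; exact b2
  · show |w.1.2.2 - q.y - 2 * q.x * (w.1.2.1 - q.b)| ≤ 1 * q.r ^ 2
    rw [one_mul]; exact b3
  · show |w.2.1 - c - 0 * w.1.1 - 0 * w.1.1 ^ 2 - 0 * (w.1.2.2 - 2 * w.1.1 * w.1.2.1)| ≤ 1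
    simpa using hc1
  · show |w.2.2 - d - 0 * w.1.2.1 - 0 * w.1.2.2 + 0 * w.1.2.1 ^ 2| ≤ 1 * 1
    simpa using hd1

theorem cy_fc_cv_base {q : CyT} {w : CyV} (h : w ∈ cyCv q) : w.1 ∈ cyCb q := by
  obtain ⟨b1, b2, b3, -⟩ := h
  refine ⟨b1, ?_, ?_⟩
  · have : |w.1.2.1 - q.b| ≤ 1 * q.r := b2
    rwa [one_mul] at this
  · have : |w.1.2.2 - q.y - 2 * q.x * (w.1.2.1 - q.b)| ≤ 1 * q.r ^ 2 := b3
    rwa [one_mul] at this

theorem cy_fc_GEO_pm (t : ℝ) (h : |t| ≤ 2) : ∃ c ∈ ({-1, 1} : Finset ℝ), |t - c| ≤ 1 := by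
  have h' := abs_le.mp h
  rcases le_total t 0 with h0 | h0
  · exact ⟨-1, by simp, by rw [abs_le]; constructor <;> linarith⟩
  · exact ⟨1, by simp, by rw [abs_le]; constructor <;> linarith⟩

theorem cy_fc_GEO_pm4 (t : ℝ) (h : |t| ≤ 4) : ∃ c ∈ ({-3, -1, 1, 3} : Finset ℝ), |t - c| ≤ 1 := by
  have h' := abs_le.mp h
  rcases le_total t 0 with h0 | h0
  · rcases le_total t (-2) with h1 | h1
    · exact ⟨-3, by simp, by rw [abs_le]; constructor <;> linarith⟩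
    · exact ⟨-1, by simp, by rw [abs_le]; constructor <;> linarith⟩
  · rcases le_total t 2 with h1 | h1
    · exact ⟨1, by simp, by rw [abs_le]; constructor <;> linarith⟩
    · exact ⟨3, by simp, by rw [abs_le]; constructor <;> linarith⟩

/-- `x, b ∈ {-1, 1}`, `y ∈ {-3, -1, 1, 3}`:  `|u₃ - 2x(u₂ - b)| ≤ 2 + 2 = 4`.   The normal conditions do not change. -/
theorem cy_fc_cov_base : ∃ F : Finset (ℝ × ℝ × ℝ), F.card ≤ 16 ∧ ∀ (q : CyT) (w : CyV), w ∈ cyCv q → cyBs w ≤ 2 →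
    ∃ a ∈ F, w ∈ cyCv (cyUnitB q a.1 a.2.1 a.2.2) := by
  classical
  refine ⟨({-1, 1} : Finset ℝ) ×ˢ ({-1, 1} : Finset ℝ) ×ˢ ({-3, -1, 1, 3} : Finset ℝ), ?_, ?_⟩
  · rw [Finset.card_product, Finset.card_product]
    have h1 : ({-1, 1} : Finset ℝ).card ≤ 2 := Finset.card_le_two
    have h2 : ({-3, -1, 1, 3} : Finset ℝ).card ≤ 4 := Finset.card_le_four
    calc _ ≤ 2 * (2 * 4) := Nat.mul_le_mul h1 (Nat.mul_le_mul h1 h2)
      _ = 16 := by norm_num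
  · intro q w hw hb
    have w1 : |w.1.1| ≤ 2 := (le_max_left _ _).trans hb
    have w2 : |w.1.2.1| ≤ 2 := (le_max_left _ _).trans ((le_max_right _ _).trans hb)
    have w3 : |w.1.2.2| ≤ 2 := (le_max_right _ _).trans ((le_max_right _ _).trans hb)
    obtain ⟨x, hx, hx1⟩ := cy_fc_GEO_pm _ w1
    obtain ⟨b, hb', hb1⟩ := cy_fc_GEO_pm _ w2
    have hx2 : |x| = 1 := by
      simp only [Finset.mem_insert, Finset.mem_singleton] at hx
      rcases hx with rfl | rfl <;> simp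
    have h4 : |w.1.2.2 - 2 * x * (w.1.2.1 - b)| ≤ 4 := by
      refine (abs_sub _ _).trans ?_
      rw [abs_mul, abs_mul, abs_two, hx2]
      linarith
    obtain ⟨y, hy, hy1⟩ := cy_fc_GEO_pm4 _ h4
    obtain ⟨-, -, -, v4, v5⟩ := hw
    refine ⟨(x, b, y), by simp only [Finset.mem_product]; exact ⟨hx, hb', hy⟩, hx1, ?_, ?_, v4, v5⟩
    · show |w.1.2.1 - b| ≤ 1 * 1
      rw [one_mul]; exact hb1
    · show |w.1.2.2 - y - 2 * x * (w.1.2.1 - b)| ≤ 1 * 1 ^ 2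
      have e : w.1.2.2 - y - 2 * x * (w.1.2.1 - b) = w.1.2.2 - 2 * x * (w.1.2.1 - b) - y := by ring
      rw [e]
      simpa using hy1

/-- the unit box is the base cell of the unit test at the origin -/
theorem cy_fc_unit_box {w : CyV} (h : cyBs w ≤ 1) : w.1 ∈ cyCb ⟨0, 0, 0, 1, 1, 0, 0, 0, 0, 0⟩ := by
  have w1 : |w.1.1| ≤ 1 := (le_max_left _ _).trans h
  have w2 : |w.1.2.1| ≤ 1 := (le_max_left _ _).trans ((le_max_right _ _).trans h)
  have w3 : |w.1.2.2| ≤ 1 := (le_max_right _ _).trans ((le_max_right _ _).trans h)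
  refine ⟨?_, ?_, ?_⟩
  · simpa using w1
  · simpa using w2
  · simpa using w3

end Claimed.Agent.R256
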