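-- KEEP
import Claimed.Agent.R256.Cyl.FcrTool

/-!
# Row 256 (LS paper), CYL, unit FCR, file 3 : FULL REGULARITY OF THE JITTERED MEASURE  (02 l.700-722, normalised, paper free)          (architect helper120; prefix `cy_fc_`)

`ν` = chart measure (`CyFcHyp`): base support in the unit box, normal tails `τ` beyond `Λ`, `b1`-regular on the truncated family `CyTrN ρ1 h0`.   `ν' = cyJm ζ ν`.
CLAIM `cy_fc_full`:  `ν'.real (cyCv q) ≤ 17 (Λ+3)² b1 · cyWt η q`  for ALL tests `q` with `h0 ≤ q.f`.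
 MASS     `ν univ ≤ ((Λ+2)²+1) b1`                                   (unit flat tests cover the support)
 CASE-C   widths in `[ρ2,1]`, coefficients `≤ 1/ρ3`                 : every pull-back is a truncated test, T2                       `≤ b1 w`
 CASE-T   widths `≤ 1`, one of them `< ρ2`                          : density `ζ⁻⁵ × mass`, volume `32 r⁴ f²`, T1                  `≤ b1 w`
 CASE-S   widths in `[ρ2,1]`, a coefficient `> 1/ρ3`                : density, sublevel estimate, tails                            `≤ b1 w`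
 CASE-R   `r > 1`, `f ≤ 1`                                          : 16 unit base cells cover the support                         `≤ 16 b1 w`
 CASE-F   `f > 1`                                                   : drop the normal conditions, `(Λ+3)²` flat tests + tails      `≤ (16 (Λ+3)² + 1) b1 w`
Each case is ONE LEAF `L-256-FCR-<name>`; prove IN PLACE, statements verbatim; you may cite all statements of `FcrTool.lean` and the earlier statements of this file.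
-/

set_option autoImplicit false

namespace Claimed.Agent.R256

open MeasureTheory

/-- the property of the constant of `cy_fc_sub` -/
def CyFcSub (Cs : ℝ) : Prop :=
  0 ≤ Cs ∧ ∀ (q : CyT) (Λ ρ3 : ℝ), 0 ≤ Λ → 0 < ρ3 → q.f ≤ 1 → ρ3⁻¹ < max |q.al| (max |q.be| |q.K|) →
    volume (cyCv q ∩ {w | cyBs w ≤ 2} ∩ {w | cyNs w ≤ Λ + 1}) ≤ ENNReal.ofReal (Cs * (2 * Λ + 4) ^ 2 * ρ3 ^ (1 / 4 : ℝ))

theorem cy_fc_case_eqns_cite : True := by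
  have := @CyFcSub.eq_1
  trivial

theorem cy_fc_sub' : ∃ Cs : ℝ, CyFcSub Cs := cy_fc_sub

variable {η ζ Λ b1 τ h0 ρ1 ρ2 ρ3 Cs : ℝ} {ν : Measure CyV}

/-- **LEAF L-256-FCR-MASS**.   PLAN: `F` from `cy_fc_cov1` (`Λ`).   `univ ⊆ {1 < cyBs} ∪ {Λ < cyNs} ∪ ⋃_{c,d ∈ F} cyCv (cyFlat u c d)`, `u = ⟨0,0,0,1,1,0,0,0,0,0⟩` (`cy_fc_unit_box`, `cy_fc_cov_flat`).
`cyFlat u c d ∈ CyTrN ρ1 h0` (`r = f = 1`, coefficients `0`), weight `1` (`Real.one_rpow`).   `measureReal_union_le`, `measureReal_biUnion_finset_le`; `card² ≤ (Λ+2)²`; `τ ≤ b1` (`n3'`, `ρ2 ≤ 1`). -/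
theorem cy_fc_mass (hN : CyFcNum η ζ Λ b1 τ h0 ρ1 ρ2 ρ3 Cs) (hν : CyFcHyp η Λ b1 τ h0 ρ1 ν) : ν.real Set.univ ≤ ((Λ + 2) ^ 2 + 1) * b1 := by
  have := hν.fin
  have hΛ0 : 0 ≤ Λ := by linarith [hN.L1]
  obtain ⟨F, hFc, hF⟩ := cy_fc_cov1 hΛ0
  have hb0 := hN.b0
  have hρ2 : 0 < ρ2 := lt_of_lt_of_le hN.r1 hN.r12
  have hsub : (Set.univ : Set CyV) ⊆ ({w | 1 < cyBs w} ∪ {w | Λ < cyNs w}) ∪ ⋃ a ∈ F ×ˢ F, cyCv (cyFlat ⟨0, 0, 0, 1, 1, 0, 0, 0, 0, 0⟩ a.1 a.2) := by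
    intro w _
    by_cases h1 : 1 < cyBs w
    · exact Or.inl (Or.inl h1)
    by_cases h2 : Λ < cyNs w
    · exact Or.inl (Or.inr h2)
    obtain ⟨c, hc, d, hd, hw⟩ := cy_fc_cov_flat hF ⟨0, 0, 0, 1, 1, 0, 0, 0, 0, 0⟩ (cy_fc_unit_box (not_lt.1 h1)) (not_lt.1 h2)
    refine Or.inr ?_
    simp only [Set.mem_iUnion]
    exact ⟨(c, d), Finset.mem_product.2 ⟨hc, hd⟩, hw⟩
  have hz0 : ν.real {w | 1 < cyBs w} = 0 := by
    simp [Measure.real, hν.supp]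
  have hreg : ∀ a ∈ F ×ˢ F, ν.real (cyCv (cyFlat ⟨0, 0, 0, 1, 1, 0, 0, 0, 0, 0⟩ a.1 a.2)) ≤ b1 := by
    intro a _
    have htr : CyTrN ρ1 h0 (cyFlat ⟨0, 0, 0, 1, 1, 0, 0, 0, 0, 0⟩ a.1 a.2) := by
      have hi : 0 ≤ ρ1⁻¹ := (inv_pos.2 hN.r1).le
      have h1 : ρ1 ≤ 1 := hN.r12.trans hN.r2
      refine ⟨h1, le_rfl, h1, le_rfl, hN.h.2, ?_, ?_, ?_⟩ <;> simpa [cyFlat] using hi
    have h2 := hν.reg _ htr
    have hw : cyWt η (cyFlat ⟨0, 0, 0, 1, 1, 0, 0, 0, 0, 0⟩ a.1 a.2) = 1 := by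
      simp [cyWt, cyFlat]
    rwa [hw, mul_one] at h2
  have hτ : τ ≤ b1 := by
    have h4 : ρ2 ^ 4 ≤ 1 := pow_le_one₀ hρ2.le hN.r2
    have := hN.n3'
    nlinarith
  have s1 := measureReal_mono (μ := ν) hsub
  have s2 := measureReal_union_le (μ := ν) ({w | 1 < cyBs w} ∪ {w | Λ < cyNs w}) (⋃ a ∈ F ×ˢ F, cyCv (cyFlat ⟨0, 0, 0, 1, 1, 0, 0, 0, 0, 0⟩ a.1 a.2))
  have s3 := measureReal_union_le (μ := ν) {w | 1 < cyBs w} {w | Λ < cyNs w}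
  have s4 := measureReal_biUnion_finset_le (μ := ν) (F ×ˢ F) (fun a => cyCv (cyFlat ⟨0, 0, 0, 1, 1, 0, 0, 0, 0, 0⟩ a.1 a.2))
  have s5 : ∑ a ∈ F ×ˢ F, ν.real (cyCv (cyFlat ⟨0, 0, 0, 1, 1, 0, 0, 0, 0, 0⟩ a.1 a.2)) ≤ (Λ + 2) ^ 2 * b1 := by
    refine (Finset.sum_le_sum hreg).trans ?_
    rw [Finset.sum_const, Finset.card_product, nsmul_eq_mul, Nat.cast_mul]
    refine mul_le_mul_of_nonneg_right ?_ hb0.le
    rw [sq]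
    exact mul_le_mul hFc hFc (Nat.cast_nonneg _) (by linarith)
  have s6 := hν.tail
  linarith

/-- the jittered measure does not charge `{2 < cyBs}`  (T1 with `G = {1 < cyBs}`, `c = 1`; `cy_fc_bs_jv`; sections have volume `≤ volume cube = 1`). -/
theorem cy_fc_supp' (hN : CyFcNum η ζ Λ b1 τ h0 ρ1 ρ2 ρ3 Cs) (hν : CyFcHyp η Λ b1 τ h0 ρ1 ν) : (cyJm ζ ν).real {w | 2 < cyBs w} = 0 := by
  have := hν.fin
  have hS : MeasurableSet {w : CyV | 2 < cyBs w} := measurableSet_lt measurable_const cy_fc_meas_bs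
  have hG : MeasurableSet {w : CyV | 1 < cyBs w} := measurableSet_lt measurable_const cy_fc_meas_bs
  have hz0 : ν.real {w | 1 < cyBs w} = 0 := by
    simp [Measure.real, hν.supp]
  have h1 := cy_fc_T1 ζ ν hS hG (fun θ hθ w hw => cy_fc_bs_jv hN.z0.le hN.z1 hθ hw) zero_le_one (fun w => by
    rw [ENNReal.ofReal_one, ← cy_fc_vol_cube]
    exact measure_mono Set.inter_subset_right)
  rw [hz0, mul_zero] at h1
  exact le_antisymm h1 measureReal_nonneg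

/-- tails of the jittered measure  (T1 with `G = {Λ < cyNs}`, `c = 1`; `cy_fc_ns_jv`). -/
theorem cy_fc_tail' (hN : CyFcNum η ζ Λ b1 τ h0 ρ1 ρ2 ρ3 Cs) (hν : CyFcHyp η Λ b1 τ h0 ρ1 ν) : (cyJm ζ ν).real {w | Λ + 1 < cyNs w} ≤ τ := by
  have := hν.fin
  have hS : MeasurableSet {w : CyV | Λ + 1 < cyNs w} := measurableSet_lt measurable_const cy_fc_meas_ns
  have hG : MeasurableSet {w : CyV | Λ < cyNs w} := measurableSet_lt measurable_const cy_fc_meas_ns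
  have h1 := cy_fc_T1 ζ ν hS hG (fun θ hθ w hw => cy_fc_ns_jv hN.z0.le (by linarith [hN.z1]) hθ hw) zero_le_one (fun w => by
    rw [ENNReal.ofReal_one, ← cy_fc_vol_cube]
    exact measure_mono Set.inter_subset_right)
  rw [one_mul] at h1
  exact h1.trans hν.tail

/-- **LEAF L-256-FCR-CASEC**.   PLAN: T2 with `c = b1 * cyWt η q`; `cyJv ζ θ ⁻¹' cyCv q = cyCv (cyPull ζ θ q)` (`cy_fc_pull`), `cy_fc_pull_tr`, `hν.reg`, `cy_fc_pull_wt`. -/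
theorem cy_fc_caseC (hN : CyFcNum η ζ Λ b1 τ h0 ρ1 ρ2 ρ3 Cs) (hν : CyFcHyp η Λ b1 τ h0 ρ1 ν) (q : CyT) (hr : ρ2 ≤ q.r) (hr1 : q.r ≤ 1)
    (hf : ρ2 ≤ q.f) (hf1 : q.f ≤ 1) (hh : h0 ≤ q.f) (hc : max |q.al| (max |q.be| |q.K|) ≤ ρ3⁻¹) :
    (cyJm ζ ν).real (cyCv q) ≤ b1 * cyWt η q := by
  have := hν.fin
  have hρ2 : 0 < ρ2 := lt_of_lt_of_le hN.r1 hN.r12
  have hr0 : 0 < q.r := lt_of_lt_of_le hρ2 hr
  have hf0 : 0 < q.f := lt_of_lt_of_le hρ2 hf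
  have hb0 := hN.b0
  have hw0 : 0 ≤ b1 * cyWt η q := by
    unfold cyWt
    positivity
  refine cy_fc_T2 ζ ν (cy_fc_meas_cv q) hw0 fun θ hθ => ?_
  have e : cyJv ζ θ ⁻¹' cyCv q = cyCv (cyPull ζ θ q) := by
    ext w
    exact cy_fc_pull ζ θ q w
  rw [e, ← cy_fc_pull_wt η ζ θ q]
  exact hν.reg _ (cy_fc_pull_tr hN.z0.le hN.z1 hN.r1 hN.r12 hN.r13 hθ hr hr1 hf hf1 hh hc)

/-- **LEAF L-256-FCR-CASET**.   PLAN: T1 with `G = univ`, `c = ζ⁻¹^5 * (32 r⁴ f²)` (`cy_fc_sec5`, `cy_fc_vol5`; intersecting with the cube only decreases the section).   `cy_fc_mass`.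
`r⁴ f² = cyWt η q * (r^(1-η) f^(1+η))` (`Real.rpow_add`, `Real.rpow_natCast`), `r^(1-η) f^(1+η) ≤ ρ2^(1-η)`: if `r < ρ2`: `r^(1-η) ≤ ρ2^(1-η)`, `f^(1+η) ≤ 1`; if `f < ρ2`: `f^(1+η) ≤ f^(1-η) ≤ ρ2^(1-η)`, `r^(1-η) ≤ 1`.   `hN.n2`. -/
theorem cy_fc_caseT (hN : CyFcNum η ζ Λ b1 τ h0 ρ1 ρ2 ρ3 Cs) (hν : CyFcHyp η Λ b1 τ h0 ρ1 ν) (q : CyT) (hr : 0 < q.r) (hr1 : q.r ≤ 1)
    (hf : 0 < q.f) (hf1 : q.f ≤ 1) (ht : q.r < ρ2 ∨ q.f < ρ2) : (cyJm ζ ν).real (cyCv q) ≤ b1 * cyWt η q := by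
  have := hν.fin
  have hρ2 : 0 < ρ2 := lt_of_lt_of_le hN.r1 hN.r12
  have hb0 := hN.b0
  have hζ := hN.z0
  obtain ⟨hη0, hη1⟩ := hN.eta
  have hc0 : 0 ≤ ζ⁻¹ ^ 5 * (32 * q.r ^ 4 * q.f ^ 2) := by positivity
  have h1 := cy_fc_T1 ζ ν (cy_fc_meas_cv q) MeasurableSet.univ (fun _ _ _ _ => Set.mem_univ _) hc0 (fun w => by
    refine (measure_mono Set.inter_subset_left).trans ((cy_fc_sec5 hζ w (cy_fc_meas_cv q)).trans ?_)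
    rw [ENNReal.ofReal_mul (by positivity)]
    exact mul_le_mul' le_rfl (cy_fc_vol5 q hr.le hf.le))
  have h2 := cy_fc_mass hN hν
  have e1 : q.r ^ 4 = q.r ^ (3 + η) * q.r ^ (1 - η) := by
    rw [← Real.rpow_add hr, ← Real.rpow_natCast]
    norm_num
  have e2 : q.f ^ 2 = q.f ^ (1 - η) * q.f ^ (1 + η) := by
    rw [← Real.rpow_add hf, ← Real.rpow_natCast]
    norm_num
  have hX : q.r ^ (1 - η) * q.f ^ (1 + η) ≤ ρ2 ^ (1 - η) := by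
    have a1 : q.r ^ (1 - η) ≤ 1 := Real.rpow_le_one hr.le hr1 (by linarith)
    have a2 : q.f ^ (1 + η) ≤ 1 := Real.rpow_le_one hf.le hf1 (by linarith)
    have a3 : 0 ≤ q.r ^ (1 - η) := by positivity
    have a4 : 0 ≤ q.f ^ (1 + η) := by positivity
    rcases ht with ht | ht
    · have a5 : q.r ^ (1 - η) ≤ ρ2 ^ (1 - η) := Real.rpow_le_rpow hr.le ht.le (by linarith)
      calc q.r ^ (1 - η) * q.f ^ (1 + η) ≤ ρ2 ^ (1 - η) * 1 := mul_le_mul a5 a2 a4 (by positivity)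
        _ = _ := mul_one _
    · have a5 : q.f ^ (1 + η) ≤ q.f ^ (1 - η) := Real.rpow_le_rpow_of_exponent_ge hf hf1 (by linarith)
      have a6 : q.f ^ (1 - η) ≤ ρ2 ^ (1 - η) := Real.rpow_le_rpow hf.le ht.le (by linarith)
      calc q.r ^ (1 - η) * q.f ^ (1 + η) ≤ 1 * ρ2 ^ (1 - η) := mul_le_mul a1 (a5.trans a6) a4 zero_le_one
        _ = _ := one_mul _
  have hw0 : 0 ≤ cyWt η q := by
    unfold cyWt
    positivity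
  have hL : 0 ≤ 32 * ((Λ + 2) ^ 2 + 1) * ζ⁻¹ ^ 5 := by positivity
  calc (cyJm ζ ν).real (cyCv q) ≤ ζ⁻¹ ^ 5 * (32 * q.r ^ 4 * q.f ^ 2) * ν.real Set.univ := h1
    _ ≤ ζ⁻¹ ^ 5 * (32 * q.r ^ 4 * q.f ^ 2) * (((Λ + 2) ^ 2 + 1) * b1) := mul_le_mul_of_nonneg_left h2 hc0
    _ = b1 * cyWt η q * (32 * ((Λ + 2) ^ 2 + 1) * ζ⁻¹ ^ 5 * (q.r ^ (1 - η) * q.f ^ (1 + η))) := by
        rw [e1, e2]
        unfold cyWt
        ring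
    _ ≤ b1 * cyWt η q * 1 := by
        refine mul_le_mul_of_nonneg_left ?_ (by positivity)
        exact (mul_le_mul_of_nonneg_left hX hL).trans hN.n2
    _ = _ := mul_one _

/-- **LEAF L-256-FCR-CASES**.   PLAN: `cyCv q ⊆ S1 ∪ {2 < cyBs} ∪ {Λ+1 < cyNs}`, `S1 = cyCv q ∩ {cyBs ≤ 2} ∩ {cyNs ≤ Λ+1}`.   `cy_fc_supp'`, `cy_fc_tail'`.   T1 for `S1` with `G = univ`, `c = ζ⁻¹^5 * (Cs (2Λ+4)² ρ3^(1/4))` (`cy_fc_sec5`, `hS.2`), `cy_fc_mass`: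
`≤ b1 ρ2⁴/2` by `hN.n3`; `τ ≤ b1 ρ2⁴/2` by `hN.n3'`;  `ρ2⁴ ≤ cyWt η q`: `r^(3+η) ≥ ρ2^(3+η)`, `f^(1-η) ≥ ρ2^(1-η)`, product `= ρ2⁴` (`Real.rpow_add`). -/
theorem cy_fc_caseS (hS : CyFcSub Cs) (hN : CyFcNum η ζ Λ b1 τ h0 ρ1 ρ2 ρ3 Cs) (hν : CyFcHyp η Λ b1 τ h0 ρ1 ν) (q : CyT) (hr : ρ2 ≤ q.r) (hr1 : q.r ≤ 1)
    (hf : ρ2 ≤ q.f) (hf1 : q.f ≤ 1) (hc : ρ3⁻¹ < max |q.al| (max |q.be| |q.K|)) : (cyJm ζ ν).real (cyCv q) ≤ b1 * cyWt η q := by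
  have := hν.fin
  have := cy_fc_jm_finite ζ ν
  have hρ2 : 0 < ρ2 := lt_of_lt_of_le hN.r1 hN.r12
  have hρ3 : 0 < ρ3 := by linarith [hN.r1, hN.r13]
  have hr0 : 0 < q.r := lt_of_lt_of_le hρ2 hr
  have hf0 : 0 < q.f := lt_of_lt_of_le hρ2 hf
  have hb0 := hN.b0
  have hζ := hN.z0
  have hΛ0 : 0 ≤ Λ := by linarith [hN.L1]
  obtain ⟨hη0, hη1⟩ := hN.eta
  obtain ⟨hCs, hsubl⟩ := hS
  have hm1 : MeasurableSet (cyCv q ∩ {w | cyBs w ≤ 2} ∩ {w | cyNs w ≤ Λ + 1}) :=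
    ((cy_fc_meas_cv q).inter (measurableSet_le cy_fc_meas_bs measurable_const)).inter (measurableSet_le cy_fc_meas_ns measurable_const)
  have hc0 : 0 ≤ ζ⁻¹ ^ 5 * (Cs * (2 * Λ + 4) ^ 2 * ρ3 ^ (1 / 4 : ℝ)) := by positivity
  have h1 := cy_fc_T1 ζ ν hm1 MeasurableSet.univ (fun _ _ _ _ => Set.mem_univ _) hc0 (fun w => by
    refine (measure_mono Set.inter_subset_left).trans ((cy_fc_sec5 hζ w hm1).trans ?_)
    rw [ENNReal.ofReal_mul (by positivity)]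
    exact mul_le_mul' le_rfl (hsubl q Λ ρ3 hΛ0 hρ3 hf1 hc))
  have h2 := cy_fc_mass hN hν
  have hsub : cyCv q ⊆ ((cyCv q ∩ {w | cyBs w ≤ 2} ∩ {w | cyNs w ≤ Λ + 1}) ∪ {w | 2 < cyBs w}) ∪ {w | Λ + 1 < cyNs w} := by
    intro w hw
    by_cases a1 : 2 < cyBs w
    · exact Or.inl (Or.inr a1)
    by_cases a2 : Λ + 1 < cyNs w
    · exact Or.inr a2
    exact Or.inl (Or.inl ⟨⟨hw, not_lt.1 a1⟩, not_lt.1 a2⟩)
  have s1 := measureReal_mono (μ := cyJm ζ ν) hsub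
  have s2 := measureReal_union_le (μ := cyJm ζ ν) ((cyCv q ∩ {w | cyBs w ≤ 2} ∩ {w | cyNs w ≤ Λ + 1}) ∪ {w | 2 < cyBs w}) {w | Λ + 1 < cyNs w}
  have s3 := measureReal_union_le (μ := cyJm ζ ν) (cyCv q ∩ {w | cyBs w ≤ 2} ∩ {w | cyNs w ≤ Λ + 1}) {w | 2 < cyBs w}
  have s4 := cy_fc_supp' hN hν
  have s5 := cy_fc_tail' hN hν
  have s6 : (cyJm ζ ν).real (cyCv q ∩ {w | cyBs w ≤ 2} ∩ {w | cyNs w ≤ Λ + 1}) ≤ b1 * (ρ2 ^ 4 / 2) := by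
    calc _ ≤ ζ⁻¹ ^ 5 * (Cs * (2 * Λ + 4) ^ 2 * ρ3 ^ (1 / 4 : ℝ)) * ν.real Set.univ := h1
      _ ≤ ζ⁻¹ ^ 5 * (Cs * (2 * Λ + 4) ^ 2 * ρ3 ^ (1 / 4 : ℝ)) * (((Λ + 2) ^ 2 + 1) * b1) := mul_le_mul_of_nonneg_left h2 hc0
      _ = b1 * (Cs * ((Λ + 2) ^ 2 + 1) * (2 * Λ + 4) ^ 2 * ζ⁻¹ ^ 5 * ρ3 ^ (1 / 4 : ℝ)) := by ring
      _ ≤ b1 * (ρ2 ^ 4 / 2) := mul_le_mul_of_nonneg_left hN.n3 hb0.le
  have s7 : ρ2 ^ 4 ≤ cyWt η q := by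
    have e1 : ρ2 ^ 4 = ρ2 ^ (3 + η) * ρ2 ^ (1 - η) := by
      rw [← Real.rpow_add hρ2, ← Real.rpow_natCast]
      norm_num
    rw [e1]
    unfold cyWt
    exact mul_le_mul (Real.rpow_le_rpow hρ2.le hr (by linarith)) (Real.rpow_le_rpow hρ2.le hf (by linarith)) (by positivity) (by positivity)
  have s8 := hN.n3'
  have s9 : b1 * ρ2 ^ 4 ≤ b1 * cyWt η q := mul_le_mul_of_nonneg_left s7 hb0.le
  linarith

/-- widths `≤ 1` -/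
theorem cy_fc_small (hS : CyFcSub Cs) (hN : CyFcNum η ζ Λ b1 τ h0 ρ1 ρ2 ρ3 Cs) (hν : CyFcHyp η Λ b1 τ h0 ρ1 ν) (q : CyT) (hr : 0 < q.r) (hr1 : q.r ≤ 1)
    (hf : 0 < q.f) (hf1 : q.f ≤ 1) (hh : h0 ≤ q.f) : (cyJm ζ ν).real (cyCv q) ≤ b1 * cyWt η q := by
  by_cases h1 : q.r < ρ2
  · exact cy_fc_caseT hN hν q hr hr1 hf hf1 (Or.inl h1)
  by_cases h2 : q.f < ρ2
  · exact cy_fc_caseT hN hν q hr hr1 hf hf1 (Or.inr h2)
  push Not at h1 h2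
  by_cases h3 : max |q.al| (max |q.be| |q.K|) ≤ ρ3⁻¹
  · exact cy_fc_caseC hN hν q h1 hr1 h2 hf1 hh h3
  · exact cy_fc_caseS hS hN hν q h1 hr1 h2 hf1 (not_le.1 h3)

/-- **LEAF L-256-FCR-CASER**.   PLAN: `F` from `cy_fc_cov_base`.   `cyCv q ⊆ {2 < cyBs} ∪ ⋃_{a ∈ F} cyCv (cyUnitB q a..)`; `cy_fc_supp'`; `cy_fc_small` for each `cyUnitB q ..` (`r = 1`, same `f`);
`cyWt η (cyUnitB q ..) = f^(1-η) ≤ r^(3+η) f^(1-η)` (`Real.one_rpow`, `Real.one_le_rpow`). -/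
theorem cy_fc_caseR (hS : CyFcSub Cs) (hN : CyFcNum η ζ Λ b1 τ h0 ρ1 ρ2 ρ3 Cs) (hν : CyFcHyp η Λ b1 τ h0 ρ1 ν) (q : CyT) (hr : 1 < q.r)
    (hf : 0 < q.f) (hf1 : q.f ≤ 1) (hh : h0 ≤ q.f) : (cyJm ζ ν).real (cyCv q) ≤ 16 * (b1 * cyWt η q) := by
  have := hν.fin
  have := cy_fc_jm_finite ζ ν
  have hb0 := hN.b0
  obtain ⟨hη0, hη1⟩ := hN.eta
  obtain ⟨F, hFc, hF⟩ := cy_fc_cov_base
  have hsub : cyCv q ⊆ {w | 2 < cyBs w} ∪ ⋃ a ∈ F, cyCv (cyUnitB q a.1 a.2.1 a.2.2) := by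
    intro w hw
    by_cases a1 : 2 < cyBs w
    · exact Or.inl a1
    obtain ⟨a, ha, hwa⟩ := hF q w hw (not_lt.1 a1)
    refine Or.inr ?_
    simp only [Set.mem_iUnion]
    exact ⟨a, ha, hwa⟩
  have s1 := measureReal_mono (μ := cyJm ζ ν) hsub
  have s2 := measureReal_union_le (μ := cyJm ζ ν) {w | 2 < cyBs w} (⋃ a ∈ F, cyCv (cyUnitB q a.1 a.2.1 a.2.2))
  have s3 := measureReal_biUnion_finset_le (μ := cyJm ζ ν) F (fun a => cyCv (cyUnitB q a.1 a.2.1 a.2.2))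
  have s4 := cy_fc_supp' hN hν
  have hw0 : 0 ≤ b1 * cyWt η q := by
    unfold cyWt
    positivity
  have hone : ∀ a ∈ F, (cyJm ζ ν).real (cyCv (cyUnitB q a.1 a.2.1 a.2.2)) ≤ b1 * cyWt η q := by
    intro a _
    refine (cy_fc_small hS hN hν (cyUnitB q a.1 a.2.1 a.2.2) zero_lt_one le_rfl hf hf1 hh).trans ?_
    refine mul_le_mul_of_nonneg_left ?_ hb0.le
    have e : cyWt η (cyUnitB q a.1 a.2.1 a.2.2) = 1 * q.f ^ (1 - η) := by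
      simp [cyWt, cyUnitB]
    rw [e]
    unfold cyWt
    exact mul_le_mul_of_nonneg_right (Real.one_le_rpow hr.le (by linarith)) (by positivity)
  have s5 : ∑ a ∈ F, (cyJm ζ ν).real (cyCv (cyUnitB q a.1 a.2.1 a.2.2)) ≤ 16 * (b1 * cyWt η q) := by
    refine (Finset.sum_le_sum hone).trans ?_
    rw [Finset.sum_const, nsmul_eq_mul]
    refine mul_le_mul_of_nonneg_right ?_ hw0
    exact_mod_cast hFc
  linarith

/-- normal width `≤ 1` -/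
theorem cy_fc_flat (hS : CyFcSub Cs) (hN : CyFcNum η ζ Λ b1 τ h0 ρ1 ρ2 ρ3 Cs) (hν : CyFcHyp η Λ b1 τ h0 ρ1 ν) (q : CyT) (hr : 0 < q.r)
    (hf : 0 < q.f) (hf1 : q.f ≤ 1) (hh : h0 ≤ q.f) : (cyJm ζ ν).real (cyCv q) ≤ 16 * (b1 * cyWt η q) := by
  by_cases h1 : q.r ≤ 1
  · have h2 := cy_fc_small hS hN hν q hr h1 hf hf1 hh
    have h3 : 0 ≤ b1 * cyWt η q := by
      unfold cyWt
      have := hN.b0
      positivity
    linarith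
  · exact cy_fc_caseR hS hN hν q (not_le.1 h1) hf hf1 hh

/-- the tail part over a base cell.   PLAN: `S = {w | w.1 ∈ cyCb q ∧ Λ + 1 < cyNs w}`.   If `1 ≤ r`: `S ⊆ {Λ+1 < cyNs}`, `cy_fc_tail'`, `τ ≤ b1 ≤ b1 r^(3+η)`.
If `r < 1`: T1 with `G = {Λ < cyNs}` (`cy_fc_ns_jv`), `c = ζ⁻¹^3 * (8 r⁴)` (`cy_fc_sec3`, `cy_fc_vol3`): `≤ 8 ζ⁻³ τ r⁴ ≤ b1 r⁴ ≤ b1 r^(3+η)` (`hN.n4`; `r⁴ ≤ r^(3+η)` since `r < 1`, `3+η ≤ 4`: `Real.rpow_le_rpow_of_exponent_ge`). -/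
theorem cy_fc_tailB (hN : CyFcNum η ζ Λ b1 τ h0 ρ1 ρ2 ρ3 Cs) (hν : CyFcHyp η Λ b1 τ h0 ρ1 ν) (q : CyT) (hr : 0 < q.r) :
    (cyJm ζ ν).real {w | w.1 ∈ cyCb q ∧ Λ + 1 < cyNs w} ≤ b1 * q.r ^ (3 + η) := by
  have := hν.fin
  have := cy_fc_jm_finite ζ ν
  have hb0 := hN.b0
  have hζ := hN.z0
  obtain ⟨hη0, hη1⟩ := hN.eta
  have hρ2 : 0 < ρ2 := lt_of_lt_of_le hN.r1 hN.r12
  rcases le_or_gt 1 q.r with h1 | h1
  · have hsub : {w : CyV | w.1 ∈ cyCb q ∧ Λ + 1 < cyNs w} ⊆ {w | Λ + 1 < cyNs w} := fun w hw => hw.2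
    have s1 := measureReal_mono (μ := cyJm ζ ν) hsub
    have s2 := cy_fc_tail' hN hν
    have hτ : τ ≤ b1 := by
      have h4 : ρ2 ^ 4 ≤ 1 := pow_le_one₀ hρ2.le hN.r2
      have := hN.n3'
      nlinarith
    have s3 : b1 ≤ b1 * q.r ^ (3 + η) := le_mul_of_one_le_right hb0.le (Real.one_le_rpow h1 (by linarith))
    linarith
  · have hS : MeasurableSet {w : CyV | w.1 ∈ cyCb q ∧ Λ + 1 < cyNs w} :=
      (measurable_fst (cy_fc_meas_cb q)).inter (measurableSet_lt measurable_const cy_fc_meas_ns)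
    have hG : MeasurableSet {w : CyV | Λ < cyNs w} := measurableSet_lt measurable_const cy_fc_meas_ns
    have hc0 : 0 ≤ ζ⁻¹ ^ 3 * (8 * q.r ^ 4) := by positivity
    have t1 := cy_fc_T1 ζ ν hS hG (fun θ hθ w hw => cy_fc_ns_jv hζ.le (by linarith [hN.z1]) hθ hw.2) hc0 (fun w => by
      have hsub : {θ : CyTh | cyJv ζ θ w ∈ {w : CyV | w.1 ∈ cyCb q ∧ Λ + 1 < cyNs w}} ∩ cyCubeN ⊆ {θ : CyTh | (cyJv ζ θ w).1 ∈ cyCb q} ∩ cyCubeN :=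
        fun θ hθ => ⟨hθ.1.1, hθ.2⟩
      refine (measure_mono hsub).trans ((cy_fc_sec3 hζ w (cy_fc_meas_cb q)).trans ?_)
      rw [ENNReal.ofReal_mul (by positivity)]
      exact mul_le_mul' le_rfl (cy_fc_vol3 q hr.le))
    have t2 : q.r ^ 4 ≤ q.r ^ (3 + η) := by
      rw [← Real.rpow_natCast]
      exact Real.rpow_le_rpow_of_exponent_ge hr h1.le (by push_cast; linarith)
    have t3 : 0 ≤ q.r ^ 4 := by positivity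
    calc _ ≤ ζ⁻¹ ^ 3 * (8 * q.r ^ 4) * ν.real {w | Λ < cyNs w} := t1
      _ ≤ ζ⁻¹ ^ 3 * (8 * q.r ^ 4) * τ := mul_le_mul_of_nonneg_left hν.tail hc0
      _ = (8 * τ * ζ⁻¹ ^ 3) * q.r ^ 4 := by ring
      _ ≤ b1 * q.r ^ 4 := mul_le_mul_of_nonneg_right hN.n4 t3
      _ ≤ b1 * q.r ^ (3 + η) := mul_le_mul_of_nonneg_left t2 hb0.le

/-- **LEAF L-256-FCR-CASEF**.   PLAN: `F` from `cy_fc_cov1` (`Λ + 1`), `card ≤ Λ + 3`.   `cyCv q ⊆ {w.1 ∈ cyCb q ∧ Λ+1 < cyNs w} ∪ ⋃_{c,d ∈ F} cyCv (cyFlat q c d)` (`cy_fc_cv_base`, `cy_fc_cov_flat`).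
`cy_fc_tailB`; `cy_fc_flat` for `cyFlat q c d` (`f = 1 ≥ h0`), `cyWt η (cyFlat q c d) = r^(3+η)`;  `r^(3+η) ≤ cyWt η q` since `1 ≤ f^(1-η)`.   Total `(16 (Λ+3)² + 1) b1 w ≤ 17 (Λ+3)² b1 w`. -/
theorem cy_fc_caseF (hS : CyFcSub Cs) (hN : CyFcNum η ζ Λ b1 τ h0 ρ1 ρ2 ρ3 Cs) (hν : CyFcHyp η Λ b1 τ h0 ρ1 ν) (q : CyT) (hr : 0 < q.r)
    (hf : 1 < q.f) : (cyJm ζ ν).real (cyCv q) ≤ 17 * (Λ + 3) ^ 2 * (b1 * cyWt η q) := by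
  have := hν.fin
  have := cy_fc_jm_finite ζ ν
  have hb0 := hN.b0
  obtain ⟨hη0, hη1⟩ := hN.eta
  have hΛ1 : 0 ≤ Λ + 1 := by linarith [hN.L1]
  obtain ⟨F, hFc, hF⟩ := cy_fc_cov1 hΛ1
  have hsub : cyCv q ⊆ {w | w.1 ∈ cyCb q ∧ Λ + 1 < cyNs w} ∪ ⋃ a ∈ F ×ˢ F, cyCv (cyFlat q a.1 a.2) := by
    intro w hw
    have hb := cy_fc_cv_base hw
    by_cases a1 : Λ + 1 < cyNs w
    · exact Or.inl ⟨hb, a1⟩
    obtain ⟨c, hc, d, hd, hwf⟩ := cy_fc_cov_flat hF q hb (not_lt.1 a1)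
    refine Or.inr ?_
    simp only [Set.mem_iUnion]
    exact ⟨(c, d), Finset.mem_product.2 ⟨hc, hd⟩, hwf⟩
  have s1 := measureReal_mono (μ := cyJm ζ ν) hsub
  have s2 := measureReal_union_le (μ := cyJm ζ ν) {w | w.1 ∈ cyCb q ∧ Λ + 1 < cyNs w} (⋃ a ∈ F ×ˢ F, cyCv (cyFlat q a.1 a.2))
  have s3 := measureReal_biUnion_finset_le (μ := cyJm ζ ν) (F ×ˢ F) (fun a => cyCv (cyFlat q a.1 a.2))
  have s4 := cy_fc_tailB hN hν q hr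
  have hrw : q.r ^ (3 + η) ≤ cyWt η q := by
    unfold cyWt
    exact le_mul_of_one_le_right (by positivity) (Real.one_le_rpow hf.le (by linarith))
  have hw0 : 0 ≤ b1 * cyWt η q := by
    have : 0 < q.f := by linarith
    unfold cyWt
    positivity
  have hone : ∀ a ∈ F ×ˢ F, (cyJm ζ ν).real (cyCv (cyFlat q a.1 a.2)) ≤ 16 * (b1 * cyWt η q) := by
    intro a _
    refine (cy_fc_flat hS hN hν (cyFlat q a.1 a.2) hr zero_lt_one le_rfl hN.h.2).trans ?_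
    refine mul_le_mul_of_nonneg_left (mul_le_mul_of_nonneg_left ?_ hb0.le) (by norm_num)
    have e : cyWt η (cyFlat q a.1 a.2) = q.r ^ (3 + η) := by
      simp [cyWt, cyFlat]
    rw [e]
    exact hrw
  have s5 : ∑ a ∈ F ×ˢ F, (cyJm ζ ν).real (cyCv (cyFlat q a.1 a.2)) ≤ (Λ + 3) ^ 2 * (16 * (b1 * cyWt η q)) := by
    refine (Finset.sum_le_sum hone).trans ?_
    rw [Finset.sum_const, Finset.card_product, nsmul_eq_mul, Nat.cast_mul]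
    refine mul_le_mul_of_nonneg_right ?_ (by positivity)
    have hFc' : (F.card : ℝ) ≤ Λ + 3 := by linarith
    rw [sq]
    exact mul_le_mul hFc' hFc' (Nat.cast_nonneg _) (by linarith)
  have s6 : b1 * q.r ^ (3 + η) ≤ b1 * cyWt η q := mul_le_mul_of_nonneg_left hrw hb0.le
  have s7 : b1 * cyWt η q ≤ (Λ + 3) ^ 2 * (b1 * cyWt η q) := by
    refine le_mul_of_one_le_left hw0 ?_
    have := hN.L1
    nlinarith
  linarith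

/-- **FULL REGULARITY OF THE JITTERED MEASURE** -/
theorem cy_fc_full (hS : CyFcSub Cs) (hN : CyFcNum η ζ Λ b1 τ h0 ρ1 ρ2 ρ3 Cs) (hν : CyFcHyp η Λ b1 τ h0 ρ1 ν) (q : CyT) (hr : 0 < q.r)
    (hf : 0 < q.f) (hh : h0 ≤ q.f) : (cyJm ζ ν).real (cyCv q) ≤ 17 * (Λ + 3) ^ 2 * (b1 * cyWt η q) := by
  by_cases h1 : q.f ≤ 1
  · have h2 := cy_fc_flat hS hN hν q hr hf h1 hh
    have h3 : 0 ≤ b1 * cyWt η q := by
      unfold cyWt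
      have := hN.b0
      positivity
    have h4 : (16 : ℝ) ≤ 17 * (Λ + 3) ^ 2 := by
      have := hN.L1
      nlinarith
    exact h2.trans (mul_le_mul_of_nonneg_right h4 h3)
  · exact cy_fc_caseF hS hN hν q hr (not_le.1 h1)

end Claimed.Agent.R256
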