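-- KEEP
import Claimed.Agent.R256.Cyl.Nrm
import Claimed.Agent.R256.Cyl.FcrCase

/-!
# Row 256 (LS paper), CYL, unit FCR, file 4 : THE DICTIONARY  model ↔ normalised measure          (architect helper120; prefix `cy_fc_`)

`Y : SfCy`, `H : CyHyp Y`, `p` good, `E : Xp (Y.M.sys p)`, `Qs` = chart frame; `T0 = tmL E.k0 E.i0`, `l0 = 2^-k0`.
* `cyChM Y p E Qs`     the root row measure of `E` pushed forward by `x ↦ cyU Qs l0 (Y.co p T0 x)`  (`cyU`, `cyRay` of `Cyl/Nrm.lean`)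
* `cyOfT q`           an `SfTest` as a `CyT` (the time is forgotten);      `cyNq T0 k0 Qs Q = cyOfT (cyNrm T0 k0 Qs T0 Q)` = the parameters of the test `Q`, used at the root cut, in the frame
LEAVES (`L-256-FCR-<name>`, section headers; prove IN PLACE, statements verbatim, auxiliary lemmas directly above, prefix `cy_fc_<leaf>_`):
 (pure algebra: PROVED)   `cy_fc_cv_mem`, `cy_fc_in_cv`, `cy_fc_wt_nq`, `cy_fc_dn`, `cy_fc_u_jit`, `cy_fc_jit_flow`, `cy_fc_bs_u`, `cy_fc_ns_u`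
 DM (measure)        `cy_fc_u_meas`, `cy_fc_nu_real`, `cy_fc_nu_apply`, `cy_fc_nu_fin`, `cy_fc_nu_univ`
 DJ (jitter)         `cy_fc_nu_jit`
 DH (hypotheses)     `cy_fc_hyp`, `cy_fc_reg_of`
 DS (setup)          `cy_fc_dens3`, `cy_fc_dens5`, `cy_fc_set`
-/

set_option autoImplicit false

namespace Claimed.Agent.R256

open MeasureTheory

/-- **the normalised chart measure** -/
noncomputable def cyChM (Y : SfCy) (p : Y.M.Par) (E : Xp (Y.M.sys p)) (Qs : CyT) : Measure CyV :=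
  ((Y.M.sys p).mu (tmL E.k0 E.i0) E.k0 E.b0 E.v).map fun x => cyU Qs ((2 : ℝ)⁻¹ ^ E.k0) (Y.co p (tmL E.k0 E.i0) x)

/-- an `SfTest` as a `CyT` -/
def cyOfT (q : SfTest) : CyT := ⟨q.x, q.b, q.y, q.r, q.f, q.c, q.d, q.al, q.be, q.K⟩

/-- the parameters of `Q`, used at the root cut, in the frame `Qs` -/
noncomputable def cyNq (T0 : ℝ) (k0 : ℕ) (Qs Q : CyT) : CyT := cyOfT (cyNrm T0 k0 Qs T0 Q)

/-- five reals as five coordinates -/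
def cyOf5 (a : ℝ × ℝ × ℝ × ℝ × ℝ) : Cy5 := ⟨a.1, a.2.1, a.2.2.1, a.2.2.2.1, a.2.2.2.2⟩

theorem cy_fc_dict_eqns_cite : True := by
  have := @cyChM.eq_1
  have := @cyOfT.eq_1
  have := @cyNq.eq_1
  have := @cyOf5.eq_1
  trivial

/-! ## pure algebra (proved) -/

/-- a test at the time `0`, length `1`  (unfold `cyCv, cyIn, cyTilt, cyVel, cyPos, cyOfV, cyOfT, cyRay, SfTest.Mem, SfRay.Bt, Yt, Dt`; rewrite `hT`; `zero_mul, add_zero, one_mul`). -/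
theorem cy_fc_cv_mem (q : SfTest) (hT : q.T = 0) (u : CyV) : u ∈ cyCv (cyOfT q) ↔ q.Mem 1 (cyRay u) := by
  simp only [cyCv, cyIn, cyTilt, cyVel, cyPos, cyOfV, cyOfT, cyRay, SfTest.Mem, SfRay.Bt, SfRay.Yt, SfRay.Dt, hT, zero_mul, add_zero, one_mul, Set.mem_ofPred_eq]

/-- **cells**   (`cy_nr_mem T0 k0 Qs hr hf T0 Q l0 z`, `div_self`, `cy_nr_ray`, `cy_fc_cv_mem`; `(cyNrm T0 k0 Qs T0 Q).T = (T0 - T0)/l0 = 0`). -/
theorem cy_fc_in_cv (T0 : ℝ) (k0 : ℕ) (Qs : CyT) (hr : 0 < Qs.r) (hf : 0 < Qs.f) (Q : CyT) (z : Cy5) :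
    cyIn Q ((2 : ℝ)⁻¹ ^ k0) z ↔ cyU Qs ((2 : ℝ)⁻¹ ^ k0) z ∈ cyCv (cyNq T0 k0 Qs Q) := by
  have hl : (0:ℝ) < (2 : ℝ)⁻¹ ^ k0 := by positivity
  rw [cy_nr_mem T0 k0 Qs hr hf T0 Q _ z, div_self hl.ne', cy_nr_ray, cyNq, cy_fc_cv_mem]
  simp [cyNrm, SfFrame.tst, sfTestAt, sfFrameOf]

/-- **weights**   (`cy_nr_wt`; `SfTest.w η q = cyWt η (cyOfT q)` is `rfl`). -/
theorem cy_fc_wt_nq (η T0 : ℝ) (k0 : ℕ) (Qs : CyT) (hr : 0 < Qs.r) (hf : 0 < Qs.f) (Q : CyT) (hQr : 0 < Q.r) (hQf : 0 < Q.f) :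
    cyWt η Q = cyWt η Qs * cyWt η (cyNq T0 k0 Qs Q) := by
  exact cy_nr_wt η T0 k0 Qs hr hf T0 Q hQr hQf

/-- **denormalisation**: every normalised test comes from a test.   With `L = 2^-k0`, `dK = q.K f0/(L r0²)`, `dbe = q.be f0/r0²`, `dal = q.al f0/r0 - 2 dbe x0 + 2 dK b0` (`x0 b0 y0 r0 f0` = fields of `Qs`):
`Q = ⟨x0 + r0 q.x, b0 + L r0 q.b, y0 + 2 x0 (L r0 q.b) + L r0² q.y, r0 q.r, f0 q.f, Qs.c + f0 q.c - dal x0 - dbe x0² - dK (y0 - 2 x0 b0), Qs.d + L f0 q.d - dal b0 - dbe y0 + dK b0², Qs.al + dal, Qs.be + dbe, Qs.K + dK⟩`.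
Unfold `cyNq, cyOfT, cyNrm, sfFrameOf, sfTestAt, SfFrame.tst, SfFrame.bc, SfFrame.yc, SfTest.beAt`; `CyT.mk.injEq`; ten identities by `field_simp; ring`. -/
theorem cy_fc_dn (T0 : ℝ) (k0 : ℕ) (Qs : CyT) (hr : 0 < Qs.r) (hf : 0 < Qs.f) (q : CyT) : ∃ Q : CyT, cyNq T0 k0 Qs Q = q := by
  have hl : (0:ℝ) < (2 : ℝ)⁻¹ ^ k0 := by positivity
  have hr' := hr.ne'
  have hf' := hf.ne'
  have hl' := hl.ne'
  obtain ⟨x0, b0, y0, r0, f0, c0, d0, al0, be0, K0⟩ := Qs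
  obtain ⟨x, b, y, r, f, c, d, al, be, K⟩ := q
  simp only at hr' hf'
  refine ⟨⟨x0 + r0 * x, b0 + (2 : ℝ)⁻¹ ^ k0 * r0 * b, y0 + 2 * x0 * ((2 : ℝ)⁻¹ ^ k0 * r0 * b) + (2 : ℝ)⁻¹ ^ k0 * r0 ^ 2 * y, r0 * r, f0 * f,
    c0 + f0 * c - (al * f0 / r0 - 2 * (be * f0 / r0 ^ 2) * x0 + 2 * (K * f0 / ((2 : ℝ)⁻¹ ^ k0 * r0 ^ 2)) * b0) * x0 - (be * f0 / r0 ^ 2) * x0 ^ 2
      - (K * f0 / ((2 : ℝ)⁻¹ ^ k0 * r0 ^ 2)) * (y0 - 2 * x0 * b0),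
    d0 + (2 : ℝ)⁻¹ ^ k0 * f0 * d - (al * f0 / r0 - 2 * (be * f0 / r0 ^ 2) * x0 + 2 * (K * f0 / ((2 : ℝ)⁻¹ ^ k0 * r0 ^ 2)) * b0) * b0 - (be * f0 / r0 ^ 2) * y0
      + (K * f0 / ((2 : ℝ)⁻¹ ^ k0 * r0 ^ 2)) * b0 ^ 2,
    al0 + (al * f0 / r0 - 2 * (be * f0 / r0 ^ 2) * x0 + 2 * (K * f0 / ((2 : ℝ)⁻¹ ^ k0 * r0 ^ 2)) * b0), be0 + be * f0 / r0 ^ 2, K0 + K * f0 / ((2 : ℝ)⁻¹ ^ k0 * r0 ^ 2)⟩, ?_⟩
  simp only [cyNq, cyOfT, cyNrm, sfFrameOf, sfTestAt, SfFrame.tst, SfFrame.bc, SfFrame.yc, SfTest.beAt, CyT.mk.injEq]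
  generalize (2 : ℝ)⁻¹ ^ k0 = L at hl hl'
  refine ⟨?_, ?_, ?_, ?_, ?_, ?_, ?_, ?_, ?_, ?_⟩ <;> field_simp <;> ring

/-- the widths and the shear coefficients of `cyNq` are those of `cyNrm` -/
theorem cy_fc_tr_nq (T0 : ℝ) (k0 : ℕ) (Qs : CyT) (ρ : ℝ) (Q : CyT) :
    CyTr T0 k0 Qs ρ Q ↔ (ρ ≤ (cyNq T0 k0 Qs Q).r ∧ (cyNq T0 k0 Qs Q).r ≤ 1 ∧ ρ ≤ (cyNq T0 k0 Qs Q).f ∧ (cyNq T0 k0 Qs Q).f ≤ 1 ∧
      |(cyNq T0 k0 Qs Q).al| ≤ ρ⁻¹ ∧ |(cyNq T0 k0 Qs Q).be| ≤ ρ⁻¹ ∧ |(cyNq T0 k0 Qs Q).K| ≤ ρ⁻¹) := Iff.rfl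

theorem cy_fc_nq_r (T0 : ℝ) (k0 : ℕ) (Qs Q : CyT) : (cyNq T0 k0 Qs Q).r = Q.r / Qs.r := rfl

theorem cy_fc_nq_f (T0 : ℝ) (k0 : ℕ) (Qs Q : CyT) : (cyNq T0 k0 Qs Q).f = Q.f / Qs.f := rfl

/-- **the jitter in normalised coordinates**   (unfold `cyU, cyBase, cyNor, cyTilt, cyJit, cyJitB, cyJitPar, cyJv`; `Prod.mk.injEq`; the normal components: `cyVel Qs (cyJit Qs a z) = cyVel Qs z + a.N`, `cyPos Qs (cyJit Qs a z) = cyPos Qs z + a.D`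
(unfold `cyVel`, `cyPos`; `ring`); then `field_simp; ring`). -/
theorem cy_fc_u_jit (Qs : CyT) (hr : 0 < Qs.r) (hf : 0 < Qs.f) (l : ℝ) (hl : 0 < l) (ζ : ℝ) (θ : CyTh) (z : Cy5) :
    cyU Qs l (cyJit Qs (cyJitPar Qs l ζ θ) z) = cyJv ζ θ (cyU Qs l z) := by
  have hr' := hr.ne'
  have hf' := hf.ne'
  have hl' := hl.ne'
  simp only [cyU, cyBase, cyNor, cyTilt, cyJit, cyJitB, cyJitPar, cyJv, Prod.mk.injEq, cyVel, cyPos]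
  refine ⟨⟨?_, ?_, ?_⟩, ?_, ?_⟩ <;> field_simp <;> ring

/-- **the jitter commutes with the free flow**   (unfold `cyFlow, cyJit, cyJitB, cyExt, cyVel, cyPos`; `Cy5.mk.injEq`; `ring`). -/
theorem cy_fc_jit_flow (Qs : CyT) (t : ℝ) (a z : Cy5) : cyFlow t (cyJit Qs a z) = cyJit (cyExt Qs t) (cyFlow t a) (cyFlow t z) := by
  simp only [cyFlow, cyJit, cyJitB, cyExt, cyVel, cyPos, Cy5.mk.injEq]
  refine ⟨trivial, ?_, ?_, ?_, ?_⟩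
  all_goals ring

theorem cy_fc_bs_u (Qs : CyT) (l : ℝ) (z : Cy5) : cyBs (cyU Qs l z) = cyBaseSz Qs l z := rfl

theorem cy_fc_ns_u (Qs : CyT) (l : ℝ) (z : Cy5) : cyNs (cyU Qs l z) = cyNorSz Qs l z := rfl

/-! ## LEAF L-256-FCR-DM : the measure -/

/-- `cyU Qs l z = g (cyVec z)` with `g` a polynomial map divided by constants (`Measurable.prodMk`, `measurable_fst/snd`, `.add/.sub/.mul/.div_const/.pow_const`; or `fun_prop` after unfolding `cyU, cyBase, cyNor, cyTilt, cyVel, cyPos, cyOf5`). -/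
theorem cy_fc_u5_meas (Qs : CyT) (l : ℝ) : Measurable fun a : ℝ × ℝ × ℝ × ℝ × ℝ => cyU Qs l (cyOf5 a) := by
  unfold cyU cyBase cyNor cyTilt cyVel cyPos cyOf5
  fun_prop

theorem cy_fc_of5_vec (z : Cy5) : cyOf5 (cyVec z) = z := rfl

/-- (`(cy_fc_u5_meas Qs l).comp (H.co_meas p hp T)`, `cy_fc_of5_vec`). -/
theorem cy_fc_u_meas {Y : SfCy} (H : CyHyp Y) {p : Y.M.Par} (hp : Y.M.gd p) (Qs : CyT) (l T : ℝ) : Measurable fun x => cyU Qs l (Y.co p T x) :=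
  (cy_fc_u5_meas Qs l).comp (H.co_meas p hp T)

/-- (`Measure.map_apply (cy_fc_u_meas ..) hS`, `gn_ms_eq_mu` of `Gen/BasB.lean`, `Measure.real`). -/
theorem cy_fc_nu_real {Y : SfCy} (H : CyHyp Y) {p : Y.M.Par} (hp : Y.M.gd p) (E : Xp (Y.M.sys p)) (Qs : CyT) {S : Set CyV} (hS : MeasurableSet S) :
    (cyChM Y p E Qs).real S = (Y.M.sys p).ms (tmL E.k0 E.i0) E.k0 E.b0 {x | cyU Qs ((2 : ℝ)⁻¹ ^ E.k0) (Y.co p (tmL E.k0 E.i0) x) ∈ S} E.v := by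
  have hm := cy_fc_u_meas H hp Qs ((2 : ℝ)⁻¹ ^ E.k0) (tmL E.k0 E.i0)
  have hS' : MeasurableSet {x | cyU Qs ((2 : ℝ)⁻¹ ^ E.k0) (Y.co p (tmL E.k0 E.i0) x) ∈ S} := hm hS
  rw [gn_ms_eq_mu _ _ _ hS']
  unfold cyChM Measure.real
  rw [Measure.map_apply hm hS]
  rfl

/-- (`gn_mu_finite`, `Measure.isFiniteMeasure_map`). -/
theorem cy_fc_nu_fin (Y : SfCy) (p : Y.M.Par) (E : Xp (Y.M.sys p)) (Qs : CyT) : IsFiniteMeasure (cyChM Y p E Qs) := by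
  have := gn_mu_finite (P := Y.M.sys p) (tmL E.k0 E.i0) E.k0 E.b0 E.v
  unfold cyChM
  exact Measure.isFiniteMeasure_map _ _

/-- (`ofReal_measureReal` with `cy_fc_nu_fin`, `cy_fc_nu_real`). -/
theorem cy_fc_nu_apply {Y : SfCy} (H : CyHyp Y) {p : Y.M.Par} (hp : Y.M.gd p) (E : Xp (Y.M.sys p)) (Qs : CyT) {S : Set CyV} (hS : MeasurableSet S) :
    ENNReal.ofReal ((Y.M.sys p).ms (tmL E.k0 E.i0) E.k0 E.b0 {x | cyU Qs ((2 : ℝ)⁻¹ ^ E.k0) (Y.co p (tmL E.k0 E.i0) x) ∈ S} E.v) = cyChM Y p E Qs S := by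
  have := cy_fc_nu_fin Y p E Qs
  rw [← cy_fc_nu_real H hp E Qs hS, ofReal_measureReal]

/-- total mass `≤ ‖v‖²`   (`cy_fc_nu_real` with `S = univ`, `gn_ms_le (H.gen.tight p hp)`). -/
theorem cy_fc_nu_univ {Y : SfCy} (H : CyHyp Y) {p : Y.M.Par} (hp : Y.M.gd p) (E : Xp (Y.M.sys p)) (Qs : CyT) : (cyChM Y p E Qs).real Set.univ ≤ ‖E.v‖ ^ 2 := by
  rw [cy_fc_nu_real H hp E Qs MeasurableSet.univ]
  exact gn_ms_le (H.gen.tight p hp) _ _ _ ((cy_fc_u_meas H hp Qs _ _) MeasurableSet.univ) _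

/-! ## LEAF L-256-FCR-DJ : the jittered copy -/

/-- **the last clause of `CyJit` says: the chart measure of the copy is the jittered chart measure.**
PLAN.  Both sides are finite measures (`cy_fc_nu_fin`, `cy_fc_jm_finite`): `Measure.ext`, and for measurable `S` it suffices to compare `.real S` (`measureReal_def`, `ENNReal.toReal_eq_toReal_iff'` / `(ENNReal.toReal_eq_toReal ..).1`).
LHS: `cy_fc_nu_real` for `p', E'`; rewrite `hk hi hb`;  `{x | cyU .. (co p' T0 x) ∈ S} = {x | cyVec (co p' T0 x) ∈ U}`, `U = (fun a => cyU Qs l0 (cyOf5 a)) ⁻¹' S` (measurable: `cy_fc_u5_meas`); `hJ U`.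
Integrand: `{x | cyVec (cyJit ..) ∈ U} = {x | cyJv ζ θ (cyU Qs l0 (co p T0 x)) ∈ S}` (`cy_fc_u_jit`) `=` preimage of `cyJv ζ θ ⁻¹' S` (measurable: `cy_fc_meas_jv1`): `cy_fc_nu_real` backwards: `= ν.real (cyJv ζ θ ⁻¹' S)`.
RHS: `cy_fc_jm_apply'`;  `cyCube = cyCubeN` (`rfl`);  `∫ θ in cube, ν.real (..) = (∫⁻ θ in cube, ν (..)).toReal` (`integral_toReal` : needs `AEMeasurable` of `θ ↦ ν (cyJv ζ θ ⁻¹' S)` = `measurable_measure_prodMk_left` applied to the measurable set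
`(fun a : CyTh × CyV => cyJv ζ a.1 a.2) ⁻¹' S`, and `< ∞` a.e.: `measure_lt_top`). -/
theorem cy_fc_nu_jit {Y : SfCy} (H : CyHyp Y) {p p' : Y.M.Par} (hp : Y.M.gd p) (hp' : Y.M.gd p') (E : Xp (Y.M.sys p)) (E' : Xp (Y.M.sys p')) (Qs : CyT)
    (hr : 0 < Qs.r) (hf : 0 < Qs.f) (ζ : ℝ) (hk : E'.k0 = E.k0) (hi : E'.i0 = E.i0) (hb : E'.b0 = E.b0)
    (hJ : ∀ U : Set (ℝ × ℝ × ℝ × ℝ × ℝ), MeasurableSet U →
        (Y.M.sys p').ms (tmL E.k0 E.i0) E.k0 E.b0 {x | cyVec (Y.co p' (tmL E.k0 E.i0) x) ∈ U} E'.v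
          = ∫ θ in cyCube, (Y.M.sys p).ms (tmL E.k0 E.i0) E.k0 E.b0
              {x | cyVec (cyJit Qs (cyJitPar Qs ((2 : ℝ)⁻¹ ^ E.k0) ζ θ) (Y.co p (tmL E.k0 E.i0) x)) ∈ U} E.v) :
    cyChM Y p' E' Qs = cyJm ζ (cyChM Y p E Qs) := by
  have f1 := cy_fc_nu_fin Y p E Qs
  have f2 := cy_fc_nu_fin Y p' E' Qs
  have f3 := cy_fc_jm_finite ζ (cyChM Y p E Qs)
  have hl : (0:ℝ) < (2 : ℝ)⁻¹ ^ E.k0 := by positivity
  ext S hS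
  rw [← ENNReal.toReal_eq_toReal_iff' (measure_ne_top _ _) (measure_ne_top _ _)]
  change (cyChM Y p' E' Qs).real S = _
  rw [cy_fc_nu_real H hp' E' Qs hS, hk, hi, hb]
  have hU : MeasurableSet ((fun a => cyU Qs ((2 : ℝ)⁻¹ ^ E.k0) (cyOf5 a)) ⁻¹' S) := cy_fc_u5_meas Qs _ hS
  have h1 := hJ _ hU
  have e1 : {x | cyU Qs ((2 : ℝ)⁻¹ ^ E.k0) (Y.co p' (tmL E.k0 E.i0) x) ∈ S}
      = {x | cyVec (Y.co p' (tmL E.k0 E.i0) x) ∈ (fun a => cyU Qs ((2 : ℝ)⁻¹ ^ E.k0) (cyOf5 a)) ⁻¹' S} := rfl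
  rw [e1, h1, cy_fc_jm_apply' ζ _ hS]
  have e2 : ∀ θ, (Y.M.sys p).ms (tmL E.k0 E.i0) E.k0 E.b0 {x | cyVec (cyJit Qs (cyJitPar Qs ((2 : ℝ)⁻¹ ^ E.k0) ζ θ) (Y.co p (tmL E.k0 E.i0) x))
      ∈ (fun a => cyU Qs ((2 : ℝ)⁻¹ ^ E.k0) (cyOf5 a)) ⁻¹' S} E.v = ((cyChM Y p E Qs) (cyJv ζ θ ⁻¹' S)).toReal := fun θ => by
    have := cy_fc_nu_real H hp E Qs ((cy_fc_meas_jv1 ζ θ) hS)
    rw [Measure.real] at this
    rw [this]
    congr 1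
    ext x
    simp only [Set.mem_ofPred_eq, Set.mem_preimage, cy_fc_of5_vec, cy_fc_u_jit Qs hr hf _ hl]
  simp only [e2]
  rw [integral_toReal]
  · rfl
  · exact (measurable_measure_prodMk_left ((cy_fc_meas_jv ζ) hS)).aemeasurable
  · exact Filter.Eventually.of_forall fun θ => measure_lt_top _ _

/-! ## LEAF L-256-FCR-DH : hypotheses and conclusion in normalised form -/

theorem cy_fc_DH_cell {Y : SfCy} (H : CyHyp Y) {p : Y.M.Par} (hp : Y.M.gd p) (E : Xp (Y.M.sys p)) (Qs : CyT) (hr : 0 < Qs.r) (hf : 0 < Qs.f) (Q : (Y.M.sys p).Tst) :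
    (Y.M.sys p).ms (tmL E.k0 E.i0) E.k0 E.b0 ((Y.M.sys p).cell Q (tmL E.k0 E.i0) E.k0) E.v
      = (cyChM Y p E Qs).real (cyCv (cyNq (tmL E.k0 E.i0) E.k0 Qs (Y.tq p Q))) := by
  rw [cy_fc_nu_real H hp E Qs (cy_fc_meas_cv _), H.cell]
  congr 1
  ext x
  exact cy_fc_in_cv _ _ Qs hr hf _ _

/-- **the hypotheses of `CyTrRate` are `CyFcHyp` for the chart measure.**
PLAN.  `fin`: `cy_fc_nu_fin`.   `supp`: `{w | 1 < cyBs w}` is measurable (`cy_fc_meas_bs`), `cy_fc_nu_real` + `cy_fc_bs_u` give `.real = 0`; finite measure: `measureReal_eq_zero_iff`.   `tail`: the same with `cy_fc_meas_ns`, `cy_fc_ns_u`.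
`reg`: given `q` with `CyTrN ρ1 h0 q`: `Q` from `cy_fc_dn` (`cyNq T0 k0 Qs Q = q`), the model test `H.mkT p Q` (`H.tq_mk`).   `Q.r = q.r Qs.r > 0`, `Q.f = q.f Qs.f > 0` (`cy_fc_nq_r`, `cy_fc_nq_f`, `ρ1 ≤ q.r`), `dl ≤ Q.f` from `dl / Qs.f ≤ q.f`: `H.ok`.
`CyTr` by `cy_fc_tr_nq`.   `hreg`; cell: `H.cell` + `cy_fc_in_cv`, so `ms (cell) = ν.real (cyCv q)` (`cy_fc_nu_real`, `cy_fc_meas_cv`); weight: `H.wt`, `cy_fc_wt_nq`. -/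
theorem cy_fc_hyp {Y : SfCy} (H : CyHyp Y) {p : Y.M.Par} (hp : Y.M.gd p) (E : Xp (Y.M.sys p)) (Qs : CyT) (hr : 0 < Qs.r) (hf : 0 < Qs.f) {b Λ τ ρ1 : ℝ} (hρ : 0 < ρ1)
    (hsupp : (Y.M.sys p).ms (tmL E.k0 E.i0) E.k0 E.b0 {x | 1 < cyBaseSz Qs ((2 : ℝ)⁻¹ ^ E.k0) (Y.co p (tmL E.k0 E.i0) x)} E.v = 0)
    (htail : (Y.M.sys p).ms (tmL E.k0 E.i0) E.k0 E.b0 {x | Λ < cyNorSz Qs ((2 : ℝ)⁻¹ ^ E.k0) (Y.co p (tmL E.k0 E.i0) x)} E.v ≤ τ)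
    (hreg : ∀ Q, (Y.M.sys p).ok Q E.k0 → CyTr (tmL E.k0 E.i0) E.k0 Qs ρ1 (Y.tq p Q) →
        (Y.M.sys p).ms (tmL E.k0 E.i0) E.k0 E.b0 ((Y.M.sys p).cell Q (tmL E.k0 E.i0) E.k0) E.v ≤ b * (Y.M.sys p).wt Q) :
    CyFcHyp Y.η Λ (b * cyWt Y.η Qs) τ (Y.dl p E.k0 / Qs.f) ρ1 (cyChM Y p E Qs) := by
  have hfin := cy_fc_nu_fin Y p E Qs
  refine ⟨hfin, ?_, ?_, fun q hq => ?_⟩
  · have hm : MeasurableSet {w : CyV | 1 < cyBs w} := measurableSet_lt measurable_const cy_fc_meas_bs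
    have := cy_fc_nu_real H hp E Qs hm
    rw [← measureReal_eq_zero_iff, this]
    exact hsupp
  · have hm : MeasurableSet {w : CyV | Λ < cyNs w} := measurableSet_lt measurable_const cy_fc_meas_ns
    rw [cy_fc_nu_real H hp E Qs hm]
    exact htail
  · obtain ⟨Q, hQ⟩ := cy_fc_dn (tmL E.k0 E.i0) E.k0 Qs hr hf q
    obtain ⟨q1, q2, q3, q4, q5, q6, q7, q8⟩ := hq
    have hqr : 0 < q.r := hρ.trans_le q1
    have hqf : 0 < q.f := hρ.trans_le q3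
    have e1 : q.r = Q.r / Qs.r := by rw [← hQ]; rfl
    have e2 : q.f = Q.f / Qs.f := by rw [← hQ]; rfl
    have hQr : 0 < Q.r := by
      have : Q.r = q.r * Qs.r := by rw [e1]; field_simp
      rw [this]; positivity
    have hQf : 0 < Q.f := by
      have : Q.f = q.f * Qs.f := by rw [e2]; field_simp
      rw [this]; positivity
    have hdl : Y.dl p E.k0 ≤ Q.f := by
      rw [e2] at q5
      exact (div_le_div_iff_of_pos_right hf).1 q5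
    have hok : (Y.M.sys p).ok (H.mkT p Q) E.k0 := by
      rw [H.ok, H.tq_mk]
      exact ⟨hQr, hQf, hdl⟩
    have htr : CyTr (tmL E.k0 E.i0) E.k0 Qs ρ1 (Y.tq p (H.mkT p Q)) := by
      rw [H.tq_mk, cy_fc_tr_nq, hQ]
      exact ⟨q1, q2, q3, q4, q6, q7, q8⟩
    have := hreg _ hok htr
    rw [cy_fc_DH_cell H hp E Qs hr hf, H.tq_mk, hQ, H.wt, H.tq_mk, cy_fc_wt_nq Y.η (tmL E.k0 E.i0) E.k0 Qs hr hf Q hQr hQf, hQ] at this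
    linarith

/-- **full regularity of the chart measure is regularity of the root state.**
PLAN.  `Q` with `ok Q k0`: `H.ok` gives `0 < r`, `0 < f`, `dl ≤ f`; `q = cyNq T0 k0 Qs (tq Q)`; `q.r = r/Qs.r > 0`, `q.f = f/Qs.f ≥ dl/Qs.f`; cell and weight as in `cy_fc_hyp`. -/
theorem cy_fc_reg_of {Y : SfCy} (H : CyHyp Y) {p : Y.M.Par} (hp : Y.M.gd p) (E : Xp (Y.M.sys p)) (Qs : CyT) (hr : 0 < Qs.r) (hf : 0 < Qs.f) {κ : ℝ}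
    (h : ∀ q : CyT, 0 < q.r → 0 < q.f → Y.dl p E.k0 / Qs.f ≤ q.f → (cyChM Y p E Qs).real (cyCv q) ≤ κ * (cyWt Y.η Qs * cyWt Y.η q)) :
    (Y.M.sys p).Reg (tmL E.k0 E.i0) E.k0 E.b0 κ E.v := by
  intro Q hok
  rw [H.ok] at hok
  obtain ⟨h1, h2, h3⟩ := hok
  rw [cy_fc_DH_cell H hp E Qs hr hf, H.wt, cy_fc_wt_nq Y.η (tmL E.k0 E.i0) E.k0 Qs hr hf _ h1 h2]
  refine h _ ?_ ?_ ?_
  · rw [cy_fc_nq_r]; positivity
  · rw [cy_fc_nq_f]; positivity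
  · rw [cy_fc_nq_f]; gcongr

/-! ## LEAF L-256-FCR-DS : the setup -/

/-- marginal base density of a jittered measure   (`cy_fc_jm_apply` (the set `{w | w.1 ∈ S}` is measurable: `measurable_fst hS`), `cy_fc_sec3` under the integral, `lintegral_const`, `ofReal_measureReal`, `ENNReal.ofReal_mul`). -/
theorem cy_fc_dens3 {ζ : ℝ} (hζ : 0 < ζ) (ν : Measure CyV) [IsFiniteMeasure ν] {S : Set (ℝ × ℝ × ℝ)} (hS : MeasurableSet S) :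
    cyJm ζ ν {w | w.1 ∈ S} ≤ ENNReal.ofReal (ζ⁻¹ ^ 3 * ν.real Set.univ) * volume S := by
  have hm : MeasurableSet {w : CyV | w.1 ∈ S} := measurable_fst hS
  rw [cy_fc_jm_apply ζ ν hm]
  calc ∫⁻ w, volume ({θ : CyTh | cyJv ζ θ w ∈ {w : CyV | w.1 ∈ S}} ∩ cyCubeN) ∂ν
      ≤ ∫⁻ _w, ENNReal.ofReal (ζ⁻¹ ^ 3) * volume S ∂ν := lintegral_mono fun w => cy_fc_sec3 hζ w hS
    _ = ENNReal.ofReal (ζ⁻¹ ^ 3) * volume S * ν Set.univ := lintegral_const _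
    _ = _ := by
        rw [ENNReal.ofReal_mul (by positivity), ofReal_measureReal]
        ring

/-- joint density of a jittered measure   (`cy_fc_jm_apply`, `cy_fc_sec5` (intersecting with the cube decreases the section)). -/
theorem cy_fc_dens5 {ζ : ℝ} (hζ : 0 < ζ) (ν : Measure CyV) [IsFiniteMeasure ν] {S : Set CyV} (hS : MeasurableSet S) :
    cyJm ζ ν S ≤ ENNReal.ofReal (ζ⁻¹ ^ 5 * ν.real Set.univ) * volume S := by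
  rw [cy_fc_jm_apply ζ ν hS]
  calc ∫⁻ w, volume ({θ : CyTh | cyJv ζ θ w ∈ S} ∩ cyCubeN) ∂ν
      ≤ ∫⁻ _w, ENNReal.ofReal (ζ⁻¹ ^ 5) * volume S ∂ν :=
        lintegral_mono fun w => (measure_mono Set.inter_subset_left).trans (cy_fc_sec5 hζ w hS)
    _ = ENNReal.ofReal (ζ⁻¹ ^ 5) * volume S * ν Set.univ := lintegral_const _
    _ = _ := by
        rw [ENNReal.ofReal_mul (by positivity), ofReal_measureReal]
        ring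

/-- **`CySet` from the normalised measure**   (each field by `cy_fc_nu_real` / `cy_fc_nu_apply` on the measurable sets `{c < cyBs}`, `{c < cyNs}`, `{w | w.1 ∈ S}`, `S`; `cy_fc_bs_u`, `cy_fc_ns_u`; `cyU Qs l z = (cyBase Qs l z, cyNor Qs l z)` is `rfl`). -/
theorem cy_fc_set {Y : SfCy} (H : CyHyp Y) {p : Y.M.Par} (hp : Y.M.gd p) (E : Xp (Y.M.sys p)) (Qs : CyT) (hr : 0 < Qs.r) (hf : 0 < Qs.f) (jt : Prop) (C A : ℕ)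
    (h1 : E.s ^ (C : ℝ) * (E.ka * cyWt Y.η Qs) ≤ E.e) (h2 : E.e ≤ E.s ^ (-(C : ℝ)) * (E.ka * cyWt Y.η Qs))
    (h3 : (cyChM Y p E Qs).real {w | E.s ^ (-(C : ℝ)) < cyBs w} = 0)
    (h4 : (cyChM Y p E Qs).real {w | E.s ^ (-(C : ℝ)) < cyNs w} ≤ E.s ^ (A : ℝ) * E.e)
    (h5 : ∀ S : Set (ℝ × ℝ × ℝ), MeasurableSet S → cyChM Y p E Qs {w | w.1 ∈ S} ≤ ENNReal.ofReal (E.s ^ (-(C : ℝ)) * E.e) * volume S)
    (h6 : ∀ S : Set CyV, MeasurableSet S → cyChM Y p E Qs S ≤ ENNReal.ofReal (E.s ^ (-(C : ℝ)) * E.e) * volume S) :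
    CySet (Y.M.sys p) (Y.co p) Y.η jt C A E Qs := by
  refine ⟨hr, hf, h1, h2, ?_, ?_, fun S hS => ?_, fun _ S hS => ?_⟩
  · rw [cy_fc_nu_real H hp E Qs (measurableSet_lt measurable_const cy_fc_meas_bs)] at h3
    exact h3
  · rw [cy_fc_nu_real H hp E Qs (measurableSet_lt measurable_const cy_fc_meas_ns)] at h4
    exact h4
  · have := h5 S hS
    have hS' : MeasurableSet {w : CyV | w.1 ∈ S} := measurable_fst hS
    rw [← cy_fc_nu_apply H hp E Qs hS'] at this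
    exact this
  · have := h6 S hS
    rw [← cy_fc_nu_apply H hp E Qs hS] at this
    exact this

end Claimed.Agent.R256
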