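-- KEEP
import Claimed.Agent.R256.Cyl.FcrDict

/-!
# Row 256 (LS paper), CYL, unit FCR, file 5 : THE LABELS PERSIST ON DOUBLED TESTS  (02 l.694-699)          (architect helper120; prefix `cy_fc_`)

The jitter of normalised size `ζ ≤ δ ρ³ / 22` moves a ray of a terminal test with polynomial parameters (`CyBdd ρ`) inside the test with doubled widths.
`cy_fc_lab_n` (LEAF `L-256-FCR-LABN`, elementary inequalities)  →  `cy_fc_lab` (frames, proved)  →  `cy_fc_lab_E` (the hypothesis of `CyJit` for an experiment, proved).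
-/

set_option autoImplicit false

namespace Claimed.Agent.R256

open MeasureTheory

/-- the test with doubled widths -/
def cyDbl (Q : CyT) : CyT := { Q with r := 2 * Q.r, f := 2 * Q.f }

theorem cy_fc_lab_eqns_cite : True := by
  have := @cyDbl.eq_1
  trivial

/-- `2^(3+η) 2^(1-η) = 16`   (`Real.mul_rpow`, `Real.rpow_add`, `Real.rpow_natCast`). -/
theorem cy_fc_dbl_wt (η : ℝ) (Q : CyT) (hr : 0 < Q.r) (hf : 0 < Q.f) : cyWt η (cyDbl Q) = 16 * cyWt η Q := by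
  unfold cyWt cyDbl
  simp only
  rw [Real.mul_rpow (by norm_num) hr.le, Real.mul_rpow (by norm_num) hf.le]
  have h : (2 : ℝ) ^ (3 + η) * 2 ^ (1 - η) = 16 := by
    rw [← Real.rpow_add (by norm_num)]
    have : (3 + η + (1 - η) : ℝ) = ((4 : ℕ) : ℝ) := by norm_num
    rw [this, Real.rpow_natCast]
    norm_num
  calc (2 : ℝ) ^ (3 + η) * Q.r ^ (3 + η) * (2 ^ (1 - η) * Q.f ^ (1 - η)) = ((2 : ℝ) ^ (3 + η) * 2 ^ (1 - η)) * (Q.r ^ (3 + η) * Q.f ^ (1 - η)) := by ring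
    _ = 16 * (Q.r ^ (3 + η) * Q.f ^ (1 - η)) := by rw [h]

theorem cy_fc_ab2 {a b A B : ℝ} (ha : |a| ≤ A) (hb : |b| ≤ B) : |a * b| ≤ A * B := by
  rw [abs_mul]; exact mul_le_mul ha hb (abs_nonneg _) ((abs_nonneg _).trans ha)

theorem cy_fc_lab_k {ζ R : ℝ} (hR : 1 ≤ R) (hζ0 : 0 ≤ ζ) (hζ1 : ζ ≤ 1) :
    ζ ≤ ζ * R ∧ ζ * R ≤ ζ * R ^ 2 ∧ ζ * ζ ≤ ζ * R ∧ ζ * ζ * R ≤ ζ * R ^ 2 := by
  have h0 : 0 ≤ ζ * R := by positivity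
  refine ⟨by nlinarith, by nlinarith, by nlinarith, ?_⟩
  have h1 : ζ * ζ ≤ ζ * R := by nlinarith
  nlinarith

theorem cy_fc_lab_c3 {ζ R T x BT e1 e2 e3 : ℝ} (hR : 1 ≤ R) (hζ0 : 0 ≤ ζ) (hζ1 : ζ ≤ 1) (hT : |T| ≤ 1) (hx : |x| ≤ R) (hB : |BT| ≤ 2 * R)
    (h1 : |e1| ≤ ζ) (h2 : |e2| ≤ ζ) (h3 : |e3| ≤ ζ) :
    |e3 + 2 * e1 * BT + T * e1 ^ 2 - 2 * x * e2 - 2 * x * T * e1| ≤ 10 * (ζ * R) := by
  obtain ⟨k1, k2, k3, k4⟩ := cy_fc_lab_k hR hζ0 hζ1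
  have m1 := abs_le.mp h3
  have m2 := abs_le.mp (cy_fc_ab2 h1 hB)
  have m3 := abs_le.mp (cy_fc_ab2 (cy_fc_ab2 hT h1) h1)
  have m4 := abs_le.mp (cy_fc_ab2 hx h2)
  have m5 := abs_le.mp (cy_fc_ab2 (cy_fc_ab2 hx hT) h1)
  rw [abs_le]
  constructor <;> linarith [m1.1, m1.2, m2.1, m2.2, m3.1, m3.2, m4.1, m4.2, m5.1, m5.2]

theorem cy_fc_lab_c4 {ζ R T X al be K e1 e2 e3 e4 : ℝ} (hR : 1 ≤ R) (hζ0 : 0 ≤ ζ) (hζ1 : ζ ≤ 1) (hT : |T| ≤ 1) (hX : |X| ≤ 2 * R)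
    (hal : |al| ≤ R) (hbe : |be| ≤ R) (hK : |K| ≤ R) (h1 : |e1| ≤ ζ) (h2 : |e2| ≤ ζ) (h3 : |e3| ≤ ζ) (h4 : |e4| ≤ ζ) :
    |e4 - al * e1 - be * (2 * X * e1 + e1 ^ 2) - K * (e3 - 2 * T * X * e1 - 2 * X * e2 - 2 * e1 * e2 - T * e1 ^ 2)| ≤ 19 * (ζ * R ^ 2) := by
  obtain ⟨k1, k2, k3, k4⟩ := cy_fc_lab_k hR hζ0 hζ1
  have m1 := abs_le.mp h4
  have m2 := abs_le.mp (cy_fc_ab2 hal h1)
  have m3 := abs_le.mp (cy_fc_ab2 (cy_fc_ab2 hbe hX) h1)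
  have m4 := abs_le.mp (cy_fc_ab2 (cy_fc_ab2 hbe h1) h1)
  have m5 := abs_le.mp (cy_fc_ab2 hK h3)
  have m6 := abs_le.mp (cy_fc_ab2 (cy_fc_ab2 (cy_fc_ab2 hK hT) hX) h1)
  have m7 := abs_le.mp (cy_fc_ab2 (cy_fc_ab2 hK hX) h2)
  have m8 := abs_le.mp (cy_fc_ab2 (cy_fc_ab2 hK h1) h2)
  have m9 := abs_le.mp (cy_fc_ab2 (cy_fc_ab2 (cy_fc_ab2 hK hT) h1) h1)
  rw [abs_le]
  constructor <;> linarith [m1.1, m1.2, m2.1, m2.2, m3.1, m3.2, m4.1, m4.2, m5.1, m5.2, m6.1, m6.2, m7.1, m7.2, m8.1, m8.2, m9.1, m9.2]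

theorem cy_fc_lab_c5 {ζ R T BT al be K e1 e2 e3 e4 e5 : ℝ} (hR : 1 ≤ R) (hζ0 : 0 ≤ ζ) (hζ1 : ζ ≤ 1) (hT : |T| ≤ 1) (hB : |BT| ≤ 2 * R)
    (hal : |al| ≤ R) (hbe : |be| ≤ R) (hK : |K| ≤ R) (h1 : |e1| ≤ ζ) (h2 : |e2| ≤ ζ) (h3 : |e3| ≤ ζ) (h4 : |e4| ≤ ζ) (h5 : |e5| ≤ ζ) :
    |(e5 + T * e4) - al * (e2 + T * e1) - be * (e3 + 2 * e1 * BT + T * e1 ^ 2) + K * (2 * BT * (e2 + T * e1) + (e2 + T * e1) ^ 2)| ≤ 22 * (ζ * R ^ 2) := by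
  obtain ⟨k1, k2, k3, k4⟩ := cy_fc_lab_k hR hζ0 hζ1
  have m1 := abs_le.mp h5
  have m2 := abs_le.mp (cy_fc_ab2 hT h4)
  have m3 := abs_le.mp (cy_fc_ab2 hal h2)
  have m4 := abs_le.mp (cy_fc_ab2 (cy_fc_ab2 hal hT) h1)
  have m5 := abs_le.mp (cy_fc_ab2 hbe h3)
  have m6 := abs_le.mp (cy_fc_ab2 (cy_fc_ab2 hbe h1) hB)
  have m7 := abs_le.mp (cy_fc_ab2 (cy_fc_ab2 (cy_fc_ab2 hbe hT) h1) h1)
  have m8 := abs_le.mp (cy_fc_ab2 (cy_fc_ab2 hK hB) h2)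
  have m9 := abs_le.mp (cy_fc_ab2 (cy_fc_ab2 (cy_fc_ab2 hK hB) hT) h1)
  have m10 := abs_le.mp (cy_fc_ab2 (cy_fc_ab2 hK h2) h2)
  have m11 := abs_le.mp (cy_fc_ab2 (cy_fc_ab2 (cy_fc_ab2 hK h2) hT) h1)
  have m12 := abs_le.mp (cy_fc_ab2 (cy_fc_ab2 (cy_fc_ab2 (cy_fc_ab2 hK hT) hT) h1) h1)
  rw [abs_le]
  constructor <;> linarith [m1.1, m1.2, m2.1, m2.2, m3.1, m3.2, m4.1, m4.2, m5.1, m5.2, m6.1, m6.2, m7.1, m7.2, m8.1, m8.2, m9.1, m9.2, m10.1, m10.2, m11.1, m11.2, m12.1, m12.2]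

/-- **LEAF L-256-FCR-LABN** (elementary).   Notation: `T = q.T ∈ [0,1]`, `u = (X,B,Y,N,D)`, `e_i = ζ θ_i ∈ [0,ζ]`, `B_T = B + T X`, `Y_T = Y + T X²`, `D_T = D + T N`;   `u' = cyJv ζ θ u = (X+e₁, B+e₂, Y+e₃+2e₁B, N+e₄, D+e₅)`.
From `CyBdd ρ q`: all of `|x| |b| |y| |c| |d| |al| |be| |K| ≤ 1/ρ` (`SfTest.size`, `le_max_iff`/`max_le_iff`), `ρ ≤ r, f ≤ 1/ρ`.   From `h`: `|X| ≤ |x| + r ≤ 2/ρ`, `|B_T| ≤ |b| + δ r ≤ 2/ρ`.   The five quantities change by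
 (1) `e₁`                                                                                     `≤ ζ ≤ ρ ≤ r`
 (2) `g := e₂ + T e₁`                                                                          `≤ 2ζ ≤ δ ρ ≤ δ r`
 (3) `e₃ + 2 e₁ B_T + T e₁² - 2 x e₂ - 2 x T e₁`                                               `≤ 10 ζ/ρ ≤ 3 δ ρ² ≤ 3 δ r²`   (`(2r)² = r² + 3r²`)
 (4) `e₄ - al e₁ - be (2 X e₁ + e₁²) - K (e₃ - 2 T X e₁ - 2 X e₂ - 2 e₁ e₂ - T e₁²)`           `≤ 19 ζ/ρ² ≤ ρ ≤ f`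
 (5) `(e₅ + T e₄) - al g - be (e₃ + 2 e₁ B_T + T e₁²) + K (2 B_T g + g²)`                      `≤ 22 ζ/ρ² ≤ δ ρ ≤ δ f`.
Each: `new = old + change` by `ring`, `abs_add_le`, then bound the change termwise (`abs_mul`, `mul_le_mul`); it is convenient to set `R = 1/ρ ≥ 1` and to prove `|change| ≤ 22 ζ R²` with `nlinarith`/`gcongr`, and `22 ζ R² ≤ δ ρ` from `hζ` (`field_simp`). -/
theorem cy_fc_lab_n {δ ρ ζ : ℝ} (hδ0 : 0 < δ) (hδ : δ ≤ 1) (hρ0 : 0 < ρ) (hρ : ρ ≤ 1) (hζ0 : 0 ≤ ζ) (hζ : 22 * ζ ≤ δ * ρ ^ 3) (q : SfTest) (hq : CyBdd ρ q)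
    (hT0 : 0 ≤ q.T) (hT1 : q.T ≤ 1) {θ : CyTh} (hθ : θ ∈ cyCubeN) (u : CyV) (h : q.Mem δ (cyRay u)) :
    SfTest.Mem { q with r := 2 * q.r, f := 2 * q.f } δ (cyRay (cyJv ζ θ u)) := by
  obtain ⟨hs, hr1, hr2, hf1, hf2⟩ := hq
  simp only [SfTest.size, max_le_iff] at hs
  obtain ⟨hx, hb, hy, hc, hd, hal, hbe, hK⟩ := hs
  obtain ⟨t1, t2, t3, t4, t5⟩ := θ
  obtain ⟨⟨X, B, Y⟩, N, D⟩ := u
  simp only [cyCubeN, Set.mem_prod, Set.mem_Icc] at hθ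
  obtain ⟨⟨a1, a1'⟩, ⟨a2, a2'⟩, ⟨a3, a3'⟩, ⟨a4, a4'⟩, ⟨a5, a5'⟩⟩ := hθ
  obtain ⟨g1, g2, g3, g4, g5⟩ := h
  simp only [cyRay, SfRay.Bt, SfRay.Yt, SfRay.Dt] at g1 g2 g3 g4 g5
  set R : ℝ := ρ⁻¹ with hR
  have hρR : ρ * R = 1 := mul_inv_cancel₀ hρ0.ne'
  have hR1 : 1 ≤ R := (one_le_inv₀ hρ0).2 hρ
  have hR0 : 0 < R := by linarith
  have hee : ∀ t : ℝ, 0 ≤ t → t ≤ 1 → |ζ * t| ≤ ζ := by
    intro t t0 t1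
    rw [abs_of_nonneg (mul_nonneg hζ0 t0)]
    exact mul_le_of_le_one_right hζ0 t1
  have h1 := hee _ a1 a1'
  have h2 := hee _ a2 a2'
  have h3 := hee _ a3 a3'
  have h4 := hee _ a4 a4'
  have h5 := hee _ a5 a5'
  have hT : |q.T| ≤ 1 := by rw [abs_of_nonneg hT0]; exact hT1
  have hρ2 : ρ ^ 2 ≤ ρ := pow_le_of_le_one hρ0.le hρ (by norm_num)
  have hρ3 : ρ ^ 3 ≤ ρ ^ 2 := pow_le_pow_of_le_one hρ0.le hρ (by norm_num)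
  have hδρ3 : δ * ρ ^ 3 ≤ ρ ^ 3 := mul_le_of_le_one_left (by positivity) hδ
  have hζ1 : ζ ≤ 1 := by linarith
  -- the three scales
  have s2 : 22 * (ζ * R ^ 2) ≤ δ * ρ := by
    have : 22 * ζ * R ^ 2 ≤ δ * ρ ^ 3 * R ^ 2 := mul_le_mul_of_nonneg_right hζ (by positivity)
    have e : δ * ρ ^ 3 * R ^ 2 = δ * ρ * (ρ * R) ^ 2 := by ring
    rw [e, hρR] at this
    linarith
  have s1 : 22 * (ζ * R) ≤ δ * ρ ^ 2 := by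
    have : 22 * ζ * R ≤ δ * ρ ^ 3 * R := mul_le_mul_of_nonneg_right hζ hR0.le
    have e : δ * ρ ^ 3 * R = δ * ρ ^ 2 * (ρ * R) := by ring
    rw [e, hρR] at this
    linarith
  have hδr : δ * ρ ≤ δ * q.r := mul_le_mul_of_nonneg_left hr1 hδ0.le
  have hδf : δ * ρ ≤ δ * q.f := mul_le_mul_of_nonneg_left hf1 hδ0.le
  have hδρ : δ * ρ ≤ ρ := mul_le_of_le_one_left hρ0.le hδ
  have hδr2 : δ * ρ ^ 2 ≤ δ * q.r ^ 2 := mul_le_mul_of_nonneg_left (pow_le_pow_left₀ hρ0.le hr1 2) hδ0.le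
  have hδρ32 : δ * ρ ^ 3 ≤ δ * ρ := mul_le_mul_of_nonneg_left (by linarith) hδ0.le
  have hX : |X| ≤ 2 * R := by
    have := abs_sub_abs_le_abs_sub X q.x
    linarith
  have hB : |B + q.T * X| ≤ 2 * R := by
    have := abs_sub_abs_le_abs_sub (B + q.T * X) q.b
    have : δ * q.r ≤ q.r := mul_le_of_le_one_left (hρ0.le.trans hr1) hδ
    linarith
  have hζR2 : 0 ≤ ζ * R ^ 2 := by positivity
  have hζR : 0 ≤ ζ * R := by positivity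
  refine ⟨?_, ?_, ?_, ?_, ?_⟩ <;> simp only [cyRay, cyJv, SfRay.Bt, SfRay.Yt, SfRay.Dt]
  · have e : X + ζ * t1 - q.x = (X - q.x) + ζ * t1 := by ring
    rw [e]
    refine (abs_add_le _ _).trans ?_
    linarith
  · have e : B + ζ * t2 + q.T * (X + ζ * t1) - q.b = (B + q.T * X - q.b) + (ζ * t2 + q.T * (ζ * t1)) := by ring
    rw [e]
    refine (abs_add_le _ _).trans ?_
    have := abs_add_le (ζ * t2) (q.T * (ζ * t1))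
    have := cy_fc_ab2 hT h1
    linarith
  · have e : Y + ζ * t3 + 2 * (ζ * t1) * B + q.T * (X + ζ * t1) ^ 2 - q.y - 2 * q.x * (B + ζ * t2 + q.T * (X + ζ * t1) - q.b)
        = (Y + q.T * X ^ 2 - q.y - 2 * q.x * (B + q.T * X - q.b))
          + (ζ * t3 + 2 * (ζ * t1) * (B + q.T * X) + q.T * (ζ * t1) ^ 2 - 2 * q.x * (ζ * t2) - 2 * q.x * q.T * (ζ * t1)) := by ring
    rw [e]
    refine (abs_add_le _ _).trans ?_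
    have := cy_fc_lab_c3 hR1 hζ0 hζ1 hT hx hB h1 h2 h3
    have e2 : δ * (2 * q.r) ^ 2 = 4 * (δ * q.r ^ 2) := by ring
    have : 0 ≤ δ * ρ ^ 2 := by positivity
    rw [e2]
    linarith
  · have e : N + ζ * t4 - q.c - q.al * (X + ζ * t1) - q.be * (X + ζ * t1) ^ 2
          - q.K * (Y + ζ * t3 + 2 * (ζ * t1) * B + q.T * (X + ζ * t1) ^ 2 - 2 * (X + ζ * t1) * (B + ζ * t2 + q.T * (X + ζ * t1)))
        = (N - q.c - q.al * X - q.be * X ^ 2 - q.K * (Y + q.T * X ^ 2 - 2 * X * (B + q.T * X)))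
          + (ζ * t4 - q.al * (ζ * t1) - q.be * (2 * X * (ζ * t1) + (ζ * t1) ^ 2)
              - q.K * (ζ * t3 - 2 * q.T * X * (ζ * t1) - 2 * X * (ζ * t2) - 2 * (ζ * t1) * (ζ * t2) - q.T * (ζ * t1) ^ 2)) := by ring
    rw [e]
    refine (abs_add_le _ _).trans ?_
    have := cy_fc_lab_c4 hR1 hζ0 hζ1 hT hX hal hbe hK h1 h2 h3 h4
    linarith
  · have e : D + ζ * t5 + q.T * (N + ζ * t4) - q.d - q.al * (B + ζ * t2 + q.T * (X + ζ * t1))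
          - q.be * (Y + ζ * t3 + 2 * (ζ * t1) * B + q.T * (X + ζ * t1) ^ 2) + q.K * (B + ζ * t2 + q.T * (X + ζ * t1)) ^ 2
        = (D + q.T * N - q.d - q.al * (B + q.T * X) - q.be * (Y + q.T * X ^ 2) + q.K * (B + q.T * X) ^ 2)
          + ((ζ * t5 + q.T * (ζ * t4)) - q.al * (ζ * t2 + q.T * (ζ * t1)) - q.be * (ζ * t3 + 2 * (ζ * t1) * (B + q.T * X) + q.T * (ζ * t1) ^ 2)
              + q.K * (2 * (B + q.T * X) * (ζ * t2 + q.T * (ζ * t1)) + (ζ * t2 + q.T * (ζ * t1)) ^ 2)) := by ring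
    rw [e]
    refine (abs_add_le _ _).trans ?_
    have := cy_fc_lab_c5 hR1 hζ0 hζ1 hT hB hal hbe hK h1 h2 h3 h4 h5
    linarith

theorem cy_fc_flow_zero (z : Cy5) : cyFlow 0 z = z := by
  simp [cyFlow]

theorem cy_fc_nrm_dbl (T0 : ℝ) (k0 : ℕ) (Qs : CyT) (T : ℝ) (Q : CyT) :
    cyNrm T0 k0 Qs T (cyDbl Q) = { cyNrm T0 k0 Qs T Q with r := 2 * (cyNrm T0 k0 Qs T Q).r, f := 2 * (cyNrm T0 k0 Qs T Q).f } := by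
  simp only [cyNrm, cyDbl, SfFrame.tst, sfTestAt, sfFrameOf, mul_div_assoc]

/-- **the labels persist**, frame form -/
theorem cy_fc_lab (T0 : ℝ) (k0 : ℕ) (Qs : CyT) (hr : 0 < Qs.r) (hf : 0 < Qs.f) (t : ℝ) (ht0 : 0 ≤ t) (ht1 : t ≤ (2 : ℝ)⁻¹ ^ k0) (Q : CyT)
    {δ ρ ζ : ℝ} (hδ0 : 0 < δ) (hδ : δ ≤ 1) (hρ0 : 0 < ρ) (hρ : ρ ≤ 1) (hζ0 : 0 ≤ ζ) (hζ : 22 * ζ ≤ δ * ρ ^ 3)
    (hq : CyBdd ρ (cyNrm T0 k0 Qs (T0 + t) Q)) {θ : CyTh} (hθ : θ ∈ cyCubeN) (z : Cy5) (hz : cyIn Q (δ * (2 : ℝ)⁻¹ ^ k0) z) :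
    cyIn (cyDbl Q) (δ * (2 : ℝ)⁻¹ ^ k0) (cyJit (cyExt Qs t) (cyFlow t (cyJitPar Qs ((2 : ℝ)⁻¹ ^ k0) ζ θ)) z) := by
  have hl : (0 : ℝ) < (2 : ℝ)⁻¹ ^ k0 := by positivity
  have hz0 : z = cyFlow t (cyFlow (-t) z) := by
    rw [cy_flow_add, add_neg_cancel, cy_fc_flow_zero]
  have e1 : δ * (2 : ℝ)⁻¹ ^ k0 / (2 : ℝ)⁻¹ ^ k0 = δ := by field_simp
  rw [hz0] at hz
  rw [cy_nr_mem_flow T0 k0 Qs hr hf t Q, e1] at hz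
  have hT : (cyNrm T0 k0 Qs (T0 + t) Q).T = t / (2 : ℝ)⁻¹ ^ k0 := by
    simp [cyNrm, SfFrame.tst, sfTestAt, sfFrameOf]
  have h1 := cy_fc_lab_n hδ0 hδ hρ0 hρ hζ0 hζ _ hq (by rw [hT]; positivity) (by rw [hT]; exact (div_le_one hl).2 ht1) hθ _ hz
  rw [← cy_fc_nrm_dbl, ← cy_fc_u_jit Qs hr hf _ hl, ← e1, ← cy_nr_mem_flow T0 k0 Qs hr hf t, cy_fc_jit_flow, ← hz0] at h1
  exact h1

/-- **the hypothesis of `CyJit` on the doubled tests** -/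
theorem cy_fc_lab_E {Y : SfCy} {p : Y.M.Par} (E : Xp (Y.M.sys p)) (hE : E.Valid) (Qs : CyT) (hr : 0 < Qs.r) (hf : 0 < Qs.f) {Ds ζ : ℝ} (hDs : 0 ≤ Ds)
    (hζ0 : 0 ≤ ζ) (hζ : 22 * ζ ≤ E.s * (E.s ^ Ds) ^ 3)
    (hlab : ∀ l, CyBdd (E.s ^ Ds) (cyNrm (tmL E.k0 E.i0) E.k0 Qs (tmL E.kf (E.iv l)) (Y.tq p (E.ts l)))) :
    ∀ l, ∀ θ ∈ cyCube, ∀ z, cyIn (Y.tq p (E.ts l)) ((2 : ℝ)⁻¹ ^ E.kf) z →
      cyIn (cyDbl (Y.tq p (E.ts l))) ((2 : ℝ)⁻¹ ^ E.kf) (cyJit (cyExt Qs (tmL E.kf (E.iv l) - tmL E.k0 E.i0))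
        (cyFlow (tmL E.kf (E.iv l) - tmL E.k0 E.i0) (cyJitPar Qs ((2 : ℝ)⁻¹ ^ E.k0) ζ θ)) z) := by
  intro l θ hθ z hz
  have hc : CutLe (tmL E.k0 (ancI E.kf E.k0 (E.iv l))) E.k0 (tmL E.kf (E.iv l)) E.kf := gn_cutle_anc (Nat.le_add_right E.k0 E.n) (E.iv l)
  rw [hE.iv_in l] at hc
  obtain ⟨-, hc1, hc2⟩ := hc
  have e : (2 : ℝ)⁻¹ ^ E.kf = E.s * (2 : ℝ)⁻¹ ^ E.k0 := by
    unfold Xp.kf Xp.s
    rw [pow_add, mul_comm]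
  have hq := hlab l
  have e2 : tmL E.kf (E.iv l) = tmL E.k0 E.i0 + (tmL E.kf (E.iv l) - tmL E.k0 E.i0) := by ring
  rw [e2] at hq
  rw [e] at hz ⊢
  exact cy_fc_lab (tmL E.k0 E.i0) E.k0 Qs hr hf _ (by linarith) (by linarith) _ (gn_s_pos E) (gn_s_le_one E)
    (Real.rpow_pos_of_pos (gn_s_pos E) _) (Real.rpow_le_one (gn_s_pos E).le (gn_s_le_one E) hDs) hζ0 hζ hq hθ z hz

end Claimed.Agent.R256
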