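-- KEEP
import Claimed.Agent.R256.Cyl.FcrLab

/-!
# Row 256 (LS paper), CYL, unit FCR, file 6 : THE TRUNCATED RATE  (02 l.672-722)          (architect helper120; prefix `cy_fc_`)

 `cy_fc_copy`   the jittered copy `E2` of a chart piece `E`: valid with the regularity `17 (Λ+3)² b` on ALL tests, same tree, same energy, `rd E = 4 rd E2`, chart measure `= cyJm ζ (chart measure of E)`
 `cy_fc_adm`    `E2` obeys the polynomial setup in the frame `Qs`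
 `cy_fc_num`, `cy_fc_num2`, `cy_fc_fin`     arithmetic (LEAVES `L-256-FCR-NUM`, `-NUM2`, `-FIN`)
 `cy_fc_main`   constants; the rate `gn_rate_gam` on `E2`.
Exponents (depend only on `Ds`, `η`):  `ζ = s^l`, `l = 2 + 3 Ds`;   `ρ2 = s^D2`, `D2 = (5l+2)/(1-η)`;   `ρ3 = s^D3`, `D3 = 4 (5l + 4 D2 + 3)`;   `ρ1 = s^D1`, `D1 = D2 + D3 + 1`.
-/

set_option autoImplicit false

namespace Claimed.Agent.R256

open MeasureTheory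

noncomputable def cyFcL (Ds : ℝ) : ℝ := 2 + 3 * Ds
noncomputable def cyFcD2 (η Ds : ℝ) : ℝ := (5 * cyFcL Ds + 2) / (1 - η)
noncomputable def cyFcD3 (η Ds : ℝ) : ℝ := 4 * (5 * cyFcL Ds + 4 * cyFcD2 η Ds + 3)
noncomputable def cyFcD1 (η Ds : ℝ) : ℝ := cyFcD2 η Ds + cyFcD3 η Ds + 1

theorem cy_fc_top_eqns_cite : True := by
  have := @cyFcL.eq_1
  have := @cyFcD2.eq_1
  have := @cyFcD3.eq_1
  have := @cyFcD1.eq_1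
  trivial

theorem cy_fc_D2_pos {η Ds : ℝ} (hη : η < 1) (hDs : 0 < Ds) : 0 < cyFcD2 η Ds := by
  unfold cyFcD2 cyFcL
  have : 0 < 1 - η := by linarith
  positivity

theorem cy_fc_D1_pos {η Ds : ℝ} (hη : η < 1) (hDs : 0 < Ds) : 0 < cyFcD1 η Ds := by
  have h2 := cy_fc_D2_pos hη hDs
  unfold cyFcD1 cyFcD3 cyFcL
  nlinarith

/-! ## arithmetic leaves -/

theorem cy_fc_num_core {η Cs l D2 D3 D1 : ℝ} (hη : 0 < η ∧ η < 1) (hCs : 0 ≤ Cs) (hl2 : 2 ≤ l) (hD2p : 0 < D2) (hD2e : D2 * (1 - η) = 5 * l + 2)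
    (hD3e : D3 = 4 * (5 * l + 4 * D2 + 3)) (hD1e : D1 = D2 + D3 + 1) (s C A ε1 b1 e h0 : ℝ) (hs : 0 < s) (hs0 : s ≤ min (1 / 320) (1 / (720 * Cs + 1))) (hε1 : 0 < ε1) (hε18 : ε1 ≤ 1 / 8)
    (hC : 0 ≤ C) (hA : C + 3 * l + 4 * D2 + 5 ≤ A) (hb1 : 0 < b1) (he : 0 ≤ e) (he2 : e ≤ s ^ (-C) * b1) (hh0 : 0 ≤ h0) (hh1 : h0 ≤ 1) :
    CyFcNum η (s ^ l) (s ^ (-ε1)) b1 (s ^ A * e) h0 (s ^ D1) (s ^ D2) (s ^ D3) Cs := by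
  have hs320 : s ≤ 1 / 320 := hs0.trans (min_le_left _ _)
  have hsCs : s ≤ 1 / (720 * Cs + 1) := hs0.trans (min_le_right _ _)
  have hs1 : s ≤ 1 := hs320.trans (by norm_num)
  have anti : ∀ {y z : ℝ}, z ≤ y → s ^ y ≤ s ^ z := fun h => Real.rpow_le_rpow_of_exponent_ge hs hs1 h
  have pos : ∀ y : ℝ, 0 < s ^ y := fun y => Real.rpow_pos_of_pos hs y
  have le1 : ∀ {y : ℝ}, 0 ≤ y → s ^ y ≤ 1 := fun h => Real.rpow_le_one hs.le hs1 h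
  have leS : ∀ {y : ℝ}, 1 ≤ y → s ^ y ≤ s := fun h => by
    calc s ^ _ ≤ s ^ (1 : ℝ) := anti h
      _ = s := Real.rpow_one s
  rw [hD1e]
  have hD3p : 0 < D3 := by
    rw [hD3e]
    positivity
  generalize hΛd : s ^ (-ε1) = Λ
  have hΛ1 : 1 ≤ Λ := hΛd ▸ Real.one_le_rpow_of_pos_of_le_one_of_nonpos hs hs1 (by linarith)
  have hΛ8 : Λ ≤ s ^ (-(1 / 8) : ℝ) := hΛd ▸ anti (by linarith)
  have hΛsq : Λ ^ 2 ≤ s ^ (-(1 / 4) : ℝ) := by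
    calc Λ ^ 2 ≤ (s ^ (-(1 / 8) : ℝ)) ^ 2 := by gcongr
      _ = s ^ (-(1 / 4) : ℝ) := by
        rw [← Real.rpow_natCast, ← Real.rpow_mul hs.le]
        norm_num
  have hz5 : (s ^ l)⁻¹ ^ 5 = s ^ (-(5 * l)) := by
    rw [← Real.rpow_neg hs.le, ← Real.rpow_natCast, ← Real.rpow_mul hs.le]
    congr 1
    push_cast
    ring
  have hz3 : (s ^ l)⁻¹ ^ 3 = s ^ (-(3 * l)) := by
    rw [← Real.rpow_neg hs.le, ← Real.rpow_natCast, ← Real.rpow_mul hs.le]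
    congr 1
    push_cast
    ring
  have hr24 : (s ^ D2) ^ 4 = s ^ (4 * D2) := by
    rw [← Real.rpow_natCast, ← Real.rpow_mul hs.le]
    congr 1
    push_cast
    ring
  have h10 : (Λ + 2) ^ 2 + 1 ≤ 10 * Λ ^ 2 := by nlinarith
  have h36 : (2 * Λ + 4) ^ 2 ≤ 36 * Λ ^ 2 := by nlinarith
  have hτ : s ^ A * e ≤ s ^ (A - C) * b1 := by
    calc s ^ A * e ≤ s ^ A * (s ^ (-C) * b1) := mul_le_mul_of_nonneg_left he2 (pos _).le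
      _ = s ^ (A - C) * b1 := by rw [sub_eq_add_neg, Real.rpow_add hs]; ring
  refine ⟨hη, pos _, (leS (by linarith)).trans (hs320.trans (by norm_num)), hΛ1, hb1, mul_nonneg (pos _).le he, ⟨hh0, hh1⟩, pos _, anti (by linarith),
    le1 hD2p.le, le1 hD3p.le, ?_, ?_, ?_, ?_, ?_⟩
  · -- r13
    have e1 : s ^ (D2 + D3 + 1) = s ^ D3 * s ^ (D2 + 1) := by
      rw [← Real.rpow_add hs]
      congr 1
      ring
    rw [e1]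
    have : s ^ (D2 + 1) ≤ 1 / 3 := (leS (by linarith)).trans (hs320.trans (by norm_num))
    have := pos D3
    nlinarith
  · -- n2
    rw [hz5, ← Real.rpow_mul hs.le, hD2e]
    have e1 : s ^ (-(1 / 4) : ℝ) * s ^ (-(5 * l)) * s ^ (5 * l + 2) = s ^ (7 / 4 : ℝ) := by
      rw [← Real.rpow_add hs, ← Real.rpow_add hs]
      congr 1
      ring
    have hp : 0 < s ^ (-(5 * l)) * s ^ (5 * l + 2) := mul_pos (pos _) (pos _)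
    calc 32 * ((Λ + 2) ^ 2 + 1) * s ^ (-(5 * l)) * s ^ (5 * l + 2) = 32 * ((Λ + 2) ^ 2 + 1) * (s ^ (-(5 * l)) * s ^ (5 * l + 2)) := by ring
      _ ≤ 32 * (10 * s ^ (-(1 / 4) : ℝ)) * (s ^ (-(5 * l)) * s ^ (5 * l + 2)) := by
          apply mul_le_mul_of_nonneg_right _ hp.le
          linarith
      _ = 320 * (s ^ (-(1 / 4) : ℝ) * s ^ (-(5 * l)) * s ^ (5 * l + 2)) := by ring
      _ = 320 * s ^ (7 / 4 : ℝ) := by rw [e1]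
      _ ≤ 320 * s := by
          apply mul_le_mul_of_nonneg_left (leS (by norm_num)) (by norm_num)
      _ ≤ 1 := by linarith
  · -- n3
    rw [hz5, ← Real.rpow_mul hs.le, hr24]
    have e0 : D3 * (1 / 4 : ℝ) = 5 * l + 4 * D2 + 3 := by
      rw [hD3e]
      ring
    rw [e0]
    have e1 : s ^ (-(1 / 4) : ℝ) * s ^ (-(1 / 4) : ℝ) * s ^ (-(5 * l)) * s ^ (5 * l + 4 * D2 + 3) = s ^ (4 * D2) * s ^ (5 / 2 : ℝ) := by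
      rw [← Real.rpow_add hs, ← Real.rpow_add hs, ← Real.rpow_add hs, ← Real.rpow_add hs]
      congr 1
      ring
    have hp : 0 < s ^ (-(5 * l)) * s ^ (5 * l + 4 * D2 + 3) := mul_pos (pos _) (pos _)
    have hq := pos (-(1 / 4) : ℝ)
    have hΛΛ : ((Λ + 2) ^ 2 + 1) * (2 * Λ + 4) ^ 2 ≤ 360 * (s ^ (-(1 / 4) : ℝ) * s ^ (-(1 / 4) : ℝ)) := by
      calc ((Λ + 2) ^ 2 + 1) * (2 * Λ + 4) ^ 2 ≤ (10 * s ^ (-(1 / 4) : ℝ)) * (36 * s ^ (-(1 / 4) : ℝ)) := by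
            apply mul_le_mul (by linarith) (by linarith) (by positivity) (by positivity)
        _ = 360 * (s ^ (-(1 / 4) : ℝ) * s ^ (-(1 / 4) : ℝ)) := by ring
    have hCss : 720 * Cs * s ≤ 1 := by
      have h1 : 0 < 720 * Cs + 1 := by positivity
      have h2 : s * (720 * Cs + 1) ≤ 1 := by
        rw [le_div_iff₀ h1] at hsCs
        exact hsCs
      nlinarith
    calc Cs * ((Λ + 2) ^ 2 + 1) * (2 * Λ + 4) ^ 2 * s ^ (-(5 * l)) * s ^ (5 * l + 4 * D2 + 3)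
        = Cs * (((Λ + 2) ^ 2 + 1) * (2 * Λ + 4) ^ 2) * (s ^ (-(5 * l)) * s ^ (5 * l + 4 * D2 + 3)) := by ring
      _ ≤ Cs * (360 * (s ^ (-(1 / 4) : ℝ) * s ^ (-(1 / 4) : ℝ))) * (s ^ (-(5 * l)) * s ^ (5 * l + 4 * D2 + 3)) := by
          apply mul_le_mul_of_nonneg_right _ hp.le
          exact mul_le_mul_of_nonneg_left hΛΛ hCs
      _ = 360 * Cs * (s ^ (-(1 / 4) : ℝ) * s ^ (-(1 / 4) : ℝ) * s ^ (-(5 * l)) * s ^ (5 * l + 4 * D2 + 3)) := by ring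
      _ = 360 * Cs * (s ^ (4 * D2) * s ^ (5 / 2 : ℝ)) := by rw [e1]
      _ ≤ 360 * Cs * (s ^ (4 * D2) * s) := by
          apply mul_le_mul_of_nonneg_left _ (by positivity)
          exact mul_le_mul_of_nonneg_left (leS (by norm_num)) (pos _).le
      _ = (720 * Cs * s) * (s ^ (4 * D2) / 2) := by ring
      _ ≤ 1 * (s ^ (4 * D2) / 2) := by
          apply mul_le_mul_of_nonneg_right hCss
          have := pos (4 * D2)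
          positivity
      _ = s ^ (4 * D2) / 2 := one_mul _
  · -- n3'
    rw [hr24]
    refine hτ.trans ?_
    have e1 : s ^ (A - C) ≤ s ^ (4 * D2) * s := by
      calc s ^ (A - C) ≤ s ^ (4 * D2 + 1) := anti (by linarith)
        _ = s ^ (4 * D2) * s := by rw [Real.rpow_add hs, Real.rpow_one]
    have hp := pos (4 * D2)
    calc s ^ (A - C) * b1 ≤ (s ^ (4 * D2) * s) * b1 := mul_le_mul_of_nonneg_right e1 hb1.le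
      _ = (b1 * s ^ (4 * D2)) * s := by ring
      _ ≤ (b1 * s ^ (4 * D2)) * (1 / 2) := by
          apply mul_le_mul_of_nonneg_left (hs320.trans (by norm_num))
          positivity
      _ = b1 * s ^ (4 * D2) / 2 := by ring
  · -- n4
    rw [hz3]
    have e1 : s ^ (A - C) * s ^ (-(3 * l)) ≤ s := by
      rw [← Real.rpow_add hs]
      exact leS (by linarith)
    calc 8 * (s ^ A * e) * s ^ (-(3 * l)) ≤ 8 * (s ^ (A - C) * b1) * s ^ (-(3 * l)) := by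
          apply mul_le_mul_of_nonneg_right _ (pos _).le
          linarith
      _ = 8 * b1 * (s ^ (A - C) * s ^ (-(3 * l))) := by ring
      _ ≤ 8 * b1 * s := by
          apply mul_le_mul_of_nonneg_left e1
          positivity
      _ ≤ 8 * b1 * (1 / 8) := by
          apply mul_le_mul_of_nonneg_left (hs320.trans (by norm_num))
          positivity
      _ = b1 := by ring

/-- **LEAF L-256-FCR-NUM**.   `s0 = min (1/320) (1/(720 Cs + 1))`.   Write `l = cyFcL Ds ≥ 2`, `D2, D3, D1 > 0`, `Λ = s^(-ε1)`, `1 ≤ Λ`, `Λ² ≤ s^(-1/4)`, `Λ⁴ ≤ s^(-1/2)`.   All powers of `s`: `Real.rpow_add`, `Real.rpow_mul`, `Real.rpow_natCast`, `Real.rpow_neg`,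
`Real.rpow_le_rpow_of_exponent_ge` (`0 < s ≤ 1`: larger exponent, smaller power), `Real.inv_rpow`.
 z1: `s^l ≤ s ≤ 1/3`.      r12: `D2 ≤ D1`.      r13: `s^D1 = s^D3 s^(D2+1) ≤ s^D3 s`.
 n2: `(Λ+2)²+1 ≤ 10Λ²`;  `(s^l)⁻¹^5 = s^(-5l)`;  `(s^D2)^(1-η) = s^(5l+2)`;  product `≤ 320 s^(7/4) ≤ 320 s ≤ 1`.
 n3: `(2Λ+4)² ≤ 36Λ²`;  `(s^D3)^(1/4) = s^(5l+4D2+3)`;  LHS `≤ 360 Cs s^(-1/2) s^(4D2+3) ≤ s^(4D2) (360 Cs s) ≤ (s^D2)^4 / 2`.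
 n3': `s^A e ≤ s^(A-C) b1 ≤ s^(4D2+1) b1 ≤ b1 (s^D2)^4 / 2`.      n4: `8 s^(A-C-3l) b1 ≤ 8 s b1 ≤ b1`. -/
theorem cy_fc_num {η Ds Cs : ℝ} (hη : 0 < η ∧ η < 1) (hDs : 0 < Ds) (hCs : 0 ≤ Cs) : ∃ s0 : ℝ, 0 < s0 ∧ ∀ (s C A ε1 b1 e h0 : ℝ), 0 < s → s ≤ s0 → 0 < ε1 → ε1 ≤ 1 / 8 → 0 ≤ C →
    C + 3 * cyFcL Ds + 4 * cyFcD2 η Ds + 5 ≤ A → 0 < b1 → 0 ≤ e → e ≤ s ^ (-C) * b1 → 0 ≤ h0 → h0 ≤ 1 →
    CyFcNum η (s ^ cyFcL Ds) (s ^ (-ε1)) b1 (s ^ A * e) h0 (s ^ cyFcD1 η Ds) (s ^ cyFcD2 η Ds) (s ^ cyFcD3 η Ds) Cs := by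
  have h1η : 0 < 1 - η := by linarith [hη.2]
  have hl2 : 2 ≤ cyFcL Ds := by
    unfold cyFcL
    linarith
  have hD2p : 0 < cyFcD2 η Ds := by
    unfold cyFcD2
    positivity
  have hD2e : cyFcD2 η Ds * (1 - η) = 5 * cyFcL Ds + 2 := by
    unfold cyFcD2
    field_simp
  exact ⟨min (1 / 320) (1 / (720 * Cs + 1)), by positivity, cy_fc_num_core hη hCs hl2 hD2p hD2e rfl rfl⟩

/-- **LEAF L-256-FCR-NUM2**.   `s0 = 1/272²` (any smaller number is fine).   `Λ = s^(-ε1) ∈ [1, s^(-1/8)]`, `17 (Λ+3)² ≤ 272 Λ² ≤ 272 s^(-1/4)`, `b ≤ 17 (Λ+3)² b`.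
 (1) `s^l = s · (s^Ds)³ · s`, `22 s ≤ 1`.   (2) `s^C2 ≤ s^C s`, `272 s^(3/4) ≤ 272 s^(1/2) ≤ 1`.   (3) `s^(-C) ≤ s^(-C2)`.   (4) `2 ≤ s⁻¹ ≤ s^(-C2)` (`1 ≤ C2`).   (5) `Λ + 1 ≤ 2 s^(-1/8) ≤ s⁻¹`.   (6) `(s^l)⁻¹^5 = s^(-5l) ≤ s^(-C2)`. -/
theorem cy_fc_num2 {Ds : ℝ} (hDs : 0 < Ds) : ∃ s0 : ℝ, 0 < s0 ∧ ∀ (s ε1 b W e : ℝ) (C C2 : ℕ), 0 < s → s ≤ s0 → 0 < ε1 → ε1 ≤ 1 / 8 → C + 1 ≤ C2 → 5 * cyFcL Ds ≤ C2 →
    0 < b → 0 < W → s ^ (C : ℝ) * (b * W) ≤ e → e ≤ s ^ (-(C : ℝ)) * (b * W) →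
    22 * s ^ cyFcL Ds ≤ s * (s ^ Ds) ^ 3 ∧ s ^ (C2 : ℝ) * (17 * (s ^ (-ε1) + 3) ^ 2 * b * W) ≤ e ∧ e ≤ s ^ (-(C2 : ℝ)) * (17 * (s ^ (-ε1) + 3) ^ 2 * b * W) ∧
      2 ≤ s ^ (-(C2 : ℝ)) ∧ s ^ (-ε1) + 1 ≤ s ^ (-(C2 : ℝ)) ∧ (s ^ cyFcL Ds)⁻¹ ^ 5 ≤ s ^ (-(C2 : ℝ)) := by
  refine ⟨1 / 272 ^ 2, by norm_num, ?_⟩
  intro s ε1 b W e C C2 hs hs0 hε1 hε18 hC hC5 hb hW he1 he2
  have hs1 : s ≤ 1 := hs0.trans (by norm_num)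
  have anti : ∀ {y z : ℝ}, z ≤ y → s ^ y ≤ s ^ z := fun h => Real.rpow_le_rpow_of_exponent_ge hs hs1 h
  have pos : ∀ y : ℝ, 0 < s ^ y := fun y => Real.rpow_pos_of_pos hs y
  have hCC : (C : ℝ) + 1 ≤ C2 := by exact_mod_cast hC
  have hC0 : (0 : ℝ) ≤ C := Nat.cast_nonneg _
  -- the square root of s
  have hh : s ^ (1 / 2 : ℝ) ≤ 1 / 272 := by
    rw [← Real.sqrt_eq_rpow, Real.sqrt_le_left (by norm_num)]
    calc s ≤ 1 / 272 ^ 2 := hs0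
      _ = (1 / 272) ^ 2 := by norm_num
  have hhi : 272 ≤ s ^ (-(1 / 2) : ℝ) := by
    rw [Real.rpow_neg hs.le, le_inv_comm₀ (by norm_num) (pos _)]
    calc s ^ (1 / 2 : ℝ) ≤ 1 / 272 := hh
      _ = 272⁻¹ := by norm_num
  set Λ : ℝ := s ^ (-ε1) with hΛd
  have hΛ1 : 1 ≤ Λ := Real.one_le_rpow_of_pos_of_le_one_of_nonpos hs hs1 (by linarith)
  have hΛ8 : Λ ≤ s ^ (-(1 / 8) : ℝ) := anti (by linarith)
  have hΛsq : Λ ^ 2 ≤ s ^ (-(1 / 4) : ℝ) := by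
    calc Λ ^ 2 ≤ (s ^ (-(1 / 8) : ℝ)) ^ 2 := by gcongr
      _ = s ^ (-(1 / 4) : ℝ) := by
        rw [← Real.rpow_natCast, ← Real.rpow_mul hs.le]
        norm_num
  have h17 : 17 * (Λ + 3) ^ 2 ≤ 272 * Λ ^ 2 := by nlinarith
  have h17' : 1 ≤ 17 * (Λ + 3) ^ 2 := by nlinarith
  have hbW : 0 < b * W := mul_pos hb hW
  have hinv : s ^ (-(1 : ℝ)) = s ^ (-(1 / 2) : ℝ) * s ^ (-(1 / 2) : ℝ) := by
    rw [← Real.rpow_add hs]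
    norm_num
  have hC21 : s ^ (-(1 : ℝ)) ≤ s ^ (-(C2 : ℝ)) := anti (by linarith)
  have hp2 := pos (-(1 / 2) : ℝ)
  refine ⟨?_, ?_, ?_, ?_, ?_, ?_⟩
  · have e1 : s ^ cyFcL Ds = s * s * (s ^ Ds) ^ 3 := by
      unfold cyFcL
      rw [← Real.rpow_natCast (s ^ Ds), ← Real.rpow_mul hs.le, show (2 + 3 * Ds : ℝ) = 1 + 1 + Ds * ((3 : ℕ) : ℝ) by push_cast; ring,
        Real.rpow_add hs, Real.rpow_add hs, Real.rpow_one]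
    rw [e1]
    have hP : 0 < (s ^ Ds) ^ 3 := pow_pos (pos _) 3
    have h22 : 22 * s ≤ 1 := by
      have : s ≤ 1 / 22 := hs0.trans (by norm_num)
      linarith
    have : 22 * (s * s * (s ^ Ds) ^ 3) = (22 * s) * (s * (s ^ Ds) ^ 3) := by ring
    rw [this]
    exact mul_le_of_le_one_left (by positivity) h22
  · refine le_trans ?_ he1
    have a1 : s ^ (C2 : ℝ) ≤ s ^ (C : ℝ) * s := by
      calc s ^ (C2 : ℝ) ≤ s ^ ((C : ℝ) + 1) := anti hCC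
        _ = s ^ (C : ℝ) * s := by rw [Real.rpow_add hs, Real.rpow_one]
    have a2 : s * (17 * (Λ + 3) ^ 2) ≤ 1 := by
      have b1 : s * s ^ (-(1 / 4) : ℝ) ≤ s ^ (1 / 2 : ℝ) := by
        calc s * s ^ (-(1 / 4) : ℝ) = s ^ (1 + -(1 / 4) : ℝ) := by rw [Real.rpow_add hs, Real.rpow_one]
          _ ≤ s ^ (1 / 2 : ℝ) := anti (by norm_num)
      calc s * (17 * (Λ + 3) ^ 2) ≤ s * (272 * s ^ (-(1 / 4) : ℝ)) := by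
            apply mul_le_mul_of_nonneg_left _ hs.le
            linarith
        _ = 272 * (s * s ^ (-(1 / 4) : ℝ)) := by ring
        _ ≤ 272 * (1 / 272) := by
            apply mul_le_mul_of_nonneg_left (b1.trans hh) (by norm_num)
        _ = 1 := by norm_num
    calc s ^ (C2 : ℝ) * (17 * (Λ + 3) ^ 2 * b * W) ≤ (s ^ (C : ℝ) * s) * (17 * (Λ + 3) ^ 2 * b * W) := by
          apply mul_le_mul_of_nonneg_right a1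
          positivity
      _ = (s * (17 * (Λ + 3) ^ 2)) * (s ^ (C : ℝ) * (b * W)) := by ring
      _ ≤ 1 * (s ^ (C : ℝ) * (b * W)) := by
          apply mul_le_mul_of_nonneg_right a2
          have := pos (C : ℝ)
          positivity
      _ = s ^ (C : ℝ) * (b * W) := one_mul _
  · refine he2.trans ?_
    have a1 : s ^ (-(C : ℝ)) ≤ s ^ (-(C2 : ℝ)) := anti (by linarith)
    calc s ^ (-(C : ℝ)) * (b * W) ≤ s ^ (-(C2 : ℝ)) * (b * W) := mul_le_mul_of_nonneg_right a1 hbW.le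
      _ = s ^ (-(C2 : ℝ)) * (1 * (b * W)) := by rw [one_mul]
      _ ≤ s ^ (-(C2 : ℝ)) * (17 * (Λ + 3) ^ 2 * (b * W)) := by
          apply mul_le_mul_of_nonneg_left _ (pos _).le
          exact mul_le_mul_of_nonneg_right h17' hbW.le
      _ = s ^ (-(C2 : ℝ)) * (17 * (Λ + 3) ^ 2 * b * W) := by ring
  · refine le_trans ?_ hC21
    rw [hinv]
    nlinarith
  · refine le_trans ?_ hC21
    rw [hinv]
    have : Λ ≤ s ^ (-(1 / 2) : ℝ) := hΛ8.trans (anti (by norm_num))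
    nlinarith
  · have e1 : (s ^ cyFcL Ds)⁻¹ ^ 5 = s ^ (-(5 * cyFcL Ds)) := by
      rw [← Real.rpow_neg hs.le, ← Real.rpow_natCast, ← Real.rpow_mul hs.le]
      congr 1
      push_cast
      ring
    rw [e1]
    exact anti (by linarith)

/-- **LEAF L-256-FCR-FIN**.   `Λ = s^(-ε1) = 2^(ε1 n) ≤ 2^(ε n/6)`, `Λ + 3 ≤ 4Λ`;  `√(17 (Λ+3)² b) = √17 (Λ+3) √b ≤ 16.5 Λ √b`;  from `hval` (multiply by `e √(..) 2^(-n/2) > 0`: `div_mul_eq_mul_div`, `div_le_iff₀`):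
`rd2 ≤ 2^((Γ+ε/2) n) 2^(-n/2) e √(..)`;   `rd = 4 rd2 ≤ 66 · 2^(ε n/6) · 2^(-(1/2-Γ-ε/2) n) e √b ≤ 2^(ε n/3 + ε n/6 - (1/2-Γ-ε/2) n) e √b`.   (`Real.rpow_add`, `Real.sqrt_mul`, `Real.sqrt_sq`, `Real.rpow_natCast`, `Real.inv_rpow`, `gn_two_*` of `Gen/BasA.lean`.) -/
theorem cy_fc_fin {Γ ε ε1 e b rd rd2 s : ℝ} {n : ℕ} (hs : s = (2 : ℝ)⁻¹ ^ n) (hε1 : 0 < ε1) (hε : ε1 ≤ ε / 6) (he : 0 < e) (hb : 0 < b) (h66 : (66 : ℝ) ≤ 2 ^ (ε / 3 * n))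
    (hrd : rd = 4 * rd2) (hval : 2 ^ ((n : ℝ) / 2) / (e * Real.sqrt (17 * (s ^ (-ε1) + 3) ^ 2 * b)) * rd2 ≤ 2 ^ ((Γ + ε / 2) * n)) :
    rd ≤ 2 ^ (-((1 / 2 - Γ - ε) * n)) * e * Real.sqrt b := by
  have h2 : (0 : ℝ) < 2 := by norm_num
  have hN : (0 : ℝ) ≤ (n : ℝ) := Nat.cast_nonneg _
  have hΛ : s ^ (-ε1) = 2 ^ (ε1 * n) := by
    rw [hs, ← Real.rpow_natCast, ← Real.rpow_mul (by positivity), Real.inv_rpow h2.le, ← Real.rpow_neg h2.le]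
    congr 1
    ring
  rw [hΛ] at hval
  set Λ : ℝ := 2 ^ (ε1 * n) with hΛd
  have hΛ1 : 1 ≤ Λ := Real.one_le_rpow (by norm_num) (by positivity)
  have hΛ2 : Λ ≤ 2 ^ (ε / 6 * n) := gn_two_mono (mul_le_mul_of_nonneg_right hε hN)
  have hsb : 0 < Real.sqrt b := Real.sqrt_pos.2 hb
  have hK : Real.sqrt (17 * (Λ + 3) ^ 2 * b) = Real.sqrt 17 * (Λ + 3) * Real.sqrt b := by
    rw [Real.sqrt_mul (by positivity), Real.sqrt_mul (by norm_num), Real.sqrt_sq (by linarith)]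
  have h17 : Real.sqrt 17 ≤ 4.125 := by
    rw [Real.sqrt_le_left (by norm_num)]
    norm_num
  have h17p : 0 < Real.sqrt 17 := Real.sqrt_pos.2 (by norm_num)
  have hKle : Real.sqrt (17 * (Λ + 3) ^ 2 * b) ≤ 16.5 * Λ * Real.sqrt b := by
    rw [hK]
    have : Real.sqrt 17 * (Λ + 3) ≤ 16.5 * Λ := by nlinarith
    exact mul_le_mul_of_nonneg_right this hsb.le
  have hKp : 0 < Real.sqrt (17 * (Λ + 3) ^ 2 * b) := Real.sqrt_pos.2 (by positivity)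
  have hp : (0 : ℝ) < 2 ^ ((n : ℝ) / 2) := gn_two_pos _
  have h1 : rd2 ≤ 2 ^ ((Γ + ε / 2) * n) * (e * Real.sqrt (17 * (Λ + 3) ^ 2 * b)) / 2 ^ ((n : ℝ) / 2) := by
    rw [le_div_iff₀ hp]
    rw [div_mul_eq_mul_div, div_le_iff₀ (mul_pos he hKp)] at hval
    linarith
  have h3 : 2 ^ ((Γ + ε / 2) * n) * (e * Real.sqrt (17 * (Λ + 3) ^ 2 * b)) / 2 ^ ((n : ℝ) / 2)
      ≤ 2 ^ ((Γ + ε / 2) * n) * (e * (16.5 * Λ * Real.sqrt b)) / 2 ^ ((n : ℝ) / 2) := by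
    gcongr
  have h4 : (2 : ℝ) ^ (-((1 / 2 - Γ - ε) * n)) = 2 ^ (ε / 3 * n) * 2 ^ (ε / 6 * n) * 2 ^ ((Γ + ε / 2) * n) / 2 ^ ((n : ℝ) / 2) := by
    rw [← gn_two_add, ← gn_two_add, eq_div_iff hp.ne', ← gn_two_add]
    congr 1
    ring
  rw [hrd, h4]
  have hq : (0 : ℝ) < 2 ^ ((Γ + ε / 2) * n) := gn_two_pos _
  have h5 : 66 * Λ ≤ 2 ^ (ε / 3 * n) * 2 ^ (ε / 6 * n) := mul_le_mul h66 hΛ2 (by linarith) (gn_two_pos _).le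
  calc 4 * rd2 ≤ 4 * (2 ^ ((Γ + ε / 2) * n) * (e * (16.5 * Λ * Real.sqrt b)) / 2 ^ ((n : ℝ) / 2)) := by linarith
    _ = (66 * Λ) * (2 ^ ((Γ + ε / 2) * n) / 2 ^ ((n : ℝ) / 2) * e * Real.sqrt b) := by ring
    _ ≤ (2 ^ (ε / 3 * n) * 2 ^ (ε / 6 * n)) * (2 ^ ((Γ + ε / 2) * n) / 2 ^ ((n : ℝ) / 2) * e * Real.sqrt b) := by
        apply mul_le_mul_of_nonneg_right h5
        positivity
    _ = 2 ^ (ε / 3 * n) * 2 ^ (ε / 6 * n) * 2 ^ ((Γ + ε / 2) * n) / 2 ^ ((n : ℝ) / 2) * e * Real.sqrt b := by ring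

/-! ## the jittered copy -/

/-- **the jittered copy of a chart piece** -/
theorem cy_fc_copy {Y : SfCy} (H : CyHyp Y) (J : CyJit Y) {p : Y.M.Par} (hp : Y.M.gd p) (E : Xp (Y.M.sys p)) (hE : E.Valid) (Qs : CyT) (hr : 0 < Qs.r) (hf : 0 < Qs.f)
    {b ζ Λ τ ρ1 ρ2 ρ3 Cs Ds : ℝ} (hS : CyFcSub Cs) (hN : CyFcNum Y.η ζ Λ (b * cyWt Y.η Qs) τ (Y.dl p E.k0 / Qs.f) ρ1 ρ2 ρ3 Cs) (hb : 0 < b) (hDs : 0 ≤ Ds)
    (hζ : 22 * ζ ≤ E.s * (E.s ^ Ds) ^ 3)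
    (hsupp : (Y.M.sys p).ms (tmL E.k0 E.i0) E.k0 E.b0 {x | 1 < cyBaseSz Qs ((2 : ℝ)⁻¹ ^ E.k0) (Y.co p (tmL E.k0 E.i0) x)} E.v = 0)
    (htail : (Y.M.sys p).ms (tmL E.k0 E.i0) E.k0 E.b0 {x | Λ < cyNorSz Qs ((2 : ℝ)⁻¹ ^ E.k0) (Y.co p (tmL E.k0 E.i0) x)} E.v ≤ τ)
    (hreg : ∀ Q, (Y.M.sys p).ok Q E.k0 → CyTr (tmL E.k0 E.i0) E.k0 Qs ρ1 (Y.tq p Q) →
        (Y.M.sys p).ms (tmL E.k0 E.i0) E.k0 E.b0 ((Y.M.sys p).cell Q (tmL E.k0 E.i0) E.k0) E.v ≤ b * (Y.M.sys p).wt Q)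
    (hlab : ∀ l, CyBdd (E.s ^ Ds) (cyNrm (tmL E.k0 E.i0) E.k0 Qs (tmL E.kf (E.iv l)) (Y.tq p (E.ts l)))) :
    ∃ (p' : Y.M.Par) (E2 : Xp (Y.M.sys p')), Y.M.gd p' ∧ Y.H p' = Y.H p ∧ E2.Valid ∧ E2.k0 = E.k0 ∧ E2.i0 = E.i0 ∧ E2.n = E.n ∧ E2.e = E.e ∧ E2.ka = 17 * (Λ + 3) ^ 2 * b ∧
      E2.st.length = E.st.length ∧ (∀ bm, E.GenLe bm → E2.GenLe bm) ∧ E.rd = 4 * E2.rd ∧ cyChM Y p' E2 Qs = cyJm ζ (cyChM Y p E Qs) := by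
  have hok : ∀ l, 0 < (Y.tq p (E.ts l)).r ∧ 0 < (Y.tq p (E.ts l)).f ∧ Y.dl p E.kf ≤ (Y.tq p (E.ts l)).f := fun l => (H.ok p _ _).1 (hE.ts_ok l)
  obtain ⟨p', E', hp', hH, hdl, hk, hi, hn, he, hb0, hbT, hst, hgen, ⟨hL, hlabs⟩, hval, hJ⟩ := J p hp E hE Qs ζ hr hf hN.z0 (fun l => cyDbl (Y.tq p (E.ts l)))
    (fun l => ⟨by have := (hok l).1; simp only [cyDbl]; linarith, by have := (hok l).2.1; simp only [cyDbl]; linarith,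
      by have := (hok l).2.1; have := (hok l).2.2; simp only [cyDbl]; linarith⟩)
    (cy_fc_lab_E E hE Qs hr hf hDs hN.z0.le hζ hlab)
  have hν := cy_fc_hyp H hp E Qs hr hf hN.r1 hsupp htail hreg
  have hjm : cyChM Y p' E' Qs = cyJm ζ (cyChM Y p E Qs) := cy_fc_nu_jit H hp hp' E E' Qs hr hf ζ hk hi hb0 hJ
  have hκ : 0 < 17 * (Λ + 3) ^ 2 * b := by
    have := hN.L1
    positivity
  have hreg' : (Y.M.sys p').Reg (tmL E'.k0 E'.i0) E'.k0 E'.b0 (17 * (Λ + 3) ^ 2 * b) E'.v := by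
    refine cy_fc_reg_of H hp' E' Qs hr hf fun q hqr hqf hqh => ?_
    rw [hjm]
    rw [hdl, hk] at hqh
    have := cy_fc_full hS hN hν q hqr hqf hqh
    calc (cyJm ζ (cyChM Y p E Qs)).real (cyCv q) ≤ 17 * (Λ + 3) ^ 2 * (b * cyWt Y.η Qs * cyWt Y.η q) := this
      _ = 17 * (Λ + 3) ^ 2 * b * (cyWt Y.η Qs * cyWt Y.η q) := by ring
  refine ⟨p', { E' with ka := 17 * (Λ + 3) ^ 2 * b }, hp', hH, hval _ hκ hreg', hk, hi, hn, he, rfl, hst, hgen, ?_, hjm⟩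
  -- the readout
  have hm : ∀ l : Fin E'.L, Xp.m { E' with ka := 17 * (Λ + 3) ^ 2 * b } l = E.m (Fin.cast hL l) := fun l => (hlabs l).2
  have hw : ∀ l : Fin E'.L, Xp.w { E' with ka := 17 * (Λ + 3) ^ 2 * b } l = 16 * E.w (Fin.cast hL l) := by
    intro l
    have h1 : Xp.w { E' with ka := 17 * (Λ + 3) ^ 2 * b } l = (Y.M.sys p').wt (E'.ts l) := rfl
    rw [h1, H.wt, (hlabs l).1, cy_fc_dbl_wt _ _ (hok _).1 (hok _).2.1, Xp.w, H.wt]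
  have h4 : ∀ x : ℝ, Real.sqrt (16 * x) = 4 * Real.sqrt x := by
    intro x
    rw [Real.sqrt_mul (by norm_num), show (16 : ℝ) = 4 ^ 2 by norm_num, Real.sqrt_sq (by norm_num)]
  have hrd : Xp.rd { E' with ka := 17 * (Λ + 3) ^ 2 * b } = ∑ l : Fin E'.L, E.m (Fin.cast hL l) ^ (3 / 2 : ℝ) / Real.sqrt (E.w (Fin.cast hL l)) / 4 := by
    unfold Xp.rd
    refine Finset.sum_congr rfl fun l _ => ?_
    rw [hm, hw, h4]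
    field_simp
  rw [hrd, ← Finset.sum_div]
  have hs : ∑ l : Fin E'.L, E.m (Fin.cast hL l) ^ (3 / 2 : ℝ) / Real.sqrt (E.w (Fin.cast hL l)) = E.rd :=
    Equiv.sum_comp (finCongr hL) fun l => E.m l ^ (3 / 2 : ℝ) / Real.sqrt (E.w l)
  rw [hs]
  ring

/-! ## the setup of the copy -/

/-- **the jittered copy obeys the polynomial setup in the frame `Qs`** -/
theorem cy_fc_adm {Y : SfCy} (H : CyHyp Y) {p' : Y.M.Par} (hp' : Y.M.gd p') (E2 : Xp (Y.M.sys p')) (Qs : CyT) (hr : 0 < Qs.r) (hf : 0 < Qs.f)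
    {b1 ζ Λ τ h0 ρ1 ρ2 ρ3 Cs : ℝ} {ν : Measure CyV} (hN : CyFcNum Y.η ζ Λ b1 τ h0 ρ1 ρ2 ρ3 Cs) (hν : CyFcHyp Y.η Λ b1 τ h0 ρ1 ν)
    (hjm : cyChM Y p' E2 Qs = cyJm ζ ν) (hmass : ν.real Set.univ ≤ E2.e) (C2 A2 : ℕ)
    (a1 : E2.s ^ (C2 : ℝ) * (E2.ka * cyWt Y.η Qs) ≤ E2.e) (a2 : E2.e ≤ E2.s ^ (-(C2 : ℝ)) * (E2.ka * cyWt Y.η Qs))
    (a3 : 2 ≤ E2.s ^ (-(C2 : ℝ))) (a4 : Λ + 1 ≤ E2.s ^ (-(C2 : ℝ))) (a5 : τ ≤ E2.s ^ (A2 : ℝ) * E2.e) (a6 : ζ⁻¹ ^ 5 ≤ E2.s ^ (-(C2 : ℝ)))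
    (a7 : Y.hyb = true → E2.s ^ (C2 : ℝ) ≤ Y.H p' * 2 ^ E2.k0 / Qs.f ^ 2 ∧ Y.H p' * 2 ^ E2.k0 / Qs.f ^ 2 ≤ E2.s ^ (-(C2 : ℝ))) :
    Y.af C2 A2 p' E2 Qs := by
  have := hν.fin
  have := cy_fc_jm_finite ζ ν
  have hz1 : 1 ≤ ζ⁻¹ := (one_le_inv₀ hN.z0).2 (hN.z1.trans (by norm_num))
  have hsp : 0 ≤ E2.s ^ (-(C2 : ℝ)) := (Real.rpow_pos_of_pos (gn_s_pos E2) _).le
  refine (H.af_def C2 A2 p' E2 Qs).2 ⟨hp', cy_fc_set H hp' E2 Qs hr hf _ C2 A2 a1 a2 ?_ ?_ ?_ ?_, a7⟩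
  · rw [hjm]
    refine le_antisymm ?_ measureReal_nonneg
    rw [← cy_fc_supp' hN hν]
    exact measureReal_mono (fun w hw => lt_of_le_of_lt a3 hw)
  · rw [hjm]
    exact (measureReal_mono (fun w hw => lt_of_le_of_lt a4 hw)).trans ((cy_fc_tail' hN hν).trans a5)
  · intro S hS
    rw [hjm]
    refine (cy_fc_dens3 hN.z0 ν hS).trans (mul_le_mul_left (ENNReal.ofReal_le_ofReal ?_) _)
    exact mul_le_mul ((pow_le_pow_right₀ hz1 (by norm_num)).trans a6) hmass measureReal_nonneg hsp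
  · intro S hS
    rw [hjm]
    refine (cy_fc_dens5 hN.z0 ν hS).trans (mul_le_mul_left (ENNReal.ofReal_le_ofReal ?_) _)
    exact mul_le_mul a6 hmass measureReal_nonneg hsp

/-! ## the truncated rate -/

/-- `CyTrRate` of `Cyl/Contract.lean` with the upper Planck bound `H 2^k0 / f² ≤ 1` in BOTH models (the unit tests of the chart frame must be admissible) -/
def CyTrRateX (Y : SfCy) : Prop :=
  ∀ Ds : ℝ, 0 < Ds → ∃ D1 : ℝ, 0 < D1 ∧ ∀ (C : ℕ) (ε : ℝ), 0 < ε → ∃ (ε1 : ℝ) (A n0 : ℕ), 0 < ε1 ∧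
    ∀ (p : Y.M.Par) (E : Xp (Y.M.sys p)) (Qs : CyT) (b : ℝ), Y.M.gd p → n0 ≤ E.n → E.Valid → E.st.length ≤ C → E.GenLe C →
      0 < Qs.r → 0 < Qs.f → 0 < b →
      E.s ^ (C : ℝ) * (b * cyWt Y.η Qs) ≤ E.e → E.e ≤ E.s ^ (-(C : ℝ)) * (b * cyWt Y.η Qs) →
      (Y.hyb = true → E.s ^ (C : ℝ) ≤ Y.H p * 2 ^ E.k0 / Qs.f ^ 2) → Y.H p * 2 ^ E.k0 / Qs.f ^ 2 ≤ 1 →
      (Y.M.sys p).ms (tmL E.k0 E.i0) E.k0 E.b0 {x | 1 < cyBaseSz Qs ((2 : ℝ)⁻¹ ^ E.k0) (Y.co p (tmL E.k0 E.i0) x)} E.v = 0 →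
      (Y.M.sys p).ms (tmL E.k0 E.i0) E.k0 E.b0 {x | E.s ^ (-ε1) < cyNorSz Qs ((2 : ℝ)⁻¹ ^ E.k0) (Y.co p (tmL E.k0 E.i0) x)} E.v ≤ E.s ^ (A : ℝ) * E.e →
      (∀ Q, (Y.M.sys p).ok Q E.k0 → CyTr (tmL E.k0 E.i0) E.k0 Qs (E.s ^ D1) (Y.tq p Q) →
        (Y.M.sys p).ms (tmL E.k0 E.i0) E.k0 E.b0 ((Y.M.sys p).cell Q (tmL E.k0 E.i0) E.k0) E.v ≤ b * (Y.M.sys p).wt Q) →
      (∀ l, CyBdd (E.s ^ Ds) (cyNrm (tmL E.k0 E.i0) E.k0 Qs (tmL E.kf (E.iv l)) (Y.tq p (E.ts l)))) →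
      E.rd ≤ 2 ^ (-((1 / 2 - Y.M.Gam - ε) * E.n)) * E.e * Real.sqrt b

theorem cy_fc_main_eqns_cite : True := by
  have := @CyTrRateX.eq_1
  trivial

theorem cy_fc_genle_mono {P : PkSys} {E : Xp P} {a b : ℕ} (h : E.GenLe a) (hab : a ≤ b) : E.GenLe b :=
  ⟨h.1.trans hab, h.2.1.trans hab, fun σ hσ => (h.2.2 σ hσ).trans hab⟩

theorem cy_fc_small_s {s0 : ℝ} (hs0 : 0 < s0) : ∃ n4 : ℕ, ∀ n : ℕ, n4 ≤ n → (2 : ℝ)⁻¹ ^ n ≤ s0 := by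
  obtain ⟨n4, h⟩ := exists_pow_lt_of_lt_one hs0 (by norm_num : (2 : ℝ)⁻¹ < 1)
  exact ⟨n4, fun n hn => (pow_le_pow_of_le_one (by norm_num) (by norm_num) hn).trans h.le⟩

/-- **FCR** -/
theorem cy_fc_main (Y : SfCy) (H : CyHyp Y) (J : CyJit Y) : CyTrRateX Y := by
  intro Ds hDs
  obtain ⟨Cs, hS⟩ := cy_fc_sub'
  refine ⟨cyFcD1 Y.η Ds, cy_fc_D1_pos H.eta.2 hDs, fun C ε hε => ?_⟩
  obtain ⟨s1, hs1, hnum⟩ := cy_fc_num H.eta hDs hS.1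
  obtain ⟨s2, hs2, hnum2⟩ := cy_fc_num2 hDs
  obtain ⟨A2, n2, hrate⟩ := gn_rate_gam Y.M (1 + Y.η / 2) H.gen (C + 1 + ⌈5 * cyFcL Ds⌉₊) (ε / 2) (half_pos hε)
  obtain ⟨n3, hn3⟩ := gn_absorb 66 (ε / 3) (by positivity)
  obtain ⟨n4, hn4⟩ := cy_fc_small_s (lt_min hs1 hs2)
  refine ⟨min (ε / 6) (1 / 8), max A2 (C + ⌈3 * cyFcL Ds + 4 * cyFcD2 Y.η Ds⌉₊ + 5), max n2 (max n3 n4), by positivity, ?_⟩
  intro p E Qs b hp hn hE hst hgen hr hf hb he1 he2 hPl hPh hsupp htail hreg hlab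
  have hε1 : 0 < min (ε / 6) (1 / 8) := by positivity
  have hε18 : min (ε / 6) (1 / 8) ≤ 1 / 8 := min_le_right _ _
  have hε16 : min (ε / 6) (1 / 8) ≤ ε / 6 := min_le_left _ _
  generalize min (ε / 6) (1 / 8) = ε1 at *
  have hA2 : A2 ≤ max A2 (C + ⌈3 * cyFcL Ds + 4 * cyFcD2 Y.η Ds⌉₊ + 5) := le_max_left _ _
  have hA : (C : ℝ) + 3 * cyFcL Ds + 4 * cyFcD2 Y.η Ds + 5 ≤ ((max A2 (C + ⌈3 * cyFcL Ds + 4 * cyFcD2 Y.η Ds⌉₊ + 5) : ℕ) : ℝ) := by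
    have h1 : ((C + ⌈3 * cyFcL Ds + 4 * cyFcD2 Y.η Ds⌉₊ + 5 : ℕ) : ℝ) ≤ ((max A2 (C + ⌈3 * cyFcL Ds + 4 * cyFcD2 Y.η Ds⌉₊ + 5) : ℕ) : ℝ) :=
      Nat.cast_le.2 (le_max_right _ _)
    have h2 := Nat.le_ceil (3 * cyFcL Ds + 4 * cyFcD2 Y.η Ds)
    have h3 : ((C + ⌈3 * cyFcL Ds + 4 * cyFcD2 Y.η Ds⌉₊ + 5 : ℕ) : ℝ) = (C : ℝ) + (⌈3 * cyFcL Ds + 4 * cyFcD2 Y.η Ds⌉₊ : ℝ) + 5 := by
      push_cast
      ring
    rw [h3] at h1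
    linarith
  generalize max A2 (C + ⌈3 * cyFcL Ds + 4 * cyFcD2 Y.η Ds⌉₊ + 5) = A at *
  have hC2a : C + 1 ≤ C + 1 + ⌈5 * cyFcL Ds⌉₊ := Nat.le_add_right _ _
  have hC2b : 5 * cyFcL Ds ≤ ((C + 1 + ⌈5 * cyFcL Ds⌉₊ : ℕ) : ℝ) := by
    have h2 := Nat.le_ceil (5 * cyFcL Ds)
    push_cast
    have : (0 : ℝ) ≤ C := Nat.cast_nonneg _
    linarith
  generalize C + 1 + ⌈5 * cyFcL Ds⌉₊ = C2 at *
  have hn2 : n2 ≤ E.n := (le_max_left _ _).trans hn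
  have hn3' : n3 ≤ E.n := ((le_max_left _ _).trans (le_max_right _ _)).trans hn
  have hn4' : n4 ≤ E.n := ((le_max_right _ _).trans (le_max_right _ _)).trans hn
  have hs0 := gn_s_pos E
  have hss : E.s ≤ min s1 s2 := hn4 E.n hn4'
  have hW : 0 < cyWt Y.η Qs := by
    unfold cyWt
    positivity
  -- the Planck floor
  have hh0 : 0 ≤ Y.dl p E.k0 / Qs.f := div_nonneg (H.dl_nn p _) hf.le
  have hh1 : Y.dl p E.k0 / Qs.f ≤ 1 := by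
    rw [div_le_one hf]
    have h1 : Y.dl p E.k0 ^ 2 ≤ Qs.f ^ 2 := by
      rw [H.dl_sq p hp]
      have := (div_le_one (by positivity : (0 : ℝ) < Qs.f ^ 2)).1 hPh
      exact this
    exact (pow_le_pow_iff_left₀ (H.dl_nn p _) hf.le (by norm_num)).1 h1
  have hN := hnum E.s C A ε1 (b * cyWt Y.η Qs) E.e (Y.dl p E.k0 / Qs.f) hs0 (hss.trans (min_le_left _ _)) hε1 hε18 (Nat.cast_nonneg _) hA (mul_pos hb hW)
    hE.e_pos.le he2 hh0 hh1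
  obtain ⟨c1, c2, c3, c4, c5, c6⟩ := hnum2 E.s ε1 b (cyWt Y.η Qs) E.e C C2 hs0 (hss.trans (min_le_right _ _)) hε1 hε18 hC2a hC2b hb hW he1 he2
  obtain ⟨p', E2, hp', hH, hV, hk, hi, hn', he', hka, hst', hgen', hrd, hjm⟩ := cy_fc_copy H J hp E hE Qs hr hf hS hN hb hDs.le c1 hsupp htail hreg hlab
  have hs : E2.s = E.s := by
    unfold Xp.s
    rw [hn']
  have hν := cy_fc_hyp H hp E Qs hr hf hN.r1 hsupp htail hreg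
  have hCC : (C : ℝ) ≤ C2 := Nat.cast_le.2 ((Nat.le_succ C).trans hC2a)
  have haf : Y.af C2 A2 p' E2 Qs := by
    refine cy_fc_adm H hp' E2 Qs hr hf hN hν hjm ?_ C2 A2 ?_ ?_ ?_ ?_ ?_ ?_ ?_
    · rw [he']
      exact (cy_fc_nu_univ H hp E Qs).trans hE.budget
    · rw [hs, hka, he']
      exact c2
    · rw [hs, hka, he']
      exact c3
    · rw [hs]
      exact c4
    · rw [hs]
      exact c5
    · rw [hs, he']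
      exact mul_le_mul_of_nonneg_right (gn_s_anti E (Nat.cast_le.2 hA2)) hE.e_pos.le
    · rw [hs]
      exact c6
    · intro hy
      rw [hs, hH, hk]
      exact ⟨(gn_s_anti E hCC).trans (hPl hy), hPh.trans (by linarith)⟩
  have hcls : Y.M.Cls C2 A2 p' E2 :=
    ⟨hp', hV, by rw [hst']; exact hst.trans ((Nat.le_succ C).trans hC2a), hgen' C2 (cy_fc_genle_mono hgen ((Nat.le_succ C).trans hC2a)), (H.af_iff C2 A2 p' E2 hp').2 ⟨Qs, haf⟩⟩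
  have hval := hrate p' E2 (by rw [hn']; exact hn2) hcls
  unfold Xp.val at hval
  rw [hn', he', hka] at hval
  exact cy_fc_fin rfl hε1 hε16 hE.e_pos hb (hn3 E.n hn3') hrd hval

end Claimed.Agent.R256
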