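-- KEEP
import Claimed.Agent.R256.Cyl.FwdC

/-!
# Row 256 (LS paper), CYL, unit FWD : FORWARD (RE-)PREPARATION OF THE GATES          (architect helper129; prefix `cy_fw_`)

EXITS `cy_fw_mainV : CyHyp Y → 0 < Y.M.Gam → CyForwardV Y` (visible gates `V ⊆ W.G`, request of helper19),  `cy_fw_main : CyHyp Y → 0 < Y.M.Gam → CyForward Y` (= the case `V = W.G`).      Paper: 02 l.601-611, l.747-760.
THIS FILE IS GLUE (no `sorry`): `cy_fw_step` (one gate), `cy_fw_iter` (induction on the number of unprepared visible gates), `cy_fw_mainV` (choice of the constants, (iii)), `cy_fw_main` (`cy_ext_of`).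
 `FwdA` : the preserving ordinary split `cy_fw_osplit` (generic, on the engine `Gen/Lev`)          no `sorry`
 `FwdB` : documented experiments under an insertion (lists)               leaves L-256-FW-B1 … B5
 `FwdC` : the benchmarks (ii), (iii)                                      leaves L-256-FW-C1 … C9
ONE STEP, gate `j`:  `j = 0`: nothing is inserted (`cy_fw_prep_zero`);   `j > 0`: `cy_fw_osplit` (`D = 10`) at the cut `(W.k j, W.s1 j, W.s2 j)`, loss `(10n+1)^3`; benchmarks `cy_fw_bench_int` (`gn_ss2`) / `cy_fw_bench_fin`; `cy_fw_prep_lvl`.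
-/

set_option autoImplicit false

namespace Claimed.Agent.R256

open MeasureTheory

/-- the loss of one step -/
noncomputable def cyFwL (n : ℕ) : ℝ := ((10 * n + 1 : ℕ) : ℝ) ^ 3

/-- the property of one step, for fixed constants -/
def CyFwStep (Y : SfCy) (h a1 a2 τ : ℝ) (C A n0 : ℕ) : Prop :=
  ∀ (p : Y.M.Par) (W : SfMD (Y.M.sys p)) (V : Finset ℝ) (j : ℝ), n0 ≤ W.E.n → Y.M.Cls C A p W.E → W.E.st.length + 1 ≤ C → CyGap V h →
    W.PreV Y p V Y.M.p0 Y.M.d0 a1 → cyFwL W.E.n * 2 ^ ((Y.M.Gam - τ) * W.E.n) ≤ W.E.val → j ∈ V →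
    ∃ (st' : List (Stg (Y.M.sys p))) (pos' : ℝ → ℕ), W.E.st.Sublist st' ∧ st'.length ≤ W.E.st.length + 1 ∧
      (∀ i ∈ W.G, i < j → pos' i = W.pos i ∧ st'.take (W.pos i + 1) = W.E.st.take (W.pos i + 1)) ∧
      Y.M.Cls C A p (W.E.withSt st') ∧ W.E.val ≤ cyFwL W.E.n * (W.E.withSt st').val ∧
      (W.re st' pos').PreV Y p V Y.M.p0 Y.M.d0 a1 ∧ (W.re st' pos').Prep Y p Y.M.p0 Y.M.d0 a2 j

theorem cy_fw_eqns_cite : True := by
  have := @cyFwL.eq_1
  have := @CyFwStep.eq_1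
  trivial

theorem cy_fw_L_ge (n : ℕ) : 1 ≤ cyFwL n := by
  unfold cyFwL
  have h : (1 : ℝ) ≤ ((10 * n + 1 : ℕ) : ℝ) := by exact_mod_cast Nat.succ_le_succ (Nat.zero_le _)
  exact one_le_pow₀ h

/-- the total loss of `C` steps is absorbed by a power -/
theorem cy_fw_L_absorb (C : ℕ) (δ : ℝ) (hδ : 0 < δ) : ∃ n0 : ℕ, ∀ n : ℕ, n0 ≤ n → cyFwL n ^ C ≤ 2 ^ (δ * n) := by
  have hC : (0 : ℝ) < (C : ℝ) + 1 := by positivity
  obtain ⟨n0, H⟩ := gn_absorb_poly 10 1 (δ / ((C : ℝ) + 1)) (by positivity)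
  refine ⟨n0, fun n hn => ?_⟩
  have h1 : cyFwL n ≤ 2 ^ (δ / ((C : ℝ) + 1) * n) := by
    have := H n hn
    rw [one_mul] at this
    exact this
  have h0 : 0 ≤ cyFwL n := le_trans zero_le_one (cy_fw_L_ge n)
  refine (pow_le_pow_left₀ h0 h1 C).trans ?_
  rw [← Real.rpow_natCast, gn_two_mul]
  refine gn_two_mono ?_
  have hn0 : (0 : ℝ) ≤ (n : ℝ) := Nat.cast_nonneg n
  have h2 : δ / ((C : ℝ) + 1) * (C : ℝ) ≤ δ := by
    rw [div_mul_eq_mul_div, div_le_iff₀ hC]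
    nlinarith
  calc δ / ((C : ℝ) + 1) * n * C = (δ / ((C : ℝ) + 1) * C) * n := by ring
    _ ≤ δ * n := mul_le_mul_of_nonneg_right h2 hn0

/-- **one step** -/
theorem cy_fw_step (Y : SfCy) (H : CyHyp Y) (hΓ : 0 < Y.M.Gam) (h a2 : ℝ) (hh : 0 < h) (ha2 : 0 < a2) :
    ∃ a1 τ : ℝ, 0 < a1 ∧ a1 ≤ a2 ∧ 0 < τ ∧ ∀ C : ℕ, ∃ A0 n0 : ℕ, ∀ A, A0 ≤ A → CyFwStep Y h a1 a2 τ C A n0 := by
  obtain ⟨a1i, τi, ha1i, hτi, Hi⟩ := cy_fw_bench_int Y H hΓ h a2 hh ha2
  obtain ⟨a1f, τf, ha1f, hτf, Hf⟩ := cy_fw_bench_fin Y H hΓ a2 ha2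
  refine ⟨min a2 (min a1i a1f), min (1 / 2) (min τi τf), lt_min ha2 (lt_min ha1i ha1f), min_le_left _ _,
    lt_min (by norm_num) (lt_min hτi hτf), fun C => ?_⟩
  set a1 := min a2 (min a1i a1f) with ha1
  set τ := min (1 / 2) (min τi τf) with hτ
  have e1 : a1 ≤ a2 := min_le_left _ _
  have e2 : a1 ≤ a1i := (min_le_right _ _).trans (min_le_left _ _)
  have e3 : a1 ≤ a1f := (min_le_right _ _).trans (min_le_right _ _)
  have t1 : τ ≤ 1 / 2 := min_le_left _ _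
  have t2 : τ ≤ τi := (min_le_right _ _).trans (min_le_left _ _)
  have t3 : τ ≤ τf := (min_le_right _ _).trans (min_le_right _ _)
  obtain ⟨Ao, no, Ho⟩ := cy_fw_osplit Y.M _ H.gen H.pl_univ C 10
  obtain ⟨Ai, ni, Hi⟩ := Hi C
  obtain ⟨Af, nf, Hf⟩ := Hf C
  obtain ⟨nz, Hz⟩ := cy_fw_prep_zero Y H a2 ha2 C
  obtain ⟨nl, Hl⟩ := cy_fw_prep_lvl Y H a2 ha2 C
  refine ⟨max Ao (max Ai Af), max no (max ni (max nf (max nz nl))), fun A hA p W V j hn hE hlen hgap hpre hval hjV => ?_⟩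
  have hj : j ∈ W.G := hpre.sub hjV
  have hAo : Ao ≤ A := (le_max_left _ _).trans hA
  have hAi : Ai ≤ A := ((le_max_left _ _).trans (le_max_right _ _)).trans hA
  have hAf : Af ≤ A := ((le_max_right _ _).trans (le_max_right _ _)).trans hA
  have hno : no ≤ W.E.n := (le_max_left _ _).trans hn
  have hni : ni ≤ W.E.n := ((le_max_left _ _).trans (le_max_right _ _)).trans hn
  have hnf : nf ≤ W.E.n := ((le_max_left _ _).trans ((le_max_right _ _).trans (le_max_right _ _))).trans hn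
  have hnz : nz ≤ W.E.n := ((le_max_left _ _).trans ((le_max_right _ _).trans ((le_max_right _ _).trans (le_max_right _ _)))).trans hn
  have hnl : nl ≤ W.E.n := ((le_max_right _ _).trans ((le_max_right _ _).trans ((le_max_right _ _).trans (le_max_right _ _)))).trans hn
  have hL1 := cy_fw_L_ge W.E.n
  have hn0 : (0 : ℝ) ≤ (W.E.n : ℝ) := Nat.cast_nonneg _
  have hpw : (0 : ℝ) < 2 ^ ((Y.M.Gam - τ) * W.E.n) := gn_two_pos _
  have hv1 : 2 ^ ((Y.M.Gam - τ) * W.E.n) ≤ W.E.val := by nlinarith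
  have hv0 : 0 < W.E.val := lt_of_lt_of_le hpw hv1
  have hLab : 0 < W.E.L := cy_fw_label W.E hv0
  have hstr := hpre.str
  rcases (cy_fw_gap hstr hpre.one hpre.sub hgap hjV).1 with hj0 | hjh
  · -- the root gate
    subst hj0
    refine ⟨W.E.st, W.pos, List.Sublist.refl _, Nat.le_succ _, fun i _ _ => ⟨rfl, rfl⟩, hE, ?_, hpre, ?_⟩
    · have : W.E.withSt W.E.st = W.E := rfl
      rw [this]
      nlinarith
    · exact Hz p W V hnz hE.1 hE.2.2.1 hE.2.2.2.1 hLab (cy_fw_prev_mono hpre e1) hjV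
  · have hjpos : 0 < j := lt_of_lt_of_le hh hjh
    have hcut := cy_fw_cut W hstr hj
    have hgb := cy_fw_gb_le W hstr hE.2.2.2.1 hj
    have hv2 : (2 : ℝ) ^ ((9 / 2 - ((10 : ℕ) : ℝ) / 2) * W.E.n) ≤ W.E.val := by
      refine le_trans (gn_two_mono ?_) hv1
      have := Y.M.bs_gam_nonneg
      push_cast
      nlinarith
    obtain ⟨σ, β, hσk, hσb, hσI, hlvl, hloss⟩ := Ho p W.E hno (gn_cls_anti Y.M H.gen.scale hAo hE) hv2 (W.k j) (W.gb j) (W.s1 j) (W.s2 j) hcut hgb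
    have hσM : ∀ i, IsMask (σ.M i) := by
      intro i
      obtain ⟨S, hS, e⟩ := hσI i
      rw [e]
      exact gn_mask_ind hS
    have hcls : Y.M.Cls C A p (W.ins j σ).E := cy_fw_ins_cls Y.M H.gen.root hE hlen hcut σ hσk (hσb ▸ hgb) hσM
    have hloss' : W.E.val ≤ cyFwL W.E.n * (W.ins j σ).E.val := hloss
    have hv3 : 2 ^ ((Y.M.Gam - τ) * W.E.n) ≤ (W.ins j σ).E.val := by
      have hLpos : 0 < cyFwL W.E.n := lt_of_lt_of_le one_pos hL1
      have := hval.trans hloss'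
      exact le_of_mul_le_mul_left this hLpos
    have hstr' := cy_fw_ins_str W hstr hj σ hσk hσM
    have hbench : β ≤ W.E.ka * W.E.s ^ (Y.M.p0 * j - a2 / 2) ∧ (W.ins j σ).E.raw (W.s1 j) σ ≤ W.E.e * W.E.s ^ (-(Y.M.d0 * j) - a2) := by
      rcases lt_or_eq_of_le (hstr.gate.2 j hj).2 with hj1 | hj1
      · refine Hi p W V j β σ hni (cy_fw_prev_mono hpre e2) hgap hjV hjpos hj1 hσk (gn_cls_anti Y.M H.gen.scale hAi hcls) (le_trans (gn_two_mono ?_) hv3) hlvl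
        nlinarith
      · subst hj1
        refine Hf p W V β σ hnf (cy_fw_prev_mono hpre e3) hσk (gn_cls_anti Y.M H.gen.scale hAf hcls) (le_trans (gn_two_mono ?_) hv3) hlvl
        nlinarith
    refine ⟨W.s1 j ++ σ :: W.s2 j, W.ps j, (cy_fw_ins_sub W j σ).1, (cy_fw_ins_sub W j σ).2.le,
      fun i hi hij => cy_fw_ins_keep W hstr hj σ hi hij, hcls, hloss', cy_fw_prev_re hpre _ _ hstr', ?_⟩
    exact Hl p W j β σ hnl hE.1 hstr hLab hj hσk hσM hcls.2.2.2.1 hlvl hbench.1 hbench.2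

/-- **the iteration**: induction on the number of unprepared visible gates -/
theorem cy_fw_iter (Y : SfCy) {h a1 a2 τ : ℝ} {C A n0 : ℕ} (hstep : CyFwStep Y h a1 a2 τ C A n0) (r : ℕ) :
    ∀ (p : Y.M.Par) (W : SfMD (Y.M.sys p)) (V : Finset ℝ) (is : ℝ), n0 ≤ W.E.n → Y.M.Cls C A p W.E → W.E.st.length + r ≤ C → CyGap V h →
      W.PreV Y p V Y.M.p0 Y.M.d0 a1 → cyFwL W.E.n ^ r * 2 ^ ((Y.M.Gam - τ) * W.E.n) ≤ W.E.val →
      (∀ i ∈ V, i ≤ is → W.Prep Y p Y.M.p0 Y.M.d0 a2 i) → (V.filter fun i => is < i).card ≤ r →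
      ∃ (st' : List (Stg (Y.M.sys p))) (pos' : ℝ → ℕ), W.E.st.Sublist st' ∧
        (∀ i ∈ W.G, i ≤ is → pos' i = W.pos i ∧ st'.take (W.pos i + 1) = W.E.st.take (W.pos i + 1)) ∧
        Y.M.Cls C A p (W.E.withSt st') ∧ W.E.val ≤ cyFwL W.E.n ^ r * (W.E.withSt st').val ∧
        (W.re st' pos').PreV Y p V Y.M.p0 Y.M.d0 a1 ∧ ∀ i ∈ V, (W.re st' pos').Prep Y p Y.M.p0 Y.M.d0 a2 i := by
  -- the case where nothing is left to do
  have base : ∀ (r : ℕ) (p : Y.M.Par) (W : SfMD (Y.M.sys p)) (V : Finset ℝ) (is : ℝ), Y.M.Cls C A p W.E → W.PreV Y p V Y.M.p0 Y.M.d0 a1 →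
      (∀ i ∈ V, i ≤ is → W.Prep Y p Y.M.p0 Y.M.d0 a2 i) → (V.filter fun i => is < i) = ∅ →
      ∃ (st' : List (Stg (Y.M.sys p))) (pos' : ℝ → ℕ), W.E.st.Sublist st' ∧
        (∀ i ∈ W.G, i ≤ is → pos' i = W.pos i ∧ st'.take (W.pos i + 1) = W.E.st.take (W.pos i + 1)) ∧
        Y.M.Cls C A p (W.E.withSt st') ∧ W.E.val ≤ cyFwL W.E.n ^ r * (W.E.withSt st').val ∧
        (W.re st' pos').PreV Y p V Y.M.p0 Y.M.d0 a1 ∧ ∀ i ∈ V, (W.re st' pos').Prep Y p Y.M.p0 Y.M.d0 a2 i := by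
    intro r p W V is hE hpre hprep hemp
    refine ⟨W.E.st, W.pos, List.Sublist.refl _, fun i _ _ => ⟨rfl, rfl⟩, hE, ?_, hpre, fun i hi => hprep i hi ?_⟩
    · have e : W.E.withSt W.E.st = W.E := rfl
      rw [e]
      have h1 : 1 ≤ cyFwL W.E.n ^ r := one_le_pow₀ (cy_fw_L_ge _)
      have h2 := gn_val_nonneg W.E hE.2.1
      nlinarith
    · by_contra hcon
      have : i ∈ V.filter fun i => is < i := Finset.mem_filter.2 ⟨hi, not_le.1 hcon⟩
      rw [hemp] at this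
      exact absurd this (Finset.notMem_empty _)
  induction r with
  | zero =>
    intro p W V is _ hE _ _ hpre _ hprep hcard
    exact base 0 p W V is hE hpre hprep (Finset.card_eq_zero.1 (Nat.le_zero.1 hcard))
  | succ r ih =>
    intro p W V is hn hE hlen hgap hpre hval hprep hcard
    by_cases hne : (V.filter fun i => is < i).Nonempty
    swap
    · exact base (r + 1) p W V is hE hpre hprep (Finset.not_nonempty_iff_eq_empty.1 hne)
    set j := (V.filter fun i => is < i).min' hne with hjdef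
    have hjmem : j ∈ V.filter fun i => is < i := Finset.min'_mem _ hne
    have hjG : j ∈ V := (Finset.mem_filter.1 hjmem).1
    have hjis : is < j := (Finset.mem_filter.1 hjmem).2
    have hjmin : ∀ i ∈ V, is < i → j ≤ i := fun i hi hlt => Finset.min'_le _ i (Finset.mem_filter.2 ⟨hi, hlt⟩)
    have hL1 := cy_fw_L_ge W.E.n
    have hLpos : 0 < cyFwL W.E.n := lt_of_lt_of_le one_pos hL1
    have hpw : (0 : ℝ) < 2 ^ ((Y.M.Gam - τ) * W.E.n) := gn_two_pos _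
    have hLr : 1 ≤ cyFwL W.E.n ^ r := one_le_pow₀ hL1
    have hval1 : cyFwL W.E.n * 2 ^ ((Y.M.Gam - τ) * W.E.n) ≤ W.E.val := by
      refine le_trans ?_ hval
      rw [pow_succ]
      have : cyFwL W.E.n * 2 ^ ((Y.M.Gam - τ) * W.E.n) ≤ cyFwL W.E.n ^ r * (cyFwL W.E.n * 2 ^ ((Y.M.Gam - τ) * W.E.n)) :=
        le_mul_of_one_le_left (by positivity) hLr
      linarith [this, mul_assoc (cyFwL W.E.n ^ r) (cyFwL W.E.n) ((2 : ℝ) ^ ((Y.M.Gam - τ) * W.E.n))]
    obtain ⟨st1, pos1, hsub1, hlen1, hkeep1, hcls1, hloss1, hpre1, hprep1⟩ := hstep p W V j hn hE (by omega) hgap hpre hval1 hjG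
    have hval2 : cyFwL W.E.n ^ r * 2 ^ ((Y.M.Gam - τ) * W.E.n) ≤ (W.E.withSt st1).val := by
      have h3 : cyFwL W.E.n * (cyFwL W.E.n ^ r * 2 ^ ((Y.M.Gam - τ) * W.E.n)) ≤ cyFwL W.E.n * (W.E.withSt st1).val := by
        refine le_trans (le_of_eq ?_) (hval.trans hloss1)
        rw [pow_succ]
        ring
      exact le_of_mul_le_mul_left h3 hLpos
    have hprepW1 : ∀ i ∈ V, i ≤ j → (W.re st1 pos1).Prep Y p Y.M.p0 Y.M.d0 a2 i := by
      intro i hi hij
      rcases lt_or_eq_of_le hij with hlt | heq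
      · have his : i ≤ is := by
          by_contra hcon
          exact absurd (hjmin i hi (not_le.1 hcon)) (not_le.2 hlt)
        exact cy_fw_prep_re (hprep i hi his) st1 pos1 (hkeep1 i (hpre.sub hi) hlt).1 (hkeep1 i (hpre.sub hi) hlt).2
      · rw [heq]; exact hprep1
    have hcard1 : (V.filter fun i => j < i).card ≤ r := by
      have hss : (V.filter fun i => j < i) ⊆ (V.filter fun i => is < i).erase j := by
        intro i hi
        have h1 := Finset.mem_filter.1 hi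
        exact Finset.mem_erase.2 ⟨ne_of_gt h1.2, Finset.mem_filter.2 ⟨h1.1, hjis.trans h1.2⟩⟩
      have h2 := Finset.card_le_card hss
      rw [Finset.card_erase_of_mem hjmem] at h2
      omega
    have hlenW1 : (W.re st1 pos1).E.st.length + r ≤ C := by
      have : (W.re st1 pos1).E.st = st1 := rfl
      rw [this]
      omega
    obtain ⟨st2, pos2, hsub2, hkeep2, hcls2, hloss2, hpre2, hprep2⟩ := ih p (W.re st1 pos1) V j hn hcls1 hlenW1 hgap hpre1 hval2 hprepW1 hcard1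
    refine ⟨st2, pos2, hsub1.trans hsub2, fun i hi his => ?_, hcls2, ?_, hpre2, hprep2⟩
    · have hlt : i < j := lt_of_le_of_lt his hjis
      obtain ⟨k1, k2⟩ := hkeep1 i hi hlt
      obtain ⟨k3, k4⟩ := hkeep2 i hi hlt.le
      have k3' : pos2 i = pos1 i := k3
      have k4' : st2.take (pos1 i + 1) = st1.take (pos1 i + 1) := k4
      rw [k1] at k3' k4'
      exact ⟨k3', k4'.trans k2⟩
    · have hloss2' : (W.E.withSt st1).val ≤ cyFwL W.E.n ^ r * (W.E.withSt st2).val := hloss2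
      calc W.E.val ≤ cyFwL W.E.n * (W.E.withSt st1).val := hloss1
        _ ≤ cyFwL W.E.n * (cyFwL W.E.n ^ r * (W.E.withSt st2).val) := mul_le_mul_of_nonneg_left hloss2' hLpos.le
        _ = cyFwL W.E.n ^ (r + 1) * (W.E.withSt st2).val := by rw [pow_succ]; ring

/-- **FWD with visible gates** -/
theorem cy_fw_mainV (Y : SfCy) (H : CyHyp Y) (hΓ : 0 < Y.M.Gam) : CyForwardV Y := by
  intro h a hh ha
  obtain ⟨a2r, τr, ha2r, hτr, Hr⟩ := cy_fw_read_int Y H hΓ h a hh ha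
  have ha2 : 0 < min a a2r := lt_min ha ha2r
  obtain ⟨a1, τs, ha1, ha12, hτs, Hs⟩ := cy_fw_step Y H hΓ h (min a a2r) hh ha2
  set a2 := min a a2r with ha2def
  have e1 : a2 ≤ a := min_le_left _ _
  have e2 : a2 ≤ a2r := min_le_right _ _
  set τm := min τs (min τr (a / 2)) with hτmdef
  have hτm : 0 < τm := lt_min hτs (lt_min hτr (by positivity))
  have t1 : τm ≤ τs := min_le_left _ _
  have t2 : τm ≤ τr := (min_le_right _ _).trans (min_le_left _ _)
  have t3 : τm ≤ a / 2 := (min_le_right _ _).trans (min_le_right _ _)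
  refine ⟨a1, τm / 2, ha1, by positivity, fun C => ⟨C + C, fun A' => ?_⟩⟩
  obtain ⟨As, ns, Hs⟩ := Hs (C + C)
  obtain ⟨Ar, nr, Hr⟩ := Hr (C + C)
  obtain ⟨np, Hp⟩ := cy_fw_L_absorb C (τm / 2) (by positivity)
  refine ⟨max A' (max As Ar), max ns (max nr np), fun p W V is hn hE hcard h1V hVG hgap hstr hdepth hcnt hval hprep => ?_⟩
  have hpre : W.PreV Y p V Y.M.p0 Y.M.d0 a1 := ⟨hstr, h1V, hVG, hdepth, hcnt⟩
  set A := max A' (max As Ar) with hA
  have hAA' : A' ≤ A := le_max_left _ _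
  have hAs : As ≤ A := (le_max_left _ _).trans (le_max_right _ _)
  have hAr : Ar ≤ A := (le_max_right _ _).trans (le_max_right _ _)
  have hns : ns ≤ W.E.n := (le_max_left _ _).trans hn
  have hnr : nr ≤ W.E.n := ((le_max_left _ _).trans (le_max_right _ _)).trans hn
  have hnp : np ≤ W.E.n := ((le_max_right _ _).trans (le_max_right _ _)).trans hn
  have hT := H.gen.tight
  have hn0 : (0 : ℝ) ≤ (W.E.n : ℝ) := Nat.cast_nonneg _
  -- the total loss
  have hLC : cyFwL W.E.n ^ C ≤ 2 ^ (τm / 2 * W.E.n) := Hp W.E.n hnp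
  have hLC0 : 0 < cyFwL W.E.n ^ C := pow_pos (lt_of_lt_of_le one_pos (cy_fw_L_ge _)) _
  have hE2 : Y.M.Cls (C + C) A p W.E := gn_cls_mono Y.M H.gen.scale (Nat.le_add_right _ _) hE
  have hval1 : cyFwL W.E.n ^ C * 2 ^ ((Y.M.Gam - τs) * W.E.n) ≤ W.E.val := by
    refine le_trans ?_ hval
    calc cyFwL W.E.n ^ C * 2 ^ ((Y.M.Gam - τs) * W.E.n) ≤ 2 ^ (τm / 2 * W.E.n) * 2 ^ ((Y.M.Gam - τs) * W.E.n) :=
          mul_le_mul_of_nonneg_right hLC (gn_two_pos _).le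
      _ = 2 ^ (τm / 2 * W.E.n + (Y.M.Gam - τs) * W.E.n) := (gn_two_add _ _).symm
      _ ≤ 2 ^ ((Y.M.Gam - τm / 2) * W.E.n) := gn_two_mono (by nlinarith)
  have hcard' : (V.filter fun i => is < i).card ≤ C := ((Finset.card_filter_le _ _).trans (Finset.card_le_card hVG)).trans hcard
  obtain ⟨st', pos', hsub, hkeep, hcls, hloss, hpre', hprep'⟩ := cy_fw_iter Y (Hs A hAs) C p W V is hns hE2
    (by have := hE.2.2.1; omega) hgap hpre hval1 (fun i hi his => cy_fw_prep_mono hT hE.1 hE.2.1 (hprep i hi his) ha12) hcard'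
  have hvalid' : (W.re st' pos').E.Valid := hcls.2.1
  -- near extremality of the result
  have hval' : 2 ^ ((Y.M.Gam - τm) * W.E.n) ≤ (W.E.withSt st').val := by
    have h1 : 2 ^ ((Y.M.Gam - τm / 2) * W.E.n) ≤ 2 ^ (τm / 2 * W.E.n) * (W.E.withSt st').val :=
      (hval.trans hloss).trans (mul_le_mul_of_nonneg_right hLC (gn_val_nonneg _ hcls.2.1))
    have h2 : (2 : ℝ) ^ ((Y.M.Gam - τm / 2) * W.E.n) = 2 ^ (τm / 2 * W.E.n) * 2 ^ ((Y.M.Gam - τm) * W.E.n) := by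
      rw [← gn_two_add]
      congr 1
      ring
    rw [h2] at h1
    exact le_of_mul_le_mul_left h1 (gn_two_pos _)
  refine ⟨st', pos', hsub, hkeep, gn_cls_anti Y.M H.gen.scale hAA' hcls, ?_, hpre'.str, fun i hi => ?_⟩
  · -- the loss
    have h1 : W.E.s ^ a * 2 ^ (τm / 2 * W.E.n) ≤ 1 := by
      rw [gn_s_rpow, ← gn_two_add]
      have : (2 : ℝ) ^ (-(a * W.E.n) + τm / 2 * W.E.n) ≤ 2 ^ (0 : ℝ) := gn_two_mono (by nlinarith)
      simpa using this
    have h0 : 0 ≤ W.E.s ^ a := (Real.rpow_pos_of_pos (gn_s_pos W.E) _).le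
    have hv0 := gn_val_nonneg _ hcls.2.1
    calc W.E.s ^ a * W.E.val ≤ W.E.s ^ a * (2 ^ (τm / 2 * W.E.n) * (W.E.withSt st').val) :=
          mul_le_mul_of_nonneg_left (hloss.trans (mul_le_mul_of_nonneg_right hLC hv0)) h0
      _ = (W.E.s ^ a * 2 ^ (τm / 2 * W.E.n)) * (W.E.withSt st').val := by ring
      _ ≤ 1 * (W.E.withSt st').val := mul_le_mul_of_nonneg_right h1 hv0
      _ = (W.E.withSt st').val := one_mul _
  · -- (ii), (iii)
    have hfin : (W.re st' pos').Prep Y p Y.M.p0 Y.M.d0 a i ∧ W.E.s ^ a * W.E.e * W.E.s ^ (-(Y.M.d0 * i)) ≤ (W.re st' pos').tot i := by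
      refine ⟨cy_fw_prep_mono hT hE.1 hvalid' (hprep' i hi) e1, ?_⟩
      rcases lt_or_eq_of_le (hpre'.str.gate.2 i (hVG hi)).2 with hi1 | hi1
      · refine Hr p (W.re st' pos') V i hnr (gn_cls_anti Y.M H.gen.scale hAr hcls) hgap (cy_fw_prev_mono hpre' (ha12.trans e2))
          (le_trans (gn_two_mono ?_) hval') hi hi1 (cy_fw_prep_mono hT hE.1 hvalid' (hprep' i hi) e2)
        have : (W.re st' pos').E.n = W.E.n := rfl
        rw [this]
        nlinarith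
      · rw [hi1]
        refine cy_fw_read_fin Y H a ha p hE.1 (W.re st' pos') hpre'.str (le_trans (gn_two_mono ?_) hval')
          (cy_fw_prep_mono hT hE.1 hvalid' (hprep' 1 (hi1 ▸ hi)) e1)
        have : (W.re st' pos').E.n = W.E.n := rfl
        rw [this]
        nlinarith
    exact hfin

/-- **FWD** = the case `V = W.G` -/
theorem cy_fw_main (Y : SfCy) (H : CyHyp Y) (hΓ : 0 < Y.M.Gam) : CyForward Y := by
  intro h a hh ha
  obtain ⟨a1, τ, ha1, hτ, HV⟩ := cy_fw_mainV Y H hΓ h a hh ha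
  refine ⟨min a1 a, τ, lt_min ha1 ha, hτ, fun C => ?_⟩
  obtain ⟨C', HV⟩ := HV C
  refine ⟨C', fun A' => ?_⟩
  obtain ⟨A, n0, HV⟩ := HV A'
  refine ⟨A, n0, fun p W Ls ε is hn hE hcard hgap hpre hval hprep => ?_⟩
  have hT := H.gen.tight
  have hpre1 := cy_fw_pre_mono hpre (min_le_left a1 a)
  obtain ⟨st', pos', hsub, hkeep, hcls, hloss, hstr', hfin⟩ := HV p W W.G is hn hE hcard hpre.str.gate.1 (Finset.Subset.refl _) hgap hpre.str hpre1.depth hpre1.cnt hval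
    (fun i hi his => cy_fw_prep_mono hT hE.1 hE.2.1 (hprep i hi his) (min_le_left a1 a))
  refine ⟨st', pos', hsub, hkeep, hcls, hloss, ?_⟩
  have hpre' : (W.re st' pos').Pre Y p Y.M.p0 Y.M.d0 Ls ε a := cy_fw_pre_re (cy_fw_pre_mono hpre (min_le_right a1 a)) st' pos' hstr'
  exact cy_ext_of hpre' (fun i hi => (hfin i hi).1) (fun i hi => (hfin i hi).2)

end Claimed.Agent.R256
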