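-- KEEP
import Claimed.Agent.R256.Cyl.ClAdm
import Claimed.Agent.R256.Cyl.ClJit

/-!
# Row 256 (LS paper), CYL, INST-CL : the classical instance of the bundle          (architect helper180)

**EXITS** `cyClHyp (η) : CyHyp (sfCl η)`, `cy_cl_jit (η) : CyJit (sfCl η)`   (= `cyHypCl`, `cy_jit_cl` of `Cyl/Contract.lean`).   GLUE ONLY: everything is proved in `Cyl/{Nrm, PolyN, ClOp, ClAdm, ClJit}.lean`.
-/

set_option autoImplicit false

namespace Claimed.Agent.R256

open MeasureTheory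

attribute [local implicit_reducible] CclPar.sys cylCl sfCl

/-- **INST-CL** -/
noncomputable def cyClHyp (η : ℝ) (h0 : 0 < η) (h1 : η < 1) : CyHyp (sfCl η) where
  eta := ⟨h0, h1⟩
  gen := cy_cl_gen η h0 h1
  L := cyClLoc η h0 h1
  mkT := fun _ Q => Q
  tq_mk := fun _ _ => rfl
  cell := fun _ _ _ _ => rfl
  wt := fun _ _ => rfl
  ok := by
    intro p Q k
    constructor
    · intro h
      exact ⟨h.1, h.2, h.2.le⟩
    · intro h
      exact ⟨h.1, h.2.1⟩
  dl_nn := fun _ _ => le_rfl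
  dl_mono := fun _ _ _ _ => le_rfl
  ql_mono := by
    intro p k k' _
    show (2 : ℝ)⁻¹ ^ k' * 0 ≤ (2 : ℝ)⁻¹ ^ k * 0
    simp
  cn := fun _ _ _ _ _ _ _ _ => Iff.rfl
  base := by
    intro p T T' x x' h
    obtain rfl : x = x' := h
    refine ⟨rfl, ?_, ?_⟩
    · show p.B x + T' * p.X x = p.B x + T * p.X x + (T' - T) * p.X x
      ring
    · show p.Y x + T' * p.X x ^ 2 = p.Y x + T * p.X x ^ 2 + (T' - T) * p.X x ^ 2
      ring
  co_meas := fun p hp T => cy_cl_vec_meas p hp T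
  af_iff := by
    intro C A p E hp
    constructor
    · rintro ⟨Q0, h⟩
      exact ⟨Q0, hp, h⟩
    · rintro ⟨Q0, _, h⟩
      exact ⟨Q0, h⟩
  af_def := by
    intro C A p E Q0
    have e : ((sfCl η).hyb = false) = True := propext (eq_self_iff_true _)
    constructor
    · rintro ⟨hp, h⟩
      refine ⟨hp, ?_, fun hh => absurd hh (by simp [sfCl])⟩
      rw [e]
      exact h
    · rintro ⟨hp, h, _⟩
      rw [e] at h
      exact ⟨hp, h⟩
  dl_sq := by
    intro p _ k
    show (0 : ℝ) ^ 2 = 0 * 2 ^ k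
    simp
  poly := cy_cl_poly η h0 h1
  pl_univ := fun p _ b => cy_cl_pl η p b
  H_cl := fun _ _ => rfl

theorem cy_cl_jit (η : ℝ) : CyJit (sfCl η) := cy_cj_main η

end Claimed.Agent.R256
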