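-- KEEP
import Claimed.Agent.R256.Cyl.PolyN
import Claimed.Agent.R256.Hyb.Contract

/-!
# Row 256 (LS paper), CYL, INST-HY 1 : the row measure of the hybrid cylinder in normalised coordinates          (architect helper180; prefix `cy_hn_`)

`hyNu η p Q1 l T k b w` = push forward of the row energy measure `|An T k b w|² d rw` under `x ↦ cyU Q1 l (p.co T x)`.
EXITS: `cy_hn_ms` (masses), `cy_hn_univ`, `cy_hn_densJ` (joint density `≤ l f²/(π H) ·` marginal base density: pointwise packet bound `hy_fl_pt` + Tonelli), `cy_hn_later` (`CyNu` at every later cut, in the transported frame `cyMv Q0 t`, from the toolkit `Hyb/Tail*` of helper218).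
-/

set_option autoImplicit false

namespace Claimed.Agent.R256

open MeasureTheory
open scoped ENNReal

attribute [local implicit_reducible] ChyPar.sys cylHyb sfHy

/-- the row energy measure at the cut `(T,k)` in the coordinates normalised by `Q1` at the length `l` -/
noncomputable def hyNu (η : ℝ) (p : ChyPar) (Q1 : CyT) (l T : ℝ) (k b : ℕ) (w : (p.sys η).Kc) : Measure CyU :=
  ((p.sys η).mu T k b w).map fun x => cyU Q1 l (p.co T x)

theorem cy_hn_eqns_cite : True := by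
  have := @hyNu.eq_1
  trivial

theorem cy_hn_u_meas (p : ChyPar) (h : p.Ok) (Q1 : CyT) (l T : ℝ) : Measurable fun x : p.Om × ℝ × ℝ => cyU Q1 l (p.co T x) := by
  have := h.mX; have := h.mB; have := h.mY
  unfold cyU cyBase cyNor cyTilt cyVel cyPos ChyPar.co
  fun_prop

theorem cy_hn_ms (η : ℝ) (p : ChyPar) (h : p.Ok) (Q1 : CyT) (l T : ℝ) (k b : ℕ) (w : (p.sys η).Kc) (S : Set CyU) (hS : MeasurableSet S) :
    ENNReal.ofReal ((p.sys η).ms T k b {x | cyU Q1 l (p.co T x) ∈ S} w) = hyNu η p Q1 l T k b w S := by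
  have := gn_mu_finite (P := p.sys η) T k b w
  have hm : MeasurableSet {x : p.Om × ℝ × ℝ | cyU Q1 l (p.co T x) ∈ S} := cy_hn_u_meas p h Q1 l T hS
  refine (congrArg ENNReal.ofReal (gn_ms_eq_mu (P := p.sys η) T k b hm w)).trans ?_
  rw [ofReal_measureReal, hyNu, Measure.map_apply (cy_hn_u_meas p h Q1 l T) hS]
  rfl

theorem cy_hn_univ (η : ℝ) (p : ChyPar) (h : p.Ok) (Q1 : CyT) (l T : ℝ) (k b : ℕ) (w : (p.sys η).Kc) :
    hyNu η p Q1 l T k b w Set.univ ≤ ENNReal.ofReal (‖w‖ ^ 2) := by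
  rw [← cy_hn_ms η p h Q1 l T k b w _ MeasurableSet.univ]
  exact ENNReal.ofReal_le_ofReal (gn_ms_le (P := p.sys η) (hy_tight η p h) T k b (cy_hn_u_meas p h Q1 l T MeasurableSet.univ) w)

/-- the planar affine change of variables `(D, N) ↦ ((N - a)/c₁, (D - a')/c₂)` -/
theorem cy_hn_plane (c1 c2 a a' : ℝ) (h1 : 0 < c1) (h2 : 0 < c2) (A : Set (ℝ × ℝ)) (hA : MeasurableSet A) :
    volume {ρ : ℝ × ℝ | ((ρ.2 - a) / c1, (ρ.1 - a') / c2) ∈ A} = ENNReal.ofReal (c1 * c2) * volume A := by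
  have hsw : MeasurableSet (Prod.swap ⁻¹' A : Set (ℝ × ℝ)) := measurable_swap hA
  have e : {ρ : ℝ × ℝ | ((ρ.2 - a) / c1, (ρ.1 - a') / c2) ∈ A}
      = (fun q : ℝ × ℝ => (c2⁻¹ * (q.1 + (-a')), c1⁻¹ * (q.2 + (fun _ => -a) q.1))) ⁻¹' (Prod.swap ⁻¹' A) := by
    ext ρ
    simp only [Set.mem_ofPred_eq, Set.mem_preimage, Prod.swap_prod_mk]
    rw [show (ρ.2 - a) / c1 = c1⁻¹ * (ρ.2 + -a) by ring, show (ρ.1 - a') / c2 = c2⁻¹ * (ρ.1 + -a') by ring]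
  rw [e, cy_nr_j_plane c2⁻¹ c1⁻¹ (-a') (inv_pos.2 h2) (inv_pos.2 h1) (fun _ => -a) measurable_const _ hsw, inv_inv, inv_inv,
    ← ENNReal.ofReal_mul h2.le, mul_comm c2 c1]
  congr 1
  exact (Measure.measurePreserving_swap (μ := (volume : Measure ℝ)) (ν := (volume : Measure ℝ))).measure_preimage hA.nullMeasurableSet

/-- the base coordinates as a function of the exact index -/
noncomputable def hyBe (p : ChyPar) (Q1 : CyT) (l T : ℝ) (ω : p.Om) : ℝ × ℝ × ℝ := cyBase Q1 l (p.co T (ω, 0, 0))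

theorem cy_hn_be_eqns_cite : True := by
  have := @hyBe.eq_1
  trivial

theorem cy_hn_be_meas (p : ChyPar) (h : p.Ok) (Q1 : CyT) (l T : ℝ) : Measurable (hyBe p Q1 l T) := by
  have := h.mX; have := h.mB; have := h.mY
  unfold hyBe cyBase cyTilt ChyPar.co
  fun_prop

/-- the normalised coordinates of a row: base = function of the exact index, normal = affine function of `(D, N)` -/
theorem cy_hn_u_eq (p : ChyPar) (Q1 : CyT) (l T : ℝ) (ω : p.Om) (ρ : ℝ × ℝ) :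
    cyU Q1 l (p.co T (ω, ρ)) = (hyBe p Q1 l T ω, ((ρ.2 - -cyVel Q1 (p.co T (ω, 0, 0))) / Q1.f, (ρ.1 - -cyPos Q1 (p.co T (ω, 0, 0))) / (l * Q1.f))) := by
  unfold cyU hyBe cyNor cyBase cyTilt cyVel cyPos ChyPar.co
  simp only [Prod.mk.injEq, true_and]
  constructor <;> congr 1 <;> ring

/-- **joint density** -/
theorem cy_hn_densJ (η : ℝ) (p : ChyPar) (h : p.Ok) (Q1 : CyT) (hf : 0 < Q1.f) (l : ℝ) (hl : 0 < l) (T : ℝ) (k b : ℕ) (w : (p.sys η).Kc) (c : ℝ≥0∞)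
    (hd : ∀ S3 : Set (ℝ × ℝ × ℝ), MeasurableSet S3 → ENNReal.ofReal ((p.sys η).ms T k b {x | cyBase Q1 l (p.co T x) ∈ S3} w) ≤ c * volume S3)
    (S : Set CyU) (hS : MeasurableSet S) :
    hyNu η p Q1 l T k b w S ≤ ENNReal.ofReal (l * Q1.f ^ 2 / (Real.pi * p.H)) * (c * volume S) := by
  have hsf := h.sf
  obtain ⟨G, hG⟩ : ∃ G : Lp p.Fb 2 (p.m.prod (volume : Measure ℝ)), G = w := ⟨_, rfl⟩
  obtain ⟨ε, hε⟩ : ∃ ε : p.Om → ℝ≥0∞, ε = fun ω => ∫⁻ u, ‖(G : p.Om × ℝ → p.Fb) (ω, u)‖ₑ ^ 2 := ⟨_, rfl⟩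
  have hεm : Measurable ε := by rw [hε]; exact hy_fl_eps_meas p G
  obtain ⟨φ, hφ⟩ : ∃ φ : ℝ × ℝ × ℝ → ℝ≥0∞, φ = fun a => (volume : Measure (ℝ × ℝ)) (Prod.mk a ⁻¹' S) := ⟨_, rfl⟩
  have hφm : Measurable φ := by rw [hφ]; exact measurable_measure_prodMk_left hS
  obtain ⟨K, hK⟩ : ∃ K : ℝ≥0∞, K = ENNReal.ofReal (l * Q1.f ^ 2 / (Real.pi * p.H)) := ⟨_, rfl⟩
  have hβm := cy_hn_be_meas p h Q1 l T
  have hZ : MeasurableSet {x : p.Om × ℝ × ℝ | cyU Q1 l (p.co T x) ∈ S} := cy_hn_u_meas p h Q1 l T hS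
  have hH := h.H_pos
  rw [← hK, ← cy_hn_ms η p h Q1 l T k b w S hS]
  refine le_trans (le_of_eq (hy_fl_ms_lint p h η T k b _ hZ w)) ?_
  have hpt := hy_fl_pt p h T k G
  -- the base marginal is dominated by `c • volume`
  have hB : Measure.map (hyBe p Q1 l T) (p.m.withDensity ε) ≤ c • (volume : Measure (ℝ × ℝ × ℝ)) := by
    refine Measure.le_iff.2 fun s hs => ?_
    rw [Measure.map_apply hβm hs, withDensity_apply _ (hβm hs), Measure.smul_apply, smul_eq_mul]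
    refine le_trans (le_of_eq ?_) (hd s hs)
    have e1 := hy_fl_ms_base p h η T k b (hyBe p Q1 l T ⁻¹' s) (hβm hs) w
    have e2 := hy_fl_E_eps p (hyBe p Q1 l T ⁻¹' s) (hβm hs) G
    rw [hε, ← e2, hG, ← e1]
    rfl
  calc ∫⁻ x in {x : p.Om × ℝ × ℝ | cyU Q1 l (p.co T x) ∈ S}, ‖(p.an T k w : p.Om × ℝ × ℝ → p.Fb) x‖ₑ ^ 2 ∂p.rw
      ≤ ∫⁻ x in {x : p.Om × ℝ × ℝ | cyU Q1 l (p.co T x) ∈ S}, ε x.1 ∂p.rw := by
        refine lintegral_mono_ae (ae_restrict_of_ae ?_)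
        rw [hε, hG]
        rw [hG] at hpt
        exact hpt
    _ = ∫⁻ x, {x : p.Om × ℝ × ℝ | cyU Q1 l (p.co T x) ∈ S}.indicator (fun x => ε x.1) x ∂p.rw := (lintegral_indicator hZ _).symm
    _ = ∫⁻ ω, ∫⁻ ρ, {x : p.Om × ℝ × ℝ | cyU Q1 l (p.co T x) ∈ S}.indicator (fun x => ε x.1) (ω, ρ) ∂(p.fib ω).nu ∂p.m :=
        hy_rw_lint p h _ ((hεm.comp measurable_fst).indicator hZ)
    _ ≤ ∫⁻ ω, K * (ε ω * φ (hyBe p Q1 l T ω)) ∂p.m := by
        refine lintegral_mono fun ω => ?_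
        have hsec : MeasurableSet {ρ : ℝ × ℝ | (ω, ρ) ∈ {x : p.Om × ℝ × ℝ | cyU Q1 l (p.co T x) ∈ S}} := measurable_prodMk_left hZ
        have e1 : (fun ρ : ℝ × ℝ => {x : p.Om × ℝ × ℝ | cyU Q1 l (p.co T x) ∈ S}.indicator (fun x => ε x.1) (ω, ρ))
            = {ρ : ℝ × ℝ | (ω, ρ) ∈ {x : p.Om × ℝ × ℝ | cyU Q1 l (p.co T x) ∈ S}}.indicator (fun _ => ε ω) := by
          funext ρ
          by_cases hρ : (ω, ρ) ∈ {x : p.Om × ℝ × ℝ | cyU Q1 l (p.co T x) ∈ S}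
          · rw [Set.indicator_of_mem hρ, Set.indicator_of_mem (show ρ ∈ {ρ : ℝ × ℝ | (ω, ρ) ∈ {x : p.Om × ℝ × ℝ | cyU Q1 l (p.co T x) ∈ S}} from hρ)]
          · rw [Set.indicator_of_notMem hρ, Set.indicator_of_notMem (show ρ ∉ {ρ : ℝ × ℝ | (ω, ρ) ∈ {x : p.Om × ℝ × ℝ | cyU Q1 l (p.co T x) ∈ S}} from hρ)]
        rw [e1, lintegral_indicator_const hsec]
        have e2 : {ρ : ℝ × ℝ | (ω, ρ) ∈ {x : p.Om × ℝ × ℝ | cyU Q1 l (p.co T x) ∈ S}}
            = {ρ : ℝ × ℝ | ((ρ.2 - -cyVel Q1 (p.co T (ω, 0, 0))) / Q1.f, (ρ.1 - -cyPos Q1 (p.co T (ω, 0, 0))) / (l * Q1.f)) ∈ Prod.mk (hyBe p Q1 l T ω) ⁻¹' S} := by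
          ext ρ
          simp only [Set.mem_ofPred_eq, Set.mem_preimage]
          rw [cy_hn_u_eq]
        rw [e2, HyF.nu, Measure.smul_apply, smul_eq_mul, cy_hn_plane Q1.f (l * Q1.f) _ _ hf (by positivity) _ (measurable_prodMk_left hS)]
        have e3 : ENNReal.ofReal ((p.fib ω).sg / (2 * Real.pi * (p.fib ω).H)) * ENNReal.ofReal (Q1.f * (l * Q1.f)) ≤ K := by
          rw [hK, ← ENNReal.ofReal_mul (by have := (h.sg_rg ω).1; have : 0 ≤ (p.fib ω).sg := by show 0 ≤ p.sg ω; linarith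
                                           have : 0 < (p.fib ω).H := hH
                                           positivity)]
          refine ENNReal.ofReal_le_ofReal ?_
          show p.sg ω / (2 * Real.pi * p.H) * (Q1.f * (l * Q1.f)) ≤ l * Q1.f ^ 2 / (Real.pi * p.H)
          have hs2 := (h.sg_rg ω).2
          have e4 : p.sg ω / (2 * Real.pi * p.H) * (Q1.f * (l * Q1.f)) = p.sg ω / 2 * (l * Q1.f ^ 2 / (Real.pi * p.H)) := by
            field_simp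
          rw [e4]
          have : 0 ≤ l * Q1.f ^ 2 / (Real.pi * p.H) := by positivity
          nlinarith
        calc ε ω * (ENNReal.ofReal ((p.fib ω).sg / (2 * Real.pi * (p.fib ω).H)) * (ENNReal.ofReal (Q1.f * (l * Q1.f)) * volume (Prod.mk (hyBe p Q1 l T ω) ⁻¹' S)))
            = (ENNReal.ofReal ((p.fib ω).sg / (2 * Real.pi * (p.fib ω).H)) * ENNReal.ofReal (Q1.f * (l * Q1.f))) * (ε ω * volume (Prod.mk (hyBe p Q1 l T ω) ⁻¹' S)) := by ring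
          _ ≤ K * (ε ω * φ (hyBe p Q1 l T ω)) := by
            rw [hφ]
            gcongr
    _ = K * ∫⁻ ω, ε ω * φ (hyBe p Q1 l T ω) ∂p.m := lintegral_const_mul _ (hεm.mul (hφm.comp hβm))
    _ = K * ∫⁻ a, φ a ∂(Measure.map (hyBe p Q1 l T) (p.m.withDensity ε)) := by
        rw [lintegral_map hφm hβm]
        have := lintegral_withDensity_eq_lintegral_mul p.m hεm (hφm.comp hβm)
        rw [show (∫⁻ a, φ (hyBe p Q1 l T a) ∂p.m.withDensity ε) = ∫⁻ a, (φ ∘ hyBe p Q1 l T) a ∂p.m.withDensity ε from rfl, this]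
        rfl
    _ ≤ K * ∫⁻ a, φ a ∂(c • (volume : Measure (ℝ × ℝ × ℝ))) := by
        gcongr
    _ = K * (c * volume S) := by
        rw [lintegral_smul_measure, smul_eq_mul, hφ, Measure.volume_eq_prod (α := ℝ × ℝ × ℝ) (β := ℝ × ℝ), Measure.prod_apply hS]

theorem cy_hn_ker (η : ℝ) : HyKer η :=
  fun p hp Λ hΛ T k T' k' hc S S' hS hS' hn F b b' => hy_loc_ker η p hp Λ hΛ T k T' k' hc S S' hS hS' hn F b b'

theorem cy_hn_ub_meas : Measurable cyUb := by unfold cyUb; fun_prop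
theorem cy_hn_un_meas : Measurable cyUn := by unfold cyUn; fun_prop

set_option maxHeartbeats 1000000 in
/-- **`CyNu` at every later cut**, in the transported frame (the proof follows `hy_tl_core` of helper218: `hy_tl_supp`, `hy_tl_tail`, `hy_tl_dens`; joint density: `cy_hn_densJ` + Planck range) -/
theorem cy_hn_later (η : ℝ) (C A1 : ℕ) : ∃ A n0 : ℕ, ∀ (p : ChyPar) (E : Xp (p.sys η)) (Q0 : CyT), n0 ≤ E.n → p.Ok → E.Valid →
    CySet (p.sys η) p.co η False C A E Q0 → E.s ^ (C : ℝ) ≤ p.H * 2 ^ E.k0 / Q0.f ^ 2 → p.H * 2 ^ E.k0 / Q0.f ^ 2 ≤ E.s ^ (-(C : ℝ)) →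
    ∀ (k i b : ℕ) (st' : List (Stg (p.sys η))), E.k0 ≤ k → k ≤ E.kf → ancI k E.k0 i = E.i0 → StOk E.k0 k C C st' →
      CyNu (hyNu η p (cyMv Q0 (tmL k i - tmL E.k0 E.i0)) ((2 : ℝ)⁻¹ ^ k) (tmL k i) k b (Xp.run k i st' E.v)) (E.s ^ (-((2 * C + 5 : ℕ) : ℝ))) E.e (E.s ^ (A1 : ℝ)) := by
  obtain ⟨n1, hn1⟩ := hy_tl_exp (104 * ((C : ℝ) + 1)) (A1 + 1)
  refine ⟨2 * (A1 + 1), max n1 (C + 2), fun p E Q0 hn hp hV hset hpl1 hpl2 k i b st' hk0 hkf hanc hst' => ?_⟩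
  have hTp := hy_tight η p hp
  have hK := cy_hn_ker η
  have hstm : StM st' := hst'.msk
  set u : ℝ := (2 : ℝ) ^ E.n with hu
  have hnC : C + 2 ≤ E.n := (le_max_right _ _).trans hn
  have huC : (C : ℝ) + 2 ≤ u := by
    have e1 : ((C + 2 : ℕ) : ℝ) ≤ (E.n : ℝ) := by exact_mod_cast hnC
    have e2 : (E.n : ℝ) ≤ (2 : ℝ) ^ E.n := by exact_mod_cast (Nat.lt_two_pow_self (n := E.n)).le
    push_cast at e1
    linarith
  have hC0 : (0 : ℝ) ≤ C := Nat.cast_nonneg _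
  have hu2 : 2 ≤ u := by linarith
  have hu1 : 1 ≤ u := by linarith
  have hu0 : 0 < u := by linarith
  have hkf' : k ≤ E.k0 + E.n := hkf
  have hd : k - E.k0 ≤ E.n := by omega
  have hlam : (2 : ℝ) ^ (k - E.k0) ≤ u := pow_le_pow_right₀ (by norm_num) hd
  have hlam1 : (1 : ℝ) ≤ (2 : ℝ) ^ (k - E.k0) := one_le_pow₀ (by norm_num)
  have hk0' : (2 : ℝ) ^ k = 2 ^ E.k0 * 2 ^ (k - E.k0) := by rw [← pow_add]; congr 1; omega
  set Z : ℝ := u ^ (2 * C + 5) with hZ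
  have hZm : ∀ m : ℕ, m ≤ 2 * C + 5 → u ^ m ≤ Z := fun m hm => pow_le_pow_right₀ hu1 hm
  have hZ0 : 0 < Z := by positivity
  rw [hy_tl_s_npow E (2 * C + 5), ← hu, ← hZ]
  rw [hy_tl_s_pow E C, ← hu] at hpl1
  rw [hy_tl_s_npow E C, ← hu] at hpl2
  have hc : CutLe (tmL E.k0 E.i0) E.k0 (tmL k i) k := by
    have := gn_cutle_anc hk0 i
    rwa [hanc] at this
  have hf : 0 < Q0.f := hset.f_pos
  have hr : 0 < Q0.r := hset.r_pos
  have hl : (0 : ℝ) < (2 : ℝ)⁻¹ ^ E.k0 := by positivity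
  have hl' : (0 : ℝ) < (2 : ℝ)⁻¹ ^ k := by positivity
  have huC1 : (1 : ℝ) ≤ u ^ C := one_le_pow₀ hu1
  have huC0 : (0 : ℝ) < u ^ C := by positivity
  have he := hV.e_pos
  -- marginal base density at the later cut
  have hdens : ∀ S : Set (ℝ × ℝ × ℝ), MeasurableSet S →
      ENNReal.ofReal ((p.sys η).ms (tmL k i) k b {x | cyBase (cyMv Q0 (tmL k i - tmL E.k0 E.i0)) ((2 : ℝ)⁻¹ ^ k) (p.co (tmL k i) x) ∈ S} (Xp.run k i st' E.v))
        ≤ ENNReal.ofReal (E.s ^ (-(C : ℝ)) * E.e) * volume S :=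
    fun S hS => hy_tl_dens p hp η hTp Q0 hr _ E.k0 E.b0 _ k b k i hc st' hstm E.v _ hset.dens S hS
  refine ⟨?_, ?_, ?_, ?_⟩
  · -- supp
    rw [← cy_hn_ms η p hp _ _ _ k b _ _ (measurableSet_lt measurable_const cy_hn_ub_meas)]
    have h0 := hy_tl_supp p hp η hTp Q0 hr _ E.k0 E.b0 _ k b k i hc st' hstm E.v (E.s ^ (-(C : ℝ))) Z
      (by rw [hy_tl_s_npow]; exact huC1) (by
        rw [hy_tl_s_npow]
        calc 2 * 2 ^ (k - E.k0) * (u ^ C) ^ 2 ≤ u * u * (u ^ C) ^ 2 := by gcongr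
          _ = u ^ (2 * C + 2) := by ring
          _ ≤ Z := hZm _ (by omega)) hset.supp
    refine (congrArg ENNReal.ofReal h0).trans ENNReal.ofReal_zero
  · -- tail
    rw [← cy_hn_ms η p hp _ _ _ k b _ _ (measurableSet_lt measurable_const cy_hn_un_meas)]
    refine ENNReal.ofReal_le_ofReal ?_
    have hlen : (st'.length : ℝ) ≤ C := by exact_mod_cast hst'.len
    have hlen0 : (0 : ℝ) ≤ (st'.length : ℝ) := Nat.cast_nonneg _
    have hdl : p.dl k ≤ u ^ (C + 1) * Q0.f := by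
      unfold ChyPar.dl
      rw [hk0']
      exact hy_tl_num_dl u Q0.f p.H (2 ^ E.k0) (2 ^ (k - E.k0)) C hu1 hf hpl2 (by positivity) hlam
    have hql : p.ql E.k0 ≤ u ^ C * ((2 : ℝ)⁻¹ ^ E.k0 * Q0.f) := by
      unfold ChyPar.ql
      rw [inv_pow]
      exact hy_tl_num_ql u Q0.f p.H (2 ^ E.k0) C hu1 hf (by positivity) hpl2
    have ht := hy_tl_tail η hK p hp hTp Q0 hf E.k0 k i E.b0 b hk0 st' hstm hst'.dep hst'.mono E.v hV.plat u hu1
      (E.s ^ (-(C : ℝ))) (u ^ (C + 3) * Q0.f) (u ^ (C + 4) * ((2 : ℝ)⁻¹ ^ E.k0 * Q0.f)) Z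
      (by rw [hy_tl_s_npow]; positivity)
      (by rw [hy_tl_s_npow]; exact hy_tl_num_a u Q0.f (p.dl k) st'.length C huC hf hlen0 hlen (hy_tl_dl_nonneg p _) hdl)
      (by
        rw [hy_tl_s_npow, hanc]
        exact hy_tl_num_b u Q0.f _ _ (p.ql E.k0) st'.length C huC hf hl (by linarith [hc.2.2]) hlen0 hlen (hy_tl_ql_nonneg p _) hql)
      (mul_le_mul_of_nonneg_right (hZm _ (by omega)) hf.le)
      (by
        have e1 : (2 : ℝ)⁻¹ ^ E.k0 = 2 ^ (k - E.k0) * (2 : ℝ)⁻¹ ^ k := by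
          rw [← hy_tl_ratio hk0]; field_simp
        rw [e1]
        calc u ^ (C + 4) * (2 ^ (k - E.k0) * (2 : ℝ)⁻¹ ^ k * Q0.f) ≤ u ^ (C + 4) * (u * (2 : ℝ)⁻¹ ^ k * Q0.f) := by gcongr
          _ = u ^ (C + 5) * ((2 : ℝ)⁻¹ ^ k * Q0.f) := by ring
          _ ≤ Z * ((2 : ℝ)⁻¹ ^ k * Q0.f) := by
            have := hZm (C + 5) (by omega)
            gcongr)
    rw [hanc] at ht
    have hcc : ((st'.length : ℝ) + 1) * (52 * Real.exp (-(u ^ 2 / 40)) * 2 ^ (((k : ℝ) - E.k0) / 4)) ≤ (u ^ A1)⁻¹ / 2 := by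
      have g1 := hn1 E.n ((le_max_left _ _).trans hn)
      have g2 : (2 : ℝ) ^ (((k : ℝ) - E.k0) / 4) ≤ u := by
        rw [hu, ← Real.rpow_natCast 2 E.n]
        refine Real.rpow_le_rpow_of_exponent_le (by norm_num) ?_
        have e1 : ((k - E.k0 : ℕ) : ℝ) ≤ (E.n : ℝ) := by exact_mod_cast hd
        rw [Nat.cast_sub hk0] at e1
        have e2 : (0 : ℝ) ≤ (k : ℝ) - E.k0 := by
          have : (E.k0 : ℝ) ≤ k := by exact_mod_cast hk0
          linarith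
        linarith
      have hexp0 : 0 ≤ Real.exp (-(u ^ 2 / 40)) := (Real.exp_pos _).le
      calc ((st'.length : ℝ) + 1) * (52 * Real.exp (-(u ^ 2 / 40)) * 2 ^ (((k : ℝ) - E.k0) / 4))
          ≤ ((C : ℝ) + 1) * (52 * Real.exp (-(u ^ 2 / 40)) * u) := by gcongr
        _ = (104 * ((C : ℝ) + 1) * Real.exp (-(u ^ 2 / 40))) * u / 2 := by ring
        _ ≤ (u ^ (A1 + 1))⁻¹ * u / 2 := by gcongr
        _ = (u ^ A1)⁻¹ / 2 := by
          rw [pow_succ, mul_inv]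
          field_simp
    have hfin := hy_tl_num_tail u E.e _ _ ‖E.v‖ _ A1 hu2 hV.e_pos (gn_ms_nonneg _ _ _ _ _)
      (by have := hset.tail; rwa [hy_tl_s_pow E (2 * (A1 + 1))] at this) (norm_nonneg _) hV.budget (by positivity) hcc ht
    rw [hy_tl_s_pow E A1]
    exact hfin
  · -- dens
    intro S hS
    rw [← cy_hn_ms η p hp _ _ _ k b _ _ (measurable_fst hS)]
    refine (hdens S hS).trans ?_
    refine mul_le_mul_left ?_ _
    refine ENNReal.ofReal_le_ofReal ?_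
    rw [hy_tl_s_npow]
    have := hZm C (by omega)
    gcongr
  · -- densJ
    intro S hS
    refine (cy_hn_densJ η p hp (cyMv Q0 (tmL k i - tmL E.k0 E.i0)) hf _ hl' _ k b _ _ hdens S hS).trans ?_
    rw [← mul_assoc]
    refine mul_le_mul_left ?_ _
    have hH := hp.H_pos
    rw [← ENNReal.ofReal_mul (by
      show 0 ≤ (2 : ℝ)⁻¹ ^ k * Q0.f ^ 2 / (Real.pi * p.H)
      positivity)]
    refine ENNReal.ofReal_le_ofReal ?_
    show (2 : ℝ)⁻¹ ^ k * Q0.f ^ 2 / (Real.pi * p.H) * (E.s ^ (-(C : ℝ)) * E.e) ≤ Z * E.e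
    rw [hy_tl_s_npow]
    have g1 : (2 : ℝ)⁻¹ ^ k * Q0.f ^ 2 / (Real.pi * p.H) ≤ u ^ C := by
      rw [div_le_iff₀ (by positivity)]
      have a1 : Q0.f ^ 2 ≤ u ^ C * (p.H * 2 ^ E.k0) := by
        rw [inv_le_comm₀ huC0 (by positivity), inv_div] at hpl1
        rw [div_le_iff₀ (by positivity)] at hpl1
        exact hpl1
      have a2 : (2 : ℝ)⁻¹ ^ k * 2 ^ E.k0 ≤ 1 := by
        rw [inv_pow, hk0', mul_inv]
        have h20 : (0 : ℝ) < 2 ^ E.k0 := by positivity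
        have : ((2 : ℝ) ^ E.k0)⁻¹ * ((2 : ℝ) ^ (k - E.k0))⁻¹ * 2 ^ E.k0 = ((2 : ℝ) ^ (k - E.k0))⁻¹ := by
          field_simp
        rw [this]
        exact inv_le_one_of_one_le₀ hlam1
      have a3 : (1 : ℝ) ≤ Real.pi := by linarith [Real.pi_gt_three]
      calc (2 : ℝ)⁻¹ ^ k * Q0.f ^ 2 ≤ (2 : ℝ)⁻¹ ^ k * (u ^ C * (p.H * 2 ^ E.k0)) := by gcongr
        _ = u ^ C * p.H * ((2 : ℝ)⁻¹ ^ k * 2 ^ E.k0) := by ring
        _ ≤ u ^ C * p.H * 1 := by gcongr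
        _ ≤ u ^ C * (Real.pi * p.H) := by nlinarith [mul_pos huC0 hH]
    calc (2 : ℝ)⁻¹ ^ k * Q0.f ^ 2 / (Real.pi * p.H) * (u ^ C * E.e) ≤ u ^ C * (u ^ C * E.e) := by gcongr
      _ = u ^ (2 * C) * E.e := by ring
      _ ≤ Z * E.e := by
        have := hZm (2 * C) (by omega)
        gcongr

end Claimed.Agent.R256
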