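-- KEEP
import Claimed.Agent.R256.Cyl.HyNu

/-!
# Row 256 (LS paper), CYL, INST-HY 2 : POLY for the hybrid cylinder          (architect helper180; prefix `cy_hp_`)

**EXIT** `cy_hp_poly : CyPoly (sfHy η)`.   The row measure of the later cut, in the frame transported to that cut (`cy_hn_later`), satisfies `CyNu`;  `cy_pn_main` (model free) gives polynomial parameters in the transported frame (time `0`, relative length `1`);
`cy_hp_par`, `cy_hp_frame`: the parameters in the root frame differ only by the factor `ℓ₀/ℓ ≤ s⁻¹` in `b, y, d, K`.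
-/

set_option autoImplicit false

namespace Claimed.Agent.R256

open MeasureTheory
open scoped ENNReal

attribute [local implicit_reducible] ChyPar.sys cylHyb sfHy

/-- the parameters of a test in the root frame and in the transported frame at the later cut -/
theorem cy_hp_par (T0 T : ℝ) (k0 k : ℕ) (Q0 Q : CyT) (hr : 0 < Q0.r) (hf : 0 < Q0.f) (lam : ℝ) (hlam : (2 : ℝ)⁻¹ ^ k0 = lam * (2 : ℝ)⁻¹ ^ k) (hl0 : 0 < lam) :
    (cyNrm T0 k0 Q0 T Q).x = (cyNrm T k (cyMv Q0 (T - T0)) T Q).x ∧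
    (cyNrm T0 k0 Q0 T Q).b = (cyNrm T k (cyMv Q0 (T - T0)) T Q).b / lam ∧
    (cyNrm T0 k0 Q0 T Q).y = (cyNrm T k (cyMv Q0 (T - T0)) T Q).y / lam ∧
    (cyNrm T0 k0 Q0 T Q).c = (cyNrm T k (cyMv Q0 (T - T0)) T Q).c ∧
    (cyNrm T0 k0 Q0 T Q).d = (cyNrm T k (cyMv Q0 (T - T0)) T Q).d / lam ∧
    (cyNrm T0 k0 Q0 T Q).al = (cyNrm T k (cyMv Q0 (T - T0)) T Q).al ∧
    (cyNrm T0 k0 Q0 T Q).be = (cyNrm T k (cyMv Q0 (T - T0)) T Q).be ∧
    (cyNrm T0 k0 Q0 T Q).K = (cyNrm T k (cyMv Q0 (T - T0)) T Q).K * lam ∧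
    (cyNrm T0 k0 Q0 T Q).r = (cyNrm T k (cyMv Q0 (T - T0)) T Q).r ∧
    (cyNrm T0 k0 Q0 T Q).f = (cyNrm T k (cyMv Q0 (T - T0)) T Q).f := by
  have hl' : (0 : ℝ) < (2 : ℝ)⁻¹ ^ k := by positivity
  simp only [cyNrm, SfFrame.tst, sfFrameOf, sfTestAt, cyMv, SfFrame.bc, SfFrame.yc, SfTest.beAt, hlam]
  refine ⟨trivial, ?_, ?_, ?_, ?_, ?_, ?_, ?_, trivial, trivial⟩
  all_goals
    field_simp
    try ring

/-- polynomial parameters in the transported frame at the later cut ⟹ polynomial parameters in the root frame -/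
theorem cy_hp_frame (T0 T : ℝ) (k0 k : ℕ) (hk : k0 ≤ k) (Q0 Q : CyT) (hr : 0 < Q0.r) (hf : 0 < Q0.f) (ρ σ : ℝ) (hρ : 0 < ρ) (hσ : (2 : ℝ) ^ (k - k0) ≤ σ)
    (h : CyBdd ρ (cyNrm T k (cyMv Q0 (T - T0)) T Q)) : CyBdd (ρ / σ) (cyNrm T0 k0 Q0 T Q) := by
  have hlam1 : (1 : ℝ) ≤ (2 : ℝ) ^ (k - k0) := one_le_pow₀ (by norm_num)
  have hlam0 : (0 : ℝ) < (2 : ℝ) ^ (k - k0) := by positivity
  have hσ1 : 1 ≤ σ := hlam1.trans hσ
  have hσ0 : 0 < σ := by linarith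
  have hlam : (2 : ℝ)⁻¹ ^ k0 = (2 : ℝ) ^ (k - k0) * (2 : ℝ)⁻¹ ^ k := by
    rw [← hy_tl_ratio hk]; field_simp
  obtain ⟨e1, e2, e3, e4, e5, e6, e7, e8, e9, e10⟩ := cy_hp_par T0 T k0 k Q0 Q hr hf _ hlam hlam0
  obtain ⟨b1, b2, b3, b4, b5⟩ := h
  have hinv : (ρ / σ)⁻¹ = σ * ρ⁻¹ := by rw [inv_div]; ring
  have hρi : 0 < ρ⁻¹ := inv_pos.2 hρ
  have hle : ρ⁻¹ ≤ σ * ρ⁻¹ := by nlinarith
  have hdiv : ρ / σ ≤ ρ := div_le_self hρ.le hσ1
  unfold SfTest.size at b1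
  simp only [max_le_iff] at b1
  obtain ⟨c1, c2, c3, c4, c5, c6, c7, c8⟩ := b1
  have hd : ∀ a : ℝ, |a| ≤ ρ⁻¹ → |a / (2 : ℝ) ^ (k - k0)| ≤ σ * ρ⁻¹ := by
    intro a ha
    rw [abs_div, abs_of_pos hlam0]
    exact ((div_le_self (abs_nonneg _) hlam1).trans ha).trans hle
  refine ⟨?_, ?_, ?_, ?_, ?_⟩
  · rw [hinv]
    unfold SfTest.size
    simp only [max_le_iff]
    refine ⟨?_, ?_, ?_, ?_, ?_, ?_, ?_, ?_⟩
    · rw [e1]; exact c1.trans hle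
    · rw [e2]; exact hd _ c2
    · rw [e3]; exact hd _ c3
    · rw [e4]; exact c4.trans hle
    · rw [e5]; exact hd _ c5
    · rw [e6]; exact c6.trans hle
    · rw [e7]; exact c7.trans hle
    · rw [e8, abs_mul, abs_of_pos hlam0, mul_comm]
      exact mul_le_mul hσ c8 (abs_nonneg _) hσ0.le
  · rw [e9]; exact hdiv.trans b2
  · rw [e9, hinv]; exact b3.trans hle
  · rw [e10]; exact hdiv.trans b4
  · rw [e10, hinv]; exact b5.trans hle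

set_option maxHeartbeats 1000000 in
theorem cy_hp_poly (η : ℝ) (h0 : 0 < η) (h1 : η < 1) : CyPoly (sfHy η) := by
  intro C D
  obtain ⟨D2, A1, s0, hs0, H⟩ := cy_pn_main η h0 h1 (2 * C + 5) (D + C)
  obtain ⟨A, n1, HL⟩ := cy_hn_later η C A1
  obtain ⟨n2, hn2⟩ := exists_pow_lt_of_lt_one hs0 (show (2 : ℝ)⁻¹ < 1 by norm_num)
  refine ⟨D2 + 1, A, max n1 n2, ?_⟩
  intro p E Q0 hn hcls haf k i b st' Q hk0 hkf hanc hb hst hok hheavy
  obtain ⟨hp, hset, hpl1, hpl2⟩ := haf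
  have hV : E.Valid := hcls.2.1
  have hs : E.s ≤ s0 := by
    have : E.s ≤ (2 : ℝ)⁻¹ ^ n2 := pow_le_pow_of_le_one (by norm_num) (by norm_num) ((le_max_right _ _).trans hn)
    linarith
  have hsp := gn_s_pos E
  have hl : (0 : ℝ) < (2 : ℝ)⁻¹ ^ k := by positivity
  have hr0 := hset.r_pos
  have hf0 := hset.f_pos
  have hQr : 0 < CyT.r Q := hok.1
  have hQf : 0 < CyT.f Q := hok.2.1
  have hN := HL p E Q0 ((le_max_left _ _).trans hn) hp hV hset hpl1 hpl2 k i b st' hk0 hkf hanc hst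
  obtain ⟨Q1, hQ1⟩ : ∃ Q1 : CyT, Q1 = cyMv Q0 (tmL k i - tmL E.k0 E.i0) := ⟨_, rfl⟩
  have hr1 : 0 < Q1.r := by rw [hQ1]; exact hr0
  have hf1 : 0 < Q1.f := by rw [hQ1]; exact hf0
  have hw1 : cyWt η Q1 = cyWt η Q0 := by rw [hQ1]; rfl
  rw [← hQ1] at hN
  have hw := cy_nr_wt η (tmL k i) k Q1 hr1 hf1 (tmL k i) Q hQr hQf
  have hw0 : 0 ≤ (cyNrm (tmL k i) k Q1 (tmL k i) Q).w η := by
    have a1 : 0 < (cyNrm (tmL k i) k Q1 (tmL k i) Q).r := div_pos hQr hr1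
    have a2 : 0 < (cyNrm (tmL k i) k Q1 (tmL k i) Q).f := div_pos hQf hf1
    unfold SfTest.w
    positivity
  have hT := hy_tight η p hp
  have key : CyBdd (E.s ^ (D2 : ℝ)) (cyNrm (tmL k i) k Q1 (tmL k i) Q) := by
    refine H E.s E.e ((2 : ℝ)⁻¹ ^ k / (2 : ℝ)⁻¹ ^ k) _ _ hsp hs hV.e_pos hN ?_ ?_ ?_ (by positivity) (by rw [div_self hl.ne']) (div_pos hQr hr1) (div_pos hQf hf1) ?_
    · refine (cy_hn_univ η p hp _ _ _ _ _ _).trans (ENNReal.ofReal_le_ofReal ?_)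
      have a1 := gn_run_norm_le (P := ChyPar.sys p η) hT k i st' hst.msk E.v
      calc ‖Xp.run (P := ChyPar.sys p η) k i st' E.v‖ ^ 2 ≤ ‖E.v‖ ^ 2 := pow_le_pow_left₀ (norm_nonneg _) a1 2
        _ ≤ E.e := hV.budget
    · show 0 ≤ (tmL k i - tmL k i) / (2 : ℝ)⁻¹ ^ k
      simp
    · show (tmL k i - tmL k i) / (2 : ℝ)⁻¹ ^ k ≤ 1
      simp
    · have e1 : E.s ^ (((D + C : ℕ)) : ℝ) * E.e * (cyNrm (tmL k i) k Q1 (tmL k i) Q).w η ≤ E.s ^ (D : ℝ) * (E.ka * cyWt η Q) := by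
        rw [hw, hw1]
        have a : E.s ^ (C : ℝ) * E.e ≤ E.ka * cyWt η Q0 := by
          have h1 : 0 < E.s ^ (C : ℝ) := Real.rpow_pos_of_pos hsp _
          calc E.s ^ (C : ℝ) * E.e ≤ E.s ^ (C : ℝ) * (E.s ^ (-(C : ℝ)) * (E.ka * cyWt η Q0)) := mul_le_mul_of_nonneg_left hset.ek_hi h1.le
            _ = E.ka * cyWt η Q0 := by rw [← mul_assoc, ← Real.rpow_add hsp]; simp
        have b : 0 ≤ E.s ^ (D : ℝ) := (Real.rpow_pos_of_pos hsp _).le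
        push_cast
        rw [Real.rpow_add hsp]
        calc E.s ^ (D : ℝ) * E.s ^ (C : ℝ) * E.e * (cyNrm (tmL k i) k Q1 (tmL k i) Q).w η
            = E.s ^ (D : ℝ) * ((E.s ^ (C : ℝ) * E.e) * (cyNrm (tmL k i) k Q1 (tmL k i) Q).w η) := by ring
          _ ≤ E.s ^ (D : ℝ) * ((E.ka * cyWt η Q0) * (cyNrm (tmL k i) k Q1 (tmL k i) Q).w η) :=
              mul_le_mul_of_nonneg_left (mul_le_mul_of_nonneg_right a hw0) b
          _ = _ := by ring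
      have e2 : E.s ^ (D : ℝ) * (E.ka * cyWt η Q) < (ChyPar.sys p η).ms (tmL k i) k b {x | cyIn Q ((2 : ℝ)⁻¹ ^ k) (ChyPar.co p (tmL k i) x)} (Xp.run (P := ChyPar.sys p η) k i st' E.v) := hheavy
      have e3 : 0 ≤ E.s ^ (D : ℝ) * (E.ka * cyWt η Q) := by
        have : 0 ≤ cyWt η Q := by unfold cyWt; positivity
        have := hV.ka_pos
        positivity
      refine lt_of_le_of_lt (ENNReal.ofReal_le_ofReal e1) ?_
      refine lt_of_lt_of_le ((ENNReal.ofReal_lt_ofReal_iff (lt_of_le_of_lt e3 e2)).2 e2) ?_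
      have e5 := cy_hn_ms η p hp Q1 ((2 : ℝ)⁻¹ ^ k) (tmL k i) k b (Xp.run (P := ChyPar.sys p η) k i st' E.v) _
        (cy_nr_mem_meas (cyNrm (tmL k i) k Q1 (tmL k i) Q) ((2 : ℝ)⁻¹ ^ k / (2 : ℝ)⁻¹ ^ k))
      refine le_trans (le_of_eq ?_) (le_of_eq e5)
      congr 2
      ext x
      simp only [Set.mem_ofPred_eq]
      have e6 := cy_nr_mem_flow (tmL k i) k Q1 hr1 hf1 0 Q ((2 : ℝ)⁻¹ ^ k) (ChyPar.co p (tmL k i) x)
      rw [add_zero] at e6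
      rw [← e6]
      have : cyFlow 0 (ChyPar.co p (tmL k i) x) = ChyPar.co p (tmL k i) x := by simp [cyFlow]
      rw [this]
  rw [hQ1] at key
  have hfr := cy_hp_frame (tmL E.k0 E.i0) (tmL k i) E.k0 k hk0 Q0 Q hr0 hf0 (E.s ^ (D2 : ℝ)) (E.s ^ (-(1 : ℝ))) (Real.rpow_pos_of_pos hsp _) (by
    rw [gn_s_rpow, ← Real.rpow_natCast]
    refine gn_two_mono ?_
    have : k ≤ E.k0 + E.n := hkf
    have h2 : ((k - E.k0 : ℕ) : ℝ) ≤ (E.n : ℝ) := by exact_mod_cast (by omega : k - E.k0 ≤ E.n)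
    linarith) key
  have e7 : E.s ^ (D2 : ℝ) / E.s ^ (-(1 : ℝ)) = E.s ^ ((D2 + 1 : ℕ) : ℝ) := by
    rw [← Real.rpow_sub hsp]; congr 1; push_cast; ring
  rw [e7] at hfr
  exact hfr

end Claimed.Agent.R256
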