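-- KEEP
import Claimed.Agent.R256.Cyl.HyPoly

/-!
# Row 256 (LS paper), CYL, INST-HY : the hybrid instance of the bundle          (architect helper180; prefix `cy_hy_`)

**EXIT** `cyHyHyp (η) : CyHyp (sfHy η)`   (= `cyHypHy` of `Cyl/Contract.lean`).   `Gen` = `hy_gen` (R256/Hyb, helper82);  `Loc` = `cyHyLoc` = the structure of `hy_loc` as a DEFINITION (so that its correspondence is visible);  `poly` = `cy_hp_poly`.
-/

set_option autoImplicit false

namespace Claimed.Agent.R256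

open MeasureTheory

attribute [local implicit_reducible] ChyPar.sys cylHyb sfHy

/-- `q_ℓ = ℓ d_ℓ` -/
theorem cy_hy_ql (p : ChyPar) (k : ℕ) : p.ql k = (2 : ℝ)⁻¹ ^ k * p.dl k := by
  unfold ChyPar.ql ChyPar.dl
  have h2 : (0 : ℝ) < 2 ^ k := by positivity
  have e : p.H / 2 ^ k = ((2 : ℝ)⁻¹ ^ k) ^ 2 * (p.H * 2 ^ k) := by
    rw [inv_pow]; field_simp
  rw [e, Real.sqrt_mul (by positivity), Real.sqrt_sq (by positivity)]

/-- **LOC** as a definition (the proofs are those of `hy_loc`) -/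
noncomputable def cyHyLoc (η : ℝ) (h0 : 0 < η) (h1 : η < 1) : (cylHyb η).Loc (1 + η / 2) where
  cn := fun p Λ T k T' k' x x' => hyCn p Λ T k T' k' x x'
  Cl := 1 / 4
  Cg := 648
  CN := fun _ N => 52 * ((N.factorial : ℝ) * 40 ^ N)
  cn_mono := by
    intro p Λ Λ' T k T' k' x x' hΛ h
    obtain ⟨a1, a2, a3⟩ := h
    exact ⟨a1, a2.trans (mul_le_mul_of_nonneg_right hΛ (Real.sqrt_nonneg _)), a3.trans (mul_le_mul_of_nonneg_right hΛ (Real.sqrt_nonneg _))⟩
  ker := by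
    intro p hp bm N Λ hΛ T k T' k' b b' hc _ _ S S' hS hS' hn F
    refine (hy_loc_ker η p hp Λ hΛ T k T' k' hc S S' hS hS' hn F b b').trans ?_
    apply mul_le_mul_of_nonneg_right _ (by positivity)
    have hΛ0 : 0 < Λ := by linarith
    have e : (52 * ((N.factorial : ℝ) * 40 ^ N) * Λ ^ (-(N : ℝ)) * 2 ^ (1 / 4 * ((k' : ℝ) - k))) ^ 2
        = (52 * ((N.factorial : ℝ) * 40 ^ N * Λ ^ (-(N : ℝ)))) ^ 2 * 2 ^ (((k' : ℝ) - k) / 2) := by
      have : ((2 : ℝ) ^ (1 / 4 * ((k' : ℝ) - k))) ^ 2 = 2 ^ (((k' : ℝ) - k) / 2) := by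
        rw [← Real.rpow_natCast, ← Real.rpow_mul (by norm_num)]
        congr 1
        push_cast; ring
      rw [← this]; ring
    rw [e]
    apply mul_le_mul_of_nonneg_right _ (by positivity)
    apply pow_le_pow_left₀ (by positivity)
    exact mul_le_mul_of_nonneg_left (hy_lc_exp N Λ hΛ) (by norm_num)
  cov := by
    intro p hp Λ hΛ T k T' k' hc Q hQ
    obtain ⟨m, Qs, a1, a2, a3⟩ := hy_lc_cov η h0 h1 p hp Λ hΛ T k T' k' hc Q hQ
    exact ⟨m, Qs, a1, fun x x' hx' hcn => a2 x x' hx' hcn, a3⟩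

theorem cy_hy_vec_meas (p : ChyPar) (h : p.Ok) (T : ℝ) : Measurable fun x : p.Om × ℝ × ℝ => cyVec (p.co T x) := by
  have := h.mX; have := h.mB; have := h.mY
  unfold cyVec ChyPar.co
  fun_prop

theorem cy_hy_pl (η : ℝ) (p : ChyPar) (h : p.Ok) (b : ℕ) : (p.sys η).Pl b = Set.univ := by
  ext v
  simp only [PkSys.Pl, Set.mem_ofPred_eq, Set.mem_univ, iff_true]
  intro T k
  exact hy_an_norm p h T k v

noncomputable def cyHyHyp (η : ℝ) (h0 : 0 < η) (h1 : η < 1) : CyHyp (sfHy η) where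
  eta := ⟨h0, h1⟩
  gen := hy_gen η h0 h1
  L := cyHyLoc η h0 h1
  mkT := fun _ Q => Q
  tq_mk := fun _ _ => rfl
  cell := fun _ _ _ _ => rfl
  wt := fun _ _ => rfl
  ok := fun _ _ _ => Iff.rfl
  dl_nn := fun _ _ => Real.sqrt_nonneg _
  dl_mono := by
    intro p k k' hk
    show Real.sqrt (ChyPar.H p * 2 ^ k) ≤ Real.sqrt (ChyPar.H p * 2 ^ k')
    rcases le_or_gt 0 (ChyPar.H p) with hH | hH
    · exact Real.sqrt_le_sqrt (mul_le_mul_of_nonneg_left (pow_le_pow_right₀ (by norm_num) hk) hH)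
    · rw [Real.sqrt_eq_zero_of_nonpos (by nlinarith [pow_pos (show (0:ℝ) < 2 by norm_num) k])]
      exact Real.sqrt_nonneg _
  ql_mono := by
    intro p k k' hk
    show (2 : ℝ)⁻¹ ^ k' * ChyPar.dl p k' ≤ (2 : ℝ)⁻¹ ^ k * ChyPar.dl p k
    rw [← cy_hy_ql, ← cy_hy_ql]
    unfold ChyPar.ql
    rcases le_or_gt 0 (ChyPar.H p) with hH | hH
    · exact Real.sqrt_le_sqrt (div_le_div_of_nonneg_left hH (by positivity) (pow_le_pow_right₀ (by norm_num) hk))
    · rw [Real.sqrt_eq_zero_of_nonpos (div_nonpos_of_nonpos_of_nonneg hH.le (by positivity))]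
      exact Real.sqrt_nonneg _
  cn := by
    intro p Λ T k T' k' x x'
    show hyCn p Λ T k T' k' x x' ↔ _
    unfold hyCn
    rw [cy_hy_ql]
    exact Iff.rfl
  base := by
    intro p T T' x x' h
    have h' : x.1 = x'.1 := h
    refine ⟨?_, ?_, ?_⟩
    · show ChyPar.X p x'.1 = ChyPar.X p x.1
      rw [h']
    · show ChyPar.B p x'.1 + T' * ChyPar.X p x'.1 = ChyPar.B p x.1 + T * ChyPar.X p x.1 + (T' - T) * ChyPar.X p x.1
      rw [h']; ring
    · show ChyPar.Y p x'.1 + T' * ChyPar.X p x'.1 ^ 2 = ChyPar.Y p x.1 + T * ChyPar.X p x.1 ^ 2 + (T' - T) * ChyPar.X p x.1 ^ 2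
      rw [h']; ring
  co_meas := fun p hp T => cy_hy_vec_meas p hp T
  af_iff := by
    intro C A p E hp
    constructor
    · rintro ⟨Q0, h⟩
      exact ⟨Q0, hp, h⟩
    · rintro ⟨Q0, _, h⟩
      exact ⟨Q0, h⟩
  af_def := by
    intro C A p E Q0
    have e : ((sfHy η).hyb = false) = False := by simp [sfHy]
    constructor
    · rintro ⟨hp, h, h2⟩
      refine ⟨hp, ?_, fun _ => h2⟩
      rw [e]
      exact h
    · rintro ⟨hp, h, h2⟩
      rw [e] at h
      exact ⟨hp, h, h2 rfl⟩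
  dl_sq := by
    intro p hp k
    show Real.sqrt (ChyPar.H p * 2 ^ k) ^ 2 = ChyPar.H p * 2 ^ k
    have : 0 < ChyPar.H p := ChyPar.Ok.H_pos hp
    exact Real.sq_sqrt (by positivity)
  poly := cy_hp_poly η h0 h1
  pl_univ := fun p hp b => cy_hy_pl η p hp b
  H_cl := fun h => absurd h (by simp [sfHy])

end Claimed.Agent.R256
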