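-- KEEP
import Claimed.Agent.R256.Cyl.StepDefs
import Claimed.Agent.R256.Cyl.ChMain

/-!
# Row 256 (LS paper), CYL, unit STEP, file 2 : GEOMETRY          (chief helper255; prefix `cy_s`)

No operator.   Everything is read off `CyHyp` (`cell`, `ok`, `cn`, `base`, `co_meas`, `mkT`, `dl_*`) and `Cyl/Alg.lean`.
 G1 `cy_s_chart`    BP   the chart system (02 l.655-670)                                  1.2k
 G2 `cy_s_famcov`   L    same-cut coverings inside a truncated family (02 l.690-692)      0.2k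
 G3 `cy_s_bar`      L    the barrier sets along the stack between the cut and the gate      0.4k
 G4 `cy_s_mm`       L    (M) for two tests that are bounded in one frame                   0.3k
 G5 `cy_s_meas`     L    measurability                                                     0.1k
 G6 `cy_s_att_cn`   L    predecessors of a row of a label are attached                     0.1k
-/

set_option autoImplicit false

namespace Claimed.Agent.R256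

open MeasureTheory

/-- **G5**.   PLAN: `X.att I l` is `∅` or the cell of `H.mkT p (X.Qm l)` (`H.cell`, `H.tq_mk`), measurable by `(H.gen.tight p gd).cellM`; `Un` = finite intersection of complements, `Am` = finite union of intersections. -/
theorem cy_s_meas {Y : SfCy} (H : CyHyp Y) {p : Y.M.Par} (X : CyGp Y p) (hX : X.Ok) :
    (∀ I l, MeasurableSet (X.att I l)) ∧ (∀ I, MeasurableSet (X.Un I)) ∧ ∀ Mb I, MeasurableSet (X.Am Mb I) := by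
  have h1 : ∀ I l, MeasurableSet (X.att I l) := by
    intro I l
    by_cases hI : X.an l = I
    · have e : X.att I l = (Y.M.sys p).cell (H.mkT p (X.Qm l)) (tmL X.k I) X.k := by
        rw [H.cell, H.tq_mk]
        ext x
        simp only [CyGp.att, CyGp.la, Set.mem_ofPred_eq, hI, true_and]
      rw [e]
      exact (H.gen.tight p hX.gd).cellM _ _ _
    · have e : X.att I l = ∅ := by
        ext x
        simp only [CyGp.att, Set.mem_ofPred_eq, hI, false_and, Set.mem_empty_iff_false]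
      rw [e]
      exact MeasurableSet.empty
  refine ⟨h1, fun I => ?_, fun Mb I => ?_⟩
  · have e : X.Un I = ⋂ l, (X.att I l)ᶜ := by
      ext x
      simp only [CyGp.Un, Set.mem_ofPred_eq, Set.mem_iInter, Set.mem_compl_iff]
    rw [e]
    exact MeasurableSet.iInter fun l => (h1 I l).compl
  · have e : X.Am Mb I = ⋃ l, ⋃ l', (X.att I l ∩ X.att I l') ∩ {_x | Mb < cyM (X.Qm l) (X.Qm l') X.la} := by
      ext x
      simp only [CyGp.Am, Set.mem_ofPred_eq, Set.mem_iUnion, Set.mem_inter_iff, and_assoc]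
    rw [e]
    exact MeasurableSet.iUnion fun l => MeasurableSet.iUnion fun l' => ((h1 I l).inter (h1 I l')).inter (MeasurableSet.const _)

/-- **G6** (02 l.636-640).   PLAN: `H.cell`, `H.base` turn `sfCn` into `cySucc t (Λ fj) (Λ (la fj))` (`dl k ≤ dl kf ≤ fj`: `H.dl_mono`, `hX.fj_dl`, `H.dl_nn`); `cy_proj` with `Q = tq (ts l)`, `hX.wid`; `t ≤ la` from the two time inequalities of `sfCn`. -/
theorem cy_s_att_cn {Y : SfCy} (H : CyHyp Y) {p : Y.M.Par} (X : CyGp Y p) (hX : X.Ok) (Λ' : ℝ) (hΛ : Λ' ≤ X.Λ) (l : Fin X.F.L) (x x' : (Y.M.sys p).X)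
    (hx' : x' ∈ (Y.M.sys p).cell (X.F.ts l) (X.tl l) X.F.kf) (hc : sfCn Y p Λ' (tmL X.k (X.an l)) X.k (X.tl l) X.F.kf x x') : x ∈ X.att (X.an l) l := by
  obtain ⟨c1, c2, c3, c4, c5⟩ := hc
  rw [H.cell] at hx'
  have hz' : cyIn (Y.tq p (X.F.ts l)) ((2 : ℝ)⁻¹ ^ X.F.kf) (Y.co p (X.tl l) x') := hx'
  obtain ⟨b1, b2, b3⟩ := H.base p (tmL X.k (X.an l)) (X.tl l) x x' c3
  obtain ⟨w1, w2⟩ := hX.wid l
  have hk : X.k ≤ X.F.kf := hX.cut.2.2.2.2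
  have hla : (0 : ℝ) < (2 : ℝ)⁻¹ ^ X.k := by positivity
  have hl' : (0 : ℝ) < (2 : ℝ)⁻¹ ^ X.F.kf := by positivity
  have hll : (2 : ℝ)⁻¹ ^ X.F.kf ≤ (2 : ℝ)⁻¹ ^ X.k := pow_le_pow_of_le_one (by norm_num) (by norm_num) hk
  have hΛ0 : 0 ≤ X.Λ := by linarith [hX.lam]
  have d1 := H.dl_nn p X.F.kf
  have d2 := H.dl_nn p X.k
  have d3 := H.dl_mono p X.k X.F.kf hk
  have d4 := hX.fj_dl
  have key := cy_proj (Y.tq p (X.F.ts l)) ((2 : ℝ)⁻¹ ^ X.k) ((2 : ℝ)⁻¹ ^ X.F.kf) (X.tl l - tmL X.k (X.an l)) X.Λ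
    (Y.co p (tmL X.k (X.an l)) x) (Y.co p (X.tl l) x') (by linarith) (by linarith) (by rw [w1]; exact hX.rj_pos.le)
    (by rw [w2]; exact hX.fj_pos.le) hl'.le hll hX.lam hz' ⟨b1, b2, b3, ?_, ?_⟩
  · refine ⟨rfl, ?_⟩
    rw [w1, w2] at key
    exact key
  · rw [w2]
    calc _ ≤ Λ' * Y.dl p X.F.kf := c4
      _ ≤ X.Λ * Y.dl p X.F.kf := mul_le_mul_of_nonneg_right hΛ d1
      _ ≤ X.Λ * X.fj := mul_le_mul_of_nonneg_left d4 hΛ0
  · rw [w2]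
    calc _ ≤ Λ' * ((2 : ℝ)⁻¹ ^ X.k * Y.dl p X.k) := c5
      _ ≤ X.Λ * ((2 : ℝ)⁻¹ ^ X.k * Y.dl p X.k) := mul_le_mul_of_nonneg_right hΛ (mul_nonneg hla.le d2)
      _ ≤ X.Λ * ((2 : ℝ)⁻¹ ^ X.k * X.fj) :=
        mul_le_mul_of_nonneg_left (mul_le_mul_of_nonneg_left (d3.trans d4) hla.le) hΛ0

theorem cy_sg2_idx {Λ : ℝ} {u : ℝ} (hu : |u| ≤ 1 + Λ) :
    ∃ j : Fin (⌊Λ⌋₊ + 2), |u - (-(1 + Λ) + 2 * ((j : ℕ) : ℝ) + 1)| ≤ 1 := by
  have hu' := abs_le.mp hu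
  have h1 := Nat.lt_floor_add_one Λ
  obtain ⟨j, hj⟩ := cy_COV_idx (⌊Λ⌋₊ + 2) ((u + 1 + Λ) / 2) (by linarith) (by push_cast; linarith) (by omega)
  refine ⟨j, ?_⟩
  have hj' := abs_le.mp hj
  rw [abs_le]; constructor <;> linarith

/-- **G2**.   PLAN.   Same cut: `H.cn` + `H.base` (`T' = T`): the base coordinates agree, `|N' - N| ≤ Λ dl`, `|D' - D| ≤ Λ l dl`, and `dl ≤ Q.f` (`H.ok`).   Hence `|cyVel Q z| ≤ (1 + Λ) f`, `|cyPos Q z| ≤ l (1 + Λ) f`.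
Cover by the translates `{Q with c := Q.c + 2 f a, d := Q.d + 2 l f a'}`, `|a|, |a'| ≤ ⌈Λ⌉ + 1` (`H.mkT`): same `r f al be K`, so `ok`, `CyTr` (the five normalised numbers of `CyTr` do not contain `c, d`) and the weight are unchanged.   `Cf = 25`. -/
theorem cy_s_famcov {Y : SfCy} (H : CyHyp Y) : ∃ Cf : ℝ, ∀ (p : Y.M.Par) (T : ℝ) (k : ℕ) (Qs : CyT) (ρ : ℝ), Y.M.gd p →
    FamCov H.L p T k {Q | (Y.M.sys p).ok Q k ∧ CyTr T k Qs ρ (Y.tq p Q)} Cf := by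
  refine ⟨9, fun p T k Qs ρ _ Λ hΛ Q hQ => ?_⟩
  obtain ⟨hok, htr⟩ := hQ
  obtain ⟨hr, hf, hdl⟩ := (H.ok p Q k).mp hok
  set q : CyT := Y.tq p Q with hq
  set l : ℝ := (2 : ℝ)⁻¹ ^ k with hl
  have hl0 : 0 < l := by positivity
  set n : ℕ := ⌊Λ⌋₊ + 2 with hn
  set mk : Fin n × Fin n → CyT := fun a =>
    { q with c := q.c + q.f * (-(1 + Λ) + 2 * ((a.1 : ℕ) : ℝ) + 1), d := q.d + l * q.f * (-(1 + Λ) + 2 * ((a.2 : ℕ) : ℝ) + 1) } with hmk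
  refine ⟨n * n, fun i => H.mkT p (mk (finProdFinEquiv.symm i)), ?_, ?_, ?_⟩
  · intro i
    refine ⟨(H.ok p _ k).mpr ?_, ?_⟩
    · rw [H.tq_mk]
      exact ⟨hr, hf, hdl⟩
    · rw [H.tq_mk]
      exact htr
  · intro x x' hx' hcn
    rw [H.cell] at hx'
    obtain ⟨hix, hN, hD⟩ := (H.cn p Λ T k T k x x').mp hcn
    obtain ⟨bX, bB, bY⟩ := H.base p T T x x' hix
    rw [sub_self, zero_mul, add_zero] at bB bY
    rw [sub_self, zero_mul, sub_zero] at hD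
    obtain ⟨z1, z2, z3, z4, z5⟩ := hx'
    set z : Cy5 := Y.co p T x with hz
    set z' : Cy5 := Y.co p T x' with hz'
    have z4' : |cyVel q z'| ≤ q.f := z4
    have z5' : |cyPos q z'| ≤ l * q.f := z5
    have hN' : |z'.N - z.N| ≤ Λ * Y.dl p k := hN
    have hD' : |z'.D - z.D| ≤ Λ * (l * Y.dl p k) := hD
    have eV : cyVel q z = cyVel q z' - (z'.N - z.N) := by
      simp only [cyVel, bX, bB, bY]; ring
    have eP : cyPos q z = cyPos q z' - (z'.D - z.D) := by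
      simp only [cyPos, bB, bY]; ring
    have hΛ0 : 0 ≤ Λ := by linarith
    have hV : |cyVel q z / q.f| ≤ 1 + Λ := by
      rw [abs_div, abs_of_pos hf, div_le_iff₀ hf, eV]
      refine (abs_sub _ _).trans ?_
      have := mul_le_mul_of_nonneg_left hdl hΛ0
      linarith
    have hP : |cyPos q z / (l * q.f)| ≤ 1 + Λ := by
      rw [abs_div, abs_of_pos (mul_pos hl0 hf), div_le_iff₀ (mul_pos hl0 hf), eP]
      refine (abs_sub _ _).trans ?_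
      have := mul_le_mul_of_nonneg_left (mul_le_mul_of_nonneg_left hdl hl0.le) hΛ0
      linarith
    obtain ⟨j, hj⟩ := cy_sg2_idx hV
    obtain ⟨j', hj'⟩ := cy_sg2_idx hP
    refine ⟨finProdFinEquiv (j, j'), ?_⟩
    show x ∈ (Y.M.sys p).cell (H.mkT p (mk (finProdFinEquiv.symm (finProdFinEquiv (j, j'))))) T k
    rw [H.cell, Equiv.symm_apply_apply, H.tq_mk]
    refine ⟨?_, ?_, ?_, ?_, ?_⟩
    · show |z.X - q.x| ≤ q.r
      rw [← bX]; exact z1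
    · show |z.B - q.b| ≤ l * q.r
      rw [← bB]; exact z2
    · show |z.Y - q.y - 2 * q.x * (z.B - q.b)| ≤ l * q.r ^ 2
      rw [← bB, ← bY]; exact z3
    · show |z.N - (q.c + q.f * (-(1 + Λ) + 2 * ((j : ℕ) : ℝ) + 1)) - q.al * z.X - q.be * z.X ^ 2 - q.K * (z.Y - 2 * z.X * z.B)| ≤ q.f
      have e1 : z.N - (q.c + q.f * (-(1 + Λ) + 2 * ((j : ℕ) : ℝ) + 1)) - q.al * z.X - q.be * z.X ^ 2 - q.K * (z.Y - 2 * z.X * z.B)
          = (cyVel q z / q.f - (-(1 + Λ) + 2 * ((j : ℕ) : ℝ) + 1)) * q.f := by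
        simp only [cyVel]
        field_simp
        ring
      rw [e1, abs_mul, abs_of_pos hf]
      have := mul_le_mul_of_nonneg_right hj hf.le
      linarith
    · show |z.D - (q.d + l * q.f * (-(1 + Λ) + 2 * ((j' : ℕ) : ℝ) + 1)) - q.al * z.B - q.be * z.Y + q.K * z.B ^ 2| ≤ l * q.f
      have e1 : z.D - (q.d + l * q.f * (-(1 + Λ) + 2 * ((j' : ℕ) : ℝ) + 1)) - q.al * z.B - q.be * z.Y + q.K * z.B ^ 2
          = (cyPos q z / (l * q.f) - (-(1 + Λ) + 2 * ((j' : ℕ) : ℝ) + 1)) * (l * q.f) := by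
        simp only [cyPos]
        field_simp
        ring
      rw [e1, abs_mul, abs_of_pos (mul_pos hl0 hf)]
      have := mul_le_mul_of_nonneg_right hj' (mul_pos hl0 hf).le
      linarith
  · have hw : ∀ i : Fin (n * n), (Y.M.sys p).wt (H.mkT p (mk (finProdFinEquiv.symm i))) = (Y.M.sys p).wt Q := by
      intro i
      rw [H.wt, H.wt, H.tq_mk]
      rfl
    simp only [hw]
    rw [Finset.sum_const, Finset.card_univ, Fintype.card_fin, nsmul_eq_mul]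
    have hw0 : 0 ≤ (Y.M.sys p).wt Q := by
      rw [H.wt]
      exact mul_nonneg (Real.rpow_nonneg hr.le _) (Real.rpow_nonneg hf.le _)
    refine mul_le_mul_of_nonneg_right ?_ hw0
    have h1 : (n : ℝ) ≤ 3 * Λ := by
      rw [hn]
      push_cast
      have := Nat.floor_le (by linarith : 0 ≤ Λ)
      linarith
    have h2 : Λ ^ (2 : ℕ) ≤ Λ ^ (9 : ℝ) := by
      rw [← Real.rpow_natCast]
      exact Real.rpow_le_rpow_of_exponent_le hΛ (by norm_num)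
    push_cast
    have h3 : (n : ℝ) * n ≤ (3 * Λ) * (3 * Λ) := mul_le_mul h1 h1 (Nat.cast_nonneg _) (by linarith)
    nlinarith

/-- the barrier predicate of a test `Q` (read at length `lf`) at the time offset `t` before: the base ray passes through the base cell of `Q`; normal part of width `φ` at length `l` -/
def cySg3P (Q : CyT) (t lf l φ : ℝ) (z : Cy5) : Prop :=
  |z.X - Q.x| ≤ Q.r ∧ |z.B + t * z.X - Q.b| ≤ lf * Q.r ∧ |cyTilt Q (cyFlow t z)| ≤ lf * Q.r ^ 2 ∧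
    |cyVel (cyBack Q t Q.x Q.r Q.f) z| ≤ φ ∧ |cyPos (cyBack Q t Q.x Q.r Q.f) z| ≤ l * φ

/-- the normal widths of the barriers -/
def cySg3Phi (f A : ℝ) : ℕ → ℝ
  | 0 => f
  | j + 1 => 2 * cySg3Phi f A j + 2 * A

theorem cy_sg3_eqns_cite : True := by
  have := @cySg3P.eq_1
  have := @cySg3Phi.eq_1
  trivial

theorem cy_sg3_phi_le (f A : ℝ) (j : ℕ) : cySg3Phi f A j + 2 * A = 2 ^ j * (f + 2 * A) := by
  induction j with
  | zero => simp [cySg3Phi]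
  | succ j ih =>
    simp only [cySg3Phi]
    rw [pow_succ]
    linear_combination 2 * ih

theorem cy_sg3_fin (Q : CyT) (lf : ℝ) (z : Cy5) (h : cyIn Q lf z) : cySg3P Q 0 lf lf Q.f z := by
  obtain ⟨h1, h2, h3, h4, h5⟩ := h
  refine ⟨h1, by simpa using h2, ?_, ?_, ?_⟩
  · have : cyTilt Q (cyFlow 0 z) = cyTilt Q z := by simp [cyTilt, cyFlow]
    rwa [this]
  · have : cyVel (cyBack Q 0 Q.x Q.r Q.f) z = cyVel Q z := by simp [cyVel, cyBack]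
    rwa [this]
  · have : cyPos (cyBack Q 0 Q.x Q.r Q.f) z = cyPos Q z := by simp [cyPos, cyBack]
    rwa [this]

theorem cy_sg3_step (Q : CyT) (t1 s lf l1 l φ1 a q A : ℝ) (z z' : Cy5) (hs0 : 0 ≤ s) (hs : s ≤ l) (hl : l1 ≤ l) (ha : a ≤ A) (hq : q ≤ l * A)
    (hz' : cySg3P Q t1 lf l1 φ1 z') (hc : cySucc s a q z z') : cySg3P Q (t1 + s) lf l (2 * φ1 + 2 * A) z := by
  obtain ⟨h1, h2, h3, h4, h5⟩ := hz'
  obtain ⟨s1, s2, s3, s4, s5⟩ := hc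
  have hφ : 0 ≤ φ1 := (abs_nonneg _).trans h4
  have hA : 0 ≤ A := ((abs_nonneg _).trans s4).trans ha
  have eV : cyVel (cyBack Q (t1 + s) Q.x Q.r Q.f) z = cyVel (cyBack Q t1 Q.x Q.r Q.f) z' - (z'.N - z.N) := by
    simp only [cyVel, cyBack]; rw [s1, s2, s3]; ring
  have eP : cyPos (cyBack Q (t1 + s) Q.x Q.r Q.f) z
      = cyPos (cyBack Q t1 Q.x Q.r Q.f) z' - (z'.D - z.D - s * z.N) - s * cyVel (cyBack Q (t1 + s) Q.x Q.r Q.f) z := by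
    simp only [cyPos, cyVel, cyBack]; rw [s2, s3]; ring
  have hV : |cyVel (cyBack Q (t1 + s) Q.x Q.r Q.f) z| ≤ φ1 + A := by
    rw [eV]
    exact (abs_sub _ _).trans (add_le_add h4 (s4.trans ha))
  refine ⟨by rwa [s1] at h1, ?_, ?_, hV.trans (by linarith), ?_⟩
  · have : z.B + (t1 + s) * z.X - Q.b = z'.B + t1 * z'.X - Q.b := by rw [s1, s2]; ring
    rwa [this]
  · have : cyTilt Q (cyFlow (t1 + s) z) = cyTilt Q (cyFlow t1 z') := by
      simp only [cyTilt, cyFlow]; rw [s1, s2, s3]; ring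
    rwa [this]
  · rw [eP]
    have hC : |s * cyVel (cyBack Q (t1 + s) Q.x Q.r Q.f) z| ≤ l * (φ1 + A) := by
      rw [abs_mul, abs_of_nonneg hs0]
      exact mul_le_mul hs hV (abs_nonneg _) (hs0.trans hs)
    have hD : l1 * φ1 ≤ l * φ1 := mul_le_mul_of_nonneg_right hl hφ
    calc |cyPos (cyBack Q t1 Q.x Q.r Q.f) z' - (z'.D - z.D - s * z.N) - s * cyVel (cyBack Q (t1 + s) Q.x Q.r Q.f) z|
        ≤ |cyPos (cyBack Q t1 Q.x Q.r Q.f) z' - (z'.D - z.D - s * z.N)| + |s * cyVel (cyBack Q (t1 + s) Q.x Q.r Q.f) z| := abs_sub _ _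
      _ ≤ |cyPos (cyBack Q t1 Q.x Q.r Q.f) z'| + |z'.D - z.D - s * z.N| + |s * cyVel (cyBack Q (t1 + s) Q.x Q.r Q.f) z| := by
          gcongr; exact abs_sub _ _
      _ ≤ l1 * φ1 + q + l * (φ1 + A) := by gcongr
      _ ≤ l * (2 * φ1 + 2 * A) := by nlinarith

theorem cy_sg3_first (Q : CyT) (t lf l φ φ' : ℝ) (z : Cy5) (ht0 : 0 ≤ t) (ht : t ≤ l) (hlf : lf ≤ l) (hr : 0 ≤ Q.r) (hφ : φ ≤ φ')
    (hz : cySg3P Q t lf l φ z) : cyIn (cyBack Q t Q.x (2 * Q.r) φ') l z := by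
  obtain ⟨h1, h2, h3, h4, h5⟩ := hz
  have hl : 0 ≤ l := ht0.trans ht
  have eV : cyVel (cyBack Q t Q.x (2 * Q.r) φ') z = cyVel (cyBack Q t Q.x Q.r Q.f) z := rfl
  have eP : cyPos (cyBack Q t Q.x (2 * Q.r) φ') z = cyPos (cyBack Q t Q.x Q.r Q.f) z := rfl
  have hX : |t * (z.X - Q.x)| ≤ l * Q.r := by
    rw [abs_mul, abs_of_nonneg ht0]
    exact mul_le_mul ht h1 (abs_nonneg _) hl
  have hX2 : |t * (z.X - Q.x) ^ 2| ≤ l * Q.r ^ 2 := by
    rw [abs_mul, abs_of_nonneg ht0, abs_pow]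
    exact mul_le_mul ht (pow_le_pow_left₀ (abs_nonneg _) h1 2) (by positivity) hl
  refine ⟨?_, ?_, ?_, ?_, ?_⟩
  · show |z.X - Q.x| ≤ 2 * Q.r
    linarith
  · show |z.B - (Q.b - t * Q.x)| ≤ l * (2 * Q.r)
    have e : z.B - (Q.b - t * Q.x) = (z.B + t * z.X - Q.b) - t * (z.X - Q.x) := by ring
    rw [e]
    have := mul_le_mul_of_nonneg_right hlf hr
    calc _ ≤ |z.B + t * z.X - Q.b| + |t * (z.X - Q.x)| := abs_sub _ _
      _ ≤ lf * Q.r + l * Q.r := add_le_add h2 hX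
      _ ≤ l * (2 * Q.r) := by linarith
  · show |cyTilt (cyBack Q t Q.x (2 * Q.r) φ') z| ≤ l * (2 * Q.r) ^ 2
    have e : cyTilt (cyBack Q t Q.x (2 * Q.r) φ') z = cyTilt Q (cyFlow t z) - t * (z.X - Q.x) ^ 2 := by
      simp only [cyTilt, cyBack, cyFlow]; ring
    rw [e]
    have := mul_le_mul_of_nonneg_right hlf (sq_nonneg Q.r)
    have h0 : 0 ≤ l * Q.r ^ 2 := by positivity
    calc _ ≤ |cyTilt Q (cyFlow t z)| + |t * (z.X - Q.x) ^ 2| := abs_sub _ _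
      _ ≤ lf * Q.r ^ 2 + l * Q.r ^ 2 := add_le_add h3 hX2
      _ ≤ l * (2 * Q.r) ^ 2 := by nlinarith
  · rw [eV]; exact h4.trans hφ
  · rw [eP]; exact h5.trans (mul_le_mul_of_nonneg_left hφ hl)

theorem cy_sg3_meas {Y : SfCy} (H : CyHyp Y) (p : Y.M.Par) (hp : Y.M.gd p) (T : ℝ) (Q : CyT) (t lf l φ : ℝ) :
    MeasurableSet {x | cySg3P Q t lf l φ (Y.co p T x)} := by
  have hm : MeasurableSet {v : ℝ × ℝ × ℝ × ℝ × ℝ | cySg3P Q t lf l φ ⟨v.1, v.2.1, v.2.2.1, v.2.2.2.1, v.2.2.2.2⟩} := by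
    have m1 : MeasurableSet {v : ℝ × ℝ × ℝ × ℝ × ℝ | |v.1 - Q.x| ≤ Q.r} := measurableSet_le (by fun_prop) (by fun_prop)
    have m2 : MeasurableSet {v : ℝ × ℝ × ℝ × ℝ × ℝ | |v.2.1 + t * v.1 - Q.b| ≤ lf * Q.r} := measurableSet_le (by fun_prop) (by fun_prop)
    have m3 : MeasurableSet {v : ℝ × ℝ × ℝ × ℝ × ℝ | |cyTilt Q (cyFlow t ⟨v.1, v.2.1, v.2.2.1, v.2.2.2.1, v.2.2.2.2⟩)| ≤ lf * Q.r ^ 2} := by
      simp only [cyTilt, cyFlow]
      exact measurableSet_le (by fun_prop) (by fun_prop)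
    have m4 : MeasurableSet {v : ℝ × ℝ × ℝ × ℝ × ℝ | |cyVel (cyBack Q t Q.x Q.r Q.f) ⟨v.1, v.2.1, v.2.2.1, v.2.2.2.1, v.2.2.2.2⟩| ≤ φ} := by
      simp only [cyVel, cyBack]
      exact measurableSet_le (by fun_prop) (by fun_prop)
    have m5 : MeasurableSet {v : ℝ × ℝ × ℝ × ℝ × ℝ | |cyPos (cyBack Q t Q.x Q.r Q.f) ⟨v.1, v.2.1, v.2.2.1, v.2.2.2.1, v.2.2.2.2⟩| ≤ l * φ} := by
      simp only [cyPos, cyBack]
      exact measurableSet_le (by fun_prop) (by fun_prop)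
    exact m1.inter (m2.inter (m3.inter (m4.inter m5)))
  exact H.co_meas p hp T hm

theorem cy_sg3_bar_mono {M : Mdl} {g : ℝ} (L : M.Loc g) (p : M.Par) (Λ : ℝ) (k' i' : ℕ) (T : ℝ) (k : ℕ) {B B' : Set (M.sys p).X} (hB : B ⊆ B')
    (st : List (Stg (M.sys p))) (S' : Set (M.sys p).X) (h : Bar L p Λ k' i' T k B st S') : Bar L p Λ k' i' T k B' st S' := by
  cases st with
  | nil =>
    rw [Bar] at h ⊢
    exact fun x hx => h x (fun hx' => hx (hB hx'))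
  | cons σ st =>
    rw [Bar] at h ⊢
    obtain ⟨B1, h1, h2, h3⟩ := h
    exact ⟨B1, h1, fun x hx => h2 x (fun hx' => hx (hB hx')), h3⟩

theorem cy_sg3_cn {Y : SfCy} (H : CyHyp Y) (p : Y.M.Par) (Λ T : ℝ) (k : ℕ) (T' : ℝ) (k' : ℕ) (x x' : (Y.M.sys p).X)
    (h : H.L.cn p Λ T k T' k' x x') :
    cySucc (T' - T) (Λ * Y.dl p k') (Λ * ((2 : ℝ)⁻¹ ^ k * Y.dl p k)) (Y.co p T x) (Y.co p T' x') := by
  obtain ⟨hix, hN, hD⟩ := (H.cn p Λ T k T' k' x x').1 h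
  obtain ⟨b1, b2, b3⟩ := H.base p T T' x x' hix
  exact ⟨b1, b2, b3, hN, hD⟩

theorem cy_sg3_one {Y : SfCy} (H : CyHyp Y) (p : Y.M.Par) (Q : CyT) (Λ0 : ℝ) (hΛ : 0 ≤ Λ0) (kf i' k k1 : ℕ) (hk : k ≤ k1) (hk1 : k1 ≤ kf)
    (hdl : Y.dl p kf ≤ Q.f) (φ1 : ℝ) (x x' : (Y.M.sys p).X)
    (hx' : cySg3P Q (tmL kf i' - tmL k1 (ancI kf k1 i')) ((2 : ℝ)⁻¹ ^ kf) ((2 : ℝ)⁻¹ ^ k1) φ1 (Y.co p (tmL k1 (ancI kf k1 i')) x'))
    (hc : H.L.cn p Λ0 (tmL k (ancI kf k i')) k (tmL k1 (ancI kf k1 i')) k1 x x') :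
    cySg3P Q (tmL kf i' - tmL k (ancI kf k i')) ((2 : ℝ)⁻¹ ^ kf) ((2 : ℝ)⁻¹ ^ k) (2 * φ1 + 2 * (Λ0 * Q.f)) (Y.co p (tmL k (ancI kf k i')) x) := by
  have hcut : CutLe (tmL k (ancI kf k i')) k (tmL k1 (ancI kf k1 i')) k1 := by
    have := gn_cutle_anc hk (ancI kf k1 i')
    rwa [gn_anc_anc hk hk1] at this
  obtain ⟨-, c1, c2⟩ := hcut
  have hl0 : (0 : ℝ) ≤ (2 : ℝ)⁻¹ ^ k := by positivity
  have h := cy_sg3_step Q (tmL kf i' - tmL k1 (ancI kf k1 i')) (tmL k1 (ancI kf k1 i') - tmL k (ancI kf k i')) ((2 : ℝ)⁻¹ ^ kf) ((2 : ℝ)⁻¹ ^ k1)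
    ((2 : ℝ)⁻¹ ^ k) φ1 (Λ0 * Y.dl p k1) (Λ0 * ((2 : ℝ)⁻¹ ^ k * Y.dl p k)) (Λ0 * Q.f) _ _ (by linarith) (by linarith)
    (pow_le_pow_of_le_one (by norm_num) (by norm_num) hk)
    (mul_le_mul_of_nonneg_left ((H.dl_mono p k1 kf hk1).trans hdl) hΛ)
    (by
      have h1 : Y.dl p k ≤ Q.f := (H.dl_mono p k kf (hk.trans hk1)).trans hdl
      have h2 : (2 : ℝ)⁻¹ ^ k * Y.dl p k ≤ (2 : ℝ)⁻¹ ^ k * Q.f := mul_le_mul_of_nonneg_left h1 hl0
      calc Λ0 * ((2 : ℝ)⁻¹ ^ k * Y.dl p k) ≤ Λ0 * ((2 : ℝ)⁻¹ ^ k * Q.f) := mul_le_mul_of_nonneg_left h2 hΛ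
        _ = (2 : ℝ)⁻¹ ^ k * (Λ0 * Q.f) := by ring)
    hx' (cy_sg3_cn H p Λ0 _ k _ k1 x x' hc)
  rwa [sub_add_sub_cancel] at h

theorem cy_sg3_ind {Y : SfCy} (H : CyHyp Y) (p : Y.M.Par) (hp : Y.M.gd p) (F : Xp (Y.M.sys p)) (fj Λ0 : ℝ) (hΛ : 0 ≤ Λ0) (i' : ℕ)
    (Ls : Finset (Fin F.L)) (hf : ∀ l ∈ Ls, (Y.tq p (F.ts l)).f = fj) (hdl : Y.dl p F.kf ≤ fj) (st : List (Stg (Y.M.sys p))) :
    ∀ k, k ≤ F.kf → (∀ σ ∈ st, k ≤ σ.k ∧ σ.k ≤ F.kf) → st.Pairwise (fun σ σ' => σ.k ≤ σ'.k) →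
      Bar H.L p Λ0 F.kf i' (tmL k (ancI F.kf k i')) k
        (⋃ l ∈ Ls, {x | cySg3P (Y.tq p (F.ts l)) (tmL F.kf i' - tmL k (ancI F.kf k i')) ((2 : ℝ)⁻¹ ^ F.kf) ((2 : ℝ)⁻¹ ^ k)
          (cySg3Phi fj (Λ0 * fj) (st.length + 1)) (Y.co p (tmL k (ancI F.kf k i')) x)}) st
        (⋃ l ∈ Ls, (Y.M.sys p).cell (F.ts l) (tmL F.kf i') F.kf) := by
  induction st with
  | nil =>
    intro k hk _ _
    rw [Bar]
    intro x hx x' hx' hc
    apply hx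
    obtain ⟨l, hl, hxl⟩ := Set.mem_iUnion₂.1 hx'
    refine Set.mem_iUnion₂.2 ⟨l, hl, ?_⟩
    rw [H.cell] at hxl
    have h1 := cy_sg3_fin _ _ _ hxl
    have h2 := cy_sg3_one H p (Y.tq p (F.ts l)) Λ0 hΛ F.kf i' k F.kf hk le_rfl (by rw [hf l hl]; exact hdl) (Y.tq p (F.ts l)).f x x'
      (by rw [gn_anc_self, sub_self]; exact h1) (by rw [gn_anc_self]; exact hc)
    rw [hf l hl] at h2
    exact h2
  | cons σ st ih =>
    intro k hk hdep hmono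
    rw [List.pairwise_cons] at hmono
    have hσ := hdep σ List.mem_cons_self
    rw [Bar]
    refine ⟨_, ?_, ?_, ih σ.k hσ.2 (fun τ hτ => ⟨hmono.1 τ hτ, (hdep τ (List.mem_cons_of_mem _ hτ)).2⟩) hmono.2⟩
    · exact Finset.measurableSet_biUnion _ fun l _ => cy_sg3_meas H p hp _ _ _ _ _ _
    · intro x hx x' hx' hc
      apply hx
      obtain ⟨l, hl, hxl⟩ := Set.mem_iUnion₂.1 hx'
      refine Set.mem_iUnion₂.2 ⟨l, hl, ?_⟩
      have h2 := cy_sg3_one H p (Y.tq p (F.ts l)) Λ0 hΛ F.kf i' k σ.k hσ.1 hσ.2 (by rw [hf l hl]; exact hdl) _ x x' hxl hc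
      rw [hf l hl] at h2
      exact h2

/-- **G3**.   The barrier of the label `l` at an intermediate cut `(T_m, k_m)`, `t_m = tl l - T_m`, `Q' = tq (ts l)`:   the rows `z` whose BASE ray passes through the base cell of `Q'` at the time `tl l` (exact: `cyFlow t_m z`), with
`|cyVel (cyBack Q' t_m ..) z| ≤ φ_m`, `|cyPos (cyBack Q' t_m ..) z| ≤ 2^-k_m φ_m`;   `φ_last = fj`, `φ_m = 2 φ_{m+1} + 2 Λ0 fj` (formulas of `cy_back_mem`: velocity changes by `≤ Λ0 dl ≤ Λ0 fj`, position by `≤ Λ0 l dl + t (φ + Λ0 fj)`).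
After `≤ K + 1` steps `φ_0 ≤ 2^(K+3) Λ0 fj ≤ 4 Λ fj` (`CK = 2^(K+1)`), and the base part is contained in the base cell of `X.Qm l` (first three lines of `cy_proj`).   Barrier of `Ls` = union.   Induction on `st2` (generalise the first cut);
measurability by `H.co_meas`; `H.cn`, `H.base`. -/
theorem cy_s_bar {Y : SfCy} (H : CyHyp Y) (K : ℕ) : ∃ CK : ℝ, 1 ≤ CK ∧ ∀ (p : Y.M.Par) (X : CyGp Y p) (Λ0 : ℝ) (i' : ℕ) (Ls : Finset (Fin X.F.L)),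
    X.Ok → X.st2.length ≤ K → 1 ≤ Λ0 → CK * Λ0 ≤ X.Λ → (∀ l ∈ Ls, X.F.iv l = i') →
    Bar H.L p Λ0 X.F.kf i' (tmL X.k (ancI X.F.kf X.k i')) X.k (⋃ l ∈ Ls, X.att (ancI X.F.kf X.k i') l) X.st2
      (⋃ l ∈ Ls, (Y.M.sys p).cell (X.F.ts l) (tmL X.F.kf i') X.F.kf) := by
  refine ⟨2 ^ (K + 1), one_le_pow₀ (by norm_num), fun p X Λ0 i' Ls hX hK hΛ0 hΛ hLs => ?_⟩
  obtain ⟨hst, -, hc2, -, hkf⟩ := hX.cut
  have hdep : ∀ σ ∈ X.st2, X.k ≤ σ.k ∧ σ.k ≤ X.F.kf := fun σ hσ =>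
    ⟨hc2 σ hσ, (hX.valid.st_dep σ (by rw [hst]; exact List.mem_append_right _ hσ)).2⟩
  have hmono : X.st2.Pairwise (fun σ σ' => σ.k ≤ σ'.k) := by
    have := hX.valid.st_mono
    rw [hst, List.pairwise_append] at this
    exact this.2.1
  have h := cy_sg3_ind H p hX.gd X.F X.fj Λ0 (by linarith) i' Ls (fun l _ => (hX.wid l).2) hX.fj_dl X.st2 X.k hkf hdep hmono
  refine cy_sg3_bar_mono H.L p Λ0 _ _ _ _ ?_ _ _ h
  intro x hx
  obtain ⟨l, hl, hxl⟩ := Set.mem_iUnion₂.1 hx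
  refine Set.mem_iUnion₂.2 ⟨l, hl, ?_⟩
  have han : X.an l = ancI X.F.kf X.k i' := by unfold CyGp.an; rw [hLs l hl]
  obtain ⟨-, c1, c2⟩ := gn_cutle_anc hkf i'
  have hfj := hX.fj_pos
  have hphi : cySg3Phi X.fj (Λ0 * X.fj) (X.st2.length + 1) ≤ 4 * X.Λ * X.fj := by
    have h1 := cy_sg3_phi_le X.fj (Λ0 * X.fj) (X.st2.length + 1)
    have h2 : (2 : ℝ) ^ (X.st2.length + 1) ≤ 2 ^ (K + 1) := pow_le_pow_right₀ (by norm_num) (by omega)
    have h3 : X.fj + 2 * (Λ0 * X.fj) ≤ 3 * (Λ0 * X.fj) := by nlinarith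
    have h4 : 0 ≤ Λ0 * X.fj := by positivity
    have h5 : (2 : ℝ) ^ (X.st2.length + 1) * (X.fj + 2 * (Λ0 * X.fj)) ≤ 2 ^ (K + 1) * (3 * (Λ0 * X.fj)) :=
      mul_le_mul h2 h3 (by positivity) (by positivity)
    have h6 : (2 : ℝ) ^ (K + 1) * Λ0 * X.fj ≤ X.Λ * X.fj := mul_le_mul_of_nonneg_right hΛ hfj.le
    have h7 : 0 ≤ (2 : ℝ) ^ (K + 1) * Λ0 * X.fj := by positivity
    have h8 : (2 : ℝ) ^ (K + 1) * (3 * (Λ0 * X.fj)) = 3 * ((2 : ℝ) ^ (K + 1) * Λ0 * X.fj) := by ring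
    have h9 : 4 * X.Λ * X.fj = 4 * (X.Λ * X.fj) := by ring
    rw [h8] at h5
    rw [h9]
    linarith
  have h1 := cy_sg3_first _ _ _ _ _ (4 * X.Λ * X.fj) _ (by linarith) (by linarith)
    (pow_le_pow_of_le_one (by norm_num) (by norm_num) hkf) (by rw [(hX.wid l).1]; exact hX.rj_pos.le) hphi hxl
  refine ⟨han, ?_⟩
  unfold CyGp.Qm CyGp.tl CyGp.la
  rw [han, hLs l hl]
  rw [(hX.wid l).1] at h1
  exact h1

/-- **G4** (the last paragraph of 02 l.735-740).   `Q` = new label (time `T`), `Q'` = old label (time `T'`), both bounded in the frame `Qs` of the cut `(T, k)`; `z` a point of the unit box of the frame.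
PLAN (`L = 2^-k`, `r0 = Qs.r`, `F0 = Qs.f`, `τ = (T' - T)/L ∈ [0,1]`, primes = parameters of `cyNrm`):   `Q.be - Q'.beAt T = F0/r0² (be' - be'' + τ K'')`,   `L (Q.K - Q'.K) = F0/r0² (K' - K'')`,
`Pd_Q z - Pd_Qs z = F0/r0 (al' + 2 be' X' - 2 K' B')`,   `Pd_Q' z - Pd_Qs z = F0/r0 (al'' + 2 be'' X' - 2 K'' (B' + τ X'))`, `|X'|, |B'| ≤ 1`.   All four: `field_simp; ring` after unfolding. -/
theorem cy_s_mm (T : ℝ) (k : ℕ) (Qs Q Q' : CyT) (T' ρ1 ρs : ℝ) (z : Cy5) (hr : 0 < Qs.r) (hf : 0 < Qs.f) (hT : T ≤ T') (hT' : T' ≤ T + (2 : ℝ)⁻¹ ^ k)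
    (h1 : 0 < ρ1) (hs : 0 < ρs) (hQ : CyTr T k Qs ρ1 Q) (hQ' : CyBdd ρs (cyNrm T k Qs T' Q')) (hz : cyIn Qs ((2 : ℝ)⁻¹ ^ k) z) :
    |(sfTestAt T Q).be - (sfTestAt T' Q').beAt T| + (2 : ℝ)⁻¹ ^ k * |Q.K - Q'.K| ≤ Qs.f / Qs.r ^ 2 * (4 * (ρ1⁻¹ + ρs⁻¹)) ∧
    |(sfTestAt T Q).Pd (sfRayAt T z) - (sfTestAt T' Q').Pd (sfRayAt T z)| ≤ Qs.f / Qs.r * (8 * (ρ1⁻¹ + ρs⁻¹)) := by
  set L : ℝ := (2 : ℝ)⁻¹ ^ k with hL
  have hL0 : 0 < L := by positivity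
  obtain ⟨-, -, -, -, a1, a2, a3⟩ := hQ
  have s0 := hQ'.1
  have b1 : |(cyNrm T k Qs T' Q').al| ≤ ρs⁻¹ := le_trans ((le_max_left _ _).trans ((le_max_right _ _).trans ((le_max_right _ _).trans
    ((le_max_right _ _).trans ((le_max_right _ _).trans (le_max_right _ _)))))) s0
  have b2 : |(cyNrm T k Qs T' Q').be| ≤ ρs⁻¹ := le_trans ((le_max_left _ _).trans ((le_max_right _ _).trans ((le_max_right _ _).trans
    ((le_max_right _ _).trans ((le_max_right _ _).trans ((le_max_right _ _).trans (le_max_right _ _))))))) s0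
  have b3 : |(cyNrm T k Qs T' Q').K| ≤ ρs⁻¹ := le_trans ((le_max_right _ _).trans ((le_max_right _ _).trans ((le_max_right _ _).trans
    ((le_max_right _ _).trans ((le_max_right _ _).trans ((le_max_right _ _).trans (le_max_right _ _))))))) s0
  have i1 : 0 < ρ1⁻¹ := inv_pos.mpr h1
  have is : 0 < ρs⁻¹ := inv_pos.mpr hs
  set τ : ℝ := (T' - T) / L with hτ
  have hτ0 : 0 ≤ τ := div_nonneg (by linarith) hL0.le
  have hτ1 : τ ≤ 1 := by rw [hτ, div_le_one hL0]; linarith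
  set X' : ℝ := (z.X - Qs.x) / Qs.r with hX'
  set B' : ℝ := (z.B - Qs.b) / (L * Qs.r) with hB'
  have hX1 : |X'| ≤ 1 := by rw [hX', abs_div, abs_of_pos hr, div_le_one hr]; exact hz.1
  have hB1 : |B'| ≤ 1 := by rw [hB', abs_div, abs_of_pos (mul_pos hL0 hr), div_le_one (mul_pos hL0 hr)]; exact hz.2.1
  have id1 : (sfTestAt T Q).be - (sfTestAt T' Q').beAt T
      = Qs.f / Qs.r ^ 2 * ((cyNrm T k Qs T Q).be - (cyNrm T k Qs T' Q').be + τ * (cyNrm T k Qs T' Q').K) := by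
    rw [hτ]
    simp only [cyNrm, sfFrameOf, SfFrame.tst, sfTestAt, SfTest.beAt, ← hL]
    field_simp
    ring
  have id2 : L * (Q.K - Q'.K) = Qs.f / Qs.r ^ 2 * ((cyNrm T k Qs T Q).K - (cyNrm T k Qs T' Q').K) := by
    simp only [cyNrm, sfFrameOf, SfFrame.tst, sfTestAt, ← hL]
    field_simp
    ring
  have id3 : (sfTestAt T Q).Pd (sfRayAt T z) - (sfTestAt T' Q').Pd (sfRayAt T z)
      = Qs.f / Qs.r * (((cyNrm T k Qs T Q).al + 2 * (cyNrm T k Qs T Q).be * X' - 2 * (cyNrm T k Qs T Q).K * B')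
        - ((cyNrm T k Qs T' Q').al + 2 * (cyNrm T k Qs T' Q').be * X' - 2 * (cyNrm T k Qs T' Q').K * (B' + τ * X'))) := by
    rw [hτ, hX', hB']
    simp only [cyNrm, sfFrameOf, SfFrame.tst, sfTestAt, SfTest.beAt, SfTest.Pd, sfRayAt, SfRay.Bt, SfFrame.bc, ← hL]
    field_simp
    ring
  have hc2 : 0 < Qs.f / Qs.r ^ 2 := by positivity
  have hc1 : 0 < Qs.f / Qs.r := by positivity
  generalize (cyNrm T k Qs T Q).al = A1 at *
  generalize (cyNrm T k Qs T Q).be = A2 at *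
  generalize (cyNrm T k Qs T Q).K = A3 at *
  generalize (cyNrm T k Qs T' Q').al = B1 at *
  generalize (cyNrm T k Qs T' Q').be = B2 at *
  generalize (cyNrm T k Qs T' Q').K = B3 at *
  constructor
  · have e2 : L * |Q.K - Q'.K| = |L * (Q.K - Q'.K)| := by rw [abs_mul, abs_of_pos hL0]
    rw [e2, id1, id2, abs_mul, abs_mul, abs_of_pos hc2, ← mul_add]
    refine mul_le_mul_of_nonneg_left ?_ hc2.le
    have g1 : |A2 - B2 + τ * B3| ≤ |A2| + |B2| + |B3| := by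
      refine (abs_add_le _ _).trans ?_
      have g2 := abs_sub A2 B2
      have g3 : |τ * B3| ≤ 1 * |B3| := by
        rw [abs_mul, abs_of_nonneg hτ0]
        exact mul_le_mul_of_nonneg_right hτ1 (abs_nonneg _)
      linarith
    have g4 := abs_sub A3 B3
    linarith
  · rw [id3, abs_mul, abs_of_pos hc1]
    refine mul_le_mul_of_nonneg_left ?_ hc1.le
    have m : ∀ u v a : ℝ, |u| ≤ a → |v| ≤ 1 → 0 ≤ a → |2 * u * v| ≤ 2 * a := by
      intro u v a hu hv ha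
      rw [abs_mul, abs_mul, abs_two]
      have := mul_le_mul hu hv (abs_nonneg _) ha
      linarith
    have hBt : |B' + τ * X'| ≤ 2 := by
      refine (abs_add_le _ _).trans ?_
      rw [abs_mul, abs_of_nonneg hτ0]
      have := mul_le_mul hτ1 hX1 (abs_nonneg _) zero_le_one
      linarith
    have m2 : |2 * B3 * (B' + τ * X')| ≤ 4 * ρs⁻¹ := by
      rw [abs_mul, abs_mul, abs_two]
      have := mul_le_mul b3 hBt (abs_nonneg _) is.le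
      linarith
    have g1 := abs_sub (A1 + 2 * A2 * X' - 2 * A3 * B') (B1 + 2 * B2 * X' - 2 * B3 * (B' + τ * X'))
    have g2 := abs_sub (A1 + 2 * A2 * X') (2 * A3 * B')
    have g3 := abs_add_le A1 (2 * A2 * X')
    have g4 := abs_sub (B1 + 2 * B2 * X') (2 * B3 * (B' + τ * X'))
    have g5 := abs_add_le B1 (2 * B2 * X')
    have k1 := m A2 X' _ a2 hX1 i1.le
    have k2 := m A3 B' _ a3 hB1 i1.le
    have k3 := m B2 X' _ b2 hX1 is.le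
    linarith

/-- **G1 = CHART** (02 l.655-670).   CONSTRUCTION (`l = X.la`, `ρ = rj`, `fs = δ^-Dst fj`, unit `u = fs / 16`).
(1) lattice cell of `z`:  `c1 = ⌊X/ρ⌋`, `c2 = ⌊B/(lρ)⌋`, centre `x_c = c1 ρ`, `b_c = c2 lρ`, `c3 = ⌊(Y - 2 x_c (B - b_c))/(lρ²)⌋`, `y_c = c3 lρ²`:   `|X - x_c| ≤ ρ`, `|B - b_c| ≤ lρ`, `|Y - y_c - 2 x_c (B - b_c)| ≤ lρ²`.
(2) `λ(z)` = the FIRST label (order of `Fin`) attached to `z`.   Five shear data of `Q⁻ = X.Qm λ(z)` at the centre:  `β = Q⁻.be`, `K = Q⁻.K`, `P = cyPat Q⁻ x_c b_c`, `A = c + al x_c + be x_c² + K (y_c - 2 x_c b_c)`, `S = d + al b_c + be y_c - K b_c²`,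
    rounded (floor) in the units `u/ρ²`, `u/(lρ²)`, `u/ρ`, `u`, `l u`.
(3) chart index `G = (c1, c2, c3, five integers)`;  `ι` = the finite set of the indices produced by (label, lattice cell meeting its base cell);  frame `fr I G`: centre `(x_c, b_c, y_c)`, widths `(ρ, fs)`, shear = the triangular solution of the rounded data.
(4) the parameters of `cyNrm` of a test in the frame ARE the differences of the five data at the centre, divided by the units (`P`, `A` are invariant under the flow, `S_{T'} = S_T + t A`, `β_{T'} = β_T + t K`).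
(5) `box`: rounding errors `≤ 5u`-type + `4Λ fj ≤ fs/2`.   `bdd`: `z` good: `cyM (Qm λ) (Qm l) ≤ δ^-D0` bounds `Δβ, ΔK, ΔP` (move `P` from the centre of `Qm λ` to `(x_c, b_c)`), `ΔA, ΔS` from the two normal conditions at `z` and extension to the centre (`cy_diff_extend`-type algebra):
    all `≤ C δ^-D0 Λ fj ≤ fs` if `Dst ≥ D0 + 2 + log₂ C`  (`δ ≤ 1/2`, `Λ ≤ 1/δ`).   Centres: `≤ 10`.   Widths: `1`, `δ^Dst`.   `Ds = Dst + 1`.
(6) `ovl`: a label meets `≤ 6 · 6 · 20` lattice cells; in each the rounded data of `λ(z)` are within `O(1)` units of those of the label. -/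
theorem cy_s_chart {Y : SfCy} (H : CyHyp Y) (D0 : ℝ) (hD0 : 0 < D0) : ∃ (Dst Ds : ℝ) (C0 : ℕ), 0 < Dst ∧ 0 < Ds ∧
    ∀ (p : Y.M.Par) (X : CyGp Y p), X.Ok → X.Λ ≤ X.de⁻¹ → X.de ≤ 1 / 2 →
      ∃ c : CyCh X, c.Ok (X.de ^ (-D0)) (X.de ^ Ds) C0 (X.de ^ (-Dst) * X.fj) := by
  exact cy_ch_main H D0 hD0 (fun _ X hX => cy_s_meas H X hX)

end Claimed.Agent.R256
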