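-- KEEP
import Claimed.Agent.R256.Cyl.StepGeo

/-!
# Row 256 (LS paper), CYL, unit STEP, file 3a : the auxiliary lemmas of A5 `cy_s_piece`          (helper233; prefix `cy_sa5_`)

`φ = An^* (1_S F)` at one cut `(T, k)`, `S` in the unit box of the frame `Qs`:
 `cy_sa5_meas`    measurability of the sets `{c < cyBaseSz}`, `{c < cyNorSz}`
 `cy_sa5_base`    exact base support of `φ`                      (`Loc.ker` for every truncation)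
 `cy_sa5_tail`    normal tails of `φ`                            (`Loc.ker` at the truncation `δ^-ε1 - 1`)
 `cy_sa5_reg`     truncated regularity of `φ`                    (`cy_rep_fam`, `cy_s_famcov`)
 `cy_sa5_valid`   validity of the chart piece                    (`gn_tl_valid`, `Gen.rep`)
 `cy_sa5_rd`      the readout of the chart piece
 `cy_sa5_self`    the frame is a test of its truncated family
 `cy_sa5_wt`, `cy_sa5_hyb`    weights, Planck parameter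
-/

set_option autoImplicit false

namespace Claimed.Agent.R256

open MeasureTheory

theorem cy_sa5_coM {Y : SfCy} (H : CyHyp Y) {p : Y.M.Par} (gd : Y.M.gd p) (T : ℝ) :
    Measurable (fun x => (Y.co p T x).X) ∧ Measurable (fun x => (Y.co p T x).B) ∧ Measurable (fun x => (Y.co p T x).Y) ∧
      Measurable (fun x => (Y.co p T x).N) ∧ Measurable (fun x => (Y.co p T x).D) := by
  have h := H.co_meas p gd T
  refine ⟨h.fst, h.snd.fst, h.snd.snd.fst, h.snd.snd.snd.fst, h.snd.snd.snd.snd⟩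

theorem cy_sa5_meas {Y : SfCy} (H : CyHyp Y) {p : Y.M.Par} (gd : Y.M.gd p) (T : ℝ) (Qs : CyT) (l c : ℝ) :
    MeasurableSet {x | c < cyBaseSz Qs l (Y.co p T x)} ∧ MeasurableSet {x | c < cyNorSz Qs l (Y.co p T x)} := by
  obtain ⟨mX, mB, mY, mN, mD⟩ := cy_sa5_coM H gd T
  constructor
  · refine measurableSet_lt measurable_const ?_
    unfold cyBaseSz cyBase cyTilt
    fun_prop
  · refine measurableSet_lt measurable_const ?_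
    unfold cyNorSz cyNor cyVel cyPos
    fun_prop

/-- same cut: related rows have equal base coordinates, the normal coordinates move by `Λ d_ℓ`, `Λ ℓ d_ℓ` -/
theorem cy_sa5_cn {Y : SfCy} (H : CyHyp Y) {p : Y.M.Par} {Λ T : ℝ} {k : ℕ} {x x' : (Y.M.sys p).X} (h : H.L.cn p Λ T k T k x x') :
    (Y.co p T x').X = (Y.co p T x).X ∧ (Y.co p T x').B = (Y.co p T x).B ∧ (Y.co p T x').Y = (Y.co p T x).Y ∧
      |(Y.co p T x').N - (Y.co p T x).N| ≤ Λ * Y.dl p k ∧ |(Y.co p T x').D - (Y.co p T x).D| ≤ Λ * ((2 : ℝ)⁻¹ ^ k * Y.dl p k) := by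
  obtain ⟨hix, hN, hD⟩ := (H.cn p Λ T k T k x x').mp h
  obtain ⟨bX, bB, bY⟩ := H.base p T T x x' hix
  rw [sub_self, zero_mul, add_zero] at bB bY
  rw [sub_self, zero_mul, sub_zero] at hD
  exact ⟨bX, bB, bY, hN, hD⟩

theorem cy_sa5_box_base {Qs : CyT} {l : ℝ} {z : Cy5} (hr : 0 < Qs.r) (hl : 0 < l) (h : cyIn Qs l z) : cyBaseSz Qs l z ≤ 1 := by
  obtain ⟨h1, h2, h3, -, -⟩ := h
  unfold cyBaseSz cyBase
  refine max_le ?_ (max_le ?_ ?_)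
  · show |(z.X - Qs.x) / Qs.r| ≤ 1
    rw [abs_div, abs_of_pos hr, div_le_one hr]
    exact h1
  · show |(z.B - Qs.b) / (l * Qs.r)| ≤ 1
    rw [abs_div, abs_of_pos (mul_pos hl hr), div_le_one (mul_pos hl hr)]
    exact h2
  · show |cyTilt Qs z / (l * Qs.r ^ 2)| ≤ 1
    rw [abs_div, abs_of_pos (by positivity : 0 < l * Qs.r ^ 2), div_le_one (by positivity)]
    exact h3

theorem cy_sa5_base_congr (Qs : CyT) (l : ℝ) {z z' : Cy5} (hX : z'.X = z.X) (hB : z'.B = z.B) (hY : z'.Y = z.Y) : cyBaseSz Qs l z' = cyBaseSz Qs l z := by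
  unfold cyBaseSz cyBase cyTilt
  rw [hX, hB, hY]

theorem cy_sa5_ind_idem {P : PkSys} (k : ℕ) {S : Set P.X} (hS : MeasurableSet S) (F : Lp P.Fb 2 (P.rho k)) :
    P.mulR k (S.indicator fun _ => 1) (P.mulR k (S.indicator fun _ => 1) F) = P.mulR k (S.indicator fun _ => 1) F := by
  rw [gn_mulR_mulR k (gn_mask_ind hS) (gn_mask_ind hS)]
  congr 1
  funext x
  by_cases hx : x ∈ S
  · simp [hx]
  · simp [hx]

/-- **exact base support** -/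
theorem cy_sa5_base {Y : SfCy} (H : CyHyp Y) {p : Y.M.Par} (gd : Y.M.gd p) (T : ℝ) (k : ℕ) (Qs : CyT) (hr : 0 < Qs.r) (S : Set (Y.M.sys p).X) (hS : MeasurableSet S)
    (hbox : ∀ x ∈ S, cyIn Qs ((2 : ℝ)⁻¹ ^ k) (Y.co p T x)) (F : Lp (Y.M.sys p).Fb 2 ((Y.M.sys p).rho k)) :
    (Y.M.sys p).ms T k 0 {x | 1 < cyBaseSz Qs ((2 : ℝ)⁻¹ ^ k) (Y.co p T x)}
      (ContinuousLinearMap.adjoint ((Y.M.sys p).An T k 0) ((Y.M.sys p).mulR k (S.indicator fun _ => 1) F)) = 0 := by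
  have hl : (0 : ℝ) < (2 : ℝ)⁻¹ ^ k := by positivity
  have hS' := (cy_sa5_meas H gd T Qs ((2 : ℝ)⁻¹ ^ k) 1).1
  have key : ∀ Λ : ℝ, 1 ≤ Λ → (Y.M.sys p).ms T k 0 {x | 1 < cyBaseSz Qs ((2 : ℝ)⁻¹ ^ k) (Y.co p T x)}
      (ContinuousLinearMap.adjoint ((Y.M.sys p).An T k 0) ((Y.M.sys p).mulR k (S.indicator fun _ => 1) F)) ≤ (H.L.CN 0 1) ^ 2 * ‖F‖ ^ 2 * (Λ⁻¹) ^ 2 := by
    intro Λ hΛ
    have h := H.L.ker p gd 0 1 Λ hΛ T k T k 0 0 (gn_cutle_refl T k) le_rfl le_rfl S _ hS hS' (by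
      intro x hx x' hx' hc
      obtain ⟨bX, bB, bY, -, -⟩ := cy_sa5_cn H hc
      have h1 := cy_sa5_box_base hr hl (hbox x hx)
      rw [← cy_sa5_base_congr Qs _ bX bB bY] at h1
      exact absurd hx' (not_lt.mpr h1)) F
    refine h.trans (le_of_eq ?_)
    rw [sub_self, mul_zero, Real.rpow_zero, mul_one, Nat.cast_one, Real.rpow_neg_one]
    ring
  refine le_antisymm ?_ (gn_ms_nonneg _ _ _ _ _)
  refine le_of_forall_pos_le_add fun ε hε => ?_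
  rw [zero_add]
  set c : ℝ := (H.L.CN 0 1) ^ 2 * ‖F‖ ^ 2 with hc
  have hc0 : 0 ≤ c := by positivity
  refine (key (max 1 (c / ε)) (le_max_left _ _)).trans ?_
  have hm1 : (1 : ℝ) ≤ max 1 (c / ε) := le_max_left _ _
  have hm0 : (0 : ℝ) < max 1 (c / ε) := by linarith
  have h1 : (max 1 (c / ε))⁻¹ ≤ 1 := inv_le_one_of_one_le₀ hm1
  have h2 : c * (max 1 (c / ε))⁻¹ ≤ ε := by
    rw [← div_eq_mul_inv, div_le_iff₀ hm0]
    have : c / ε ≤ max 1 (c / ε) := le_max_right _ _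
    rw [div_le_iff₀ hε] at this
    linarith
  have h0 : 0 ≤ (max 1 (c / ε))⁻¹ := (inv_pos.mpr hm0).le
  calc c * (max 1 (c / ε))⁻¹ ^ 2 = (c * (max 1 (c / ε))⁻¹) * (max 1 (c / ε))⁻¹ := by ring
    _ ≤ (c * (max 1 (c / ε))⁻¹) * 1 := mul_le_mul_of_nonneg_left h1 (mul_nonneg hc0 h0)
    _ ≤ ε := by linarith

theorem cy_sa5_nor {Qs : CyT} {l Λ d : ℝ} {z z' : Cy5} (hf : 0 < Qs.f) (hl : 0 < l) (hΛ : 0 ≤ Λ) (hd : d ≤ Qs.f) (h : cyIn Qs l z)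
    (hX : z'.X = z.X) (hB : z'.B = z.B) (hY : z'.Y = z.Y) (hN : |z'.N - z.N| ≤ Λ * d) (hD : |z'.D - z.D| ≤ Λ * (l * d)) : cyNorSz Qs l z' ≤ 1 + Λ := by
  obtain ⟨-, -, -, h4, h5⟩ := h
  have eV : cyVel Qs z' = cyVel Qs z + (z'.N - z.N) := by
    simp only [cyVel, hX, hB, hY]; ring
  have eP : cyPos Qs z' = cyPos Qs z + (z'.D - z.D) := by
    simp only [cyPos, hB, hY]; ring
  unfold cyNorSz cyNor
  refine max_le ?_ ?_
  · show |cyVel Qs z' / Qs.f| ≤ 1 + Λ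
    rw [abs_div, abs_of_pos hf, div_le_iff₀ hf, eV]
    refine (abs_add_le _ _).trans ?_
    have := mul_le_mul_of_nonneg_left hd hΛ
    linarith
  · show |cyPos Qs z' / (l * Qs.f)| ≤ 1 + Λ
    rw [abs_div, abs_of_pos (mul_pos hl hf), div_le_iff₀ (mul_pos hl hf), eP]
    refine (abs_add_le _ _).trans ?_
    have := mul_le_mul_of_nonneg_left (mul_le_mul_of_nonneg_left hd hl.le) hΛ
    linarith

theorem cy_sa5_de_rpow (n : ℕ) (y : ℝ) : ((2 : ℝ)⁻¹ ^ n) ^ y = 2 ^ (-(y * n)) := by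
  rw [← Real.rpow_natCast, ← Real.rpow_mul (by norm_num), Real.inv_rpow (by norm_num), ← Real.rpow_neg (by norm_num)]
  congr 1
  ring

/-- **normal tails** -/
theorem cy_sa5_tail {Y : SfCy} (H : CyHyp Y) (ε1 : ℝ) (hε1 : 0 < ε1) (A : ℕ) : ∃ n0 : ℕ, ∀ (p : Y.M.Par) (T : ℝ) (k n : ℕ) (Qs : CyT) (S : Set (Y.M.sys p).X)
    (F : Lp (Y.M.sys p).Fb 2 ((Y.M.sys p).rho k)), Y.M.gd p → n0 ≤ n → 0 < Qs.f → Y.dl p k ≤ Qs.f → MeasurableSet S →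
    (∀ x ∈ S, cyIn Qs ((2 : ℝ)⁻¹ ^ k) (Y.co p T x)) →
    (Y.M.sys p).ms T k 0 {x | ((2 : ℝ)⁻¹ ^ n) ^ (-ε1) < cyNorSz Qs ((2 : ℝ)⁻¹ ^ k) (Y.co p T x)}
      (ContinuousLinearMap.adjoint ((Y.M.sys p).An T k 0) ((Y.M.sys p).mulR k (S.indicator fun _ => 1) F))
      ≤ ((2 : ℝ)⁻¹ ^ n) ^ (A : ℝ) * ‖(Y.M.sys p).mulR k (S.indicator fun _ => 1) F‖ ^ 2 := by
  obtain ⟨N, hN⟩ : ∃ N : ℕ, ((A : ℝ) + 1) / ε1 ≤ N := ⟨⌈((A : ℝ) + 1) / ε1⌉₊, Nat.le_ceil _⟩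
  rw [div_le_iff₀ hε1] at hN
  obtain ⟨n1, hn1⟩ := gn_absorb 2 ε1 hε1
  obtain ⟨n2, hn2⟩ := gn_absorb ((H.L.CN 0 N) ^ 2 * (2 ^ N) ^ 2) 1 one_pos
  refine ⟨max n1 n2, ?_⟩
  intro p T k n Qs S F gd hn hf hd hS hbox
  have hl : (0 : ℝ) < (2 : ℝ)⁻¹ ^ k := by positivity
  have h1 := hn1 n ((le_max_left _ _).trans hn)
  have h2 := hn2 n ((le_max_right _ _).trans hn)
  rw [one_mul] at h2
  have eu : ((2 : ℝ)⁻¹ ^ n) ^ (-ε1) = 2 ^ (ε1 * n) := by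
    rw [cy_sa5_de_rpow]
    congr 1
    ring
  rw [eu, cy_sa5_de_rpow]
  set u : ℝ := 2 ^ (ε1 * n) with hu
  have hΛ : 1 ≤ u - 1 := by linarith
  have hS' := (cy_sa5_meas H gd T Qs ((2 : ℝ)⁻¹ ^ k) u).2
  have h := H.L.ker p gd 0 N (u - 1) hΛ T k T k 0 0 (gn_cutle_refl T k) le_rfl le_rfl S _ hS hS' (by
    intro x hx x' hx' hc
    obtain ⟨bX, bB, bY, bN, bD⟩ := cy_sa5_cn H hc
    have h3 := cy_sa5_nor hf hl (by linarith) hd (hbox x hx) bX bB bY bN bD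
    rw [add_sub_cancel] at h3
    exact absurd hx' (not_lt.mpr h3)) ((Y.M.sys p).mulR k (S.indicator fun _ => 1) F)
  rw [cy_sa5_ind_idem k hS] at h
  refine h.trans (mul_le_mul_of_nonneg_right ?_ (by positivity))
  rw [sub_self, mul_zero, Real.rpow_zero, mul_one]
  have hu2 : u / 2 ≤ u - 1 := by linarith
  have hu0 : 0 < u / 2 := by linarith
  have e1 : (u - 1) ^ (-(N : ℝ)) ≤ (u / 2) ^ (-(N : ℝ)) := Real.rpow_le_rpow_of_nonpos hu0 hu2 (by simp)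
  have e2 : (u / 2) ^ (-(N : ℝ)) = 2 ^ N * 2 ^ (-(ε1 * n * N)) := by
    rw [Real.div_rpow (by linarith) (by norm_num), hu, gn_two_mul, Real.rpow_neg (by norm_num : (0 : ℝ) ≤ 2) (N : ℝ), Real.rpow_natCast, div_inv_eq_mul, mul_comm]
    congr 2
    ring
  have e0 : 0 ≤ (u - 1) ^ (-(N : ℝ)) := Real.rpow_nonneg (by linarith) _
  have hn0 : (0 : ℝ) ≤ n := Nat.cast_nonneg _
  calc (H.L.CN 0 N * (u - 1) ^ (-(N : ℝ))) ^ 2 = (H.L.CN 0 N) ^ 2 * ((u - 1) ^ (-(N : ℝ))) ^ 2 := by ring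
    _ ≤ (H.L.CN 0 N) ^ 2 * (2 ^ N * 2 ^ (-(ε1 * n * N))) ^ 2 := by
        refine mul_le_mul_of_nonneg_left ?_ (by positivity)
        rw [← e2]
        exact pow_le_pow_left₀ e0 e1 2
    _ = ((H.L.CN 0 N) ^ 2 * (2 ^ N) ^ 2) * (2 ^ (-(ε1 * n * N)) * 2 ^ (-(ε1 * n * N))) := by ring
    _ ≤ 2 ^ (n : ℝ) * (2 ^ (-(ε1 * n * N)) * 2 ^ (-(ε1 * n * N))) := mul_le_mul_of_nonneg_right h2 (by positivity)
    _ = 2 ^ ((n : ℝ) + (-(ε1 * n * N) + -(ε1 * n * N))) := by rw [gn_two_add, gn_two_add]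
    _ ≤ 2 ^ (-((A : ℝ) * n)) := by
        refine gn_two_mono ?_
        have : ((A : ℝ) + 1) * n ≤ (N * ε1) * n := mul_le_mul_of_nonneg_right hN hn0
        nlinarith

/-- **truncated regularity after synthesis** -/
theorem cy_sa5_reg {Y : SfCy} (H : CyHyp Y) : ∃ Cr : ℝ, 1 ≤ Cr ∧ ∀ (p : Y.M.Par) (T : ℝ) (k : ℕ) (Qs : CyT) (ρ b : ℝ) (S : Set (Y.M.sys p).X) (ψ : (Y.M.sys p).Kc),
    Y.M.gd p → 0 ≤ b → MeasurableSet S →
    (∀ Q, (Y.M.sys p).ok Q k → CyTr T k Qs ρ (Y.tq p Q) → (Y.M.sys p).ms T k 0 ((Y.M.sys p).cell Q T k ∩ S) ψ ≤ b * (Y.M.sys p).wt Q) →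
    ∀ Q, (Y.M.sys p).ok Q k → CyTr T k Qs ρ (Y.tq p Q) →
      (Y.M.sys p).ms T k 0 ((Y.M.sys p).cell Q T k) ((Y.M.sys p).tz T k 0 (S.indicator fun _ => 1) ψ) ≤ Cr * b * (Y.M.sys p).wt Q := by
  obtain ⟨Cf, hCf⟩ := cy_s_famcov H
  obtain ⟨Cr, hCr, h⟩ := cy_rep_fam Y.M _ H.L H.gen.tight 0 Cf
  refine ⟨Cr, hCr, ?_⟩
  intro p T k Qs ρ b S ψ gd hb hS hreg Q hok htr
  have hT := H.gen.tight p gd
  refine h p T k 0 0 b ((Y.M.sys p).mulR k (S.indicator fun _ => 1) ((Y.M.sys p).An T k 0 ψ)) {Q | (Y.M.sys p).ok Q k ∧ CyTr T k Qs ρ (Y.tq p Q)}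
    gd le_rfl le_rfl hb (hCf p T k Qs ρ gd) ?_ Q ⟨hok, htr⟩
  intro Q' hQ'
  rw [gn_mulR_ind_setInt k hS (hT.cellM _ _ _), ← gn_ms_eq T k 0 ((hT.cellM _ _ _).inter hS)]
  exact hreg Q' hQ'.1 hQ'.2

theorem cy_sa5_ind_sq {α : Type} (S : Set α) : (fun x => (S.indicator (fun _ => (1 : ℝ)) x) ^ 2) = S.indicator fun _ => 1 := by
  funext x
  by_cases hx : x ∈ S
  · simp [hx]
  · simp [hx]

/-- the energy behind the mask -/
theorem cy_sa5_en {P : PkSys} (T : ℝ) (k b : ℕ) {S : Set P.X} (hS : MeasurableSet S) (ψ : P.Kc) :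
    ‖P.mulR k (S.indicator fun _ => 1) (P.An T k b ψ)‖ ^ 2 = P.ms T k b S ψ := by
  rw [gn_mulR_ind_normsq k hS, gn_ms_eq T k b hS]

/-- **validity of the chart piece** -/
theorem cy_sa5_valid {Y : SfCy} (H : CyHyp Y) : ∃ Cr : ℝ, 1 ≤ Cr ∧ ∀ (p : Y.M.Par) (X : CyGp Y p) (κ' : ℝ) (I : ℕ) (S : Set (Y.M.sys p).X) (Lab : Finset (Fin X.F.L)),
    X.Ok → 0 < κ' → (Y.M.sys p).Reg (tmL X.k I) X.k 0 κ' (X.ps I) → MeasurableSet S → (∀ l ∈ Lab, X.an l = I) →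
    0 < (Y.M.sys p).ms (tmL X.k I) X.k 0 S (X.ps I) →
    (X.F.tl X.k I (X.cutS I S) ((Y.M.sys p).ms (tmL X.k I) X.k 0 S (X.ps I)) (Cr * κ') 0 X.st2 Lab).Valid := by
  obtain ⟨Cr, hCr, h⟩ := H.gen.rep 0
  refine ⟨Cr, hCr, ?_⟩
  intro p X κ' I S Lab hX hκ hreg hS hLab he
  have hT := H.gen.tight p hX.gd
  refine gn_tl_valid X.F hX.valid hX.cut I _ _ _ 0 Lab ?_ he (by positivity) ?_ ?_ ?_
  · intro l hl
    unfold Xp.below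
    rw [Finset.mem_filter]
    exact ⟨Finset.mem_univ _, hLab l hl⟩
  · have := gn_tz_normsq_le hT (tmL X.k I) X.k 0 (gn_mask_ind hS) (X.ps I)
    rw [cy_sa5_ind_sq] at this
    exact this
  · rw [H.pl_univ p hX.gd]
    trivial
  · refine h p (tmL X.k I) X.k 0 0 κ' _ hX.gd le_rfl le_rfl ?_
    intro Q hQ
    refine (gn_mulR_setInt_le X.k (gn_mask_ind hS) (hT.cellM _ _ _) _).trans ?_
    rw [← gn_ms_eq _ _ _ (hT.cellM _ _ _)]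
    exact hreg Q hQ

/-- **the readout of the chart piece** -/
theorem cy_sa5_rd {Y : SfCy} {p : Y.M.Par} (X : CyGp Y p) (hk : X.k ≤ X.F.kf) (I : ℕ) (φ : (Y.M.sys p).Kc) (e' κ'' : ℝ) (Lab : Finset (Fin X.F.L)) :
    (X.F.tl X.k I φ e' κ'' 0 X.st2 Lab).rd = ∑ l ∈ Lab, X.rdm l φ ^ (3 / 2 : ℝ) / Real.sqrt (X.F.w l) := by
  rw [← gn_sel_sum X.F Lab (fun l => X.rdm l φ ^ (3 / 2 : ℝ) / Real.sqrt (X.F.w l))]
  have hkf := gn_tl_kf X.F hk I φ e' κ'' 0 X.st2 Lab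
  unfold Xp.rd
  refine Finset.sum_congr rfl fun a _ => ?_
  have hm : (X.F.tl X.k I φ e' κ'' 0 X.st2 Lab).m a = X.rdm (X.F.sel Lab a) φ := by
    unfold Xp.m Xp.fin
    rw [hkf]
    rfl
  rw [hm]
  rfl

/-- **the frame is a test of its truncated family** -/
theorem cy_sa5_self (T : ℝ) (k : ℕ) (Qs : CyT) (ρ : ℝ) (hr : 0 < Qs.r) (hf : 0 < Qs.f) (h0 : 0 < ρ) (h1 : ρ ≤ 1) : CyTr T k Qs ρ Qs := by
  have hi : 0 ≤ ρ⁻¹ := (inv_pos.mpr h0).le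
  unfold CyTr
  simp only [cyNrm, sfFrameOf, SfFrame.tst, sfTestAt, SfTest.beAt, sub_self, zero_mul, mul_zero, add_zero, zero_div, abs_zero, div_self hr.ne', div_self hf.ne']
  exact ⟨h1, le_rfl, h1, le_rfl, hi, hi, hi⟩

/-- **weights** -/
theorem cy_sa5_wt {η δ r f f' : ℝ} {C : ℕ} (h0 : 0 < η) (h1 : η < 1) (hδ : 0 < δ) (hδ1 : δ ≤ 1) (hr : 0 < r) (hf : 0 < f) (hf' : 0 < f')
    (hff : f' ≤ δ ^ (-(C : ℝ)) * f) : δ ^ (C : ℝ) * (r ^ (3 + η) * f' ^ (1 - η)) ≤ r ^ (3 + η) * f ^ (1 - η) := by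
  have hR : 0 < r ^ (3 + η) := Real.rpow_pos_of_pos hr _
  have hF : 0 < f ^ (1 - η) := Real.rpow_pos_of_pos hf _
  have hd : 0 < δ ^ (-(C : ℝ)) := Real.rpow_pos_of_pos hδ _
  have e1 : f' ^ (1 - η) ≤ (δ ^ (-(C : ℝ)) * f) ^ (1 - η) := Real.rpow_le_rpow hf'.le hff (by linarith)
  rw [Real.mul_rpow hd.le hf.le, ← Real.rpow_mul hδ.le] at e1
  have e2 : δ ^ (C : ℝ) * δ ^ (-(C : ℝ) * (1 - η)) ≤ 1 := by
    rw [← Real.rpow_add hδ]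
    refine Real.rpow_le_one hδ.le hδ1 ?_
    have : (0 : ℝ) ≤ C := Nat.cast_nonneg _
    nlinarith
  calc δ ^ (C : ℝ) * (r ^ (3 + η) * f' ^ (1 - η)) ≤ δ ^ (C : ℝ) * (r ^ (3 + η) * (δ ^ (-(C : ℝ) * (1 - η)) * f ^ (1 - η))) := by gcongr
    _ = (δ ^ (C : ℝ) * δ ^ (-(C : ℝ) * (1 - η))) * (r ^ (3 + η) * f ^ (1 - η)) := by ring
    _ ≤ 1 * (r ^ (3 + η) * f ^ (1 - η)) := mul_le_mul_of_nonneg_right e2 (by positivity)
    _ = _ := one_mul _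

/-- **the Planck parameter in the frame** -/
theorem cy_sa5_hyb {δ h d f f' : ℝ} {C : ℕ} (hδ : 0 < δ) (hd : d ^ 2 = h) (hd0 : 0 ≤ d) (hdf : d ≤ f') (hf : 0 < f) (hf' : 0 < f')
    (hff : f' ≤ δ ^ (-(C : ℝ)) * f) (hh : δ ^ (C : ℝ) ≤ h / f ^ 2) : δ ^ ((3 * C : ℕ) : ℝ) ≤ h / f' ^ 2 ∧ h / f' ^ 2 ≤ 1 := by
  have hc : 0 < δ ^ (C : ℝ) := Real.rpow_pos_of_pos hδ _
  constructor
  · rw [le_div_iff₀ (by positivity)]
    rw [le_div_iff₀ (by positivity)] at hh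
    have e1 : δ ^ (C : ℝ) * f' ≤ f := by
      have := mul_le_mul_of_nonneg_left hff hc.le
      rwa [← mul_assoc, ← Real.rpow_add hδ, add_neg_cancel, Real.rpow_zero, one_mul] at this
    have e2 : (δ ^ (C : ℝ) * f') ^ 2 ≤ f ^ 2 := pow_le_pow_left₀ (by positivity) e1 2
    have e3 : δ ^ ((3 * C : ℕ) : ℝ) = δ ^ (C : ℝ) * (δ ^ (C : ℝ)) ^ 2 := by
      rw [pow_two, ← Real.rpow_add hδ, ← Real.rpow_add hδ]
      congr 1
      push_cast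
      ring
    calc δ ^ ((3 * C : ℕ) : ℝ) * f' ^ 2 = δ ^ (C : ℝ) * (δ ^ (C : ℝ) * f') ^ 2 := by rw [e3]; ring
      _ ≤ δ ^ (C : ℝ) * f ^ 2 := mul_le_mul_of_nonneg_left e2 hc.le
      _ ≤ h := hh
  · rw [div_le_one (by positivity), ← hd]
    exact pow_le_pow_left₀ hd0 hdf 2

end Claimed.Agent.R256
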