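-- KEEP
import Claimed.Agent.R256.Cyl.StepGeo
import Claimed.Agent.R256.Cyl.StepA5

/-!
# Row 256 (LS paper), CYL, unit STEP, file 3 : ANALYSIS ON THE GAP          (chief helper255; prefix `cy_s`)

`X : CyGp Y p`, `δ = X.de`, `ψ_I = X.ps I`, `X.cutS I S = An^* 1_S An ψ_I`, `X.rdm l φ` = mass of the label `l` read on the state `φ` at the cut.   All generations are `0` at the cut (`H.pl_univ`: every state is a plateau state, `Tight.same`).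
 A1 `cy_s_leak`     L   transfer from the cut to the gate through the stack: K9 + G3, error `δ^A`                      0.2k
 A2 `cy_s_far`      L   a row set that is disjoint from the attachment of `l` is not read by `l`                        0.15k
 A3 `cy_s_pair`, `cy_s_partner`, `cy_s_dyad`, `cy_s_amb`      4 L   the ambiguous mass (02 l.585-598, 642-652)            0.15k + 0.4k + 0.2k + 0.3k
 A4 `cy_s_tiny`     L   the truncated rate without a lower bound on the energy (cyl:tiny-energy)                         0.25k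
 A5 `cy_s_piece`    L   the truncated rate applied to a chart piece (exact base support, tails, K3, validity)            0.6k
 A6 `cy_s_label`    L   a label is read on `≤ C0` chart pieces                                                          0.35k
 A7 `cy_s_upper`    L   (cyl:chart-upper)                                                                               0.35k
 A8 `cy_s_peel1`, `cy_s_classes`      2 L   truncated peel in every chart with common thresholds, width classes           0.35k + 0.35k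
-/

set_option autoImplicit false

namespace Claimed.Agent.R256

open MeasureTheory

/-- aux of A1: the numerics of the error -/
theorem cy_sa1_num (Ct CK Cl ε0 : ℝ) (A N : ℕ) (hCt : 0 ≤ Ct) (hCK : 1 ≤ CK) (hε : 0 < ε0) (hN : (A : ℝ) + |Cl| + 1 ≤ ε0 * N) :
    ∃ n0 : ℕ, ∀ (n : ℕ) (Λ : ℝ), n0 ≤ n → ((2 : ℝ)⁻¹ ^ n) ^ (-ε0) ≤ Λ →
      1 ≤ Λ / CK ∧ Ct * (Λ / CK) ^ (-(N : ℝ)) * 2 ^ (|Cl| * (n : ℝ)) ≤ ((2 : ℝ)⁻¹ ^ n) ^ (A : ℝ) := by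
  obtain ⟨n1, h1⟩ := gn_absorb CK ε0 hε
  obtain ⟨n2, h2⟩ := gn_absorb (Ct * CK ^ (N : ℝ)) 1 one_pos
  refine ⟨max n1 n2, fun n Λ hn hΛ => ?_⟩
  have hCK0 : 0 < CK := by linarith
  have e1 : ((2 : ℝ)⁻¹ ^ n) ^ (-ε0) = 2 ^ (ε0 * n) := by
    rw [← Real.rpow_natCast, ← Real.rpow_mul (by norm_num), Real.inv_rpow (by norm_num), ← Real.rpow_neg (by norm_num)]
    congr 1
    ring
  have e2 : ((2 : ℝ)⁻¹ ^ n) ^ (A : ℝ) = 2 ^ (-((A : ℝ) * n)) := by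
    rw [← Real.rpow_natCast, ← Real.rpow_mul (by norm_num), Real.inv_rpow (by norm_num), ← Real.rpow_neg (by norm_num)]
    congr 1
    ring
  rw [e1] at hΛ
  have hCKΛ : CK ≤ Λ := (h1 n ((le_max_left _ _).trans hn)).trans hΛ
  have hone : 1 ≤ Λ / CK := by rwa [one_le_div hCK0]
  refine ⟨hone, ?_⟩
  have h3 : (Λ / CK) ^ (-(N : ℝ)) ≤ (2 ^ (ε0 * n) / CK) ^ (-(N : ℝ)) := by
    refine Real.rpow_le_rpow_of_nonpos (by positivity) (div_le_div_of_nonneg_right hΛ hCK0.le) (by simp)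
  have h4 : ((2 : ℝ) ^ (ε0 * n) / CK) ^ (-(N : ℝ)) = CK ^ (N : ℝ) * 2 ^ (-(ε0 * N * n)) := by
    rw [Real.div_rpow (by positivity) hCK0.le, gn_two_mul, Real.rpow_neg hCK0.le, div_inv_eq_mul, mul_comm]
    congr 2
    ring
  rw [e2]
  have h5 := h2 n ((le_max_right _ _).trans hn)
  have hn0 : (0 : ℝ) ≤ n := Nat.cast_nonneg _
  calc Ct * (Λ / CK) ^ (-(N : ℝ)) * 2 ^ (|Cl| * (n : ℝ))
      ≤ Ct * (CK ^ (N : ℝ) * 2 ^ (-(ε0 * N * n))) * 2 ^ (|Cl| * (n : ℝ)) := by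
        rw [← h4]
        gcongr
    _ = (Ct * CK ^ (N : ℝ)) * (2 ^ (-(ε0 * N * n)) * 2 ^ (|Cl| * (n : ℝ))) := by ring
    _ ≤ 2 ^ (1 * (n : ℝ)) * (2 ^ (-(ε0 * N * n)) * 2 ^ (|Cl| * (n : ℝ))) := by gcongr
    _ = 2 ^ (1 * (n : ℝ) + (-(ε0 * N * n) + |Cl| * (n : ℝ))) := by rw [← gn_two_add, ← gn_two_add]
    _ ≤ 2 ^ (-((A : ℝ) * n)) := by
        refine gn_two_mono ?_
        nlinarith

/-- **A1**.   PLAN: `CK` from `cy_s_bar C`; `N` with `ε0 N ≥ A + |Cl| + 1`; `Ct` from `cy_barrier .. C C N`; `Λ0 = X.Λ / CK ≥ δ^-ε0 / CK ≥ 1` for `n' ≥ n0`; `StOk k kf C C st2` from `hX.valid`, `hX.cut`;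
`Ct Λ0^-N 2^(Cl n') ≤ Ct CK^N δ^(ε0 N - Cl) ≤ δ^A` (`gn_absorb`: `Ct CK^N ≤ 2^n'`). -/
theorem cy_s_leak {Y : SfCy} (H : CyHyp Y) (C A : ℕ) (ε0 : ℝ) (hε : 0 < ε0) : ∃ n0 : ℕ, ∀ (p : Y.M.Par) (X : CyGp Y p) (i' : ℕ) (Ls : Finset (Fin X.F.L))
    (F0 : Lp (Y.M.sys p).Fb 2 ((Y.M.sys p).rho X.k)), X.Ok → X.F.st.length ≤ C → X.F.GenLe C → n0 ≤ X.F.kf - X.k → X.de ^ (-ε0) ≤ X.Λ → (∀ l ∈ Ls, X.F.iv l = i') →
    Real.sqrt ((Y.M.sys p).ms (tmL X.F.kf i') X.F.kf X.F.bT (⋃ l ∈ Ls, (Y.M.sys p).cell (X.F.ts l) (tmL X.F.kf i') X.F.kf)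
        (Xp.run X.F.kf i' X.st2 (ContinuousLinearMap.adjoint ((Y.M.sys p).An (tmL X.k (ancI X.F.kf X.k i')) X.k 0) F0)))
      ≤ Real.sqrt (∫ x in ⋃ l ∈ Ls, X.att (ancI X.F.kf X.k i') l, ‖(F0 : (Y.M.sys p).X → (Y.M.sys p).Fb) x‖ ^ 2 ∂((Y.M.sys p).rho X.k)) + X.de ^ (A : ℝ) * ‖F0‖ := by
  obtain ⟨CK, hCK, hbar⟩ := cy_s_bar H C
  obtain ⟨N, hN⟩ := exists_nat_ge (((A : ℝ) + |H.L.Cl| + 1) / ε0)
  rw [div_le_iff₀' hε] at hN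
  obtain ⟨Ct, hCt, hbr⟩ := cy_barrier Y.M _ H.L H.gen.tight C C N
  obtain ⟨n0, hn0⟩ := cy_sa1_num Ct CK H.L.Cl ε0 A N hCt hCK hε hN
  refine ⟨n0, fun p X i' Ls F0 hX hlen hgen hn hΛ hLs => ?_⟩
  obtain ⟨hst, -, hc2, -, hkf⟩ := hX.cut
  obtain ⟨h1, h2⟩ := hn0 (X.F.kf - X.k) X.Λ hn hΛ
  have hCK0 : 0 < CK := by linarith
  have hT := H.gen.tight p hX.gd
  have hl2 : X.st2.length ≤ C := by
    have : X.F.st.length = X.st1.length + X.st2.length := by rw [hst, List.length_append]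
    omega
  have hmem : ∀ σ ∈ X.st2, σ ∈ X.F.st := fun σ hσ => by rw [hst]; exact List.mem_append_right _ hσ
  have hok : StOk X.k X.F.kf C C X.st2 := by
    refine ⟨hl2, fun σ hσ => ⟨hc2 σ hσ, (hX.valid.st_dep σ (hmem σ hσ)).2⟩, ?_, fun σ hσ => hgen.2.2 σ (hmem σ hσ),
      fun σ hσ => gn_valid_stm X.F hX.valid σ (hmem σ hσ)⟩
    have := hX.valid.st_mono
    rw [hst, List.pairwise_append] at this
    exact this.2.1
  have hB := hbar p X (X.Λ / CK) i' Ls hX hl2 h1 (by rw [mul_div_cancel₀ _ hCK0.ne']) hLs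
  obtain ⟨mA, -, -⟩ := cy_s_meas H X hX
  have h3 := hbr p (X.Λ / CK) X.k X.F.kf i' 0 X.F.bT X.st2 _ _ F0 hX.gd h1 hkf hok (Nat.zero_le _) hgen.2.1
    (Finset.measurableSet_biUnion _ fun l _ => mA _ l) (Finset.measurableSet_biUnion _ fun l _ => hT.cellM _ _ _) hB
  refine h3.trans (add_le_add le_rfl (mul_le_mul_of_nonneg_right ?_ (norm_nonneg _)))
  have e : ((X.F.kf : ℝ) - X.k) = ((X.F.kf - X.k : ℕ) : ℝ) := by rw [Nat.cast_sub hkf]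
  rw [e]
  exact h2

/-- **A2**.   PLAN: `rdm ≤ ms (cell)` (`gn_en_le_ms`, `Valid.th_supp`); `cutS = adjoint An (mulR 1_S (An ψ))`; `cy_s_leak` with `Ls = {l}`: the integral over `att` vanishes (`gn_mulR_ind_setInt`, disjointness); `‖mulR ..‖ ≤ ‖ψ‖`; square; `δ^(2A) ≤ δ^A`. -/
theorem cy_s_far {Y : SfCy} (H : CyHyp Y) (C A : ℕ) (ε0 : ℝ) (hε : 0 < ε0) : ∃ n0 : ℕ, ∀ (p : Y.M.Par) (X : CyGp Y p) (l : Fin X.F.L) (S : Set (Y.M.sys p).X),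
    X.Ok → X.F.st.length ≤ C → X.F.GenLe C → n0 ≤ X.F.kf - X.k → X.de ^ (-ε0) ≤ X.Λ → MeasurableSet S → Disjoint S (X.att (X.an l) l) →
    X.rdm l (X.cutS (X.an l) S) ≤ X.de ^ (A : ℝ) * ‖X.ps (X.an l)‖ ^ 2 := by
  obtain ⟨n0, hn0⟩ := cy_s_leak H C A ε0 hε
  refine ⟨n0, fun p X l S hX hlen hgen hn hΛ hS hdis => ?_⟩
  have hT := H.gen.tight p hX.gd
  obtain ⟨mA, -, -⟩ := cy_s_meas H X hX
  obtain ⟨F0, hF0⟩ : ∃ F0, F0 = (Y.M.sys p).mulR X.k (S.indicator fun _ => 1) ((Y.M.sys p).An (tmL X.k (X.an l)) X.k 0 (X.ps (X.an l))) := ⟨_, rfl⟩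
  have h1 := hn0 p X (X.F.iv l) {l} F0 hX hlen hgen hn hΛ (fun l' hl' => by rw [Finset.mem_singleton.1 hl'])
  simp only [Finset.mem_singleton, Set.iUnion_iUnion_eq_left] at h1
  have hz : ∫ x in X.att (ancI X.F.kf X.k (X.F.iv l)) l, ‖(F0 : (Y.M.sys p).X → (Y.M.sys p).Fb) x‖ ^ 2 ∂((Y.M.sys p).rho X.k) = 0 := by
    rw [hF0, gn_mulR_ind_setInt X.k hS (mA _ l)]
    have : X.att (ancI X.F.kf X.k (X.F.iv l)) l ∩ S = ∅ := by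
      rw [Set.inter_comm]
      exact Set.disjoint_iff_inter_eq_empty.1 hdis
    rw [this]
    simp
  rw [hz, Real.sqrt_zero, zero_add] at h1
  have hde0 : 0 < X.de := by unfold CyGp.de; positivity
  have hde1 : X.de ≤ 1 := by unfold CyGp.de; exact pow_le_one₀ (by norm_num) (by norm_num)
  have hdA0 : 0 ≤ X.de ^ (A : ℝ) := Real.rpow_nonneg hde0.le _
  have hdA1 : X.de ^ (A : ℝ) ≤ 1 := Real.rpow_le_one hde0.le hde1 (Nat.cast_nonneg _)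
  have hF : ‖F0‖ ≤ ‖X.ps (X.an l)‖ := by
    rw [hF0]
    exact (gn_mulR_norm_le X.k (gn_mask_ind hS) _).trans (hT.contr _ _ _ _)
  have h2 : X.rdm l (X.cutS (X.an l) S) ≤ (Y.M.sys p).ms (tmL X.F.kf (X.F.iv l)) X.F.kf X.F.bT ((Y.M.sys p).cell (X.F.ts l) (tmL X.F.kf (X.F.iv l)) X.F.kf)
      (Xp.run X.F.kf (X.F.iv l) X.st2 (ContinuousLinearMap.adjoint ((Y.M.sys p).An (tmL X.k (ancI X.F.kf X.k (X.F.iv l))) X.k 0) F0)) := by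
    rw [hF0]
    exact gn_en_le_ms _ _ _ (gn_th_mask X.F hX.valid l) (hT.cellM _ _ _) (hX.valid.th_supp l) _
  refine h2.trans ?_
  refine (Real.sqrt_le_iff.1 h1).2.trans ?_
  have h4 : ‖F0‖ ^ 2 ≤ ‖X.ps (X.an l)‖ ^ 2 := pow_le_pow_left₀ (norm_nonneg _) hF 2
  calc (X.de ^ (A : ℝ) * ‖F0‖) ^ 2 = X.de ^ (A : ℝ) * (X.de ^ (A : ℝ) * ‖F0‖ ^ 2) := by ring
    _ ≤ X.de ^ (A : ℝ) * (1 * ‖X.ps (X.an l)‖ ^ 2) := by gcongr
    _ = X.de ^ (A : ℝ) * ‖X.ps (X.an l)‖ ^ 2 := by rw [one_mul]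

/-- aux of A3: the widths of the projected test -/
theorem cy_sa3_Qm {Y : SfCy} {p : Y.M.Par} (X : CyGp Y p) (l : Fin X.F.L) : (X.Qm l).r = 2 * X.rj ∧ (X.Qm l).f = 4 * X.Λ * X.fj := ⟨rfl, rfl⟩

/-- aux of A3: the weight of the projected test -/
theorem cy_sa3_wt {Y : SfCy} (H : CyHyp Y) {p : Y.M.Par} (X : CyGp Y p) (hX : X.Ok) (l : Fin X.F.L) :
    X.wj ≤ cyWt Y.η (X.Qm l) ∧ cyWt Y.η (X.Qm l) ≤ 64 * X.Λ * X.wj ∧ 0 < X.wj := by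
  obtain ⟨h0, h1⟩ := H.eta
  have hr := hX.rj_pos
  have hf := hX.fj_pos
  have hΛ := hX.lam
  have hΛ0 : 0 < X.Λ := by linarith
  have pr : 0 < X.rj ^ (3 + Y.η) := Real.rpow_pos_of_pos hr _
  have pf : 0 < X.fj ^ (1 - Y.η) := Real.rpow_pos_of_pos hf _
  have e : cyWt Y.η (X.Qm l) = (2 : ℝ) ^ (3 + Y.η) * (4 : ℝ) ^ (1 - Y.η) * X.Λ ^ (1 - Y.η) * X.wj := by
    show (2 * X.rj) ^ (3 + Y.η) * (4 * X.Λ * X.fj) ^ (1 - Y.η) = _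
    rw [Real.mul_rpow (by norm_num) hr.le, Real.mul_rpow (by positivity) hf.le, Real.mul_rpow (by norm_num) hΛ0.le]
    unfold CyGp.wj
    ring
  have a1 : (1 : ℝ) ≤ (2 : ℝ) ^ (3 + Y.η) := Real.one_le_rpow (by norm_num) (by linarith)
  have a2 : (2 : ℝ) ^ (3 + Y.η) ≤ 16 := by
    calc (2 : ℝ) ^ (3 + Y.η) ≤ (2 : ℝ) ^ (4 : ℝ) := Real.rpow_le_rpow_of_exponent_le (by norm_num) (by linarith)
      _ = 16 := by norm_num
  have b1 : (1 : ℝ) ≤ (4 : ℝ) ^ (1 - Y.η) := Real.one_le_rpow (by norm_num) (by linarith)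
  have b2 : (4 : ℝ) ^ (1 - Y.η) ≤ 4 := by
    calc (4 : ℝ) ^ (1 - Y.η) ≤ (4 : ℝ) ^ (1 : ℝ) := Real.rpow_le_rpow_of_exponent_le (by norm_num) (by linarith)
      _ = 4 := by norm_num
  have c1 : (1 : ℝ) ≤ X.Λ ^ (1 - Y.η) := Real.one_le_rpow hΛ (by linarith)
  have c2 : X.Λ ^ (1 - Y.η) ≤ X.Λ := by
    calc X.Λ ^ (1 - Y.η) ≤ X.Λ ^ (1 : ℝ) := Real.rpow_le_rpow_of_exponent_le hΛ (by linarith)
      _ = X.Λ := Real.rpow_one _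
  have hw : 0 < X.wj := mul_pos pr pf
  refine ⟨?_, ?_, hw⟩
  · rw [e]
    have : 1 * 1 * 1 ≤ (2 : ℝ) ^ (3 + Y.η) * (4 : ℝ) ^ (1 - Y.η) * X.Λ ^ (1 - Y.η) :=
      mul_le_mul (mul_le_mul a1 b1 (by norm_num) (by positivity)) c1 (by norm_num) (by positivity)
    nlinarith
  · rw [e]
    have : (2 : ℝ) ^ (3 + Y.η) * (4 : ℝ) ^ (1 - Y.η) * X.Λ ^ (1 - Y.η) ≤ 16 * 4 * X.Λ :=
      mul_le_mul (mul_le_mul a2 b2 (by positivity) (by norm_num)) c2 (by positivity) (by norm_num)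
    nlinarith

/-- aux of A3: a test with positive base width and normal width `≥ fj` is admissible at the cut -/
theorem cy_sa3_ok {Y : SfCy} (H : CyHyp Y) {p : Y.M.Par} (X : CyGp Y p) (hX : X.Ok) (Q : CyT) (hr : 0 < Q.r) (hf : X.fj ≤ Q.f) :
    (Y.M.sys p).ok (H.mkT p Q) X.k := by
  rw [H.ok, H.tq_mk]
  exact ⟨hr, lt_of_lt_of_le hX.fj_pos hf, ((H.dl_mono p _ _ hX.cut.2.2.2.2).trans hX.fj_dl).trans hf⟩

/-- aux of A3: finite union bound for `ms` -/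
theorem cy_sa3_union {P : PkSys} (T : ℝ) (k b : ℕ) {ι : Type} (J : Finset ι) (R : ι → Set P.X) (hR : ∀ j ∈ J, MeasurableSet (R j)) (v : P.Kc) :
    P.ms T k b (⋃ j ∈ J, R j) v ≤ ∑ j ∈ J, P.ms T k b (R j) v := by
  have := gn_mu_finite (P := P) T k b v
  rw [gn_ms_eq_mu T k b (Finset.measurableSet_biUnion J hR)]
  refine (measureReal_biUnion_finset_le J R).trans (le_of_eq ?_)
  exact Finset.sum_congr rfl fun j hj => (gn_ms_eq_mu T k b (hR j hj) v).symm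

/-- **A3a** ((I) + regularity).   PLAN: `cy_two_shear` for `Q = Qm l`, `Q' = Qm l'`, `Λ = 2` (equal normal widths); the covering tests have `f = 4Λ fj ≥ dl k`, `r > 0`: `ok` (`H.ok`, `H.mkT`); `gn_ms_iUnion_le`, `Reg`;
`cyWt (Qm l) = (2 rj)^(3+η) (4Λ fj)^(1-η) ≤ 64 Λ wj`. -/
theorem cy_s_pair {Y : SfCy} (H : CyHyp Y) : ∃ C2 : ℝ, 0 ≤ C2 ∧ ∀ (p : Y.M.Par) (X : CyGp Y p) (κ' : ℝ) (I : ℕ) (l l' : Fin X.F.L), X.Ok → 0 ≤ κ' →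
    (Y.M.sys p).Reg (tmL X.k I) X.k 0 κ' (X.ps I) →
    (Y.M.sys p).ms (tmL X.k I) X.k 0 (X.att I l ∩ X.att I l') (X.ps I) ≤ C2 * X.Λ * (κ' * X.wj) / cyM (X.Qm l) (X.Qm l') X.la := by
  obtain ⟨C, hC0, hC⟩ := cy_two_shear_lb H.eta.1
  refine ⟨256 * C, by positivity, ?_⟩
  intro p X κ' I l l' hX hκ hreg
  have hT := H.gen.tight p hX.gd
  obtain ⟨mA, -, -⟩ := cy_s_meas H X hX
  have hr := hX.rj_pos
  have hf := hX.fj_pos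
  have hΛ := hX.lam
  have hla : 0 < X.la := by unfold CyGp.la; positivity
  have hM0 : 0 < cyM (X.Qm l) (X.Qm l') X.la := lt_of_lt_of_le one_pos (le_max_left _ _)
  have hQr : 0 < (X.Qm l).r := by rw [(cy_sa3_Qm X l).1]; positivity
  have hQf : 0 < (X.Qm l).f := by rw [(cy_sa3_Qm X l).2]; positivity
  obtain ⟨m, Qs, h1, h2, h3⟩ := hC (X.Qm l) (X.Qm l') X.la 2 hla hQr hQf (by norm_num) (by
    rw [(cy_sa3_Qm X l).2, (cy_sa3_Qm X l').2]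
    linarith)
  have hok : ∀ i, (Y.M.sys p).ok (H.mkT p (Qs i)) X.k := by
    intro i
    refine cy_sa3_ok H X hX _ (lt_of_lt_of_le (by positivity) (h1 i).1) ?_
    rw [(h1 i).2.2, (cy_sa3_Qm X l).2]
    nlinarith
  have hsub : X.att I l ∩ X.att I l' ⊆ ⋃ i, (Y.M.sys p).cell (H.mkT p (Qs i)) (tmL X.k I) X.k := by
    rintro x ⟨⟨-, x1⟩, ⟨-, x2⟩⟩
    obtain ⟨i, hi⟩ := h2 _ x1 x2
    rw [Set.mem_iUnion]
    refine ⟨i, ?_⟩
    rw [H.cell, H.tq_mk]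
    exact hi
  have hw := (cy_sa3_wt H X hX l).2.1
  calc (Y.M.sys p).ms (tmL X.k I) X.k 0 (X.att I l ∩ X.att I l') (X.ps I)
      ≤ (Y.M.sys p).ms (tmL X.k I) X.k 0 (⋃ i, (Y.M.sys p).cell (H.mkT p (Qs i)) (tmL X.k I) X.k) (X.ps I) :=
        gn_ms_mono _ _ _ ((mA I l).inter (mA I l')) (MeasurableSet.iUnion fun i => hT.cellM _ _ _) hsub _
    _ ≤ ∑ i, (Y.M.sys p).ms (tmL X.k I) X.k 0 ((Y.M.sys p).cell (H.mkT p (Qs i)) (tmL X.k I) X.k) (X.ps I) :=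
        gn_ms_iUnion_le _ _ _ _ (fun i => hT.cellM _ _ _) _
    _ ≤ ∑ i, κ' * cyWt Y.η (Qs i) := by
        refine Finset.sum_le_sum fun i _ => ?_
        have := hreg _ (hok i)
        rwa [H.wt, H.tq_mk] at this
    _ = κ' * ∑ i, cyWt Y.η (Qs i) := by rw [Finset.mul_sum]
    _ ≤ κ' * (C * 2 ^ 2 / cyM (X.Qm l) (X.Qm l') X.la * cyWt Y.η (X.Qm l)) := mul_le_mul_of_nonneg_left h3 hκ
    _ ≤ κ' * (C * 2 ^ 2 / cyM (X.Qm l) (X.Qm l') X.la * (64 * X.Λ * X.wj)) := by gcongr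
    _ = 256 * C * X.Λ * (κ' * X.wj) / cyM (X.Qm l) (X.Qm l') X.la := by ring

/-- aux of A3b: a larger normal width gives a larger cell -/
theorem cy_sa3_f_mono (Q : CyT) (l r1 f1 f2 : ℝ) (z : Cy5) (hl : 0 ≤ l) (h : f1 ≤ f2) (hz : cyIn { Q with r := r1, f := f1 } l z) :
    cyIn { Q with r := r1, f := f2 } l z := by
  obtain ⟨z1, z2, z3, z4, z5⟩ := hz
  exact ⟨z1, z2, z3, le_trans z4 h, le_trans z5 (mul_le_mul_of_nonneg_left h hl)⟩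

/-- aux of A3b: the relative scale -/
theorem cy_sa3_de {Y : SfCy} {p : Y.M.Par} (X : CyGp Y p) : 0 < X.de ∧ X.de ≤ 1 ∧ X.de ^ (-1 : ℝ) = 2 ^ (X.F.kf - X.k) := by
  refine ⟨by unfold CyGp.de; positivity, ?_, ?_⟩
  · unfold CyGp.de
    exact pow_le_one₀ (by norm_num) (by norm_num)
  · unfold CyGp.de
    rw [Real.rpow_neg_one, inv_pow, inv_inv]

/-- aux of A3b: the masses of the labels of ONE final interval whose attachments lie in one test `Qp` at the cut -/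
theorem cy_sa3_one {Y : SfCy} (H : CyHyp Y) (C : ℕ) (ε0 : ℝ) (hε : 0 < ε0) : ∃ n0 : ℕ, ∀ (p : Y.M.Par) (X : CyGp Y p) (κ' : ℝ) (Qp : CyT) (i' : ℕ)
    (Ls : Finset (Fin X.F.L)), X.Ok → X.Pol C κ' → n0 ≤ X.F.kf - X.k → X.de ^ (-ε0) ≤ X.Λ → (∀ l ∈ Ls, X.F.iv l = i') → ancI X.F.kf X.k i' ∈ X.iv →
    0 < Qp.r → X.fj ≤ Qp.f → X.wj ≤ cyWt Y.η Qp → (∀ l ∈ Ls, ∀ z, cyIn (X.Qm l) X.la z → cyIn Qp X.la z) →
    ∑ l ∈ Ls, X.F.m l ≤ 4 * (κ' * cyWt Y.η Qp) := by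
  classical
  obtain ⟨n0, hn0⟩ := cy_s_leak H C C ε0 hε
  refine ⟨n0, ?_⟩
  intro p X κ' Qp i' Ls hX hP hn hΛ hiv hI hQr hQf hW hin
  have hT := H.gen.tight p hX.gd
  obtain ⟨mA, -, -⟩ := cy_s_meas H X hX
  obtain ⟨hd0, hd1, -⟩ := cy_sa3_de X
  have hκ := hP.ka_pos
  obtain ⟨I, hIdef⟩ : ∃ I, I = ancI X.F.kf X.k i' := ⟨_, rfl⟩
  rw [← hIdef] at hI
  obtain ⟨U, hU⟩ : ∃ U : Set (Y.M.sys p).X, U = ⋃ l ∈ Ls, (Y.M.sys p).cell (X.F.ts l) (tmL X.F.kf i') X.F.kf := ⟨_, rfl⟩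
  have mU : MeasurableSet U := by
    rw [hU]
    exact Finset.measurableSet_biUnion Ls fun l _ => hT.cellM _ _ _
  obtain ⟨V, hV⟩ : ∃ V : Set (Y.M.sys p).X, V = ⋃ l ∈ Ls, X.att I l := ⟨_, rfl⟩
  have mV : MeasurableSet V := by
    rw [hV]
    exact Finset.measurableSet_biUnion Ls fun l _ => mA I l
  -- step 1
  have hmask : IsMask (fun x => ∑ l ∈ Ls, X.F.th l x) := by
    refine ⟨Finset.measurable_sum Ls fun l _ => hX.valid.th_meas l, fun x => ⟨Finset.sum_nonneg fun l _ => hX.valid.th_nn l x, ?_⟩⟩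
    refine le_trans ?_ (hX.valid.th_sum i' x)
    calc ∑ l ∈ Ls, X.F.th l x = ∑ l ∈ Ls, (if X.F.iv l = i' then X.F.th l x else 0) :=
          Finset.sum_congr rfl fun l hl => by rw [if_pos (hiv l hl)]
      _ ≤ ∑ l, (if X.F.iv l = i' then X.F.th l x else 0) := by
          refine Finset.sum_le_sum_of_subset_of_nonneg (Finset.subset_univ _) fun l _ _ => ?_
          split_ifs
          · exact hX.valid.th_nn l x
          · exact le_rfl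
  have s1 : ∑ l ∈ Ls, X.F.m l ≤ (Y.M.sys p).ms (tmL X.F.kf i') X.F.kf X.F.bT U (X.F.fin i') := by
    have e1 : ∑ l ∈ Ls, X.F.m l = ∑ l ∈ Ls, (Y.M.sys p).en (tmL X.F.kf i') X.F.kf X.F.bT (X.F.th l) (X.F.fin i') := by
      refine Finset.sum_congr rfl fun l hl => ?_
      unfold Xp.m
      rw [hiv l hl]
    rw [e1, ← gn_en_sum _ _ _ Ls _ (fun l _ => gn_th_mask X.F hX.valid l)]
    refine gn_en_le_ms _ _ _ hmask mU ?_ _
    intro x hx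
    obtain ⟨l, hl, hlx⟩ := Finset.exists_ne_zero_of_sum_ne_zero hx
    rw [hU]
    refine Set.mem_biUnion hl ?_
    have := hX.valid.th_supp l x hlx
    rwa [hiv l hl] at this
  -- step 2
  obtain ⟨F0, hF0⟩ : ∃ F0, F0 = (Y.M.sys p).An (tmL X.k I) X.k 0 (X.ps I) := ⟨_, rfl⟩
  have hpl : X.ps I ∈ (Y.M.sys p).Pl 0 := by
    rw [H.pl_univ p hX.gd 0]
    exact Set.mem_univ _
  have e2 : X.F.fin i' = Xp.run X.F.kf i' X.st2 (ContinuousLinearMap.adjoint ((Y.M.sys p).An (tmL X.k I) X.k 0) F0) := by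
    rw [hF0, gn_adj_an hT _ _ 0 hpl, gn_fin_cut X.F hX.cut i', hIdef]
    rfl
  -- step 3
  have s3 := hn0 p X i' Ls F0 hX hP.len hP.gen hn hΛ hiv
  rw [← hIdef, ← hU, ← hV, ← e2] at s3
  obtain ⟨W, hWdef⟩ : ∃ W, W = cyWt Y.η Qp := ⟨_, rfl⟩
  rw [← hWdef] at hW ⊢
  have hW0 : 0 ≤ κ' * W := by
    have : 0 < X.wj := mul_pos (Real.rpow_pos_of_pos hX.rj_pos _) (Real.rpow_pos_of_pos hX.fj_pos _)
    have : 0 < W := lt_of_lt_of_le this hW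
    positivity
  have t1 : ∫ x in V, ‖(F0 : (Y.M.sys p).X → (Y.M.sys p).Fb) x‖ ^ 2 ∂((Y.M.sys p).rho X.k) ≤ κ' * W := by
    rw [hF0, ← gn_ms_eq _ _ _ mV]
    have hsub : V ⊆ (Y.M.sys p).cell (H.mkT p Qp) (tmL X.k I) X.k := by
      intro x hx
      rw [hV, Set.mem_iUnion₂] at hx
      obtain ⟨l, hl, -, hx2⟩ := hx
      rw [H.cell, H.tq_mk]
      exact hin l hl _ hx2
    refine (gn_ms_mono _ _ _ mV (hT.cellM _ _ _) hsub _).trans ?_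
    have := hP.reg I hI _ (cy_sa3_ok H X hX Qp hQr hQf)
    rwa [H.wt, H.tq_mk, ← hWdef] at this
  have t2 : X.de ^ (C : ℝ) * ‖F0‖ ≤ Real.sqrt (κ' * W) := by
    refine Real.le_sqrt_of_sq_le ?_
    have a1 : ‖F0‖ ≤ ‖X.ps I‖ := by
      rw [hF0]
      exact hT.contr _ _ _ _
    have a2 : ‖F0‖ ^ 2 ≤ X.de ^ (-(C : ℝ)) * (κ' * X.wj) := (pow_le_pow_left₀ (norm_nonneg _) a1 2).trans (hP.en I hI)
    have a3 : X.de ^ (C : ℝ) * X.de ^ (-(C : ℝ)) = 1 := by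
      rw [← Real.rpow_add hd0]
      simp
    have a4 : X.de ^ (C : ℝ) ≤ 1 := Real.rpow_le_one hd0.le hd1 (by positivity)
    have a5 : 0 < X.de ^ (C : ℝ) := Real.rpow_pos_of_pos hd0 _
    have a6 : κ' * X.wj ≤ κ' * W := mul_le_mul_of_nonneg_left hW hκ.le
    have a7 : 0 ≤ κ' * X.wj := by
      have : 0 < X.wj := mul_pos (Real.rpow_pos_of_pos hX.rj_pos _) (Real.rpow_pos_of_pos hX.fj_pos _)
      positivity
    calc (X.de ^ (C : ℝ) * ‖F0‖) ^ 2 = X.de ^ (C : ℝ) * X.de ^ (C : ℝ) * ‖F0‖ ^ 2 := by ring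
      _ ≤ X.de ^ (C : ℝ) * X.de ^ (C : ℝ) * (X.de ^ (-(C : ℝ)) * (κ' * X.wj)) := by gcongr
      _ = X.de ^ (C : ℝ) * (X.de ^ (C : ℝ) * X.de ^ (-(C : ℝ))) * (κ' * X.wj) := by ring
      _ = X.de ^ (C : ℝ) * (κ' * X.wj) := by rw [a3, mul_one]
      _ ≤ 1 * (κ' * X.wj) := by gcongr
      _ ≤ κ' * W := by linarith
  have t3 : Real.sqrt ((Y.M.sys p).ms (tmL X.F.kf i') X.F.kf X.F.bT U (X.F.fin i')) ≤ 2 * Real.sqrt (κ' * W) := by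
    have := Real.sqrt_le_sqrt t1
    linarith
  have t4 : (Y.M.sys p).ms (tmL X.F.kf i') X.F.kf X.F.bT U (X.F.fin i') ≤ 4 * (κ' * W) := by
    have b1 := gn_ms_nonneg (P := Y.M.sys p) (tmL X.F.kf i') X.F.kf X.F.bT U (X.F.fin i')
    have b2 := pow_le_pow_left₀ (Real.sqrt_nonneg _) t3 2
    rw [Real.sq_sqrt b1, mul_pow, Real.sq_sqrt hW0] at b2
    linarith
  exact s1.trans t4

/-- **A3b** (partner count, 02 l.587-598).   PLAN.   `I = an l`.   Every `l' ∈ P` has `att I l' ⊆ cell Q⁺`, `Q⁺ = {Qm l with r := 4 r, f := Ce · 2 · x · f}` (`cy_diff_extend` at a common row, `Λ = 2`; monotone in `cyM ≤ x` by `cy_enl`).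
Fix a final interval `i'` below `I`, `P_i' = {l' ∈ P | iv l' = i'}`:   `Σ_{P_i'} m ≤ ms (⋃ cells) (fin i')` (`Valid.th_sum`, `th_supp`), `fin i' = run st2 ψ_I` (`gn_fin_cut`), `ψ_I = An^* An ψ_I` (`gn_adj_an`, `H.pl_univ`);
`cy_s_leak` (`F0 = An ψ_I`, `A` large): `≤ (√(κ' wt Q⁺) + δ^A ‖ψ_I‖)² ≤ 3 κ' wt Q⁺`  (`Pol.en`, `wj ≤ wt Q⁺`).   Floor: `card P_i' · δ^D κ' wj ≤ 3 κ' wt Q⁺`.   There are `δ^-1` intervals `i'` (`gn_ivs_card`).   `wt Q⁺ ≤ C Λ x^(1-η) wj`. -/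
theorem cy_s_partner {Y : SfCy} (H : CyHyp Y) : ∃ C3 : ℝ, 0 ≤ C3 ∧ ∀ (C : ℕ) (D ε0 : ℝ), 0 < ε0 → 0 ≤ D → ∃ n0 : ℕ, ∀ (p : Y.M.Par) (X : CyGp Y p) (κ' x : ℝ) (l : Fin X.F.L)
    (P : Finset (Fin X.F.L)), X.Ok → X.Pol C κ' → n0 ≤ X.F.kf - X.k → X.de ^ (-ε0) ≤ X.Λ → (∀ l', X.de ^ D * (κ' * X.wj) ≤ X.F.m l') → 1 ≤ x →
    (∀ l' ∈ P, (X.att (X.an l) l ∩ X.att (X.an l) l').Nonempty ∧ cyM (X.Qm l) (X.Qm l') X.la ≤ x) →
    (P.card : ℝ) ≤ C3 * X.Λ * X.de ^ (-(D + 1)) * x ^ (1 - Y.η) := by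
  classical
  obtain ⟨Ce, hCe⟩ := cy_diff_extend
  obtain ⟨Cx, hCx⟩ : ∃ Cx : ℝ, Cx = max Ce 1 := ⟨_, rfl⟩
  have hCx1 : 1 ≤ Cx := hCx ▸ le_max_right _ _
  have hCxe : Ce ≤ Cx := hCx ▸ le_max_left _ _
  refine ⟨131072 * Cx, by positivity, ?_⟩
  intro C D ε0 hε hD
  obtain ⟨n0, hn0⟩ := cy_sa3_one H C ε0 hε
  refine ⟨n0, ?_⟩
  intro p X κ' x l P hX hP hn hΛ hfl hx hPP
  obtain ⟨h0, h1⟩ := H.eta
  obtain ⟨hd0, hd1, hd2⟩ := cy_sa3_de X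
  obtain ⟨w1, w2, w0⟩ := cy_sa3_wt H X hX l
  have hκ := hP.ka_pos
  have hΛ1 := hX.lam
  have hla : 0 < X.la := by unfold CyGp.la; positivity
  have hQr : 0 < (X.Qm l).r := by
    rw [(cy_sa3_Qm X l).1]
    have := hX.rj_pos
    positivity
  have hQf : 0 < (X.Qm l).f := by
    rw [(cy_sa3_Qm X l).2]
    have := hX.fj_pos
    positivity
  obtain ⟨I, hI⟩ : ∃ I, I = X.an l := ⟨_, rfl⟩
  rw [← hI] at hPP
  have hIiv : I ∈ X.iv := by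
    rw [hI]
    exact gn_iv_anc X.F hX.valid hX.cut.2.2.2.1 hX.cut.2.2.2.2 l
  obtain ⟨Qp, hQp⟩ : ∃ Qp : CyT, Qp = { X.Qm l with r := 4 * (X.Qm l).r, f := Cx * 2 * x * (X.Qm l).f } := ⟨_, rfl⟩
  have hb1 : 1 ≤ Cx * 2 * x := by nlinarith
  have hQpr : 0 < Qp.r := by
    rw [hQp]
    show 0 < 4 * (X.Qm l).r
    positivity
  have hQpf : X.fj ≤ Qp.f := by
    rw [hQp]
    show X.fj ≤ Cx * 2 * x * (X.Qm l).f
    rw [(cy_sa3_Qm X l).2]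
    have := hX.fj_pos
    have h4 : X.fj ≤ 4 * X.Λ * X.fj := by nlinarith
    have h5 : 0 ≤ 4 * X.Λ * X.fj := by positivity
    nlinarith
  have hx0 : 0 < x := by linarith
  have px : 0 < x ^ (1 - Y.η) := Real.rpow_pos_of_pos hx0 _
  have hWe : cyWt Y.η Qp = (4 : ℝ) ^ (3 + Y.η) * (Cx * 2 * x) ^ (1 - Y.η) * cyWt Y.η (X.Qm l) := by
    rw [hQp]
    exact cy_wt_scale Y.η (X.Qm l) hQr hQf 4 (Cx * 2 * x) (by norm_num) (by linarith)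
  have a1 : (1 : ℝ) ≤ (4 : ℝ) ^ (3 + Y.η) := Real.one_le_rpow (by norm_num) (by linarith)
  have a2 : (4 : ℝ) ^ (3 + Y.η) ≤ 256 := by
    calc (4 : ℝ) ^ (3 + Y.η) ≤ (4 : ℝ) ^ (4 : ℝ) := Real.rpow_le_rpow_of_exponent_le (by norm_num) (by linarith)
      _ = 256 := by norm_num
  have b1 : (1 : ℝ) ≤ (Cx * 2 * x) ^ (1 - Y.η) := Real.one_le_rpow hb1 (by linarith)
  have b2 : (Cx * 2 * x) ^ (1 - Y.η) ≤ Cx * 2 * x ^ (1 - Y.η) := by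
    rw [Real.mul_rpow (by positivity) hx0.le]
    refine mul_le_mul_of_nonneg_right ?_ px.le
    calc (Cx * 2) ^ (1 - Y.η) ≤ (Cx * 2) ^ (1 : ℝ) := Real.rpow_le_rpow_of_exponent_le (by linarith) (by linarith)
      _ = Cx * 2 := Real.rpow_one _
  have hW1 : X.wj ≤ cyWt Y.η Qp := by
    rw [hWe]
    have : 1 * 1 ≤ (4 : ℝ) ^ (3 + Y.η) * (Cx * 2 * x) ^ (1 - Y.η) := mul_le_mul a1 b1 (by norm_num) (by positivity)
    nlinarith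
  have hW2 : cyWt Y.η Qp ≤ 32768 * Cx * X.Λ * x ^ (1 - Y.η) * X.wj := by
    rw [hWe]
    have c1 : (4 : ℝ) ^ (3 + Y.η) * (Cx * 2 * x) ^ (1 - Y.η) ≤ 256 * (Cx * 2 * x ^ (1 - Y.η)) := mul_le_mul a2 b2 (by positivity) (by norm_num)
    calc (4 : ℝ) ^ (3 + Y.η) * (Cx * 2 * x) ^ (1 - Y.η) * cyWt Y.η (X.Qm l) ≤ 256 * (Cx * 2 * x ^ (1 - Y.η)) * (64 * X.Λ * X.wj) :=
          mul_le_mul c1 w2 (by linarith) (by positivity)
      _ = 32768 * Cx * X.Λ * x ^ (1 - Y.η) * X.wj := by ring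
  -- every partner lies in `Qp`
  have hin : ∀ l' ∈ P, X.an l' = I ∧ ∀ z, cyIn (X.Qm l') X.la z → cyIn Qp X.la z := by
    intro l' hl'
    obtain ⟨⟨x0, ⟨-, x1⟩, ⟨xa, x2⟩⟩, hM⟩ := hPP l' hl'
    refine ⟨xa, fun z hz => ?_⟩
    have h2 := hCe (X.Qm l) (X.Qm l') X.la 2 _ hla hQr hQf (by norm_num) rfl (by
      rw [(cy_sa3_Qm X l).2, (cy_sa3_Qm X l').2]
      linarith) x1 x2 z hz
    rw [hQp]
    refine cy_sa3_f_mono (X.Qm l) X.la _ _ _ z hla.le ?_ h2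
    have hM1 : 1 ≤ cyM (X.Qm l) (X.Qm l') X.la := le_max_left _ _
    refine mul_le_mul_of_nonneg_right ?_ hQf.le
    have e1 : Ce * cyM (X.Qm l) (X.Qm l') X.la ≤ Cx * cyM (X.Qm l) (X.Qm l') X.la := mul_le_mul_of_nonneg_right hCxe (by linarith)
    have e2 : Cx * cyM (X.Qm l) (X.Qm l') X.la ≤ Cx * x := mul_le_mul_of_nonneg_left hM (by linarith)
    nlinarith
  -- one final interval
  obtain ⟨fl, hfl'⟩ : ∃ fl, fl = X.de ^ D * (κ' * X.wj) := ⟨_, rfl⟩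
  have hfl0 : 0 < fl := by
    rw [hfl']
    have := Real.rpow_pos_of_pos hd0 D
    positivity
  have hone : ∀ i' ∈ ivs X.k I X.F.kf, ((P.filter fun l' => X.F.iv l' = i').card : ℝ) * fl ≤ 4 * (κ' * cyWt Y.η Qp) := by
    intro i' hi'
    rw [gn_mem_ivs] at hi'
    have h3 := hn0 p X κ' Qp i' (P.filter fun l' => X.F.iv l' = i') hX hP hn hΛ (fun l' hl' => (Finset.mem_filter.1 hl').2) (by rw [hi']; exact hIiv)
      hQpr hQpf hW1 (fun l' hl' => (hin l' (Finset.mem_filter.1 hl').1).2)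
    refine le_trans ?_ h3
    rw [← nsmul_eq_mul]
    refine Finset.card_nsmul_le_sum _ _ _ fun l' _ => ?_
    rw [hfl']
    exact hfl l'
  have hcard : (P.card : ℝ) = ∑ i' ∈ ivs X.k I X.F.kf, ((P.filter fun l' => X.F.iv l' = i').card : ℝ) := by
    have := Finset.card_eq_sum_card_fiberwise (f := fun l' => X.F.iv l') (s := P) (t := ivs X.k I X.F.kf) (by
      intro l' hl'
      show X.F.iv l' ∈ ivs X.k I X.F.kf
      rw [gn_mem_ivs]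
      exact (hin l' hl').1)
    rw [this]
    push_cast
    rfl
  have htot : (P.card : ℝ) * fl ≤ 2 ^ (X.F.kf - X.k) * (4 * (κ' * cyWt Y.η Qp)) := by
    rw [hcard, Finset.sum_mul]
    refine (Finset.sum_le_card_nsmul _ _ _ hone).trans (le_of_eq ?_)
    rw [gn_ivs_card, nsmul_eq_mul]
    push_cast
    rfl
  rw [← hd2] at htot
  have e3 : X.de ^ (-(D + 1)) * X.de ^ D = X.de ^ (-1 : ℝ) := by
    rw [← Real.rpow_add hd0]
    congr 1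
    ring
  have pd : 0 < X.de ^ (-1 : ℝ) := Real.rpow_pos_of_pos hd0 _
  have hfin : (P.card : ℝ) * fl ≤ (131072 * Cx * X.Λ * X.de ^ (-(D + 1)) * x ^ (1 - Y.η)) * fl := by
    refine htot.trans ?_
    calc X.de ^ (-1 : ℝ) * (4 * (κ' * cyWt Y.η Qp)) ≤ X.de ^ (-1 : ℝ) * (4 * (κ' * (32768 * Cx * X.Λ * x ^ (1 - Y.η) * X.wj))) := by gcongr
      _ = (131072 * Cx * X.Λ * (X.de ^ (-(D + 1)) * X.de ^ D) * x ^ (1 - Y.η)) * (κ' * X.wj) := by rw [e3]; ring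
      _ = (131072 * Cx * X.Λ * X.de ^ (-(D + 1)) * x ^ (1 - Y.η)) * fl := by rw [hfl']; ring
  exact le_of_mul_le_mul_right hfin hfl0

theorem cy_sa3c_sh (s w : ℝ) (hs : 0 < s) (hw : s < w) : ∃ t : ℕ, 2 ^ t * s < w ∧ w ≤ 2 ^ (t + 1) * s := by
  have key : ∀ J : ℕ, w ≤ 2 ^ J * s → ∃ t : ℕ, 2 ^ t * s < w ∧ w ≤ 2 ^ (t + 1) * s := by
    intro J
    induction J with
    | zero =>
      intro h
      rw [pow_zero, one_mul] at h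
      exact absurd h (not_le.mpr hw)
    | succ J ih =>
      intro h
      rcases le_or_gt w (2 ^ J * s) with h' | h'
      · exact ih h'
      · exact ⟨J, h', h⟩
  obtain ⟨J, hJ⟩ := pow_unbounded_of_one_lt (w / s) (by norm_num : (1 : ℝ) < 2)
  rw [div_lt_iff₀ hs] at hJ
  exact key J hJ.le

/-- **A3c** (pure numbers).   PLAN: shells `P_t = {i | 2^t Mb < M i ≤ 2^(t+1) Mb}`, `t < t_max` (finite set); `Σ_{P_t} 1/M ≤ c (2^(t+1) Mb)^(1-η) / (2^t Mb) = 2^(1-η) c Mb^-η 2^(-ηt)`; geometric series; `Cη = 2 / (1 - 2^-η)`. -/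
theorem cy_s_dyad (η : ℝ) (h0 : 0 < η) (h1 : η < 1) : ∃ Cη : ℝ, 0 ≤ Cη ∧ ∀ {ι : Type} (P : Finset ι) (M : ι → ℝ) (c Mb : ℝ), 1 ≤ Mb → 0 ≤ c → (∀ i ∈ P, Mb < M i) →
    (∀ x : ℝ, Mb ≤ x → ∀ P' ⊆ P, (∀ i ∈ P', M i ≤ x) → (P'.card : ℝ) ≤ c * x ^ (1 - η)) → ∑ i ∈ P, 1 / M i ≤ Cη * c * Mb ^ (-η) := by
  classical
  set r : ℝ := (2 : ℝ) ^ (-η) with hr
  have hr0 : 0 < r := Real.rpow_pos_of_pos (by norm_num) _
  have hr1 : r < 1 := Real.rpow_lt_one_of_one_lt_of_neg (by norm_num) (by linarith)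
  refine ⟨2 / (1 - r), div_nonneg (by norm_num) (by linarith), ?_⟩
  intro ι P M c Mb hMb hc hP hcnt
  have hMb0 : 0 < Mb := by linarith
  have hex : ∀ i, ∃ t : ℕ, Mb < M i → 2 ^ t * Mb < M i ∧ M i ≤ 2 ^ (t + 1) * Mb := by
    intro i
    by_cases hi : Mb < M i
    · obtain ⟨t, ht⟩ := cy_sa3c_sh Mb (M i) hMb0 hi
      exact ⟨t, fun _ => ht⟩
    · exact ⟨0, fun h => absurd h hi⟩
  choose τ hτ using hex
  set N : ℕ := P.sup τ + 1 with hN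
  have hmaps : ∀ i ∈ P, τ i ∈ Finset.range N := by
    intro i hi
    rw [Finset.mem_range, hN, Nat.lt_succ_iff]
    exact Finset.le_sup hi
  have hp : 0 ≤ Mb ^ (-η) := Real.rpow_nonneg hMb0.le _
  have hshell : ∀ t : ℕ, ∑ i ∈ P with τ i = t, 1 / M i ≤ 2 * c * Mb ^ (-η) * r ^ t := by
    intro t
    have hy0 : (0 : ℝ) < 2 ^ t * Mb := by positivity
    have h2 : ((P.filter fun i => τ i = t).card : ℝ) ≤ c * (2 ^ (t + 1) * Mb) ^ (1 - η) := by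
      refine hcnt _ ?_ _ (Finset.filter_subset _ _) ?_
      · have : (1 : ℝ) ≤ 2 ^ (t + 1) := one_le_pow₀ (by norm_num)
        nlinarith
      · intro i hi
        rw [Finset.mem_filter] at hi
        rw [← hi.2]
        exact (hτ i (hP i hi.1)).2
    have h3 : ∑ i ∈ P with τ i = t, 1 / M i ≤ ((P.filter fun i => τ i = t).card : ℝ) * (1 / (2 ^ t * Mb)) := by
      rw [← nsmul_eq_mul]
      refine Finset.sum_le_card_nsmul _ _ _ ?_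
      intro i hi
      rw [Finset.mem_filter] at hi
      have := (hτ i (hP i hi.1)).1
      rw [hi.2] at this
      exact one_div_le_one_div_of_le hy0 this.le
    have e1 : (2 ^ (t + 1) * Mb) ^ (1 - η) * (1 / (2 ^ t * Mb)) = 2 ^ (1 - η) * (Mb ^ (-η) * r ^ t) := by
      have a1 : (2 : ℝ) ^ (t + 1) * Mb = 2 * (2 ^ t * Mb) := by ring
      have a2 : (2 ^ t * Mb) ^ (1 - η) = (2 ^ t * Mb) * (2 ^ t * Mb) ^ (-η) := by
        rw [sub_eq_add_neg, Real.rpow_add hy0, Real.rpow_one]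
      have a3 : ((2 : ℝ) ^ t) ^ (-η) = r ^ t := by
        rw [hr, ← Real.rpow_natCast, ← Real.rpow_mul (by norm_num), mul_comm, Real.rpow_mul (by norm_num), Real.rpow_natCast]
      rw [a1, Real.mul_rpow (by norm_num) hy0.le, a2, Real.mul_rpow (by positivity) hMb0.le, a3]
      field_simp
    have e2 : (2 : ℝ) ^ (1 - η) ≤ 2 := by
      have : (2 : ℝ) ^ (1 - η) ≤ 2 ^ (1 : ℝ) := Real.rpow_le_rpow_of_exponent_le (by norm_num) (by linarith)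
      rwa [Real.rpow_one] at this
    calc ∑ i ∈ P with τ i = t, 1 / M i ≤ ((P.filter fun i => τ i = t).card : ℝ) * (1 / (2 ^ t * Mb)) := h3
      _ ≤ c * (2 ^ (t + 1) * Mb) ^ (1 - η) * (1 / (2 ^ t * Mb)) := mul_le_mul_of_nonneg_right h2 (by positivity)
      _ = c * (2 ^ (1 - η) * (Mb ^ (-η) * r ^ t)) := by rw [mul_assoc, e1]
      _ ≤ c * (2 * (Mb ^ (-η) * r ^ t)) := by
          refine mul_le_mul_of_nonneg_left (mul_le_mul_of_nonneg_right e2 (by positivity)) hc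
      _ = 2 * c * Mb ^ (-η) * r ^ t := by ring
  have hgeo : ∑ j ∈ Finset.range N, r ^ j ≤ 1 / (1 - r) := by
    rw [geom_sum_eq hr1.ne, le_div_iff₀ (by linarith)]
    have e1 : (r ^ N - 1) / (r - 1) * (1 - r) = 1 - r ^ N := by
      have : r - 1 ≠ 0 := by linarith
      field_simp
      ring
    rw [e1]
    have : 0 ≤ r ^ N := by positivity
    linarith
  calc ∑ i ∈ P, 1 / M i = ∑ t ∈ Finset.range N, ∑ i ∈ P with τ i = t, 1 / M i := (Finset.sum_fiberwise_of_maps_to hmaps _).symm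
    _ ≤ ∑ t ∈ Finset.range N, 2 * c * Mb ^ (-η) * r ^ t := Finset.sum_le_sum fun t _ => hshell t
    _ = 2 * c * Mb ^ (-η) * ∑ t ∈ Finset.range N, r ^ t := by rw [Finset.mul_sum]
    _ ≤ 2 * c * Mb ^ (-η) * (1 / (1 - r)) := mul_le_mul_of_nonneg_left hgeo (by positivity)
    _ = 2 / (1 - r) * c * Mb ^ (-η) := by ring

/-- aux of A3: the weight of a label is the common weight -/
theorem cy_sa3_w {Y : SfCy} (H : CyHyp Y) {p : Y.M.Par} (X : CyGp Y p) (hX : X.Ok) (l : Fin X.F.L) : X.F.w l = X.wj := by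
  show (Y.M.sys p).wt (X.F.ts l) = _
  rw [H.wt]
  unfold cyWt CyGp.wj
  rw [(hX.wid l).1, (hX.wid l).2]

/-- **A3 = AMB** (02 l.642-652).   PLAN: `Am Mb I ⊆ ⋃_{l, an l = I} ⋃_{l' ∈ P(l)} att I l ∩ att I l'`, `P(l) = {l' | the intersection is nonempty, Mb < cyM}`; `cy_s_pair`, `cy_s_dyad` with `c = C3 Λ δ^-(D+1)` (`cy_s_partner`);
sum over `l`: `Σ_l wj = F.tw` (`H.wt`, `hX.wid`); `gn_sum_below` for the double sum over `I`, `l`.   `Ca = C2 C3 Cη`. -/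
theorem cy_s_amb {Y : SfCy} (H : CyHyp Y) : ∃ Ca : ℝ, 0 < Ca ∧ ∀ (C : ℕ) (D ε0 : ℝ), 0 < ε0 → 0 ≤ D → ∃ n0 : ℕ, ∀ (p : Y.M.Par) (X : CyGp Y p) (κ' Mb : ℝ),
    X.Ok → X.Pol C κ' → n0 ≤ X.F.kf - X.k → X.de ^ (-ε0) ≤ X.Λ → (∀ l, X.de ^ D * (κ' * X.wj) ≤ X.F.m l) → 1 ≤ Mb →
    ∑ I ∈ X.iv, (Y.M.sys p).ms (tmL X.k I) X.k 0 (X.Am Mb I) (X.ps I) ≤ Ca * X.Λ ^ 2 * X.de ^ (-(D + 1)) * Mb ^ (-Y.η) * (κ' * X.F.tw) := by
  classical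
  obtain ⟨C2, hC2, h2⟩ := cy_s_pair H
  obtain ⟨C3, hC3, h3⟩ := cy_s_partner H
  obtain ⟨Cη, hCη, hη⟩ := cy_s_dyad Y.η H.eta.1 H.eta.2
  refine ⟨C2 * C3 * Cη + 1, by positivity, ?_⟩
  intro C D ε0 hε hD
  obtain ⟨n0, hn0⟩ := h3 C D ε0 hε hD
  refine ⟨n0, ?_⟩
  intro p X κ' Mb hX hP hn hΛ hfl hMb
  have hT := H.gen.tight p hX.gd
  obtain ⟨mA, -, mAm⟩ := cy_s_meas H X hX
  obtain ⟨hd0, -, -⟩ := cy_sa3_de X
  have hκ := hP.ka_pos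
  have hΛ1 := hX.lam
  have hΛ0 : 0 < X.Λ := by linarith
  have hw0 : 0 < X.wj := mul_pos (Real.rpow_pos_of_pos hX.rj_pos _) (Real.rpow_pos_of_pos hX.fj_pos _)
  have hMb0 : 0 < Mb := by linarith
  have pd : 0 < X.de ^ (-(D + 1)) := Real.rpow_pos_of_pos hd0 _
  have pM : 0 < Mb ^ (-Y.η) := Real.rpow_pos_of_pos hMb0 _
  have hiv : ∀ l, X.an l ∈ X.iv := fun l => gn_iv_anc X.F hX.valid hX.cut.2.2.2.1 hX.cut.2.2.2.2 l
  obtain ⟨P, hPdef⟩ : ∃ P : Fin X.F.L → Finset (Fin X.F.L), P = fun l => Finset.univ.filter fun l' =>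
      (X.att (X.an l) l ∩ X.att (X.an l) l').Nonempty ∧ Mb < cyM (X.Qm l) (X.Qm l') X.la := ⟨_, rfl⟩
  have hPmem : ∀ l l', l' ∈ P l ↔ ((X.att (X.an l) l ∩ X.att (X.an l) l').Nonempty ∧ Mb < cyM (X.Qm l) (X.Qm l') X.la) := by
    intro l l'
    rw [hPdef]
    simp only [Finset.mem_filter, Finset.mem_univ, true_and]
  obtain ⟨c, hc⟩ : ∃ c : ℝ, c = C3 * X.Λ * X.de ^ (-(D + 1)) := ⟨_, rfl⟩
  have hc0 : 0 ≤ c := by rw [hc]; positivity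
  obtain ⟨B, hB⟩ : ∃ B : Fin X.F.L → ℝ, B = fun l => ∑ l' ∈ P l,
      (Y.M.sys p).ms (tmL X.k (X.an l)) X.k 0 (X.att (X.an l) l ∩ X.att (X.an l) l') (X.ps (X.an l)) := ⟨_, rfl⟩
  -- one label
  have hlab : ∀ l, B l ≤ C2 * X.Λ * (κ' * X.wj) * (Cη * c * Mb ^ (-Y.η)) := by
    intro l
    have d1 := hη (P l) (fun l' => cyM (X.Qm l) (X.Qm l') X.la) c Mb hMb hc0 (fun l' hl' => ((hPmem l l').1 hl').2) (by
      intro x hx P' hP' hM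
      rw [hc]
      exact hn0 p X κ' x l P' hX hP hn hΛ hfl (hMb.trans hx) fun l' hl' => ⟨((hPmem l l').1 (hP' hl')).1, hM l' hl'⟩)
    rw [hB]
    calc ∑ l' ∈ P l, (Y.M.sys p).ms (tmL X.k (X.an l)) X.k 0 (X.att (X.an l) l ∩ X.att (X.an l) l') (X.ps (X.an l))
        ≤ ∑ l' ∈ P l, C2 * X.Λ * (κ' * X.wj) * (1 / cyM (X.Qm l) (X.Qm l') X.la) := by
          refine Finset.sum_le_sum fun l' _ => ?_
          have := h2 p X κ' (X.an l) l l' hX hκ.le (hP.reg _ (hiv l))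
          rwa [div_eq_mul_one_div] at this
      _ = C2 * X.Λ * (κ' * X.wj) * ∑ l' ∈ P l, 1 / cyM (X.Qm l) (X.Qm l') X.la := by rw [Finset.mul_sum]
      _ ≤ C2 * X.Λ * (κ' * X.wj) * (Cη * c * Mb ^ (-Y.η)) := mul_le_mul_of_nonneg_left d1 (by positivity)
  -- one interval
  have hint : ∀ I ∈ X.iv, (Y.M.sys p).ms (tmL X.k I) X.k 0 (X.Am Mb I) (X.ps I) ≤ ∑ l ∈ Finset.univ.filter (fun l => X.an l = I), B l := by
    intro I _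
    have hsub : X.Am Mb I ⊆ ⋃ l ∈ Finset.univ.filter (fun l => X.an l = I), ⋃ l' ∈ P l, X.att I l ∩ X.att I l' := by
      rintro x ⟨l, l', x1, x2, hM⟩
      have ha : X.an l = I := x1.1
      refine Set.mem_biUnion (Finset.mem_filter.2 ⟨Finset.mem_univ _, ha⟩) (Set.mem_biUnion ?_ ⟨x1, x2⟩)
      show l' ∈ P l
      rw [hPmem, ha]
      exact ⟨⟨x, x1, x2⟩, hM⟩
    have m1 : ∀ l, MeasurableSet (⋃ l' ∈ P l, X.att I l ∩ X.att I l') := fun l =>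
      Finset.measurableSet_biUnion _ fun l' _ => (mA I l).inter (mA I l')
    refine (gn_ms_mono _ _ _ (mAm Mb I) (Finset.measurableSet_biUnion _ fun l _ => m1 l) hsub _).trans ?_
    refine (cy_sa3_union _ _ _ _ _ (fun l _ => m1 l) _).trans ?_
    refine Finset.sum_le_sum fun l hl => ?_
    have ha : X.an l = I := (Finset.mem_filter.1 hl).2
    refine (cy_sa3_union _ _ _ _ _ (fun l' _ => (mA I l).inter (mA I l')) _).trans (le_of_eq ?_)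
    rw [hB]
    simp only [ha]
  have hsum : ∑ I ∈ X.iv, ∑ l ∈ Finset.univ.filter (fun l => X.an l = I), B l = ∑ l, B l :=
    Finset.sum_fiberwise_of_maps_to (fun l _ => hiv l) B
  have htw : X.F.tw = (X.F.L : ℝ) * X.wj := by
    unfold Xp.tw
    rw [Finset.sum_congr rfl fun l _ => cy_sa3_w H X hX l]
    simp
  calc ∑ I ∈ X.iv, (Y.M.sys p).ms (tmL X.k I) X.k 0 (X.Am Mb I) (X.ps I)
      ≤ ∑ I ∈ X.iv, ∑ l ∈ Finset.univ.filter (fun l => X.an l = I), B l := Finset.sum_le_sum hint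
    _ = ∑ l, B l := hsum
    _ ≤ ∑ _l : Fin X.F.L, C2 * X.Λ * (κ' * X.wj) * (Cη * c * Mb ^ (-Y.η)) := Finset.sum_le_sum fun l _ => hlab l
    _ = (C2 * C3 * Cη) * (X.Λ ^ 2 * X.de ^ (-(D + 1)) * Mb ^ (-Y.η) * (κ' * X.F.tw)) := by
        rw [htw, hc]
        simp only [Finset.sum_const, Finset.card_univ, Fintype.card_fin, nsmul_eq_mul]
        ring
    _ ≤ (C2 * C3 * Cη + 1) * (X.Λ ^ 2 * X.de ^ (-(D + 1)) * Mb ^ (-Y.η) * (κ' * X.F.tw)) := by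
        refine mul_le_mul_of_nonneg_right (by linarith) ?_
        rw [htw]
        positivity
    _ = (C2 * C3 * Cη + 1) * X.Λ ^ 2 * X.de ^ (-(D + 1)) * Mb ^ (-Y.η) * (κ' * X.F.tw) := by ring

/-- the truncated rate WITHOUT the lower bound on the energy; instead: the weights of the labels are polynomial in the weight of the frame -/
def CyTrRateT (Y : SfCy) : Prop :=
  ∀ Ds : ℝ, 0 < Ds → ∃ D1 : ℝ, 0 < D1 ∧ ∀ (C : ℕ) (ε : ℝ), 0 < ε → ∃ (ε1 : ℝ) (A n0 : ℕ), 0 < ε1 ∧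
    ∀ (p : Y.M.Par) (E : Xp (Y.M.sys p)) (Qs : CyT) (b : ℝ), Y.M.gd p → n0 ≤ E.n → E.Valid → E.st.length ≤ C → E.GenLe C →
      0 < Qs.r → 0 < Qs.f → 0 < b →
      (∀ l, E.s ^ (C : ℝ) * cyWt Y.η Qs ≤ E.w l) → E.e ≤ E.s ^ (-(C : ℝ)) * (b * cyWt Y.η Qs) →
      (Y.hyb = true → E.s ^ (C : ℝ) ≤ Y.H p * 2 ^ E.k0 / Qs.f ^ 2 ∧ Y.H p * 2 ^ E.k0 / Qs.f ^ 2 ≤ 1) →
      (Y.M.sys p).ms (tmL E.k0 E.i0) E.k0 E.b0 {x | 1 < cyBaseSz Qs ((2 : ℝ)⁻¹ ^ E.k0) (Y.co p (tmL E.k0 E.i0) x)} E.v = 0 →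
      (Y.M.sys p).ms (tmL E.k0 E.i0) E.k0 E.b0 {x | E.s ^ (-ε1) < cyNorSz Qs ((2 : ℝ)⁻¹ ^ E.k0) (Y.co p (tmL E.k0 E.i0) x)} E.v ≤ E.s ^ (A : ℝ) * E.e →
      (∀ Q, (Y.M.sys p).ok Q E.k0 → CyTr (tmL E.k0 E.i0) E.k0 Qs (E.s ^ D1) (Y.tq p Q) →
        (Y.M.sys p).ms (tmL E.k0 E.i0) E.k0 E.b0 ((Y.M.sys p).cell Q (tmL E.k0 E.i0) E.k0) E.v ≤ b * (Y.M.sys p).wt Q) →
      (∀ l, CyBdd (E.s ^ Ds) (cyNrm (tmL E.k0 E.i0) E.k0 Qs (tmL E.kf (E.iv l)) (Y.tq p (E.ts l)))) →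
      E.rd ≤ 2 ^ (-((1 / 2 - Y.M.Gam - ε) * E.n)) * E.e * Real.sqrt b

/-- the bound of a chart piece: frame `Qs`, rows `S` in its unit box, truncated regularity `b` of the RAW row function `1_S An ψ_I`, labels `Lab` bounded in the frame -/
def CyPiece (Y : SfCy) (Ds D1 : ℝ) : Prop :=
  ∀ (C : ℕ) (ε : ℝ), 0 < ε → ∃ n0 : ℕ, ∀ (p : Y.M.Par) (X : CyGp Y p) (κ' b : ℝ) (I : ℕ) (Qs : CyT) (S : Set (Y.M.sys p).X) (Lab : Finset (Fin X.F.L)),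
    X.Ok → X.Pol C κ' → n0 ≤ X.F.kf - X.k → I ∈ X.iv → Qs.r = X.rj → X.fj ≤ Qs.f → Qs.f ≤ X.de ^ (-(C : ℝ)) * X.fj →
    MeasurableSet S → (∀ x ∈ S, cyIn Qs X.la (Y.co p (tmL X.k I) x)) → X.de ^ (C : ℝ) * κ' ≤ b → b ≤ X.de ^ (-(C : ℝ)) * κ' →
    (∀ Q ∈ X.Fam Qs I (X.de ^ D1), (Y.M.sys p).ms (tmL X.k I) X.k 0 ((Y.M.sys p).cell Q (tmL X.k I) X.k ∩ S) (X.ps I) ≤ b * (Y.M.sys p).wt Q) →
    (∀ l ∈ Lab, X.an l = I ∧ CyBdd (X.de ^ Ds) (cyNrm (tmL X.k I) X.k Qs (X.tl l) (Y.tq p (X.F.ts l)))) →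
    ∑ l ∈ Lab, X.rdm l (X.cutS I S) ^ (3 / 2 : ℝ) / Real.sqrt (X.F.w l)
      ≤ 2 ^ (-((1 / 2 - Y.M.Gam - ε) * ((X.F.kf - X.k : ℕ) : ℝ))) * Real.sqrt b * (Y.M.sys p).ms (tmL X.k I) X.k 0 S (X.ps I)

/-- (cyl:chart-upper) for the row sets `S I G ⊆ rw I G` of a chart system -/
def CyUpper (Y : SfCy) (Ds D1 : ℝ) (C0 : ℕ) : Prop :=
  ∀ (C : ℕ) (ε ε0 : ℝ), 0 < ε → 0 < ε0 → ∃ n0 : ℕ, ∀ (p : Y.M.Par) (X : CyGp Y p) (κ' b Mb fs : ℝ) (c : CyCh X) (S : ℕ → c.ι → Set (Y.M.sys p).X),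
    X.Ok → X.Pol C κ' → n0 ≤ X.F.kf - X.k → X.de ^ (-ε0) ≤ X.Λ → c.Ok Mb (X.de ^ Ds) C0 fs → X.fj ≤ fs → fs ≤ X.de ^ (-(C : ℝ)) * X.fj →
    (∀ I G, MeasurableSet (S I G) ∧ S I G ⊆ c.rw I G) → X.de ^ (C : ℝ) * κ' ≤ b → b ≤ X.de ^ (-(C : ℝ)) * κ' →
    (∀ I ∈ X.iv, ∀ G, ∀ Q ∈ X.Fam (c.fr I G) I (X.de ^ D1),
      (Y.M.sys p).ms (tmL X.k I) X.k 0 ((Y.M.sys p).cell Q (tmL X.k I) X.k ∩ S I G) (X.ps I) ≤ b * (Y.M.sys p).wt Q) →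
    X.F.rdc X.k X.st2 (fun I => X.cutS I (⋃ G, S I G))
      ≤ 2 ^ (-((1 / 2 - Y.M.Gam - ε) * ((X.F.kf - X.k : ℕ) : ℝ))) * Real.sqrt b * ∑ I ∈ X.iv, ‖X.ps I‖ ^ 2

theorem cy_sana_eqns_cite : True := by
  have := @CyTrRateT.eq_1
  have := @CyPiece.eq_1
  have := @CyUpper.eq_1
  trivial

/-- **A4** (cyl:tiny-energy).   PLAN.   `D1` from `hR Ds`.   Given `C, ε`: `C1 = C + 3`, `hR`'s constants at the package `C1`.   Case `E.s^C1 (b w*) ≤ E.e`: `hR` (`E.s^-C ≤ E.s^-C1`).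
Case `E.e < E.s^C1 b w*`:   `m l ≤ ‖fin‖² ≤ e` (`gn_en_le`, `gn_run_norm_le`, `Valid.budget`), `Σ m ≤ 2^n e` (`gn_total`), `tr l = m √(m/w) ≤ m √(e / (s^C w*)) ≤ m √(s^3 b)`:   `rd ≤ 2^n e s^(3/2) √b = s^(1/2) e √b`, and `s^(1/2) ≤ 2^(-(1/2 - Γ - ε) n)` (`bs_gam_nonneg`). -/
theorem cy_s_tiny {Y : SfCy} (H : CyHyp Y) (hR : CyTrRate Y) : CyTrRateT Y := by
  intro Ds hDs
  obtain ⟨D1, hD1, h1⟩ := hR Ds hDs
  refine ⟨D1, hD1, fun C ε hε => ?_⟩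
  obtain ⟨ε1, A, n0, hε1, h2⟩ := h1 (C + 3) ε hε
  refine ⟨ε1, A, n0, hε1, ?_⟩
  intro p E Qs b gd hn hV hlen hgen hr hf hb hw he hhyb hbase htail hreg hbdd
  have hT := H.gen.tight p gd
  have hs0 := gn_s_pos E
  have hW : 0 < cyWt Y.η Qs := by
    unfold cyWt
    exact mul_pos (Real.rpow_pos_of_pos hr _) (Real.rpow_pos_of_pos hf _)
  have hbW : 0 < b * cyWt Y.η Qs := mul_pos hb hW
  by_cases hcase : E.s ^ ((C + 3 : ℕ) : ℝ) * (b * cyWt Y.η Qs) ≤ E.e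
  · refine h2 p E Qs b gd hn hV (hlen.trans (by omega)) ⟨hgen.1.trans (by omega), hgen.2.1.trans (by omega), fun σ hσ => (hgen.2.2 σ hσ).trans (by omega)⟩
      hr hf hb hcase (he.trans ?_) (fun hy => ⟨?_, (hhyb hy).2⟩) hbase htail hreg hbdd
    · exact mul_le_mul_of_nonneg_right (gn_s_anti E (by push_cast; linarith)) hbW.le
    · exact (gn_s_anti E (by push_cast; linarith)).trans (hhyb hy).1
  · rw [not_le] at hcase
    have hm : ∀ l, E.m l ≤ E.e := by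
      intro l
      refine le_trans ?_ hV.budget
      refine (gn_en_le hT _ _ _ (gn_th_mask E hV l) _).trans ?_
      have := gn_run_norm_le hT E.kf (E.iv l) E.st (gn_valid_stm E hV) E.v
      unfold Xp.fin
      gcongr
    have hs3 : 0 < E.s ^ (3 : ℝ) := Real.rpow_pos_of_pos hs0 _
    have hρ : ∀ l, E.m l ≤ (E.s ^ (3 : ℝ) * b) * E.w l := by
      intro l
      calc E.m l ≤ E.e := hm l
        _ ≤ E.s ^ ((C + 3 : ℕ) : ℝ) * (b * cyWt Y.η Qs) := hcase.le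
        _ = (E.s ^ (3 : ℝ) * b) * (E.s ^ (C : ℝ) * cyWt Y.η Qs) := by
            push_cast
            rw [Real.rpow_add hs0]
            ring
        _ ≤ (E.s ^ (3 : ℝ) * b) * E.w l := mul_le_mul_of_nonneg_left (hw l) (by positivity)
    have hrd : E.rd ≤ Real.sqrt (E.s ^ (3 : ℝ) * b) * (2 ^ E.n * E.e) := by
      rw [gn_rd_eq]
      calc ∑ l, E.tr l ≤ ∑ l, Real.sqrt (E.s ^ (3 : ℝ) * b) * E.m l := Finset.sum_le_sum fun l _ => gn_tr_le E hV l (hρ l)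
        _ = Real.sqrt (E.s ^ (3 : ℝ) * b) * E.tm := by rw [Xp.tm, Finset.mul_sum]
        _ ≤ _ := mul_le_mul_of_nonneg_left (gn_total hT E hV) (Real.sqrt_nonneg _)
    refine hrd.trans ?_
    have e1 : Real.sqrt (E.s ^ (3 : ℝ) * b) = 2 ^ (-((3 / 2 : ℝ) * E.n)) * Real.sqrt b := by
      rw [Real.sqrt_mul hs3.le, Real.sqrt_eq_rpow, ← Real.rpow_mul hs0.le, gn_s_rpow]
      norm_num
    have e2 : (2 : ℝ) ^ E.n = 2 ^ (E.n : ℝ) := (Real.rpow_natCast _ _).symm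
    have e3 : Real.sqrt (E.s ^ (3 : ℝ) * b) * (2 ^ E.n * E.e) = 2 ^ (-((1 / 2 : ℝ) * E.n)) * E.e * Real.sqrt b := by
      rw [e1, e2]
      have : (2 : ℝ) ^ (-((1 / 2 : ℝ) * E.n)) = 2 ^ (-((3 / 2 : ℝ) * E.n)) * 2 ^ (E.n : ℝ) := by
        rw [← Real.rpow_add (by norm_num)]
        congr 1
        ring
      rw [this]
      ring
    rw [e3]
    have hG := Mdl.bs_gam_nonneg Y.M
    have hn0 : (0 : ℝ) ≤ E.n := Nat.cast_nonneg _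
    have e4 : (2 : ℝ) ^ (-((1 / 2 : ℝ) * E.n)) ≤ 2 ^ (-((1 / 2 - Y.M.Gam - ε) * E.n)) := by
      refine Real.rpow_le_rpow_of_exponent_le (by norm_num) ?_
      nlinarith
    exact mul_le_mul_of_nonneg_right (mul_le_mul_of_nonneg_right e4 hV.e_pos.le) (Real.sqrt_nonneg _)

/-- **A5**.   PLAN.   `D1` from `hR Ds`.   `φ = X.cutS I S = An^* F`, `F = mulR 1_S (An ψ_I)`, `e' = ms S ψ_I = ‖F‖²`.   If `e' = 0`: `φ = 0`, all `rdm = 0` (`gn_run_zero`, `gn_en_zero`).   Otherwise the piece `E' = X.F.tl k I φ e' (Cr κ') 0 st2 Lab`: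
 * `Valid`: `gn_tl_valid` (`‖φ‖² ≤ e'`: `gn_adj_norm_le`; `Pl 0 = univ`; `Reg (Cr κ')`: `H.gen.rep` + `gn_regF_an`, `gn_regF_mulR`);  masses: `E'.m a = X.rdm (sel a) φ` (unfold, `gn_tl_kf`);  `E'.s = δ`, `E'.n = kf - k`;
 * base support `= 0`:  `H.L.ker` with `S`, `S' = {1 < cyBaseSz}` for EVERY `Λ ≥ 1` (`H.cn` + `H.base` at `T' = T`: related rows have equal base coordinates), `N = 1`, `Λ → ∞`;
 * tails:  `H.L.ker` at `Λ = δ^-ε1 - 1` : related rows have `cyNorSz` within `Λ dl / Qs.f ≤ Λ`; `(CN Λ^-N)² ‖F‖² ≤ δ^A e'`;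
 * truncated regularity of `φ`:  `cy_rep_fam` with `cy_s_famcov`:  `Cr' b`;
 * `e' ≤ b w*`:  the frame itself, `H.mkT p Qs ∈ Fam` (normalised widths `1`, coefficients `0`), contains `S`;
 * weights: `w* = rj^(3+η) Qs.f^(1-η) ≤ δ^-C wj`;   hybrid: `Pol.hyb`, `H.dl_sq`, `dl k ≤ dl kf ≤ fj ≤ Qs.f`.
`hR` at the package `3C + ..`, accuracy `ε/2`, regularity `Cr' b`; `√Cr' ≤ 2^(ε n'/2)`. -/
theorem cy_s_piece {Y : SfCy} (H : CyHyp Y) (hR : CyTrRateT Y) (Ds : ℝ) (hDs : 0 < Ds) : ∃ D1 : ℝ, 0 < D1 ∧ CyPiece Y Ds D1 := by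
  obtain ⟨D1, hD1, h1⟩ := hR Ds hDs
  refine ⟨D1, hD1, fun C ε hε => ?_⟩
  obtain ⟨ε1, A, n1, hε1, h2⟩ := h1 (3 * C) (ε / 2) (half_pos hε)
  obtain ⟨Cr, hCr, hval⟩ := cy_sa5_valid H
  obtain ⟨Cr', hCr', hreg'⟩ := cy_sa5_reg H
  obtain ⟨n2, htl⟩ := cy_sa5_tail H ε1 hε1 A
  obtain ⟨n3, hn3⟩ := gn_absorb (Real.sqrt Cr') (ε / 2) (half_pos hε)
  refine ⟨max n1 (max n2 n3), ?_⟩
  intro p X κ' b I Qs S Lab hX hP hn hI hQr hQf hQf' hS hbox hb1 hb2 hreg hLab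
  have gd := hX.gd
  have hT := H.gen.tight p gd
  have hk : X.k ≤ X.F.kf := hX.cut.2.2.2.2
  have hδ : 0 < X.de := by unfold CyGp.de; positivity
  have hδ1 : X.de ≤ 1 := by unfold CyGp.de; exact pow_le_one₀ (by norm_num) (by norm_num)
  have hr : 0 < Qs.r := by rw [hQr]; exact hX.rj_pos
  have hf : 0 < Qs.f := lt_of_lt_of_le hX.fj_pos hQf
  have hb : 0 < b := lt_of_lt_of_le (mul_pos (Real.rpow_pos_of_pos hδ _) hP.ka_pos) hb1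
  have hdl : Y.dl p X.k ≤ Qs.f := ((H.dl_mono p _ _ hk).trans hX.fj_dl).trans hQf
  have hW : 0 < cyWt Y.η Qs := mul_pos (Real.rpow_pos_of_pos hr _) (Real.rpow_pos_of_pos hf _)
  set e' : ℝ := (Y.M.sys p).ms (tmL X.k I) X.k 0 S (X.ps I) with he'
  rcases (gn_ms_nonneg (tmL X.k I) X.k 0 S (X.ps I)).eq_or_lt with h0 | h0
  · -- zero energy
    have hz : X.cutS I S = 0 := by
      have e1 := cy_sa5_en (tmL X.k I) X.k 0 hS (X.ps I)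
      rw [← h0] at e1
      have e2 : (Y.M.sys p).mulR X.k (S.indicator fun _ => 1) ((Y.M.sys p).An (tmL X.k I) X.k 0 (X.ps I)) = 0 := by
        rw [← norm_eq_zero]
        exact pow_eq_zero_iff (two_ne_zero) |>.mp e1
      unfold CyGp.cutS PkSys.tz
      rw [e2, map_zero]
    rw [hz, he', ← h0, mul_zero]
    refine le_of_eq (Finset.sum_eq_zero fun l _ => ?_)
    unfold CyGp.rdm
    rw [gn_run_zero, gn_en_zero, Real.zero_rpow (by norm_num), zero_div]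
  · have hV := hval p X κ' I S Lab hX hP.ka_pos (hP.reg I hI) hS (fun l hl => (hLab l hl).1) h0
    have hkf := gn_tl_kf X.F hk I (X.cutS I S) e' (Cr * κ') 0 X.st2 Lab
    have hst : ∀ σ ∈ X.st2, σ ∈ X.F.st := fun σ hσ => by rw [hX.cut.1]; exact List.mem_append_right _ hσ
    have hδC : X.de ^ ((3 * C : ℕ) : ℝ) ≤ X.de ^ (C : ℝ) := Real.rpow_le_rpow_of_exponent_ge hδ hδ1 (by push_cast; nlinarith [(Nat.cast_nonneg C : (0 : ℝ) ≤ C)])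
    have hself : e' ≤ b * cyWt Y.η Qs := by
      have hm : H.mkT p Qs ∈ X.Fam Qs I (X.de ^ D1) := by
        refine ⟨(H.ok p _ _).mpr ?_, ?_⟩
        · rw [H.tq_mk]
          exact ⟨hr, hf, hdl⟩
        · rw [H.tq_mk]
          exact cy_sa5_self _ _ _ _ hr hf (Real.rpow_pos_of_pos hδ _) (Real.rpow_le_one hδ.le hδ1 hD1.le)
      have h3 := hreg _ hm
      have h4 : (Y.M.sys p).cell (H.mkT p Qs) (tmL X.k I) X.k ∩ S = S := by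
        refine Set.inter_eq_right.mpr fun x hx => ?_
        rw [H.cell, H.tq_mk]
        exact hbox x hx
      rwa [h4, H.wt, H.tq_mk] at h3
    have main := h2 p (X.F.tl X.k I (X.cutS I S) e' (Cr * κ') 0 X.st2 Lab) Qs (Cr' * b) gd ((le_max_left _ _).trans hn) hV
      (by
        show X.st2.length ≤ 3 * C
        have := hP.len
        rw [hX.cut.1, List.length_append] at this
        omega)
      ⟨Nat.zero_le _, hP.gen.2.1.trans (by omega), fun σ hσ => (hP.gen.2.2 σ (hst σ hσ)).trans (by omega)⟩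
      hr hf (by positivity)
      (by
        intro a
        show X.de ^ ((3 * C : ℕ) : ℝ) * cyWt Y.η Qs ≤ (Y.M.sys p).wt (X.F.ts (X.F.sel Lab a))
        rw [H.wt]
        unfold cyWt
        rw [(hX.wid _).1, (hX.wid _).2, hQr]
        refine le_trans (mul_le_mul_of_nonneg_right hδC ?_) (cy_sa5_wt H.eta.1 H.eta.2 hδ hδ1 hX.rj_pos hX.fj_pos hf hQf')
        rw [← hQr]
        exact hW.le)
      (by
        show e' ≤ X.de ^ (-((3 * C : ℕ) : ℝ)) * (Cr' * b * cyWt Y.η Qs)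
        have g1 : 1 ≤ X.de ^ (-((3 * C : ℕ) : ℝ)) := Real.one_le_rpow_of_pos_of_le_one_of_nonpos hδ hδ1 (by simp)
        have g2 : b * cyWt Y.η Qs ≤ Cr' * b * cyWt Y.η Qs := by
          have : 0 ≤ b * cyWt Y.η Qs := by positivity
          nlinarith
        have g3 : 0 ≤ Cr' * b * cyWt Y.η Qs := by positivity
        nlinarith)
      (by
        intro hy
        exact cy_sa5_hyb hδ (H.dl_sq p hX.gd X.k) (H.dl_nn p X.k) hdl hX.fj_pos hf hQf' (hP.hyb hy))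
      (cy_sa5_base H gd (tmL X.k I) X.k Qs hr S hS hbox _)
      (by
        have := htl p (tmL X.k I) X.k (X.F.kf - X.k) Qs S ((Y.M.sys p).An (tmL X.k I) X.k 0 (X.ps I)) gd
          (((le_max_left _ _).trans (le_max_right _ _)).trans hn) hf hdl hS hbox
        rw [cy_sa5_en _ _ _ hS] at this
        exact this)
      (by
        intro Q hok htr
        have := hreg' p (tmL X.k I) X.k Qs (X.de ^ D1) b S (X.ps I) gd hb.le hS (fun Q' h' h'' => hreg Q' ⟨h', h''⟩) Q hok htr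
        exact this)
      (by
        intro a
        rw [hkf]
        exact (hLab _ (gn_sel_mem X.F Lab a)).2)
    rw [cy_sa5_rd X hk] at main
    refine main.trans ?_
    show 2 ^ (-((1 / 2 - Y.M.Gam - ε / 2) * ((X.F.kf - X.k : ℕ) : ℝ))) * e' * Real.sqrt (Cr' * b) ≤ _
    have g1 := hn3 _ (((le_max_right _ _).trans (le_max_right _ _)).trans hn)
    rw [Real.sqrt_mul (by linarith)]
    have g2 : (2 : ℝ) ^ (-((1 / 2 - Y.M.Gam - ε) * ((X.F.kf - X.k : ℕ) : ℝ)))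
        = 2 ^ (-((1 / 2 - Y.M.Gam - ε / 2) * ((X.F.kf - X.k : ℕ) : ℝ))) * 2 ^ (ε / 2 * ((X.F.kf - X.k : ℕ) : ℝ)) := by
      rw [← gn_two_add]
      congr 1
      ring
    rw [g2]
    have g3 := gn_two_pos (-((1 / 2 - Y.M.Gam - ε / 2) * ((X.F.kf - X.k : ℕ) : ℝ)))
    have g4 := Real.sqrt_nonneg b
    calc 2 ^ (-((1 / 2 - Y.M.Gam - ε / 2) * ((X.F.kf - X.k : ℕ) : ℝ))) * e' * (Real.sqrt Cr' * Real.sqrt b)
        = (2 ^ (-((1 / 2 - Y.M.Gam - ε / 2) * ((X.F.kf - X.k : ℕ) : ℝ))) * e' * Real.sqrt b) * Real.sqrt Cr' := by ring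
      _ ≤ (2 ^ (-((1 / 2 - Y.M.Gam - ε / 2) * ((X.F.kf - X.k : ℕ) : ℝ))) * e' * Real.sqrt b) * 2 ^ (ε / 2 * ((X.F.kf - X.k : ℕ) : ℝ)) :=
          mul_le_mul_of_nonneg_left g1 (by positivity)
      _ = _ := by ring

/-- aux of A6: `cutS` is additive over finite disjoint unions -/
theorem cy_sa6_split {Y : SfCy} {p : Y.M.Par} (X : CyGp Y p) (I : ℕ) {ι : Type} (J : Finset ι) (R : ι → Set (Y.M.sys p).X)
    (hR : ∀ j ∈ J, MeasurableSet (R j)) (hd : (J : Set ι).PairwiseDisjoint R) :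
    X.cutS I (⋃ j ∈ J, R j) = ∑ j ∈ J, X.cutS I (R j) := by
  unfold CyGp.cutS PkSys.tz
  rw [← map_sum]
  congr 1
  refine (gn_mulR_sum X.k J (fun j => (R j).indicator fun _ => 1) (fun j hj => gn_mask_ind (hR j hj))
    (gn_mask_ind (Finset.measurableSet_biUnion J hR)) (fun x => ?_) _).symm
  rw [Finset.indicator_biUnion J R hd]

/-- aux of A6: `√rdm` is subadditive -/
theorem cy_sa6_tri {Y : SfCy} {p : Y.M.Par} (X : CyGp Y p) (hX : X.Ok) (l : Fin X.F.L) {ι : Type} (J : Finset ι) (φ : ι → (Y.M.sys p).Kc) :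
    Real.sqrt (X.rdm l (∑ j ∈ J, φ j)) ≤ ∑ j ∈ J, Real.sqrt (X.rdm l (φ j)) := by
  unfold CyGp.rdm
  rw [gn_run_sum _ _ _ (gn_cut_stm X.F hX.valid hX.cut).2]
  exact gn_en_tri_sum _ _ _ (gn_th_mask X.F hX.valid l) J _

/-- aux of A6: power mean -/
theorem cy_sa6_pm {ι : Type} (J : Finset ι) (a : ι → ℝ) (ha : ∀ j ∈ J, 0 ≤ a j) (x : ℝ) (hx : 0 ≤ x)
    (h : Real.sqrt x ≤ ∑ j ∈ J, Real.sqrt (a j)) : x ^ (3 / 2 : ℝ) ≤ (J.card : ℝ) ^ 2 * ∑ j ∈ J, a j ^ (3 / 2 : ℝ) := by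
  have e : ∀ y : ℝ, 0 ≤ y → y ^ (3 / 2 : ℝ) = Real.sqrt y ^ (3 : ℝ) := by
    intro y hy
    rw [Real.sqrt_eq_rpow, ← Real.rpow_mul hy]
    norm_num
  have h1 := Real.rpow_sum_le_const_mul_sum_rpow_of_nonneg J (f := fun j => Real.sqrt (a j)) (p := 3) (by norm_num)
    (fun j _ => Real.sqrt_nonneg _)
  have h2 : Real.sqrt x ^ (3 : ℝ) ≤ (∑ j ∈ J, Real.sqrt (a j)) ^ (3 : ℝ) :=
    Real.rpow_le_rpow (Real.sqrt_nonneg _) h (by norm_num)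
  rw [e x hx]
  refine (h2.trans h1).trans (le_of_eq ?_)
  have e3 : ((J.card : ℝ)) ^ ((3 : ℝ) - 1) = (J.card : ℝ) ^ 2 := by
    rw [← Real.rpow_natCast]
    norm_num
  rw [e3]
  congr 1
  exact Finset.sum_congr rfl fun j hj => (e _ (ha j hj)).symm

/-- **A6**.   PLAN.   `I = an l`, `𝒢 = {G | ∃ x ∈ S I G, x ∈ att I l}` (classical filter), `card 𝒢 ≤ C0` (`hc.ovl`).   `1_{⋃ S} = Σ_{G ∈ 𝒢} 1_{S G} + 1_{far}`, `far = ⋃_{G ∉ 𝒢} S I G` (disjointness `hc.disj`): `cutS` is additive (`gn_mulR_sum`, `map_sum`), `gn_run_sum`,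
`gn_en_tri_sum`:  `√rdm ≤ Σ_{𝒢} √rdm_G + √rdm_far`;   `far` is disjoint from `att I l`: `cy_s_far`;   `(Σ_{t ≤ C0+1} a_t)³ ≤ (C0+1)² Σ a_t³` (`inner_le_nnorm_mul_nnorm`-free: `pow_arith_mean_le_arith_mean_pow` or induction), `a³ = (a²)^(3/2)`. -/
theorem cy_s_label {Y : SfCy} (H : CyHyp Y) (C A C0 : ℕ) (ε0 : ℝ) (hε : 0 < ε0) : ∃ n0 : ℕ, ∀ (p : Y.M.Par) (X : CyGp Y p) (Mb ρs fs : ℝ) (c : CyCh X)
    (S : ℕ → c.ι → Set (Y.M.sys p).X) (l : Fin X.F.L), X.Ok → X.F.st.length ≤ C → X.F.GenLe C → n0 ≤ X.F.kf - X.k → X.de ^ (-ε0) ≤ X.Λ → c.Ok Mb ρs C0 fs →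
    (∀ I G, MeasurableSet (S I G) ∧ S I G ⊆ c.rw I G) →
    ∃ 𝒢 : Finset c.ι, (∀ G ∈ 𝒢, ∃ x ∈ S (X.an l) G, x ∈ X.att (X.an l) l) ∧
      X.rdm l (X.cutS (X.an l) (⋃ G, S (X.an l) G)) ^ (3 / 2 : ℝ)
        ≤ ((C0 : ℝ) + 1) ^ 2 * (∑ G ∈ 𝒢, X.rdm l (X.cutS (X.an l) (S (X.an l) G)) ^ (3 / 2 : ℝ) + (X.de ^ (A : ℝ) * ‖X.ps (X.an l)‖ ^ 2) ^ (3 / 2 : ℝ)) := by
  classical
  obtain ⟨n0, hfar⟩ := cy_s_far H C A ε0 hε
  refine ⟨n0, fun p X Mb ρs fs c S l hX hlen hgen hn hΛ hc hS => ?_⟩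
  obtain ⟨I, hI⟩ : ∃ I : ℕ, I = X.an l := ⟨_, rfl⟩
  rw [← hI]
  obtain ⟨𝒢, h𝒢⟩ : ∃ 𝒢 : Finset c.ι, ∀ G, G ∈ 𝒢 ↔ ∃ x ∈ S I G, x ∈ X.att I l :=
    ⟨Finset.univ.filter fun G => ∃ x ∈ S I G, x ∈ X.att I l, fun G => by simp⟩
  refine ⟨𝒢, fun G hG => (h𝒢 G).1 hG, ?_⟩
  have hcard : 𝒢.card ≤ C0 := hc.ovl I l 𝒢 fun G hG => by
    obtain ⟨x, hx, hx'⟩ := (h𝒢 G).1 hG
    exact ⟨x, (hS I G).2 hx, hx'⟩
  obtain ⟨far, hfd⟩ : ∃ far : Set (Y.M.sys p).X, far = ⋃ G ∈ (𝒢ᶜ : Finset c.ι), S I G := ⟨_, rfl⟩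
  have hfm : MeasurableSet far := by
    rw [hfd]
    exact Finset.measurableSet_biUnion _ fun G _ => (hS I G).1
  have hdS : ∀ G G', G ≠ G' → Disjoint (S I G) (S I G') := fun G G' hne =>
    Set.disjoint_of_subset (hS I G).2 (hS I G').2 (hc.disj I G G' hne)
  have hfatt : Disjoint far (X.att I l) := by
    rw [Set.disjoint_left]
    intro x hx hx'
    rw [hfd] at hx
    simp only [Set.mem_iUnion, Finset.mem_compl] at hx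
    obtain ⟨G, hG, hxG⟩ := hx
    exact hG ((h𝒢 G).2 ⟨x, hxG, hx'⟩)
  obtain ⟨R, hR0, hR1⟩ : ∃ R : Option c.ι → Set (Y.M.sys p).X, R none = far ∧ ∀ G, R (some G) = S I G :=
    ⟨fun o => o.elim far (S I), rfl, fun _ => rfl⟩
  have hRm : ∀ j ∈ Finset.insertNone 𝒢, MeasurableSet (R j) := by
    rintro (_ | G) _
    · rw [hR0]
      exact hfm
    · rw [hR1]
      exact (hS I G).1
  have hfS : ∀ G ∈ 𝒢, Disjoint far (S I G) := by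
    intro G hG
    rw [Set.disjoint_left]
    intro x hx hx'
    rw [hfd] at hx
    simp only [Set.mem_iUnion, Finset.mem_compl] at hx
    obtain ⟨G', hG', hxG'⟩ := hx
    have hne : G' ≠ G := fun h => hG' (h ▸ hG)
    exact Set.disjoint_left.1 (hdS G' G hne) hxG' hx'
  have hRd : ((Finset.insertNone 𝒢 : Finset (Option c.ι)) : Set (Option c.ι)).PairwiseDisjoint R := by
    rintro (_ | G) hj (_ | G') hj' hne
    · exact absurd rfl hne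
    · show Disjoint (R none) (R (some G'))
      rw [hR0, hR1]
      exact hfS G' (by simpa using hj')
    · show Disjoint (R (some G)) (R none)
      rw [hR0, hR1]
      exact (hfS G (by simpa using hj)).symm
    · show Disjoint (R (some G)) (R (some G'))
      rw [hR1, hR1]
      exact hdS G G' fun h => hne (by rw [h])
  have hun : ⋃ G, S I G = ⋃ j ∈ Finset.insertNone 𝒢, R j := by
    ext x
    simp only [Set.mem_iUnion]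
    constructor
    · rintro ⟨G, hx⟩
      by_cases hG : G ∈ 𝒢
      · exact ⟨some G, by simpa using hG, by rw [hR1]; exact hx⟩
      · refine ⟨none, by simp, ?_⟩
        rw [hR0, hfd]
        simp only [Set.mem_iUnion, Finset.mem_compl]
        exact ⟨G, hG, hx⟩
    · rintro ⟨j, _, hx⟩
      rcases j with _ | G
      · rw [hR0, hfd] at hx
        simp only [Set.mem_iUnion, Finset.mem_compl] at hx
        obtain ⟨G, _, hxG⟩ := hx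
        exact ⟨G, hxG⟩
      · rw [hR1] at hx
        exact ⟨G, hx⟩
  have hnn : ∀ φ, 0 ≤ X.rdm l φ := fun φ => gn_en_nonneg _ _ _ (hX.valid.th_nn l) _
  have tri := cy_sa6_tri X hX l (Finset.insertNone 𝒢) (fun j => X.cutS I (R j))
  rw [← cy_sa6_split X I _ R hRm hRd, ← hun] at tri
  have pm := cy_sa6_pm (Finset.insertNone 𝒢) (fun j => X.rdm l (X.cutS I (R j))) (fun j _ => hnn _) _ (hnn _) tri
  rw [Finset.card_insertNone, Finset.sum_insertNone, hR0] at pm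
  simp only [hR1] at pm
  have hf := hfar p X l far hX hlen hgen hn hΛ hfm (hI ▸ hfatt)
  rw [← hI] at hf
  have hf' : X.rdm l (X.cutS I far) ^ (3 / 2 : ℝ) ≤ (X.de ^ (A : ℝ) * ‖X.ps I‖ ^ 2) ^ (3 / 2 : ℝ) :=
    Real.rpow_le_rpow (hnn _) hf (by norm_num)
  have hsum : 0 ≤ ∑ G ∈ 𝒢, X.rdm l (X.cutS I (S I G)) ^ (3 / 2 : ℝ) :=
    Finset.sum_nonneg fun G _ => Real.rpow_nonneg (hnn _) _
  have hc2 : (((𝒢.card + 1 : ℕ) : ℝ)) ^ 2 ≤ ((C0 : ℝ) + 1) ^ 2 := by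
    have : ((𝒢.card + 1 : ℕ) : ℝ) ≤ (C0 : ℝ) + 1 := by exact_mod_cast Nat.succ_le_succ hcard
    exact pow_le_pow_left₀ (by positivity) this 2
  calc X.rdm l (X.cutS I (⋃ G, S I G)) ^ (3 / 2 : ℝ)
      ≤ (((𝒢.card + 1 : ℕ) : ℝ)) ^ 2 * (X.rdm l (X.cutS I far) ^ (3 / 2 : ℝ) + ∑ G ∈ 𝒢, X.rdm l (X.cutS I (S I G)) ^ (3 / 2 : ℝ)) := pm
    _ ≤ ((C0 : ℝ) + 1) ^ 2 * (X.rdm l (X.cutS I far) ^ (3 / 2 : ℝ) + ∑ G ∈ 𝒢, X.rdm l (X.cutS I (S I G)) ^ (3 / 2 : ℝ)) :=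
        mul_le_mul_of_nonneg_right hc2 (add_nonneg (Real.rpow_nonneg (hnn _) _) hsum)
    _ ≤ ((C0 : ℝ) + 1) ^ 2 * (∑ G ∈ 𝒢, X.rdm l (X.cutS I (S I G)) ^ (3 / 2 : ℝ) + (X.de ^ (A : ℝ) * ‖X.ps I‖ ^ 2) ^ (3 / 2 : ℝ)) := by
        refine mul_le_mul_of_nonneg_left ?_ (by positivity)
        linarith

/-- disjoint measurable row sets indexed by a finite type carry at most the whole energy -/
theorem cy_s_upper_disj {P : PkSys} (hT : P.Tight) (T : ℝ) (k b : ℕ) {ι : Type} [Fintype ι] (R : ι → Set P.X) (hR : ∀ a, MeasurableSet (R a))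
    (hd : ∀ a a', a ≠ a' → Disjoint (R a) (R a')) (v : P.Kc) : ∑ a, P.ms T k b (R a) v ≤ ‖v‖ ^ 2 := by
  have e := (Fintype.equivFin ι).symm
  have h1 : ∑ a, P.ms T k b (R a) v = ∑ a : Fin (Fintype.card ι), P.ms T k b (R (e a)) v :=
    (Equiv.sum_comp e (fun a => P.ms T k b (R a) v)).symm
  rw [h1, ← gn_ms_iUnion T k b (fun a => R (e a)) (fun a => hR _) (fun a a' h => hd _ _ (fun h' => h (e.injective h'))) v]
  exact gn_ms_le hT T k b (MeasurableSet.iUnion fun a => hR _) v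

theorem cy_s_upper_pow (x : ℝ) (hx : 0 ≤ x) : x ^ (3 / 2 : ℝ) = x * Real.sqrt x := by
  rw [show (3 / 2 : ℝ) = 1 + 1 / 2 by norm_num, Real.rpow_add' hx (by norm_num), Real.rpow_one, Real.sqrt_eq_rpow]

/-- the error term of one label (pure inequality): `D = δ^C`, `N = ‖ψ‖²` -/
theorem cy_s_upper_err (δ D N κ' b w : ℝ) (hδ : 0 < δ) (hD : 0 < D) (hN : 0 ≤ N) (hw : 0 < w) (hb : 0 ≤ b)
    (h1 : N ≤ D⁻¹ * (κ' * w)) (h2 : D * κ' ≤ b) :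
    (D ^ 2 * δ ^ 2 * N) ^ (3 / 2 : ℝ) / Real.sqrt w ≤ D ^ 2 * δ ^ 3 * Real.sqrt b * N := by
  have hx : 0 ≤ D ^ 2 * δ ^ 2 * N := by positivity
  rw [cy_s_upper_pow _ hx]
  have h3 : D * N ≤ κ' * w := by
    have := mul_le_mul_of_nonneg_left h1 hD.le
    rwa [← mul_assoc, mul_inv_cancel₀ hD.ne', one_mul] at this
  have h4 : D ^ 2 * N ≤ b * w := by
    calc D ^ 2 * N = D * (D * N) := by ring
      _ ≤ D * (κ' * w) := mul_le_mul_of_nonneg_left h3 hD.le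
      _ = (D * κ') * w := by ring
      _ ≤ b * w := mul_le_mul_of_nonneg_right h2 hw.le
  have h5 : Real.sqrt (D ^ 2 * δ ^ 2 * N) ≤ δ * Real.sqrt b * Real.sqrt w := by
    have : D ^ 2 * δ ^ 2 * N ≤ δ ^ 2 * (b * w) := by
      calc D ^ 2 * δ ^ 2 * N = δ ^ 2 * (D ^ 2 * N) := by ring
        _ ≤ δ ^ 2 * (b * w) := mul_le_mul_of_nonneg_left h4 (by positivity)
    calc Real.sqrt (D ^ 2 * δ ^ 2 * N) ≤ Real.sqrt (δ ^ 2 * (b * w)) := Real.sqrt_le_sqrt this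
      _ = δ * Real.sqrt b * Real.sqrt w := by
        rw [Real.sqrt_mul (by positivity), Real.sqrt_sq hδ.le, Real.sqrt_mul hb, mul_assoc]
  have hsw : 0 < Real.sqrt w := Real.sqrt_pos.2 hw
  rw [div_le_iff₀ hsw]
  calc D ^ 2 * δ ^ 2 * N * Real.sqrt (D ^ 2 * δ ^ 2 * N) ≤ D ^ 2 * δ ^ 2 * N * (δ * Real.sqrt b * Real.sqrt w) :=
        mul_le_mul_of_nonneg_left h5 hx
    _ = D ^ 2 * δ ^ 3 * Real.sqrt b * N * Real.sqrt w := by ring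

/-- **A7**.   PLAN.   `rdc = Σ_l rdm l (cutS (an l) ..)^(3/2) / √(w l)` (definition).   `cy_s_label` (choose `𝒢 l`); exchange the sums: `Σ_l Σ_{G ∈ 𝒢 l} = Σ_{I ∈ iv} Σ_G Σ_{l ∈ Lab I G}`, `Lab I G = {l | an l = I ∧ G ∈ 𝒢 l}` (`gn_iv_anc`);
`hc.bdd` gives `CyBdd` for `l ∈ Lab I G`; `hP` at `ε/2` with `Qs = c.fr I G` (`hc.wid`, `hc.box`); `Σ_G ms (S I G) ψ_I ≤ ‖ψ_I‖²` (disjoint, `gn_ms_iUnion`, `gn_ms_le`).
Error: `Σ_l (δ^A ‖ψ‖²)^(3/2) / √wj ≤ L δ^(3A/2) ‖ψ‖² √(δ^-C κ')`, `L ≤ δ^-C`, `κ' ≤ δ^-C b`: `≤ δ^(3A/2 - 2C) √b Σ_I ‖ψ_I‖²`-type bound (sum over `l` below `I`); `A = 2C + 2`.   `2 (C0+1)² ≤ 2^(ε n'/2)`. -/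
theorem cy_s_upper {Y : SfCy} (H : CyHyp Y) (Ds D1 : ℝ) (hP : CyPiece Y Ds D1) (C0 : ℕ) : CyUpper Y Ds D1 C0 := by
  classical
  intro C ε ε0 hε hε0
  obtain ⟨n1, hn1⟩ := hP C (ε / 2) (by linarith)
  obtain ⟨n2, hn2⟩ := cy_s_label H C (2 * C + 2) C0 ε0 hε0
  obtain ⟨n3, hn3⟩ := gn_absorb (2 * ((C0 : ℝ) + 1) ^ 2) (ε / 2) (by linarith)
  refine ⟨max n1 (max n2 n3), ?_⟩
  intro p X κ' b Mb fs c S hX hPol hn hΛ hc hfs1 hfs2 hS hb1 hb2 hreg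
  have hn1' : n1 ≤ X.F.kf - X.k := le_trans (le_max_left _ _) hn
  have hn2' : n2 ≤ X.F.kf - X.k := le_trans (le_trans (le_max_left _ _) (le_max_right _ _)) hn
  have hn3' : n3 ≤ X.F.kf - X.k := le_trans (le_trans (le_max_right _ _) (le_max_right _ _)) hn
  have hT : (Y.M.sys p).Tight := H.gen.tight p hX.gd
  have hδ : 0 < X.de := by unfold CyGp.de; positivity
  have hδ1 : X.de ≤ 1 := by unfold CyGp.de; exact pow_le_one₀ (by norm_num) (by norm_num)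
  obtain ⟨D, hD⟩ : ∃ D : ℝ, D = X.de ^ (C : ℝ) := ⟨_, rfl⟩
  have hD0 : 0 < D := hD ▸ Real.rpow_pos_of_pos hδ _
  have hD1 : D ≤ 1 := hD ▸ Real.rpow_le_one hδ.le hδ1 (Nat.cast_nonneg _)
  have hDi : X.de ^ (-(C : ℝ)) = D⁻¹ := by rw [hD]; exact Real.rpow_neg hδ.le _
  have hA : X.de ^ ((2 * C + 2 : ℕ) : ℝ) = D ^ 2 * X.de ^ 2 := by
    rw [hD, Real.rpow_natCast, Real.rpow_natCast]; ring
  rw [← hD] at hb1
  have hb0 : 0 < b := lt_of_lt_of_le (mul_pos hD0 hPol.ka_pos) hb1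
  have hlab := fun l => hn2 p X Mb (X.de ^ Ds) fs c S l hX hPol.len hPol.gen hn2' hΛ hc hS
  choose 𝒢 h𝒢1 h𝒢2 using hlab
  have hw : ∀ l, X.F.w l = X.wj := by
    intro l
    show (Y.M.sys p).wt (X.F.ts l) = X.wj
    rw [H.wt, cyWt, (hX.wid l).1, (hX.wid l).2]; rfl
  have hwj : 0 < X.wj := by
    unfold CyGp.wj
    exact mul_pos (Real.rpow_pos_of_pos hX.rj_pos _) (Real.rpow_pos_of_pos hX.fj_pos _)
  have han : ∀ l, X.an l ∈ X.iv := fun l => gn_iv_anc X.F hX.valid hX.cut.2.2.2.1 hX.cut.2.2.2.2 l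
  obtain ⟨K, hK⟩ : ∃ K : ℝ, K = 2 ^ (-((1 / 2 - Y.M.Gam - ε / 2) * ((X.F.kf - X.k : ℕ) : ℝ))) := ⟨_, rfl⟩
  have hK0 : 0 < K := hK ▸ Real.rpow_pos_of_pos (by norm_num) _
  obtain ⟨Sg, hSg⟩ : ∃ Sg : ℝ, Sg = ∑ I ∈ X.iv, ‖X.ps I‖ ^ 2 := ⟨_, rfl⟩
  have hSg0 : 0 ≤ Sg := hSg ▸ Finset.sum_nonneg (fun I _ => by positivity)
  have hsb : 0 ≤ Real.sqrt b := Real.sqrt_nonneg b
  -- step 1 : the labels
  have hstep1 : X.F.rdc X.k X.st2 (fun I => X.cutS I (⋃ G, S I G))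
      ≤ ((C0 : ℝ) + 1) ^ 2 * ((∑ l, ∑ G ∈ 𝒢 l, X.rdm l (X.cutS (X.an l) (S (X.an l) G)) ^ (3 / 2 : ℝ) / Real.sqrt (X.F.w l))
        + ∑ l, (X.de ^ ((2 * C + 2 : ℕ) : ℝ) * ‖X.ps (X.an l)‖ ^ 2) ^ (3 / 2 : ℝ) / Real.sqrt (X.F.w l)) := by
    show ∑ l, X.rdm l (X.cutS (X.an l) (⋃ G, S (X.an l) G)) ^ (3 / 2 : ℝ) / Real.sqrt (X.F.w l) ≤ _
    rw [← Finset.sum_add_distrib, Finset.mul_sum]
    apply Finset.sum_le_sum
    intro l _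
    have := div_le_div_of_nonneg_right (h𝒢2 l) (Real.sqrt_nonneg (X.F.w l))
    refine this.trans (le_of_eq ?_)
    rw [← Finset.sum_div, mul_div_assoc, add_div]
  -- step 2 : the main term
  have hmain : (∑ l, ∑ G ∈ 𝒢 l, X.rdm l (X.cutS (X.an l) (S (X.an l) G)) ^ (3 / 2 : ℝ) / Real.sqrt (X.F.w l)) ≤ K * Real.sqrt b * Sg := by
    rw [← Finset.sum_fiberwise_of_maps_to (s := Finset.univ) (t := X.iv) (g := X.an) (fun l _ => han l), hSg, Finset.mul_sum]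
    apply Finset.sum_le_sum
    intro I hI
    rw [Finset.sum_comm' (s' := fun G => Finset.univ.filter (fun l => X.an l = I ∧ G ∈ 𝒢 l)) (t' := Finset.univ)
      (by
        intro l G
        simp only [Finset.mem_filter, Finset.mem_univ, true_and, and_true])]
    have hG : ∀ G : c.ι, ∑ l ∈ Finset.univ.filter (fun l => X.an l = I ∧ G ∈ 𝒢 l),
        X.rdm l (X.cutS (X.an l) (S (X.an l) G)) ^ (3 / 2 : ℝ) / Real.sqrt (X.F.w l)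
          ≤ K * Real.sqrt b * (Y.M.sys p).ms (tmL X.k I) X.k 0 (S I G) (X.ps I) := by
      intro G
      have h0 := hn1 p X κ' b I (c.fr I G) (S I G) (Finset.univ.filter (fun l => X.an l = I ∧ G ∈ 𝒢 l)) hX hPol hn1' hI (hc.wid I G).1
        (by rw [(hc.wid I G).2]; exact hfs1) (by rw [(hc.wid I G).2]; exact hfs2) (hS I G).1 (fun x hx => hc.box I G x ((hS I G).2 hx))
        (by rw [← hD]; exact hb1) hb2 (hreg I hI G)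
        (fun l hl => by
          obtain ⟨h1, h2⟩ := (Finset.mem_filter.1 hl).2
          obtain ⟨x, hx, hx'⟩ := h𝒢1 l G h2
          rw [h1] at hx hx'
          exact ⟨h1, hc.bdd I G l x ((hS I G).2 hx) hx'⟩)
      rw [← hK] at h0
      refine le_trans (le_of_eq ?_) h0
      apply Finset.sum_congr rfl
      intro l hl
      rw [(Finset.mem_filter.1 hl).2.1]
    calc _ ≤ ∑ G : c.ι, K * Real.sqrt b * (Y.M.sys p).ms (tmL X.k I) X.k 0 (S I G) (X.ps I) := Finset.sum_le_sum (fun G _ => hG G)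
      _ = K * Real.sqrt b * ∑ G : c.ι, (Y.M.sys p).ms (tmL X.k I) X.k 0 (S I G) (X.ps I) := by rw [Finset.mul_sum]
      _ ≤ K * Real.sqrt b * ‖X.ps I‖ ^ 2 := by
        apply mul_le_mul_of_nonneg_left _ (by positivity)
        exact cy_s_upper_disj hT _ _ _ (fun G => S I G) (fun G => (hS I G).1)
          (fun G G' h => (hc.disj I G G' h).mono (hS I G).2 (hS I G').2) _
  -- step 3 : the error term
  have herr : (∑ l, (X.de ^ ((2 * C + 2 : ℕ) : ℝ) * ‖X.ps (X.an l)‖ ^ 2) ^ (3 / 2 : ℝ) / Real.sqrt (X.F.w l)) ≤ X.de * Real.sqrt b * Sg := by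
    have h1 : ∀ l, (X.de ^ ((2 * C + 2 : ℕ) : ℝ) * ‖X.ps (X.an l)‖ ^ 2) ^ (3 / 2 : ℝ) / Real.sqrt (X.F.w l) ≤ D ^ 2 * X.de ^ 3 * Real.sqrt b * Sg := by
      intro l
      rw [hA, hw l]
      refine (cy_s_upper_err X.de D _ κ' b X.wj hδ hD0 (by positivity) hwj hb0.le (by rw [← hDi]; exact hPol.en _ (han l)) hb1).trans ?_
      apply mul_le_mul_of_nonneg_left _ (by positivity)
      rw [hSg]
      exact Finset.single_le_sum (f := fun I => ‖X.ps I‖ ^ 2) (fun I _ => by positivity) (han l)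
    calc _ ≤ ∑ _l : Fin X.F.L, D ^ 2 * X.de ^ 3 * Real.sqrt b * Sg := Finset.sum_le_sum (fun l _ => h1 l)
      _ = (X.F.L : ℝ) * (D ^ 2 * X.de ^ 3 * Real.sqrt b * Sg) := by
        rw [Finset.sum_const, Finset.card_univ, Fintype.card_fin, nsmul_eq_mul]
      _ ≤ D⁻¹ * (D ^ 2 * X.de ^ 3 * Real.sqrt b * Sg) := mul_le_mul_of_nonneg_right (by rw [← hDi]; exact hPol.nlab) (by positivity)
      _ = (D * X.de ^ 2) * (X.de * Real.sqrt b * Sg) := by field_simp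
      _ ≤ 1 * (X.de * Real.sqrt b * Sg) := by
        apply mul_le_mul_of_nonneg_right _ (by positivity)
        calc D * X.de ^ 2 ≤ 1 * 1 := mul_le_mul hD1 (pow_le_one₀ hδ.le hδ1) (by positivity) (by norm_num)
          _ = 1 := by norm_num
      _ = X.de * Real.sqrt b * Sg := one_mul _
  have hδK : X.de ≤ K := by
    have h1 : X.de = (2 : ℝ) ^ (-((X.F.kf - X.k : ℕ) : ℝ)) := by
      unfold CyGp.de
      rw [Real.rpow_neg (by norm_num), Real.rpow_natCast, inv_pow]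
    rw [h1, hK]
    apply Real.rpow_le_rpow_of_exponent_le (by norm_num)
    have h2 := Y.M.bs_gam_nonneg
    have h3 : (0 : ℝ) ≤ ((X.F.kf - X.k : ℕ) : ℝ) := Nat.cast_nonneg _
    nlinarith
  have habs := hn3 _ hn3'
  calc X.F.rdc X.k X.st2 (fun I => X.cutS I (⋃ G, S I G))
      ≤ ((C0 : ℝ) + 1) ^ 2 * (K * Real.sqrt b * Sg + X.de * Real.sqrt b * Sg) :=
        hstep1.trans (mul_le_mul_of_nonneg_left (add_le_add hmain herr) (by positivity))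
    _ ≤ ((C0 : ℝ) + 1) ^ 2 * (K * Real.sqrt b * Sg + K * Real.sqrt b * Sg) := by
        apply mul_le_mul_of_nonneg_left _ (by positivity)
        apply add_le_add le_rfl
        exact mul_le_mul_of_nonneg_right (mul_le_mul_of_nonneg_right hδK hsb) hSg0
    _ = (2 * ((C0 : ℝ) + 1) ^ 2) * (K * Real.sqrt b * Sg) := by ring
    _ ≤ 2 ^ (ε / 2 * ((X.F.kf - X.k : ℕ) : ℝ)) * (K * Real.sqrt b * Sg) := mul_le_mul_of_nonneg_right habs (by positivity)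
    _ = 2 ^ (-((1 / 2 - Y.M.Gam - ε) * ((X.F.kf - X.k : ℕ) : ℝ))) * Real.sqrt b * ∑ I ∈ X.iv, ‖X.ps I‖ ^ 2 := by
        rw [hK, ← hSg, ← mul_assoc, ← mul_assoc, ← Real.rpow_add (by norm_num)]
        congr 3
        ring

/-- dyadic rounding up -/
theorem cy_s_peel1_dy {x : ℝ} (h0 : 0 < x) (h1 : x ≤ 1) : ∃ u : ℕ, x ≤ (2 : ℝ)⁻¹ ^ u ∧ (2 : ℝ)⁻¹ ^ u ≤ 2 * x := by
  obtain ⟨n, hn1, hn2⟩ := exists_nat_pow_near_of_lt_one h0 h1 (y := (2 : ℝ)⁻¹) (by norm_num) (by norm_num)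
  refine ⟨n, hn2, ?_⟩
  rw [pow_succ] at hn1
  linarith

theorem cy_s_peel1_inj {u u' : ℕ} {r : ℝ} (hr : r ≠ 0) (h : (2 : ℝ)⁻¹ ^ u * r = (2 : ℝ)⁻¹ ^ u' * r) : u = u' := by
  have h1 : (2 : ℝ)⁻¹ ^ u = (2 : ℝ)⁻¹ ^ u' := mul_right_cancel₀ hr h
  exact pow_right_injective₀ (by norm_num) (by norm_num) h1

theorem cy_s_peel1_le {u U : ℕ} (h : (2 : ℝ)⁻¹ ^ U ≤ (2 : ℝ)⁻¹ ^ u) : u ≤ U :=
  (pow_le_pow_iff_right_of_lt_one₀ (by norm_num) (by norm_num)).1 h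

theorem cy_s_peel1_16 {η a b : ℝ} (h0 : 0 < η) (h1 : η < 1) (ha0 : 0 < a) (ha : a ≤ 2) (hb0 : 0 < b) (hb : b ≤ 2) : a ^ (3 + η) * b ^ (1 - η) ≤ 16 := by
  have e : (16 : ℝ) = 2 ^ (3 + η) * 2 ^ (1 - η) := by
    rw [← Real.rpow_add (by norm_num)]
    have : 3 + η + (1 - η) = ((4 : ℕ) : ℝ) := by norm_num
    rw [this, Real.rpow_natCast]
    norm_num
  rw [e]
  exact mul_le_mul (Real.rpow_le_rpow ha0.le ha (by linarith)) (Real.rpow_le_rpow hb0.le hb (by linarith)) (Real.rpow_nonneg hb0.le _) (Real.rpow_nonneg (by norm_num) _)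

/-- rounding the widths of a test of the truncated family up to dyadic ones -/
theorem cy_s_peel1_round {Y : SfCy} (H : CyHyp Y) {p : Y.M.Par} (X : CyGp Y p) (I : ℕ) (Qs : CyT) (hr : 0 < Qs.r) (hf : 0 < Qs.f) (ρ1 : ℝ) (h1 : 0 < ρ1)
    (Q : (Y.M.sys p).Tst) (hQ : Q ∈ X.Fam Qs I ρ1) :
    ∃ Q' ∈ X.Fam Qs I ρ1, (∃ u v : ℕ, (Y.tq p Q').r = (2 : ℝ)⁻¹ ^ u * Qs.r ∧ (Y.tq p Q').f = (2 : ℝ)⁻¹ ^ v * Qs.f) ∧
      (Y.M.sys p).cell Q (tmL X.k I) X.k ⊆ (Y.M.sys p).cell Q' (tmL X.k I) X.k ∧ (Y.M.sys p).wt Q' ≤ 16 * (Y.M.sys p).wt Q := by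
  obtain ⟨hok, hT⟩ := hQ
  obtain ⟨q, hq⟩ : ∃ q : CyT, q = Y.tq p Q := ⟨_, rfl⟩
  rw [← hq] at hT
  obtain ⟨o1, o2, o3⟩ := (H.ok p Q X.k).1 hok
  rw [← hq] at o1 o2 o3
  obtain ⟨t1, t2, t3, t4, t5, t6, t7⟩ := hT
  have t1' : ρ1 ≤ q.r / Qs.r := t1
  have t2' : q.r / Qs.r ≤ 1 := t2
  have t3' : ρ1 ≤ q.f / Qs.f := t3
  have t4' : q.f / Qs.f ≤ 1 := t4
  obtain ⟨u, hu1, hu2⟩ := cy_s_peel1_dy (lt_of_lt_of_le h1 t1') t2'
  obtain ⟨v, hv1, hv2⟩ := cy_s_peel1_dy (lt_of_lt_of_le h1 t3') t4'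
  obtain ⟨a, ha⟩ : ∃ a : ℝ, a = (2 : ℝ)⁻¹ ^ u * Qs.r / q.r := ⟨_, rfl⟩
  obtain ⟨b, hb⟩ : ∃ b : ℝ, b = (2 : ℝ)⁻¹ ^ v * Qs.f / q.f := ⟨_, rfl⟩
  have ea : a * q.r = (2 : ℝ)⁻¹ ^ u * Qs.r := by rw [ha]; field_simp
  have eb : b * q.f = (2 : ℝ)⁻¹ ^ v * Qs.f := by rw [hb]; field_simp
  have ha1 : 1 ≤ a := by
    rw [ha, le_div_iff₀ o1, one_mul]
    rwa [div_le_iff₀ hr] at hu1
  have ha2 : a ≤ 2 := by
    rw [ha, div_le_iff₀ o1]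
    have : (2 : ℝ)⁻¹ ^ u * Qs.r ≤ 2 * (q.r / Qs.r) * Qs.r := mul_le_mul_of_nonneg_right hu2 hr.le
    calc (2 : ℝ)⁻¹ ^ u * Qs.r ≤ 2 * (q.r / Qs.r) * Qs.r := this
      _ = 2 * q.r := by field_simp
  have hb1 : 1 ≤ b := by
    rw [hb, le_div_iff₀ o2, one_mul]
    rwa [div_le_iff₀ hf] at hv1
  have hb2 : b ≤ 2 := by
    rw [hb, div_le_iff₀ o2]
    have : (2 : ℝ)⁻¹ ^ v * Qs.f ≤ 2 * (q.f / Qs.f) * Qs.f := mul_le_mul_of_nonneg_right hv2 hf.le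
    calc (2 : ℝ)⁻¹ ^ v * Qs.f ≤ 2 * (q.f / Qs.f) * Qs.f := this
      _ = 2 * q.f := by field_simp
  have hpu : (2 : ℝ)⁻¹ ^ u ≤ 1 := pow_le_one₀ (by norm_num) (by norm_num)
  have hpv : (2 : ℝ)⁻¹ ^ v ≤ 1 := pow_le_one₀ (by norm_num) (by norm_num)
  have htq : Y.tq p (H.mkT p { q with r := a * q.r, f := b * q.f }) = { q with r := a * q.r, f := b * q.f } := H.tq_mk p _
  refine ⟨H.mkT p { q with r := a * q.r, f := b * q.f }, ⟨?_, ?_⟩, ⟨u, v, ?_, ?_⟩, ?_, ?_⟩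
  · rw [H.ok, htq]
    refine ⟨by positivity, by positivity, ?_⟩
    show Y.dl p X.k ≤ b * q.f
    nlinarith
  · rw [htq]
    refine ⟨?_, ?_, ?_, ?_, t5, t6, t7⟩
    · show ρ1 ≤ a * q.r / Qs.r
      rw [ea, mul_div_assoc, div_self hr.ne', mul_one]
      exact t1'.trans hu1
    · show a * q.r / Qs.r ≤ 1
      rw [ea, mul_div_assoc, div_self hr.ne', mul_one]
      exact hpu
    · show ρ1 ≤ b * q.f / Qs.f
      rw [eb, mul_div_assoc, div_self hf.ne', mul_one]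
      exact t3'.trans hv1
    · show b * q.f / Qs.f ≤ 1
      rw [eb, mul_div_assoc, div_self hf.ne', mul_one]
      exact hpv
  · rw [htq]
    exact ea
  · rw [htq]
    exact eb
  · rw [H.cell, H.cell, htq, ← hq]
    intro x hx
    exact cy_enl q _ a b _ (by positivity) o1.le o2.le ha1 hb1 hx
  · rw [H.wt, H.wt, htq, ← hq, cy_wt_scale Y.η q o1 o2 a b (by linarith) (by linarith)]
    have hw : 0 ≤ cyWt Y.η q := by
      unfold cyWt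
      exact mul_nonneg (Real.rpow_nonneg o1.le _) (Real.rpow_nonneg o2.le _)
    exact mul_le_mul_of_nonneg_right (cy_s_peel1_16 H.eta.1 H.eta.2 (by linarith) ha2 (by linarith) hb2) hw

/-- **A8a**: truncated peel of ONE chart with width classes.   `𝒯` = the tests of `Fam` with DYADIC normalised widths `2^-u`, `2^-v`.
PLAN: `cy_peel_fam` for `𝒯`, `S0`, `κ1 = κ'`, `wmin = (ρ1 rs)^(3+η) (ρ1 fs)^(1-η)`; `Sc m u v` = union of the successes `R a` of the level `m` whose test has the widths `(2^-u rs, 2^-v fs)`; only `u, v ≤ U` occur (`ρ1 ≤ 2^-u`).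
Regularity on all of `Fam`: round the widths of `Q` up to dyadic ones (`≤ 1`): `cy_enl`, `cy_wt_scale`: weight `≤ 16 wt Q`; the other conditions of `CyTr`, `ok` persist. -/
theorem cy_s_peel1 {Y : SfCy} (H : CyHyp Y) {p : Y.M.Par} (X : CyGp Y p) (hX : X.Ok) (I : ℕ) (Qs : CyT) (hr : 0 < Qs.r) (hf : 0 < Qs.f) (ρ1 κ' : ℝ) (h1 : 0 < ρ1) (h1' : ρ1 ≤ 1) (hκ : 0 < κ')
    (hreg : (Y.M.sys p).Reg (tmL X.k I) X.k 0 κ' (X.ps I)) (S0 : Set (Y.M.sys p).X) (hS0 : MeasurableSet S0) (Jn U : ℕ) (hU : (2 : ℝ)⁻¹ ^ U ≤ ρ1) :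
    ∃ (Sc : ℕ → ℕ → ℕ → Set (Y.M.sys p).X) (Rm : Set (Y.M.sys p).X), (∀ m u v, MeasurableSet (Sc m u v)) ∧ MeasurableSet Rm ∧
      (∀ m u v m' u' v', (m, u, v) ≠ (m', u', v') → Disjoint (Sc m u v) (Sc m' u' v')) ∧ (∀ m u v, Disjoint (Sc m u v) Rm) ∧
      (Rm ∪ ⋃ m ∈ Finset.range Jn, ⋃ u ∈ Finset.range (U + 1), ⋃ v ∈ Finset.range (U + 1), Sc m u v) = S0 ∧
      (∀ Q ∈ X.Fam Qs I ρ1, (Y.M.sys p).ms (tmL X.k I) X.k 0 ((Y.M.sys p).cell Q (tmL X.k I) X.k ∩ Rm) (X.ps I) ≤ 16 * ((2 : ℝ)⁻¹ ^ Jn * κ') * (Y.M.sys p).wt Q) ∧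
      ∀ m u v, (∀ Q ∈ X.Fam Qs I ρ1, (Y.M.sys p).ms (tmL X.k I) X.k 0 ((Y.M.sys p).cell Q (tmL X.k I) X.k ∩ Sc m u v) (X.ps I)
            ≤ 32 * ((2 : ℝ)⁻¹ ^ (m + 1) * κ') * (Y.M.sys p).wt Q) ∧
        ∃ (t : ℕ) (Qt : Fin t → (Y.M.sys p).Tst) (R : Fin t → Set (Y.M.sys p).X),
          (∀ a, Qt a ∈ X.Fam Qs I ρ1 ∧ (Y.tq p (Qt a)).r = (2 : ℝ)⁻¹ ^ u * Qs.r ∧ (Y.tq p (Qt a)).f = (2 : ℝ)⁻¹ ^ v * Qs.f ∧ MeasurableSet (R a) ∧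
            R a ⊆ (Y.M.sys p).cell (Qt a) (tmL X.k I) X.k) ∧
          (∀ a a', a ≠ a' → Disjoint (R a) (R a')) ∧ Sc m u v = ⋃ a, R a ∧
          ∀ a, (2 : ℝ)⁻¹ ^ (m + 1) * κ' * (Y.M.sys p).wt (Qt a) < (Y.M.sys p).ms (tmL X.k I) X.k 0 (R a) (X.ps I) := by
  classical
  have hT : (Y.M.sys p).Tight := H.gen.tight p hX.gd
  obtain ⟨𝒯, h𝒯e⟩ : ∃ 𝒯 : Set (Y.M.sys p).Tst, 𝒯 = {Q | Q ∈ X.Fam Qs I ρ1 ∧ ∃ u v : ℕ, (Y.tq p Q).r = (2 : ℝ)⁻¹ ^ u * Qs.r ∧ (Y.tq p Q).f = (2 : ℝ)⁻¹ ^ v * Qs.f} := ⟨_, rfl⟩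
  have hmem : ∀ Q, Q ∈ 𝒯 ↔ (Q ∈ X.Fam Qs I ρ1 ∧ ∃ u v : ℕ, (Y.tq p Q).r = (2 : ℝ)⁻¹ ^ u * Qs.r ∧ (Y.tq p Q).f = (2 : ℝ)⁻¹ ^ v * Qs.f) := by
    intro Q
    rw [h𝒯e]
    rfl
  have hη := H.eta
  have hw : 0 < (ρ1 * Qs.r) ^ (3 + Y.η) * (ρ1 * Qs.f) ^ (1 - Y.η) := by positivity
  have hwt : ∀ Q ∈ 𝒯, (ρ1 * Qs.r) ^ (3 + Y.η) * (ρ1 * Qs.f) ^ (1 - Y.η) ≤ (Y.M.sys p).wt Q := by
    intro Q hQ
    obtain ⟨⟨-, hTr⟩, -⟩ := (hmem Q).1 hQ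
    have t1 : ρ1 ≤ (Y.tq p Q).r / Qs.r := hTr.1
    have t3 : ρ1 ≤ (Y.tq p Q).f / Qs.f := hTr.2.2.1
    rw [le_div_iff₀ hr] at t1
    rw [le_div_iff₀ hf] at t3
    rw [H.wt]
    unfold cyWt
    exact mul_le_mul (Real.rpow_le_rpow (by positivity) t1 (by linarith)) (Real.rpow_le_rpow (by positivity) t3 (by linarith)) (by positivity)
      (Real.rpow_nonneg (le_trans (by positivity) t1) _)
  have hreg' : ∀ Q ∈ 𝒯, (Y.M.sys p).ms (tmL X.k I) X.k 0 ((Y.M.sys p).cell Q (tmL X.k I) X.k ∩ S0) (X.ps I) ≤ κ' * (Y.M.sys p).wt Q := by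
    intro Q hQ
    exact (gn_ms_mono _ _ _ ((hT.cellM _ _ _).inter hS0) (hT.cellM _ _ _) Set.inter_subset_left _).trans (hreg Q ((hmem Q).1 hQ).1.1)
  obtain ⟨S, hSm, hSd, hSu, hlev, hrem⟩ := cy_peel_fam hT (tmL X.k I) X.k 0 (X.ps I) 𝒯 S0 hS0 κ' _ Jn hκ hw hwt hreg'
  have key : ∀ j, ∃ (m : ℕ) (Qt : Fin m → (Y.M.sys p).Tst) (R : Fin m → Set (Y.M.sys p).X),
      (∀ a, Qt a ∈ 𝒯 ∧ MeasurableSet (R a) ∧ R a ⊆ (Y.M.sys p).cell (Qt a) (tmL X.k I) X.k) ∧ (∀ a a', a ≠ a' → Disjoint (R a) (R a')) ∧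
      (∀ a, (2 : ℝ)⁻¹ ^ (j + 1) * κ' * (Y.M.sys p).wt (Qt a) < (Y.M.sys p).ms (tmL X.k I) X.k 0 (R a) (X.ps I)) ∧ (∀ a, j < Jn ∧ R a ⊆ S j) ∧
      (j < Jn → S j ⊆ ⋃ a, R a) := by
    intro j
    by_cases hj : j < Jn
    · obtain ⟨m, Qt, R, b1, b2, b3, b4⟩ := (hlev j hj).2
      exact ⟨m, Qt, R, b1, b2, b4, fun a => ⟨hj, b3 ▸ Set.subset_iUnion R a⟩, fun _ => b3.le⟩
    · exact ⟨0, Fin.elim0, Fin.elim0, fun a => a.elim0, fun a => a.elim0, fun a => a.elim0, fun a => a.elim0, fun h => absurd h hj⟩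
  choose mm Qt R hR hRd hRlow hRS hScov using key
  -- regularity on the whole family
  have hrnd : ∀ (Q : (Y.M.sys p).Tst), Q ∈ X.Fam Qs I ρ1 → ∀ (A : Set (Y.M.sys p).X) (j : ℕ) (c : ℝ), MeasurableSet A → A ⊆ S j → 0 ≤ c →
      (∀ Q' ∈ 𝒯, (Y.M.sys p).ms (tmL X.k I) X.k 0 ((Y.M.sys p).cell Q' (tmL X.k I) X.k ∩ S j) (X.ps I) ≤ c * (Y.M.sys p).wt Q') →
      (Y.M.sys p).ms (tmL X.k I) X.k 0 ((Y.M.sys p).cell Q (tmL X.k I) X.k ∩ A) (X.ps I) ≤ c * (16 * (Y.M.sys p).wt Q) := by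
    intro Q hQ A j c hA hAS hc hall
    obtain ⟨Q', hQ', huv, hsub, hwt16⟩ := cy_s_peel1_round H X I Qs hr hf ρ1 h1 Q hQ
    calc (Y.M.sys p).ms (tmL X.k I) X.k 0 ((Y.M.sys p).cell Q (tmL X.k I) X.k ∩ A) (X.ps I)
        ≤ (Y.M.sys p).ms (tmL X.k I) X.k 0 ((Y.M.sys p).cell Q' (tmL X.k I) X.k ∩ S j) (X.ps I) :=
          gn_ms_mono _ _ _ ((hT.cellM _ _ _).inter hA) ((hT.cellM _ _ _).inter (hSm j)) (Set.inter_subset_inter hsub hAS) _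
      _ ≤ c * (Y.M.sys p).wt Q' := hall Q' ((hmem Q').2 ⟨hQ', huv⟩)
      _ ≤ c * (16 * (Y.M.sys p).wt Q) := mul_le_mul_of_nonneg_left hwt16 hc
  obtain ⟨Sc, hSc⟩ : ∃ Sc : ℕ → ℕ → ℕ → Set (Y.M.sys p).X, Sc = fun j u v =>
      ⋃ a ∈ Finset.univ.filter (fun a : Fin (mm j) => (Y.tq p (Qt j a)).r = (2 : ℝ)⁻¹ ^ u * Qs.r ∧ (Y.tq p (Qt j a)).f = (2 : ℝ)⁻¹ ^ v * Qs.f), R j a := ⟨_, rfl⟩
  have hScmem : ∀ j u v x, x ∈ Sc j u v ↔ ∃ a : Fin (mm j), ((Y.tq p (Qt j a)).r = (2 : ℝ)⁻¹ ^ u * Qs.r ∧ (Y.tq p (Qt j a)).f = (2 : ℝ)⁻¹ ^ v * Qs.f) ∧ x ∈ R j a := by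
    intro j u v x
    rw [hSc]
    simp only [Set.mem_iUnion, Finset.mem_filter, Finset.mem_univ, true_and, exists_prop]
  have hScM : ∀ j u v, MeasurableSet (Sc j u v) := by
    intro j u v
    rw [hSc]
    exact Finset.measurableSet_biUnion _ fun a _ => (hR j a).2.1
  have hScS : ∀ j u v, Sc j u v ⊆ S j := by
    intro j u v x hx
    obtain ⟨a, -, hxa⟩ := (hScmem j u v x).1 hx
    exact (hRS j a).2 hxa
  have hScJ : ∀ j u v, (Sc j u v).Nonempty → j < Jn := by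
    rintro j u v ⟨x, hx⟩
    obtain ⟨a, -, -⟩ := (hScmem j u v x).1 hx
    exact (hRS j a).1
  have hpw : ∀ m : ℕ, 0 < (2 : ℝ)⁻¹ ^ m := fun m => by positivity
  refine ⟨Sc, S Jn, hScM, hSm Jn, ?_, ?_, ?_, ?_, ?_⟩
  · intro j u v j' u' v' hne
    refine Set.disjoint_left.2 fun x hx hx' => hne ?_
    by_cases hj : j = j'
    · subst hj
      obtain ⟨a, ⟨c1, c2⟩, hxa⟩ := (hScmem j u v x).1 hx
      obtain ⟨a', ⟨c1', c2'⟩, hxa'⟩ := (hScmem j u' v' x).1 hx'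
      have haa : a = a' := by
        by_contra hna
        exact Set.disjoint_left.1 (hRd j a a' hna) hxa hxa'
      subst haa
      rw [cy_s_peel1_inj hr.ne' (c1.symm.trans c1'), cy_s_peel1_inj hf.ne' (c2.symm.trans c2')]
    · exact absurd (hScS j' u' v' hx') (Set.disjoint_left.1 (hSd j j' hj) (hScS j u v hx))
  · intro j u v
    refine Set.disjoint_left.2 fun x hx hx' => ?_
    have hj := hScJ j u v ⟨x, hx⟩
    exact Set.disjoint_left.1 (hSd j Jn hj.ne) (hScS j u v hx) hx'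
  · rw [← hSu]
    ext x
    simp only [Set.mem_union, Set.mem_iUnion, Finset.mem_range, exists_prop]
    constructor
    · rintro (h | ⟨j, hj, u, -, v, -, h⟩)
      · exact ⟨Jn, Nat.lt_succ_self _, h⟩
      · exact ⟨j, Nat.lt_succ_of_lt hj, hScS j u v h⟩
    · rintro ⟨j, hj, h⟩
      rcases Nat.lt_succ_iff_lt_or_eq.1 hj with hj' | hj'
      · right
        obtain ⟨a, hxa⟩ := Set.mem_iUnion.1 (hScov j hj' h)
        obtain ⟨⟨-, hTr⟩, u, v, c1, c2⟩ := (hmem _).1 (hR j a).1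
        have t1 : ρ1 ≤ (Y.tq p (Qt j a)).r / Qs.r := hTr.1
        have t3 : ρ1 ≤ (Y.tq p (Qt j a)).f / Qs.f := hTr.2.2.1
        rw [c1, mul_div_assoc, div_self hr.ne', mul_one] at t1
        rw [c2, mul_div_assoc, div_self hf.ne', mul_one] at t3
        exact ⟨j, hj', u, Nat.lt_succ_of_le (cy_s_peel1_le (hU.trans t1)), v, Nat.lt_succ_of_le (cy_s_peel1_le (hU.trans t3)), (hScmem j u v x).2 ⟨a, ⟨c1, c2⟩, hxa⟩⟩
      · left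
        rw [← hj']
        exact h
  · intro Q hQ
    have h2 := hrnd Q hQ (S Jn) Jn ((2 : ℝ)⁻¹ ^ Jn * κ') (hSm Jn) subset_rfl (mul_pos (hpw _) hκ).le hrem
    calc _ ≤ (2 : ℝ)⁻¹ ^ Jn * κ' * (16 * (Y.M.sys p).wt Q) := h2
      _ = 16 * ((2 : ℝ)⁻¹ ^ Jn * κ') * (Y.M.sys p).wt Q := by ring
  · intro j u v
    refine ⟨fun Q hQ => ?_, ?_⟩
    · by_cases hj : j < Jn
      · have h2 := hrnd Q hQ (Sc j u v) j (2 * ((2 : ℝ)⁻¹ ^ (j + 1) * κ')) (hScM j u v) (hScS j u v) (by have := mul_pos (hpw (j + 1)) hκ; linarith) (hlev j hj).1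
        calc _ ≤ 2 * ((2 : ℝ)⁻¹ ^ (j + 1) * κ') * (16 * (Y.M.sys p).wt Q) := h2
          _ = 32 * ((2 : ℝ)⁻¹ ^ (j + 1) * κ') * (Y.M.sys p).wt Q := by ring
      · have he : Sc j u v = ∅ := by
          by_contra hne
          exact hj (hScJ j u v (Set.nonempty_iff_ne_empty.2 hne))
        rw [he, Set.inter_empty, gn_ms_empty]
        have hwq : 0 < (Y.M.sys p).wt Q := hT.wt_pos Q X.k hQ.1
        have := mul_pos (hpw (j + 1)) hκ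
        positivity
    · obtain ⟨F, hF⟩ : ∃ F : Finset (Fin (mm j)), F = Finset.univ.filter (fun a : Fin (mm j) => (Y.tq p (Qt j a)).r = (2 : ℝ)⁻¹ ^ u * Qs.r ∧ (Y.tq p (Qt j a)).f = (2 : ℝ)⁻¹ ^ v * Qs.f) := ⟨_, rfl⟩
      have hFm : ∀ a, a ∈ F ↔ ((Y.tq p (Qt j a)).r = (2 : ℝ)⁻¹ ^ u * Qs.r ∧ (Y.tq p (Qt j a)).f = (2 : ℝ)⁻¹ ^ v * Qs.f) := by
        intro a
        rw [hF]
        simp
      let e := F.equivFin.symm
      refine ⟨F.card, fun b => Qt j (e b).1, fun b => R j (e b).1, fun b => ?_, fun b b' hbb => ?_, ?_, fun b => hRlow j _⟩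
      · obtain ⟨c1, c2⟩ := (hFm _).1 (e b).2
        exact ⟨((hmem _).1 (hR j _).1).1, c1, c2, (hR j _).2.1, (hR j _).2.2⟩
      · exact hRd j _ _ fun h => hbb (e.injective (Subtype.ext h))
      · ext x
        rw [hScmem, Set.mem_iUnion]
        constructor
        · rintro ⟨a, hc, hxa⟩
          refine ⟨e.symm ⟨a, (hFm a).2 hc⟩, ?_⟩
          rw [Equiv.apply_symm_apply]
          exact hxa
        · rintro ⟨b, hxb⟩
          exact ⟨(e b).1, (hFm _).1 (e b).2, hxb⟩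

/-- one class of rows: density `β`, widths `(u, v)`; either the floor remainder or a level of successes -/
structure CyCls {Y : SfCy} {p : Y.M.Par} {X : CyGp Y p} (c : CyCh X) (ρ1 κ' fl fs : ℝ) (S : ℕ → c.ι → Set (Y.M.sys p).X) (β u v : ℝ) : Prop where
  meas : ∀ I G, MeasurableSet (S I G) ∧ S I G ⊆ c.rw I G
  beta : 0 < β ∧ β ≤ κ'
  /-- raw truncated regularity -/
  reg : ∀ I ∈ X.iv, ∀ G, ∀ Q ∈ X.Fam (c.fr I G) I ρ1,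
    (Y.M.sys p).ms (tmL X.k I) X.k 0 ((Y.M.sys p).cell Q (tmL X.k I) X.k ∩ S I G) (X.ps I) ≤ 32 * β * (Y.M.sys p).wt Q
  alt : β ≤ fl * κ' ∨ (ρ1 * X.rj ≤ u ∧ u ≤ X.rj ∧ ρ1 * fs ≤ v ∧ v ≤ fs ∧ ∀ I ∈ X.iv, ∀ G,
    ∃ (t : ℕ) (Qt : Fin t → (Y.M.sys p).Tst) (R : Fin t → Set (Y.M.sys p).X),
      (∀ a, Qt a ∈ X.Fam (c.fr I G) I ρ1 ∧ (Y.tq p (Qt a)).r = u ∧ (Y.tq p (Qt a)).f = v ∧ MeasurableSet (R a) ∧ R a ⊆ (Y.M.sys p).cell (Qt a) (tmL X.k I) X.k) ∧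
      (∀ a a', a ≠ a' → Disjoint (R a) (R a')) ∧ S I G = ⋃ a, R a ∧ ∀ a, β * (Y.M.sys p).wt (Qt a) < (Y.M.sys p).ms (tmL X.k I) X.k 0 (R a) (X.ps I))

theorem cy_s_classes_num (D1 : ℝ) (hD1 : 0 < D1) (Df n : ℕ) :
    ((Df * n * ((⌈D1 * n⌉₊ + 1) * (⌈D1 * n⌉₊ + 1)) + 1 : ℕ) : ℝ) ≤ ((Df : ℝ) * (D1 + 2) ^ 2 + 1) * ((n : ℝ) + 1) ^ 3 := by
  have hn : (0 : ℝ) ≤ n := Nat.cast_nonneg _
  have hDf : (0 : ℝ) ≤ Df := Nat.cast_nonneg _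
  have hU : ((⌈D1 * n⌉₊ : ℕ) : ℝ) + 1 ≤ (D1 + 2) * ((n : ℝ) + 1) := by
    have h1 := (Nat.ceil_lt_add_one (mul_nonneg hD1.le hn)).le
    nlinarith
  have hU0 : (0 : ℝ) ≤ ((⌈D1 * n⌉₊ : ℕ) : ℝ) + 1 := by positivity
  push_cast
  have h2 : (((⌈D1 * n⌉₊ : ℕ) : ℝ) + 1) * (((⌈D1 * n⌉₊ : ℕ) : ℝ) + 1) ≤ ((D1 + 2) * ((n : ℝ) + 1)) * ((D1 + 2) * ((n : ℝ) + 1)) :=
    mul_le_mul hU hU hU0 (by positivity)
  have h3 : (Df : ℝ) * n ≤ Df * ((n : ℝ) + 1) := by nlinarith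
  have h4 : (Df : ℝ) * n * ((((⌈D1 * n⌉₊ : ℕ) : ℝ) + 1) * (((⌈D1 * n⌉₊ : ℕ) : ℝ) + 1))
      ≤ Df * ((n : ℝ) + 1) * (((D1 + 2) * ((n : ℝ) + 1)) * ((D1 + 2) * ((n : ℝ) + 1))) :=
    mul_le_mul h3 h2 (by positivity) (by positivity)
  have h5 : (1 : ℝ) ≤ ((n : ℝ) + 1) ^ 3 := one_le_pow₀ (by linarith)
  nlinarith

theorem cy_s_classes_pow (D1 : ℝ) (n : ℕ) : (2 : ℝ)⁻¹ ^ ⌈D1 * n⌉₊ ≤ ((2 : ℝ)⁻¹ ^ n) ^ D1 := by
  rw [← Real.rpow_natCast, ← Real.rpow_natCast, ← Real.rpow_mul (by norm_num)]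
  refine Real.rpow_le_rpow_of_exponent_ge (by norm_num) (by norm_num) ?_
  rw [mul_comm]
  exact Nat.le_ceil _

theorem cy_s_classes_pow2 (Df n : ℕ) : ((2 : ℝ)⁻¹ ^ n) ^ (Df : ℝ) = (2 : ℝ)⁻¹ ^ (Df * n) := by
  rw [Real.rpow_natCast, ← pow_mul, mul_comm]

/-- rows of an interval which is not an interval of the cut: no chart -/
theorem cy_s_classes_out {Y : SfCy} {p : Y.M.Par} {X : CyGp Y p} (hX : X.Ok) {c : CyCh X} {Mb ρs fs : ℝ} {C0 : ℕ} (hc : c.Ok Mb ρs C0 fs) {I : ℕ} (hI : I ∉ X.iv) (G : c.ι) :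
    c.rw I G = ∅ := by
  have h1 : X.Un I = Set.univ := by
    ext x
    simp only [CyGp.Un, Set.mem_ofPred_eq, Set.mem_univ, iff_true]
    intro l hl
    apply hI
    have h2 : X.an l = I := hl.1
    rw [← h2]
    exact gn_iv_anc X.F hX.valid hX.cut.2.2.2.1 hX.cut.2.2.2.2 l
  have h3 := hc.cov I
  rw [h1, Set.univ_union, Set.compl_univ] at h3
  exact Set.subset_empty_iff.1 (h3 ▸ Set.subset_iUnion (c.rw I) G)

/-- **A8 = CLASSES** (02 l.676-688).   PLAN: `n' = kf - k`, `Jn = Df n'` (`2⁻¹^Jn = δ^Df`), `U = ⌈D1 n'⌉₊`; `cy_s_peel1` for every `I ∈ X.iv`, `G` (choice; for `I ∉ X.iv` all sets are empty: no label lies below `I` (`gn_iv_anc`), so `Un I = univ`, `rw I G = ∅` by `hc.cov`);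
classes = `(m, u, v)`, `m < Jn`, `u, v ≤ U` (density `2⁻¹^(m+1) κ'`, widths `2⁻¹^u rj`, `2⁻¹^v fs`) and the remainder (density `2⁻¹^(Jn+1) κ'`), enumerated by `Fin N`, `N = Jn (U+1)² + 1 ≤ Cn (n'+1)³`. -/
theorem cy_s_classes {Y : SfCy} (H : CyHyp Y) (D1 : ℝ) (hD1 : 0 < D1) (Df : ℕ) : ∃ Cn : ℝ, ∀ (p : Y.M.Par) (X : CyGp Y p) (κ' Mb ρs fs : ℝ) (C0 : ℕ) (c : CyCh X),
    X.Ok → 0 < κ' → (∀ I ∈ X.iv, (Y.M.sys p).Reg (tmL X.k I) X.k 0 κ' (X.ps I)) → c.Ok Mb ρs C0 fs → 0 < fs →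
    ∃ (N : ℕ) (S : Fin N → ℕ → c.ι → Set (Y.M.sys p).X) (β u v : Fin N → ℝ), (N : ℝ) ≤ Cn * (((X.F.kf - X.k : ℕ) : ℝ) + 1) ^ 3 ∧
      (∀ a, CyCls c (X.de ^ D1) κ' (X.de ^ (Df : ℝ)) fs (S a) (β a) (u a) (v a)) ∧
      (∀ I G a a', a ≠ a' → Disjoint (S a I G) (S a' I G)) ∧ ∀ I G, ⋃ a, S a I G = c.rw I G := by
  classical
  refine ⟨(Df : ℝ) * (D1 + 2) ^ 2 + 1, fun p X κ' Mb ρs fs C0 c hX hκ hreg hc hfs => ?_⟩
  obtain ⟨n, hn⟩ : ∃ n : ℕ, n = X.F.kf - X.k := ⟨_, rfl⟩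
  have hde : X.de = (2 : ℝ)⁻¹ ^ n := by rw [hn]; rfl
  have hde0 : 0 < X.de := by rw [hde]; positivity
  have hde1 : X.de ≤ 1 := by rw [hde]; exact pow_le_one₀ (by norm_num) (by norm_num)
  obtain ⟨ρ1, hρ1⟩ : ∃ ρ1 : ℝ, ρ1 = X.de ^ D1 := ⟨_, rfl⟩
  have h1 : 0 < ρ1 := hρ1 ▸ Real.rpow_pos_of_pos hde0 _
  have h1' : ρ1 ≤ 1 := hρ1 ▸ Real.rpow_le_one hde0.le hde1 hD1.le
  obtain ⟨U, hUe⟩ : ∃ U : ℕ, U = ⌈D1 * n⌉₊ := ⟨_, rfl⟩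
  obtain ⟨Jn, hJe⟩ : ∃ Jn : ℕ, Jn = Df * n := ⟨_, rfl⟩
  have hU : (2 : ℝ)⁻¹ ^ U ≤ ρ1 := by
    rw [hρ1, hde, hUe]
    exact cy_s_classes_pow D1 n
  have hfl : X.de ^ (Df : ℝ) = (2 : ℝ)⁻¹ ^ Jn := by rw [hde, hJe, cy_s_classes_pow2]
  rw [← hρ1, hfl, ← hn]
  have hrj := hX.rj_pos
  -- the peel in every chart
  have key : ∀ (I : ℕ) (G : c.ι), ∃ (Sc : ℕ → ℕ → ℕ → Set (Y.M.sys p).X) (Rm : Set (Y.M.sys p).X), (∀ m u v, MeasurableSet (Sc m u v)) ∧ MeasurableSet Rm ∧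
      (∀ m u v m' u' v', (m, u, v) ≠ (m', u', v') → Disjoint (Sc m u v) (Sc m' u' v')) ∧ (∀ m u v, Disjoint (Sc m u v) Rm) ∧
      (Rm ∪ ⋃ m ∈ Finset.range Jn, ⋃ u ∈ Finset.range (U + 1), ⋃ v ∈ Finset.range (U + 1), Sc m u v) = c.rw I G ∧
      (I ∈ X.iv →
      (∀ Q ∈ X.Fam (c.fr I G) I ρ1, (Y.M.sys p).ms (tmL X.k I) X.k 0 ((Y.M.sys p).cell Q (tmL X.k I) X.k ∩ Rm) (X.ps I) ≤ 16 * ((2 : ℝ)⁻¹ ^ Jn * κ') * (Y.M.sys p).wt Q) ∧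
      ∀ m u v, (∀ Q ∈ X.Fam (c.fr I G) I ρ1, (Y.M.sys p).ms (tmL X.k I) X.k 0 ((Y.M.sys p).cell Q (tmL X.k I) X.k ∩ Sc m u v) (X.ps I)
            ≤ 32 * ((2 : ℝ)⁻¹ ^ (m + 1) * κ') * (Y.M.sys p).wt Q) ∧
        ∃ (t : ℕ) (Qt : Fin t → (Y.M.sys p).Tst) (R : Fin t → Set (Y.M.sys p).X),
          (∀ a, Qt a ∈ X.Fam (c.fr I G) I ρ1 ∧ (Y.tq p (Qt a)).r = (2 : ℝ)⁻¹ ^ u * (c.fr I G).r ∧ (Y.tq p (Qt a)).f = (2 : ℝ)⁻¹ ^ v * (c.fr I G).f ∧ MeasurableSet (R a) ∧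
            R a ⊆ (Y.M.sys p).cell (Qt a) (tmL X.k I) X.k) ∧
          (∀ a a', a ≠ a' → Disjoint (R a) (R a')) ∧ Sc m u v = ⋃ a, R a ∧
          ∀ a, (2 : ℝ)⁻¹ ^ (m + 1) * κ' * (Y.M.sys p).wt (Qt a) < (Y.M.sys p).ms (tmL X.k I) X.k 0 (R a) (X.ps I)) := by
    intro I G
    by_cases hI : I ∈ X.iv
    · obtain ⟨Sc, Rm, a1, a2, a3, a4, a5, a6, a7⟩ := cy_s_peel1 H X hX I (c.fr I G) ((hc.wid I G).1 ▸ hrj) ((hc.wid I G).2 ▸ hfs) ρ1 κ' h1 h1' hκ (hreg I hI)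
        (c.rw I G) (hc.meas I G) Jn U hU
      exact ⟨Sc, Rm, a1, a2, a3, a4, a5, fun _ => ⟨a6, a7⟩⟩
    · refine ⟨fun _ _ _ => ∅, ∅, fun _ _ _ => MeasurableSet.empty, MeasurableSet.empty, fun _ _ _ _ _ _ _ => Set.disjoint_empty _, fun _ _ _ => Set.disjoint_empty _, ?_,
        fun h => absurd h hI⟩
      rw [cy_s_classes_out hX hc hI G]
      simp
  choose Sc Rm hScM hRmM hdisj hdisjR hun hiv using key
  -- the classes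
  let T := Option (Fin Jn × Fin (U + 1) × Fin (U + 1))
  let ST : T → ℕ → c.ι → Set (Y.M.sys p).X := fun t I G => match t with
    | none => Rm I G
    | some x => Sc I G x.1 x.2.1 x.2.2
  let βT : T → ℝ := fun t => match t with
    | none => (2 : ℝ)⁻¹ ^ (Jn + 1) * κ'
    | some x => (2 : ℝ)⁻¹ ^ ((x.1 : ℕ) + 1) * κ'
  let uT : T → ℝ := fun t => match t with
    | none => X.rj
    | some x => if ρ1 ≤ (2 : ℝ)⁻¹ ^ (x.2.1 : ℕ) ∧ ρ1 ≤ (2 : ℝ)⁻¹ ^ (x.2.2 : ℕ) then (2 : ℝ)⁻¹ ^ (x.2.1 : ℕ) * X.rj else X.rj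
  let vT : T → ℝ := fun t => match t with
    | none => fs
    | some x => if ρ1 ≤ (2 : ℝ)⁻¹ ^ (x.2.1 : ℕ) ∧ ρ1 ≤ (2 : ℝ)⁻¹ ^ (x.2.2 : ℕ) then (2 : ℝ)⁻¹ ^ (x.2.2 : ℕ) * fs else fs
  have hpw : ∀ m : ℕ, 0 < (2 : ℝ)⁻¹ ^ m ∧ (2 : ℝ)⁻¹ ^ m ≤ 1 := fun m => ⟨by positivity, pow_le_one₀ (by norm_num) (by norm_num)⟩
  have hcls : ∀ t : T, CyCls c ρ1 κ' ((2 : ℝ)⁻¹ ^ Jn) fs (ST t) (βT t) (uT t) (vT t) := by
    intro t
    rcases t with _ | ⟨m, u, v⟩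
    · refine ⟨fun I G => ⟨hRmM I G, ?_⟩, ⟨mul_pos (hpw _).1 hκ, mul_le_of_le_one_left hκ.le (hpw _).2⟩, ?_, Or.inl ?_⟩
      · rw [← hun I G]
        exact Set.subset_union_left
      · intro I hI G Q hQ
        refine ((hiv I G hI).1 Q hQ).trans (le_of_eq ?_)
        show 16 * ((2 : ℝ)⁻¹ ^ Jn * κ') * (Y.M.sys p).wt Q = 32 * ((2 : ℝ)⁻¹ ^ (Jn + 1) * κ') * (Y.M.sys p).wt Q
        rw [pow_succ]
        ring
      · show (2 : ℝ)⁻¹ ^ (Jn + 1) * κ' ≤ (2 : ℝ)⁻¹ ^ Jn * κ'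
        refine mul_le_mul_of_nonneg_right ?_ hκ.le
        rw [pow_succ]
        have := (hpw Jn).1
        linarith
    · refine ⟨fun I G => ⟨hScM I G _ _ _, ?_⟩, ⟨mul_pos (hpw _).1 hκ, mul_le_of_le_one_left hκ.le (hpw _).2⟩, ?_, Or.inr ?_⟩
      · rw [← hun I G]
        refine subset_trans ?_ Set.subset_union_right
        intro x hx
        simp only [Set.mem_iUnion, Finset.mem_range]
        exact ⟨m, m.2, u, u.2, v, v.2, hx⟩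
      · intro I hI G Q hQ
        exact ((hiv I G hI).2 m u v).1 Q hQ
      · by_cases hg : ρ1 ≤ (2 : ℝ)⁻¹ ^ (u : ℕ) ∧ ρ1 ≤ (2 : ℝ)⁻¹ ^ (v : ℕ)
        · have eu : uT (some (m, u, v)) = (2 : ℝ)⁻¹ ^ (u : ℕ) * X.rj := if_pos hg
          have ev : vT (some (m, u, v)) = (2 : ℝ)⁻¹ ^ (v : ℕ) * fs := if_pos hg
          rw [eu, ev]
          refine ⟨mul_le_mul_of_nonneg_right hg.1 hrj.le, mul_le_of_le_one_left hrj.le (hpw _).2, mul_le_mul_of_nonneg_right hg.2 hfs.le,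
            mul_le_of_le_one_left hfs.le (hpw _).2, ?_⟩
          intro I hI G
          obtain ⟨t, Qt, R, b1, b2, b3, b4⟩ := ((hiv I G hI).2 m u v).2
          refine ⟨t, Qt, R, fun a => ?_, b2, b3, b4⟩
          obtain ⟨c1, c2, c3, c4, c5⟩ := b1 a
          rw [(hc.wid I G).1] at c2
          rw [(hc.wid I G).2] at c3
          exact ⟨c1, c2, c3, c4, c5⟩
        · have eu : uT (some (m, u, v)) = X.rj := if_neg hg
          have ev : vT (some (m, u, v)) = fs := if_neg hg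
          rw [eu, ev]
          refine ⟨mul_le_of_le_one_left hrj.le h1', le_rfl, mul_le_of_le_one_left hfs.le h1', le_rfl, ?_⟩
          intro I hI G
          obtain ⟨t, Qt, R, b1, b2, b3, b4⟩ := ((hiv I G hI).2 m u v).2
          refine ⟨t, Qt, R, fun a => ?_, b2, b3, b4⟩
          exfalso
          apply hg
          obtain ⟨c1, c2, c3, -, -⟩ := b1 a
          have hT : CyTr (tmL X.k I) X.k (c.fr I G) ρ1 (Y.tq p (Qt a)) := c1.2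
          have d1 : ρ1 ≤ (Y.tq p (Qt a)).r / (c.fr I G).r := hT.1
          have d2 : ρ1 ≤ (Y.tq p (Qt a)).f / (c.fr I G).f := hT.2.2.1
          have hr0 : (c.fr I G).r ≠ 0 := by rw [(hc.wid I G).1]; exact hrj.ne'
          have hf0 : (c.fr I G).f ≠ 0 := by rw [(hc.wid I G).2]; exact hfs.ne'
          rw [c2, mul_div_assoc, div_self hr0, mul_one] at d1
          rw [c3, mul_div_assoc, div_self hf0, mul_one] at d2
          exact ⟨d1, d2⟩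
  have hdT : ∀ I G (t t' : T), t ≠ t' → Disjoint (ST t I G) (ST t' I G) := by
    intro I G t t' hne
    rcases t with _ | ⟨m, u, v⟩ <;> rcases t' with _ | ⟨m', u', v'⟩
    · exact absurd rfl hne
    · exact (hdisjR I G _ _ _).symm
    · exact hdisjR I G _ _ _
    · refine hdisj I G _ _ _ _ _ _ fun h => hne ?_
      simp only [Prod.mk.injEq] at h
      rw [Fin.ext h.1, Fin.ext h.2.1, Fin.ext h.2.2]
  have huT : ∀ I G, ⋃ t : T, ST t I G = c.rw I G := by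
    intro I G
    rw [← hun I G]
    ext x
    simp only [Set.mem_iUnion, Set.mem_union, Finset.mem_range]
    constructor
    · rintro ⟨t, ht⟩
      rcases t with _ | ⟨m, u, v⟩
      · exact Or.inl ht
      · exact Or.inr ⟨m, m.2, u, u.2, v, v.2, ht⟩
    · rintro (h | ⟨m, hm, u, hu, v, hv, h⟩)
      · exact ⟨none, h⟩
      · exact ⟨some (⟨m, hm⟩, ⟨u, hu⟩, ⟨v, hv⟩), h⟩
  let e := Fintype.equivFin T
  refine ⟨Fintype.card T, fun a => ST (e.symm a), fun a => βT (e.symm a), fun a => uT (e.symm a), fun a => vT (e.symm a), ?_, fun a => hcls _,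
    fun I G a a' hne => hdT I G _ _ (fun h => hne (e.symm.injective h)), fun I G => ?_⟩
  · have hcard : Fintype.card T = Df * n * ((⌈D1 * n⌉₊ + 1) * (⌈D1 * n⌉₊ + 1)) + 1 := by
      simp only [T, Fintype.card_option, Fintype.card_prod, Fintype.card_fin, hJe, hUe]
    rw [hcard]
    exact cy_s_classes_num D1 hD1 Df n
  · rw [← huT I G]
    exact e.symm.surjective.iUnion_comp (fun t => ST t I G)

end Claimed.Agent.R256
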