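-- KEEP
import Claimed.Agent.R256.Cyl.StepAna
import Claimed.Agent.R256.Cyl.FwdC

/-!
# Row 256 (LS paper), CYL, unit STEP, file 4 : THE THREE MOVES AND THE GLUE          (chief helper255; prefix `cy_t`)

`cy_t_step : CyStepA Y → CyStepB Y → CyStepC Y Ls → CyStep Y Ls`   (PROVED HERE: constants only).
 A  `CyStepA`   PREP   an ordinary regularisation is inserted at the new cut `k = k0 + ⌊i n⌋` (nothing near the root):  the states at the cut are prepared at the accuracy `ξ`         `Cyl/StepA.lean`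
 B  `CyStepB`   LIGHT  the labels of the gate `j` that read less than `δ^5 κ' w_j` are deleted (weights `:= 0`)                                                                    `Cyl/StepB.lean`
 C  `CyStepC`   GATE   attachment, ambiguity, charts, truncated peel, selection of a class, the new gate                                                                           `Cyl/StepC*.lean`
Vocabulary: `CyRel` (what a move keeps), `CyIn` (hypotheses of `CyStep`), `CyMid` (+ the cut `(k, q)`: `q` = number of stages before the cut, prepared states), `SfMD.kap` (`κ'`), `SfMD.thr` (the floor).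
-/

set_option autoImplicit false

namespace Claimed.Agent.R256

open MeasureTheory

/-- what a move keeps -/
def CyRel {P : PkSys} (W W' : SfMD P) : Prop :=
  W'.G = W.G ∧ W'.Q0 = W.Q0 ∧ Mdl.SameRoot W.E W'.E ∧ W'.E.n = W.E.n ∧ CySubLab W.E W'.E ∧ CyKeep W W'

/-- the hypotheses of `CyStep` -/
structure CyIn (Y : SfCy) (p : Y.M.Par) (W : SfMD (Y.M.sys p)) (i j h a τ : ℝ) (C A : ℕ) (Ls ε : ℝ) : Prop where
  cls : Y.M.Cls C A p W.E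
  card : W.G.card ≤ C
  i_nn : 0 ≤ i
  i_lt : i < j
  j_mem : j ∈ W.G
  first : ∀ x ∈ W.G, j ≤ x
  gap : CyGap (insert i W.G) h
  pre : W.Pre Y p Y.M.p0 Y.M.d0 Ls ε a
  val : 2 ^ ((Y.M.Gam - τ) * W.E.n) ≤ W.E.val

/-- `CyIn` + the new cut: depth `k`, `q` stages before it, prepared states -/
structure CyMid (Y : SfCy) (p : Y.M.Par) (W : SfMD (Y.M.sys p)) (i j : ℝ) (k q : ℕ) (h a ξ τ : ℝ) (C A : ℕ) (Ls ε : ℝ) : Prop where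
  inn : CyIn Y p W i j h a τ C A Ls ε
  k_eq : k = W.E.k0 + ⌊i * W.E.n⌋₊
  cut : W.E.CutAt k (W.E.st.take q) (W.E.st.drop q)
  q_le : q ≤ W.pos j
  prep : W.E.PrepAt Y.M.p0 Y.M.d0 k 0 (W.E.st.take q) ξ

/-- `κ' = κ_a s^-ξ` -/
noncomputable def SfMD.kap (Y : SfCy) (p : Y.M.Par) (W : SfMD (Y.M.sys p)) (k : ℕ) (ξ : ℝ) : ℝ :=
  W.E.ka * 2 ^ (-(Y.M.p0 * ((k - W.E.k0 : ℕ) : ℝ)) + ξ * W.E.n)

/-- the mass floor `δ^5 κ' w_j` of the labels of the gate `j` -/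
noncomputable def SfMD.thr (Y : SfCy) (p : Y.M.Par) (W : SfMD (Y.M.sys p)) (j : ℝ) (k : ℕ) (ξ : ℝ) : ℝ :=
  ((2 : ℝ)⁻¹ ^ (W.k j - k)) ^ (5 : ℝ) * (W.kap Y p k ξ * (W.r j ^ (3 + Y.η) * W.f j ^ (1 - Y.η)))

/-- every label of the gate `j` is deleted or heavy -/
def SfMD.Flo (Y : SfCy) (p : Y.M.Par) (W : SfMD (Y.M.sys p)) (j : ℝ) (k : ℕ) (ξ : ℝ) : Prop :=
  ∀ l, (W.th j l = fun _ => 0) ∨ W.thr Y p j k ξ ≤ W.m j l

/-- **A = PREP** -/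
def CyStepA (Y : SfCy) : Prop :=
  ∀ h ξ : ℝ, 0 < h → 0 < ξ → ∃ a0 τ0 : ℝ, 0 < a0 ∧ 0 < τ0 ∧ ∀ C : ℕ, ∃ A0 n0 : ℕ,
    ∀ (A : ℕ) (p : Y.M.Par) (W : SfMD (Y.M.sys p)) (i j Ls ε a τ : ℝ), A0 ≤ A → n0 ≤ W.E.n → 0 < a → a ≤ a0 → 0 < τ → τ ≤ τ0 → CyIn Y p W i j h a τ C A Ls ε →
      ∃ (W1 : SfMD (Y.M.sys p)) (k q : ℕ), CyRel W W1 ∧ W.E.s ^ ξ * W.E.val ≤ W1.E.val ∧ CyMid Y p W1 i j k q h a ξ (τ + ξ) (C + 1) A Ls ε

/-- **B = LIGHT** -/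
def CyStepB (Y : SfCy) : Prop :=
  ∀ h ζ : ℝ, 0 < h → 0 < ζ → ∃ a0 ξ0 τ0 : ℝ, 0 < a0 ∧ 0 < ξ0 ∧ 0 < τ0 ∧ ∀ C : ℕ, ∃ A0 n0 : ℕ,
    ∀ (A : ℕ) (p : Y.M.Par) (W : SfMD (Y.M.sys p)) (i j Ls ε a ξ τ : ℝ) (k q : ℕ), A0 ≤ A → n0 ≤ W.E.n → 0 < a → a ≤ a0 → 0 < ξ → ξ ≤ ξ0 → 0 < τ → τ ≤ τ0 →
      CyMid Y p W i j k q h a ξ τ C A Ls ε →
      ∃ W2 : SfMD (Y.M.sys p), CyRel W W2 ∧ W.E.s ^ ζ * W.E.val ≤ W2.E.val ∧ CyMid Y p W2 i j k q h a ξ (τ + ζ) C A Ls ε ∧ W2.Flo Y p j k ξ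

/-- **C = GATE** -/
def CyStepC (Y : SfCy) (Ls : ℝ) : Prop :=
  ∀ h : ℝ, 0 < h → ∃ ε0 : ℝ, 0 < ε0 ∧ ∀ a' : ℝ, 0 < a' → ∃ a0 ξ0 τ0 : ℝ, 0 < a0 ∧ 0 < ξ0 ∧ 0 < τ0 ∧ ∀ C : ℕ, ∃ C' : ℕ, ∀ A' : ℕ, ∃ A0 n0 : ℕ,
    ∀ (A : ℕ) (p : Y.M.Par) (W : SfMD (Y.M.sys p)) (i j ε a ξ τ : ℝ) (k q : ℕ), A0 ≤ A → n0 ≤ W.E.n → 0 < ε → ε ≤ ε0 → 0 < a → a ≤ a0 → 0 < ξ → ξ ≤ ξ0 → 0 < τ → τ ≤ τ0 →
      CyMid Y p W i j k q h a ξ τ C A Ls ε → W.Flo Y p j k ξ →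
      ∃ W' : SfMD (Y.M.sys p), W'.G = insert i W.G ∧ W'.Q0 = W.Q0 ∧ Y.M.Cls C' A' p W'.E ∧ Mdl.SameRoot W.E W'.E ∧ W'.E.n = W.E.n ∧
        CySubLab W.E W'.E ∧ W.E.s ^ a' * W.E.val ≤ W'.E.val ∧ W'.Pre Y p Y.M.p0 Y.M.d0 Ls ε a' ∧ CyKeep W W' ∧ CyHv W' i C'

theorem cy_ttop_eqns_cite : True := by
  have := @CyRel.eq_1
  have := @SfMD.kap.eq_1
  have := @SfMD.thr.eq_1
  have := @SfMD.Flo.eq_1
  have := @CyStepA.eq_1
  have := @CyStepB.eq_1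
  have := @CyStepC.eq_1
  trivial

theorem cy_t_sameroot_trans {P : PkSys} {E E1 E2 : Xp P} (h1 : Mdl.SameRoot E E1) (h2 : Mdl.SameRoot E1 E2) : Mdl.SameRoot E E2 := by
  obtain ⟨a1, a2, a3, a4, a5, a6⟩ := h1
  obtain ⟨b1, b2, b3, b4, b5, b6⟩ := h2
  exact ⟨b1.trans a1, b2.trans a2, b3.trans a3, b4.trans a4, b5.trans a5, b6.trans a6⟩

theorem cy_t_sublab_trans {P : PkSys} {E E1 E2 : Xp P} (h1 : CySubLab E E1) (h2 : CySubLab E1 E2) : CySubLab E E2 := by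
  obtain ⟨φ, hφ, H1⟩ := h1
  obtain ⟨ψ, hψ, H2⟩ := h2
  refine ⟨φ ∘ ψ, hφ.comp hψ, fun l => ⟨(H2 l).1.trans (H1 (ψ l)).1, (H2 l).2.1.trans (H1 (ψ l)).2.1, fun x => ?_⟩⟩
  rcases (H2 l).2.2 x with h | h
  · rcases (H1 (ψ l)).2.2 x with h' | h'
    · exact Or.inl (h.trans h')
    · exact Or.inr (h.trans h')
  · exact Or.inr h

theorem cy_t_s_eq {P : PkSys} {E E' : Xp P} (h : E'.n = E.n) : E'.s = E.s := by
  unfold Xp.s
  rw [h]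

/-- **THE GLUE** (constants only) -/
theorem cy_t_step (Y : SfCy) (Ls : ℝ) (hA : CyStepA Y) (hB : CyStepB Y) (hC : CyStepC Y Ls) : CyStep Y Ls := by
  intro h hh
  obtain ⟨ε0, hε0, HC⟩ := hC h hh
  refine ⟨ε0, hε0, fun a' ha' => ?_⟩
  obtain ⟨ac, ξc, τc, hac, hξc, hτc, HC⟩ := HC (a' / 3) (by positivity)
  obtain ⟨ζ, hζdef⟩ : ∃ ζ, ζ = min (τc / 3) (a' / 3) := ⟨_, rfl⟩
  have hζ : 0 < ζ := by rw [hζdef]; exact lt_min (by positivity) (by positivity)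
  have hζ1 : ζ ≤ τc / 3 := by rw [hζdef]; exact min_le_left _ _
  have hζ2 : ζ ≤ a' / 3 := by rw [hζdef]; exact min_le_right _ _
  obtain ⟨ab, ξb, τb, hab, hξb, hτb, HB⟩ := hB h ζ hh hζ
  obtain ⟨ξ, hξdef⟩ : ∃ ξ, ξ = min (min ξb ξc) (min (min (τc / 3) (τb / 2)) (a' / 3)) := ⟨_, rfl⟩
  have hξ : 0 < ξ := by
    rw [hξdef]
    exact lt_min (lt_min hξb hξc) (lt_min (lt_min (by positivity) (by positivity)) (by positivity))
  have hξ1 : ξ ≤ ξb := by rw [hξdef]; exact (min_le_left _ _).trans (min_le_left _ _)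
  have hξ2 : ξ ≤ ξc := by rw [hξdef]; exact (min_le_left _ _).trans (min_le_right _ _)
  have hξ3 : ξ ≤ τc / 3 := by rw [hξdef]; exact (min_le_right _ _).trans ((min_le_left _ _).trans (min_le_left _ _))
  have hξ4 : ξ ≤ τb / 2 := by rw [hξdef]; exact (min_le_right _ _).trans ((min_le_left _ _).trans (min_le_right _ _))
  have hξ5 : ξ ≤ a' / 3 := by rw [hξdef]; exact (min_le_right _ _).trans (min_le_right _ _)
  obtain ⟨aa, τa, haa, hτa, HA⟩ := hA h ξ hh hξ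
  obtain ⟨a, hadef⟩ : ∃ a, a = min aa (min ab ac) := ⟨_, rfl⟩
  have ha : 0 < a := by rw [hadef]; exact lt_min haa (lt_min hab hac)
  have ha1 : a ≤ aa := by rw [hadef]; exact min_le_left _ _
  have ha2 : a ≤ ab := by rw [hadef]; exact (min_le_right _ _).trans (min_le_left _ _)
  have ha3 : a ≤ ac := by rw [hadef]; exact (min_le_right _ _).trans (min_le_right _ _)
  obtain ⟨τ, hτdef⟩ : ∃ τ, τ = min τa (min (τb / 2) (τc / 3)) := ⟨_, rfl⟩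
  have hτ : 0 < τ := by rw [hτdef]; exact lt_min hτa (lt_min (by positivity) (by positivity))
  have hτ1 : τ ≤ τa := by rw [hτdef]; exact min_le_left _ _
  have hτ2 : τ ≤ τb / 2 := by rw [hτdef]; exact (min_le_right _ _).trans (min_le_left _ _)
  have hτ3 : τ ≤ τc / 3 := by rw [hτdef]; exact (min_le_right _ _).trans (min_le_right _ _)
  refine ⟨a, τ, ha, hτ, fun C => ?_⟩
  obtain ⟨Aa, na, HA⟩ := HA C
  obtain ⟨Ab, nb, HB⟩ := HB (C + 1)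
  obtain ⟨C', HC⟩ := HC (C + 1)
  refine ⟨C', fun A' => ?_⟩
  obtain ⟨Ac, nc, HC⟩ := HC A'
  refine ⟨max Aa (max Ab Ac), max na (max nb nc), ?_⟩
  intro p W i j ε hn hcls hcard hε hεε hi hij hj hfirst hgap hpre hval
  have hn1 : na ≤ W.E.n := (le_max_left _ _).trans hn
  have hn2 : nb ≤ W.E.n := ((le_max_left _ _).trans (le_max_right _ _)).trans hn
  have hn3 : nc ≤ W.E.n := ((le_max_right _ _).trans (le_max_right _ _)).trans hn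
  obtain ⟨W1, k, q, hR1, hv1, hM1⟩ := HA (max Aa (max Ab Ac)) p W i j Ls ε a τ (le_max_left _ _) hn1 ha ha1 hτ hτ1
    ⟨hcls, hcard, hi, hij, hj, hfirst, hgap, hpre, hval⟩
  have e1 : W1.E.n = W.E.n := hR1.2.2.2.1
  obtain ⟨W2, hR2, hv2, hM2, hF2⟩ := HB (max Aa (max Ab Ac)) p W1 i j Ls ε a ξ (τ + ξ) k q ((le_max_left _ _).trans (le_max_right _ _))
    (by rw [e1]; exact hn2) ha ha2 hξ hξ1 (by positivity) (by linarith) hM1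
  have e2 : W2.E.n = W1.E.n := hR2.2.2.2.1
  obtain ⟨W', g1, g2, g3, g4, g5, g6, g7, g8, g9, g10⟩ := HC (max Aa (max Ab Ac)) p W2 i j ε a ξ (τ + ξ + ζ) k q ((le_max_right _ _).trans (le_max_right _ _))
    (by rw [e2, e1]; exact hn3) hε hεε ha ha3 hξ hξ2 (by positivity) (by linarith) hM2 hF2
  refine ⟨W', ?_, ?_, g3, cy_t_sameroot_trans (cy_t_sameroot_trans hR1.2.2.1 hR2.2.2.1) g4, ?_,
    cy_t_sublab_trans (cy_t_sublab_trans hR1.2.2.2.2.1 hR2.2.2.2.2.1) g6, ?_, cy_fw_pre_mono g8 (by linarith),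
    cy_keep_trans (cy_keep_trans hR1.2.2.2.2.2 hR1.1.ge hR2.2.2.2.2.2) (by rw [hR2.1, hR1.1]) g9, g10⟩
  · rw [g1, hR2.1, hR1.1]
  · rw [g2, hR2.2.1, hR1.2.1]
  · rw [g5, e2, e1]
  · have s1 : W1.E.s = W.E.s := cy_t_s_eq e1
    have s2 : W2.E.s = W.E.s := (cy_t_s_eq e2).trans s1
    rw [s2] at g7
    rw [s1] at hv2
    have hs : 0 < W.E.s := gn_s_pos W.E
    have hv0 : 0 ≤ W.E.val := le_trans (by positivity) hval
    have b1 : W.E.s ^ (a' / 3) ≤ W.E.s ^ ξ := gn_s_anti W.E hξ5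
    have b2 : W.E.s ^ (a' / 3) ≤ W.E.s ^ ζ := gn_s_anti W.E hζ2
    have p3 : 0 ≤ W.E.s ^ (a' / 3) := (Real.rpow_pos_of_pos hs _).le
    have e3 : W.E.s ^ a' = W.E.s ^ (a' / 3) * (W.E.s ^ (a' / 3) * W.E.s ^ (a' / 3)) := by
      rw [← Real.rpow_add hs, ← Real.rpow_add hs]
      congr 1
      ring
    calc W.E.s ^ a' * W.E.val = W.E.s ^ (a' / 3) * (W.E.s ^ (a' / 3) * (W.E.s ^ (a' / 3) * W.E.val)) := by rw [e3]; ring
      _ ≤ W.E.s ^ (a' / 3) * (W.E.s ^ (a' / 3) * (W.E.s ^ ξ * W.E.val)) := by gcongr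
      _ ≤ W.E.s ^ (a' / 3) * (W.E.s ^ (a' / 3) * W1.E.val) := by gcongr
      _ ≤ W.E.s ^ (a' / 3) * (W.E.s ^ ζ * W1.E.val) := by
          have : 0 ≤ W1.E.val := le_trans (mul_nonneg (Real.rpow_pos_of_pos hs _).le hv0) hv1
          gcongr
      _ ≤ W.E.s ^ (a' / 3) * W2.E.val := by gcongr
      _ ≤ W'.E.val := g7

end Claimed.Agent.R256
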