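-- KEEP
import Claimed.Agent.R256.Cyl.StepTop
import Claimed.Agent.R256.Soft.MResTri

/-!
# Row 256 (LS paper), CYL, unit STEP, file 5 : THE MOVES A (PREP) AND B (LIGHT)          (chief helper255; prefix `cy_t`)

 TA1 `cy_t_cut_ex`     L   the stack can be cut at any depth below the first gate                               0.15k
 TA2 `cy_t_inq_str`    L   `Str` after the insertion of a stage before all gates                                0.2k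
 TA3 `cy_t_A`          L   move A from K5 `cy_prep`, K7 `cy_prep_root`                                          0.4k
 TB1 `cy_light`        L   generic: a part of the mask of a stage with small energy can be dropped              0.4k
 TB2 `cy_light_end`    L   the same for terminal labels (arithmetic)                                            0.1k
 TB3 `cy_tB_*`         L   the light labels are DROPPED (`Str.ne`): row sets `SfMD.tbH`, `SfMD.tbL`, restriction `rsS` / `rsF` of `Soft/MResDef`      0.45k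
 TB4 `cy_t_B`          L   move B (numbers: `D = 5 > 3 p0 / 2`)                                                 0.6k
-/

set_option autoImplicit false

namespace Claimed.Agent.R256

open MeasureTheory

/-- insertion of a stage at the position `q`, BEFORE ALL GATES -/
noncomputable def SfMD.inq {P : PkSys} (W : SfMD P) (q : ℕ) (σ : Stg P) : SfMD P :=
  W.re (W.E.st.take q ++ σ :: W.E.st.drop q) (fun x => W.pos x + 1)

theorem cy_tab_eqns_cite : True := by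
  have := @SfMD.inq.eq_1
  trivial

variable {P : PkSys}

theorem cy_t_cut_list (k : ℕ) : ∀ l : List (Stg P), l.Pairwise (fun σ σ' => σ.k ≤ σ'.k) →
    ∃ q, q ≤ l.length ∧ (∀ σ ∈ l.take q, σ.k ≤ k) ∧ ∀ σ ∈ l.drop q, k < σ.k := by
  intro l
  induction l with
  | nil =>
    intro _
    exact ⟨0, le_rfl, fun σ hσ => absurd hσ (by simp), fun σ hσ => absurd hσ (by simp)⟩
  | cons a l ih =>
    intro hp
    rw [List.pairwise_cons] at hp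
    by_cases ha : a.k ≤ k
    · obtain ⟨q, hq, h1, h2⟩ := ih hp.2
      refine ⟨q + 1, by simpa using hq, ?_, ?_⟩
      · intro σ hσ
        rw [List.take_succ_cons, List.mem_cons] at hσ
        rcases hσ with rfl | hσ
        · exact ha
        · exact h1 σ hσ
      · intro σ hσ
        rw [List.drop_succ_cons] at hσ
        exact h2 σ hσ
    · refine ⟨0, Nat.zero_le _, fun σ hσ => absurd hσ (by simp), ?_⟩
      intro σ hσ
      rw [List.drop_zero, List.mem_cons] at hσ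
      rcases hσ with rfl | hσ
      · exact not_le.1 ha
      · exact lt_of_lt_of_le (not_le.1 ha) (hp.1 σ hσ)

/-- **TA1**.   PLAN: `q` = length of `st.takeWhile (σ.k ≤ k)` (or induction on the sorted list `h.valid.st_mono`): `take q` has depths `≤ k`, `drop q` depths `> k` (sortedness).   `q ≤ pos j`: `j < 1`: the stage `st[pos j]` has the depth `k j > k` (`h.stage`), so it is not in `take q`;
`j = 1`: `pos 1 = length`. -/
theorem cy_t_cut_ex (W : SfMD P) {tq : P.Tst → CyT} (h : W.Str tq) {j : ℝ} (hj : j ∈ W.G) (k : ℕ) (h0 : W.E.k0 ≤ k) (hk : k < W.k j) :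
    ∃ q, q ≤ W.pos j ∧ W.E.CutAt k (W.E.st.take q) (W.E.st.drop q) := by
  obtain ⟨q, hq, h1, h2⟩ := cy_t_cut_list (P := P) k W.E.st h.valid.st_mono
  refine ⟨q, ?_, (List.take_append_drop _ _).symm, h1, fun σ hσ => (h2 σ hσ).le, h0, hk.le.trans (h.k_rg j hj).2⟩
  rcases lt_or_eq_of_le (h.gate.2 j hj).2 with hj1 | rfl
  · by_contra hlt
    obtain ⟨σ, e1, e2, -⟩ := h.stage j hj hj1
    have h3 : (W.E.st.take q)[W.pos j]? = some σ := by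
      rw [List.getElem?_take_of_lt (not_le.1 hlt)]
      exact e1
    have h4 := h1 σ (List.mem_of_getElem? h3)
    omega
  · rw [h.k_one.2.1]
    exact hq

/-- **TA2**.   PLAN: as `cy_fw_ins_str` (`Cyl/FwdB.lean`): `valid` by `cy_fw_ins_valid`; `k_one`: length `+1`; `k_mono`: both positions are shifted; `stage`: index `pos x + 1 ≥ q + 1` of `take q ++ σ :: drop q` is index `pos x` of `st`
(`List.getElem?_append_right`, `List.getElem?_drop`, `length (take q) = q` as `q ≤ pos 1 = length`).   The other fields do not see the stack. -/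
theorem cy_t_inq_str (W : SfMD P) {tq : P.Tst → CyT} (h : W.Str tq) (q : ℕ) (σ : Stg P) (hq : ∀ x ∈ W.G, q ≤ W.pos x)
    (hc : W.E.CutAt σ.k (W.E.st.take q) (W.E.st.drop q)) (hM : ∀ i, IsMask (σ.M i)) : (W.inq q σ).Str tq := by
  have hq1 : q ≤ W.E.st.length := by
    have := hq 1 h.gate.1
    rwa [h.k_one.2.1] at this
  have hlen : (W.E.st.take q).length = q := by
    rw [List.length_take]
    exact min_eq_left hq1
  refine { valid := cy_fw_ins_valid W.E h.valid hc σ rfl hM, gate := h.gate, k_one := ⟨h.k_one.1, ?_, h.k_one.2.2⟩, k_rg := h.k_rg, k_mono := ?_,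
           stage := ?_, zero_one := h.zero_one, final := h.final, meas := h.meas, ne := h.ne, lb_ne := h.lb_ne, nn := h.nn,
           sum_le := h.sum_le, supp := h.supp, iv_in := h.iv_in, ok := h.ok, width := h.width, frame := h.frame }
  · show W.pos 1 + 1 = (W.E.st.take q ++ σ :: W.E.st.drop q).length
    rw [h.k_one.2.1, List.length_append, List.length_cons, hlen, List.length_drop]
    omega
  · intro i hi i' hi' hii
    refine ⟨(h.k_mono i hi i' hi' hii).1, ?_⟩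
    have h0 := (h.k_mono i hi i' hi' hii).2
    show W.pos i + 1 < W.pos i' + 1
    omega
  · intro i hi hi1
    obtain ⟨σ0, h1, h2⟩ := h.stage i hi hi1
    refine ⟨σ0, ?_, h2⟩
    have h0 := hq i hi
    show (W.E.st.take q ++ σ :: W.E.st.drop q)[W.pos i + 1]? = some σ0
    rw [List.getElem?_append_right (by rw [hlen]; omega), hlen]
    have h5 : W.pos i + 1 - q = (W.pos i - q) + 1 := by omega
    rw [h5, List.getElem?_cons_succ, List.getElem?_drop]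
    have h6 : q + (W.pos i - q) = W.pos i := by omega
    rw [h6]
    exact h1

/-- the state entering a gate after an insertion before all gates -/
theorem cy_t_inq_pre (W : SfMD P) (q : ℕ) (σ : Stg P) (x : ℝ) (hq : q ≤ W.pos x) (hl : W.pos x ≤ W.E.st.length) (m : ℕ) :
    (W.inq q σ).pre x m = Xp.run (W.k x) m (W.E.st.take q ++ σ :: (W.E.st.take (W.pos x)).drop q) W.E.v := by
  have hlen : (W.E.st.take q).length = q := by
    rw [List.length_take]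
    exact min_eq_left (hq.trans hl)
  have h3 : (W.E.st.take q ++ σ :: W.E.st.drop q).take (W.pos x + 1) = W.E.st.take q ++ σ :: (W.E.st.take (W.pos x)).drop q := by
    rw [List.take_append, hlen, List.take_of_length_le (by rw [hlen]; omega)]
    have h5 : W.pos x + 1 - q = (W.pos x - q) + 1 := by omega
    rw [h5, List.take_succ_cons, List.drop_take]
  show Xp.run (W.k x) m ((W.E.st.take q ++ σ :: W.E.st.drop q).take (W.pos x + 1)) W.E.v = _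
  rw [h3]

/-- preparation at all generations `≤ bm` is preparation at the generation `0` -/
theorem cy_t_A_prep0 (E : Xp P) {p0 d0 : ℝ} {k bm : ℕ} {st1 : List (Stg P)} {ξ : ℝ} (h : E.PrepAt p0 d0 k bm st1 ξ) :
    E.PrepAt p0 d0 k 0 st1 ξ :=
  ⟨h.1, fun i hi b hb => h.2 i hi b (hb.trans (Nat.zero_le _))⟩

/-- the functional after a change of the stack that loses at most `2^(ξ n)` in the readout -/
theorem cy_t_A_val (E : Xp P) (hE : E.Valid) (st' : List (Stg P)) (ξ : ℝ) (h : E.rd ≤ 2 ^ (ξ * E.n) * (E.withSt st').rd) :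
    E.s ^ ξ * E.val ≤ (E.withSt st').val := by
  have hc : 0 ≤ 2 ^ ((E.n : ℝ) / 2) / (E.e * Real.sqrt E.ka) := by
    have := hE.e_pos
    positivity
  have e1 : E.s ^ ξ * 2 ^ (ξ * E.n) = 1 := by
    rw [gn_s_rpow, ← Real.rpow_add (by norm_num)]
    simp
  have hs : 0 ≤ E.s ^ ξ := (Real.rpow_pos_of_pos (gn_s_pos E) _).le
  show E.s ^ ξ * (2 ^ ((E.n : ℝ) / 2) / (E.e * Real.sqrt E.ka) * E.rd) ≤ 2 ^ ((E.n : ℝ) / 2) / (E.e * Real.sqrt E.ka) * (E.withSt st').rd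
  calc E.s ^ ξ * (2 ^ ((E.n : ℝ) / 2) / (E.e * Real.sqrt E.ka) * E.rd)
      = 2 ^ ((E.n : ℝ) / 2) / (E.e * Real.sqrt E.ka) * (E.s ^ ξ * E.rd) := by ring
    _ ≤ 2 ^ ((E.n : ℝ) / 2) / (E.e * Real.sqrt E.ka) * (E.s ^ ξ * (2 ^ (ξ * E.n) * (E.withSt st').rd)) :=
        mul_le_mul_of_nonneg_left (mul_le_mul_of_nonneg_left h hs) hc
    _ = 2 ^ ((E.n : ℝ) / 2) / (E.e * Real.sqrt E.ka) * ((E.s ^ ξ * 2 ^ (ξ * E.n)) * (E.withSt st').rd) := by ring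
    _ = 2 ^ ((E.n : ℝ) / 2) / (E.e * Real.sqrt E.ka) * (E.withSt st').rd := by rw [e1, one_mul]

/-- the lower bound of the functional after the loss `s^ξ` -/
theorem cy_t_A_low (E : Xp P) (Γ τ ξ V : ℝ) (h : 2 ^ ((Γ - τ) * E.n) ≤ V) : 2 ^ ((Γ - (τ + ξ)) * E.n) ≤ E.s ^ ξ * V := by
  have e1 : (2 : ℝ) ^ ((Γ - (τ + ξ)) * E.n) = E.s ^ ξ * 2 ^ ((Γ - τ) * E.n) := by
    rw [gn_s_rpow, ← Real.rpow_add (by norm_num)]
    congr 1
    ring
  rw [e1]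
  exact mul_le_mul_of_nonneg_left h (Real.rpow_pos_of_pos (gn_s_pos E) _).le

/-- the stack with a stage inserted at the position `q` -/
theorem cy_t_A_list {α : Type} (l : List α) (q : ℕ) (hq : q ≤ l.length) (σ : α) :
    (l.take q ++ σ :: l.drop q).take (q + 1) = l.take q ++ [σ] ∧ (l.take q ++ σ :: l.drop q).drop (q + 1) = l.drop q := by
  have hlen : (l.take q).length = q := by
    rw [List.length_take]
    exact min_eq_left hq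
  have e : q + 1 - q = 1 := by omega
  constructor
  · rw [List.take_append, hlen, List.take_of_length_le (by rw [hlen]; omega), e]
    rfl
  · rw [List.drop_append, hlen, List.drop_of_length_le (by rw [hlen]; omega), e]
    rfl

/-- the arithmetic of the new cut -/
theorem cy_t_A_num {Y : SfCy} {p : Y.M.Par} {W : SfMD (Y.M.sys p)} {i j h a τ : ℝ} {C A : ℕ} {Ls ε : ℝ} (hin : CyIn Y p W i j h a τ C A Ls ε)
    (hh : 0 < h) (ha : a ≤ h / 4) (hn : 1 ≤ W.E.n) :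
    W.E.k0 + ⌊i * W.E.n⌋₊ < W.k j ∧ h / 2 * W.E.n ≤ ((W.E.kf - (W.E.k0 + ⌊i * W.E.n⌋₊) : ℕ) : ℝ) ∧
      ((W.E.k0 + ⌊i * W.E.n⌋₊ - W.E.k0 : ℕ) : ℝ) = (⌊i * W.E.n⌋₊ : ℝ) := by
  have hn1 : (1 : ℝ) ≤ W.E.n := by exact_mod_cast hn
  have fl : (⌊i * W.E.n⌋₊ : ℝ) ≤ i * W.E.n := Nat.floor_le (mul_nonneg hin.i_nn (Nat.cast_nonneg _))
  have dj := (cy_fw_depth (cy_fw_prev_of hin.pre) hin.j_mem).1
  have hgap : h ≤ j - i := hin.gap.1 i (Finset.mem_insert_self _ _) j (Finset.mem_insert_of_mem hin.j_mem) hin.i_lt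
  have hj1 : j ≤ 1 := (hin.pre.str.gate.2 j hin.j_mem).2
  refine ⟨?_, ?_, ?_⟩
  · have h1 : (⌊i * W.E.n⌋₊ : ℝ) < ((W.k j - W.E.k0 : ℕ) : ℝ) := by
      have : i * W.E.n < (j - a) * W.E.n := by nlinarith
      linarith
    have h2 : ⌊i * W.E.n⌋₊ < W.k j - W.E.k0 := by exact_mod_cast h1
    omega
  · have h1 : (⌊i * W.E.n⌋₊ : ℝ) ≤ (W.E.n : ℝ) := by nlinarith
    have h2 : ⌊i * W.E.n⌋₊ ≤ W.E.n := by exact_mod_cast h1
    have e : W.E.kf - (W.E.k0 + ⌊i * W.E.n⌋₊) = W.E.n - ⌊i * W.E.n⌋₊ := by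
      show W.E.k0 + W.E.n - (W.E.k0 + ⌊i * W.E.n⌋₊) = _
      omega
    rw [e, Nat.cast_sub h2]
    nlinarith
  · rw [Nat.add_sub_cancel_left]

/-- **TA3 = MOVE A**.   PLAN.   `a1` from `cy_prep_root` at `ξ`; `τ5` from `cy_prep` at `(a0 := min a1 (h/2), ξ)`; `a0 := min (h/4) τ5`, `τ0 := τ5`.   `k = k0 + ⌊i n⌋₊`: `k - k0 ≤ i n`, `k j - k0 ≥ (j - a) n` (`cy_fw_depth`), so `k < k j`, `kf - k ≥ (h/2) n`.
`q` from `cy_t_cut_ex`; all gates have `pos ≥ pos j ≥ q` (`first`, `k_mono`).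
 (a) `k - k0 ≤ a1 n`: `W1 = W`, `cy_prep_root`, `gn_cls_mono`, `s^ξ ≤ 1`.      (b) otherwise `cy_prep` (`Cnt` by `cy_fw_count`, `a ≤ τ5`): `σ`; `W1 = W.inq q σ`, new `q := q + 1` (`take (q+1) = take q ++ [σ]`, `drop (q+1) = drop q`; cut by `cy_fw_cut_ins`/`cy_fw_cut_after`);
`Str` by `cy_t_inq_str`, `Pre` by `cy_fw_pre_re`; `val`: same `e, κ, n`, `rd ≤ 2^(ξn) rd'`; `PrepAt` at `bm = C` implies `bm = 0`. -/
theorem cy_t_A (Y : SfCy) (H : CyHyp Y) (hΓ : 0 < Y.M.Gam) : CyStepA Y := by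
  intro h ξ hh hξ
  have hpl : Y.M.Flat := H.pl_univ
  obtain ⟨a1, ha1, HR⟩ := cy_prep_root Y.M _ H.gen hpl hΓ ξ hξ
  obtain ⟨τ5, hτ5, HP⟩ := cy_prep Y.M _ H.gen hpl hΓ (min a1 (h / 2)) ξ (lt_min ha1 (by positivity)) hξ
  refine ⟨min (h / 4) τ5, τ5, lt_min (by positivity) hτ5, hτ5, fun C => ?_⟩
  obtain ⟨nR, HR⟩ := HR C
  obtain ⟨A5, n5, HP⟩ := HP C
  refine ⟨A5, max 1 (max nR n5), ?_⟩
  intro A p W i j Ls ε a τ hA hn ha0 ha hτ0 hτ hin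
  have hn1 : 1 ≤ W.E.n := (le_max_left _ _).trans hn
  have hnR : nR ≤ W.E.n := ((le_max_left _ _).trans (le_max_right _ _)).trans hn
  have hn5 : n5 ≤ W.E.n := ((le_max_right _ _).trans (le_max_right _ _)).trans hn
  have hstr := hin.pre.str
  have hE := hstr.valid
  obtain ⟨hk, hkf, hke⟩ := cy_t_A_num hin hh (ha.trans (min_le_left _ _)) hn1
  obtain ⟨q, hq, hcut⟩ := cy_t_cut_ex W hstr hin.j_mem (W.E.k0 + ⌊i * W.E.n⌋₊) (Nat.le_add_right _ _) hk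
  have hqall : ∀ x ∈ W.G, q ≤ W.pos x := by
    intro x hx
    rcases eq_or_lt_of_le (hin.first x hx) with h1 | h1
    · rw [← h1]
      exact hq
    · exact hq.trans (hstr.k_mono j hin.j_mem x hx h1).2.le
  have hsub : CySubLab W.E W.E := ⟨id, Function.injective_id, fun l => ⟨rfl, rfl, fun x => Or.inl rfl⟩⟩
  have hval0 : 0 ≤ W.E.val := le_trans (by positivity) hin.val
  have hs1 : W.E.s ^ ξ ≤ 1 := Real.rpow_le_one (gn_s_pos W.E).le (gn_s_le_one W.E) hξ.le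
  have hlow := cy_t_A_low W.E Y.M.Gam τ ξ W.E.val hin.val
  by_cases hcase : ((W.E.k0 + ⌊i * W.E.n⌋₊ - W.E.k0 : ℕ) : ℝ) ≤ a1 * W.E.n
  · refine ⟨W, W.E.k0 + ⌊i * W.E.n⌋₊, q, ⟨rfl, rfl, ⟨rfl, rfl, rfl, rfl, rfl, rfl⟩, rfl, hsub, cy_keep_refl W⟩, ?_, ?_⟩
    · calc W.E.s ^ ξ * W.E.val ≤ 1 * W.E.val := mul_le_mul_of_nonneg_right hs1 hval0
        _ = W.E.val := one_mul _
    · refine ⟨⟨gn_cls_mono Y.M H.gen.scale (Nat.le_succ C) hin.cls, hin.card.trans (Nat.le_succ C), hin.i_nn, hin.i_lt, hin.j_mem, hin.first,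
        hin.gap, hin.pre, ?_⟩, rfl, hcut, hq, cy_t_A_prep0 W.E (HR A p W.E hnR hin.cls _ _ _ hcut hcase)⟩
      refine hlow.trans ?_
      calc W.E.s ^ ξ * W.E.val ≤ 1 * W.E.val := mul_le_mul_of_nonneg_right hs1 hval0
        _ = W.E.val := one_mul _
  · have hcase' : a1 * W.E.n < ((W.E.k0 + ⌊i * W.E.n⌋₊ - W.E.k0 : ℕ) : ℝ) := not_le.1 hcase
    have hnn : (0 : ℝ) ≤ W.E.n := Nat.cast_nonneg _
    have hcnt : W.E.Cnt (Y.M.p0 + Y.M.d0) τ5 := cy_fw_count (cy_fw_prev_of hin.pre) (ha.trans (min_le_right _ _))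
    have hv5 : (2 : ℝ) ^ ((Y.M.Gam - τ5) * W.E.n) ≤ W.E.val := by
      refine le_trans ?_ hin.val
      refine Real.rpow_le_rpow_of_exponent_le (by norm_num) ?_
      exact mul_le_mul_of_nonneg_right (by linarith) hnn
    obtain ⟨σ, hσk, hσb, hmeas, h01, -, hrd, hprep⟩ := HP p W.E hn5 (gn_cls_anti Y.M H.gen.scale hA hin.cls) hcnt hv5 _ _ _ hcut
      ((mul_le_mul_of_nonneg_right (min_le_left _ _) hnn).trans hcase'.le)
      ((mul_le_mul_of_nonneg_right (min_le_right _ _) hnn).trans hkf)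
    have hM : ∀ m, IsMask (σ.M m) := fun m => ⟨hmeas m, fun x => by
      rcases h01 m x with e | e <;> rw [e] <;> norm_num⟩
    have hcutσ : W.E.CutAt σ.k (W.E.st.take q) (W.E.st.drop q) := by
      rw [hσk]
      exact hcut
    have hstr1 : (W.inq q σ).Str (Y.tq p) := cy_t_inq_str W hstr q σ hqall hcutσ hM
    obtain ⟨l1, l2⟩ := cy_t_A_list W.E.st q (hq.trans (cy_fw_b_pos_le W hstr hin.j_mem)) σ
    have hv1 : W.E.s ^ ξ * W.E.val ≤ (W.inq q σ).E.val := cy_t_A_val W.E hE _ ξ hrd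
    refine ⟨W.inq q σ, W.E.k0 + ⌊i * W.E.n⌋₊, q + 1, ⟨rfl, rfl, ⟨rfl, rfl, rfl, rfl, rfl, rfl⟩, rfl, hsub, fun _ _ => ⟨rfl, fun l => ⟨l, rfl, rfl⟩⟩⟩, hv1, ?_⟩
    refine ⟨⟨?_, hin.card.trans (Nat.le_succ C), hin.i_nn, hin.i_lt, hin.j_mem, hin.first, hin.gap,
      cy_fw_pre_re hin.pre _ _ hstr1, hlow.trans hv1⟩, rfl, ?_, Nat.succ_le_succ hq, ?_⟩
    · exact cy_fw_ins_cls Y.M H.gen.root (gn_cls_mono Y.M H.gen.scale (Nat.le_succ C) hin.cls) (Nat.succ_le_succ hin.cls.2.2.1) hcut σ hσk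
        (by rw [hσb]; exact Nat.zero_le _) hM
    · show (W.E.withSt (W.E.st.take q ++ σ :: W.E.st.drop q)).CutAt _ ((W.E.st.take q ++ σ :: W.E.st.drop q).take (q + 1))
        ((W.E.st.take q ++ σ :: W.E.st.drop q).drop (q + 1))
      rw [l1, l2, ← hσk]
      exact cy_fw_cut_after _ (cy_fw_cut_ins W.E hcut σ hσk)
    · show (W.E.withSt (W.E.st.take q ++ σ :: W.E.st.drop q)).PrepAt _ _ _ 0 ((W.E.st.take q ++ σ :: W.E.st.drop q).take (q + 1)) ξ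
      rw [l1]
      exact cy_t_A_prep0 _ hprep

theorem cy_light_valid (E : Xp P) (hE : E.Valid) (sa sb : List (Stg P)) (σ : Stg P) (hst : E.st = sa ++ σ :: sb) (N : ℕ → P.X → ℝ) (hN : ∀ i, IsMask (N i)) :
    (E.withSt (sa ++ ⟨σ.k, σ.b, N⟩ :: sb)).Valid := by
  have hmem : ∀ σ' ∈ sa ++ (⟨σ.k, σ.b, N⟩ : Stg P) :: sb, σ' ∈ E.st ∨ σ' = ⟨σ.k, σ.b, N⟩ := by
    intro σ' h'
    rw [List.mem_append, List.mem_cons] at h'
    rw [hst]
    rcases h' with h' | h' | h'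
    · left
      simp [h']
    · right
      exact h'
    · left
      simp [h']
  have hσ : σ ∈ E.st := by
    rw [hst]
    simp
  refine { e_pos := hE.e_pos, ka_pos := hE.ka_pos, budget := hE.budget, plat := hE.plat, reg := hE.reg, st_dep := ?_, st_mono := ?_, st_meas := ?_, st_bd := ?_,
           iv_in := hE.iv_in, ts_ok := hE.ts_ok, w_pos := hE.w_pos, th_meas := hE.th_meas, th_nn := hE.th_nn, th_supp := hE.th_supp, th_sum := hE.th_sum }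
  · intro σ' h'
    rcases hmem σ' h' with h' | rfl
    · exact hE.st_dep σ' h'
    · exact hE.st_dep σ hσ
  · have h1 := hE.st_mono
    rw [hst] at h1
    have h2 : ((sa ++ σ :: sb).map (fun τ => τ.k)).Pairwise (fun a b => a ≤ b) := List.pairwise_map.2 h1
    have h3 : (sa ++ (⟨σ.k, σ.b, N⟩ : Stg P) :: sb).map (fun τ => τ.k) = (sa ++ σ :: sb).map (fun τ => τ.k) := by simp
    rw [← h3] at h2
    exact List.pairwise_map.1 h2
  · intro σ' h'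
    rcases hmem σ' h' with h' | rfl
    · exact hE.st_meas σ' h'
    · exact fun i => (hN i).1
  · intro σ' h'
    rcases hmem σ' h' with h' | rfl
    · exact hE.st_bd σ' h'
    · exact fun i => (hN i).2

theorem cy_light_cls (M : Mdl) (hR : M.AdmRoot) {C A : ℕ} {p : M.Par} {E : Xp (M.sys p)} (hE : M.Cls C A p E) (sa sb : List (Stg (M.sys p))) (σ : Stg (M.sys p))
    (hst : E.st = sa ++ σ :: sb) (N : ℕ → (M.sys p).X → ℝ) (hN : ∀ i, IsMask (N i)) : M.Cls C A p (E.withSt (sa ++ ⟨σ.k, σ.b, N⟩ :: sb)) := by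
  obtain ⟨h1, h2, h3, h4, h5⟩ := hE
  have hσ : σ ∈ E.st := by
    rw [hst]
    simp
  refine ⟨h1, cy_light_valid E h2 sa sb σ hst N hN, ?_, ⟨h4.1, h4.2.1, ?_⟩, hR C A p E _ h5 ⟨rfl, rfl, rfl, rfl, rfl, rfl⟩ rfl⟩
  · rw [hst] at h3
    show (sa ++ (⟨σ.k, σ.b, N⟩ : Stg (M.sys p)) :: sb).length ≤ C
    simpa using h3
  · intro σ' h'
    have h'' : σ' ∈ sa ++ (⟨σ.k, σ.b, N⟩ : Stg (M.sys p)) :: sb := h'
    rw [List.mem_append, List.mem_cons] at h''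
    rcases h'' with h'' | rfl | h''
    · exact h4.2.2 σ' (by rw [hst]; simp [h''])
    · exact h4.2.2 σ hσ
    · exact h4.2.2 σ' (by rw [hst]; simp [h''])

theorem cy_light_cube {x y z : ℝ} (hx : 0 ≤ x) (hy : 0 ≤ y) (hz : 0 ≤ z) (h : x ^ (1 / 3 : ℝ) ≤ y ^ (1 / 3 : ℝ) + z ^ (1 / 3 : ℝ)) (hzx : z ≤ x / 8) : x ≤ 8 * y := by
  have e : ∀ t : ℝ, 0 ≤ t → (t ^ (1 / 3 : ℝ)) ^ 3 = t := by
    intro t ht
    rw [← Real.rpow_natCast, ← Real.rpow_mul ht]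
    norm_num
  obtain ⟨X, hX⟩ : ∃ X, X = x ^ (1 / 3 : ℝ) := ⟨_, rfl⟩
  obtain ⟨Y, hY⟩ : ∃ Y, Y = y ^ (1 / 3 : ℝ) := ⟨_, rfl⟩
  obtain ⟨Z, hZ⟩ : ∃ Z, Z = z ^ (1 / 3 : ℝ) := ⟨_, rfl⟩
  have hX0 : 0 ≤ X := by rw [hX]; exact Real.rpow_nonneg hx _
  have hY0 : 0 ≤ Y := by rw [hY]; exact Real.rpow_nonneg hy _
  have hX3 : X ^ 3 = x := by rw [hX]; exact e x hx
  have hY3 : Y ^ 3 = y := by rw [hY]; exact e y hy
  have hZ3 : Z ^ 3 = z := by rw [hZ]; exact e z hz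
  rw [← hX, ← hY, ← hZ] at h
  have hZX : Z ≤ X / 2 := by
    apply le_of_pow_le_pow_left₀ (n := 3) (by norm_num) (by positivity)
    rw [hZ3, div_pow, hX3]
    norm_num
    exact hzx
  have h2 : X ≤ 2 * Y := by linarith
  calc x = X ^ 3 := hX3.symm
    _ ≤ (2 * Y) ^ 3 := pow_le_pow_left₀ hX0 h2 3
    _ = 8 * y := by rw [mul_pow, hY3]; norm_num

theorem cy_light_arith {Γ γ n m n' Cc C2 Cr e κ κ2 S N p0 d0 rdl rd val : ℝ} (hΓ : 0 ≤ Γ) (hγ : 0 < γ) (hm : 0 ≤ m) (hn' : 0 ≤ n') (hmn : m + n' = n)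
    (hCc : 0 ≤ Cc) (hC2 : Cc + 4 + γ ≤ C2) (hCr : 1 ≤ Cr) (he : 0 < e) (hκ : 0 < κ) (hκ2' : κ2 ≤ 2 ^ (Cc * n) * κ) (hNS : N ≤ S)
    (hd : d0 = Γ + (p0 - 1) / 2)
    (H1 : Real.sqrt κ2 * S ≤ 2 ^ (-(γ * n)) * (e * 2 ^ (d0 * m) * Real.sqrt (κ * 2 ^ (-(p0 * m)))))
    (H2 : rdl ≤ 2 ^ (-((1 / 2 - Γ - γ / 4) * n')) * Real.sqrt (Cr * κ2) * (N + 2 ^ (-(C2 * n)) * e))
    (H3 : rd = 2 ^ (-(n / 2)) * (e * Real.sqrt κ) * val) (H3' : 2 ^ ((Γ - γ / 4) * n) ≤ val)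
    (H4 : 16 * Real.sqrt Cr ≤ 2 ^ (γ / 2 * n)) : rdl ≤ rd / 8 := by
  subst hmn
  subst hd
  obtain ⟨a, ha⟩ : ∃ a, a = e * Real.sqrt κ := ⟨_, rfl⟩
  have ha0 : 0 < a := by
    rw [ha]
    exact mul_pos he (Real.sqrt_pos.2 hκ)
  obtain ⟨sC, hsC⟩ : ∃ sC, sC = Real.sqrt Cr := ⟨_, rfl⟩
  have hsC0 : 0 ≤ sC := by
    rw [hsC]
    exact Real.sqrt_nonneg _
  obtain ⟨z, hz⟩ : ∃ z, z = -((1 / 2 - Γ) * (m + n')) - 3 * γ / 4 * (m + n') := ⟨_, rfl⟩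
  have hsq : Real.sqrt (Cr * κ2) = sC * Real.sqrt κ2 := by
    rw [hsC, Real.sqrt_mul (by linarith)]
  have hs1 : Real.sqrt (κ * 2 ^ (-(p0 * m))) = Real.sqrt κ * 2 ^ (-(p0 * m) / 2) := by
    rw [Real.sqrt_mul hκ.le, gn_two_sqrt]
  have hs2 : Real.sqrt κ2 ≤ 2 ^ (Cc * (m + n') / 2) * Real.sqrt κ := by
    calc Real.sqrt κ2 ≤ Real.sqrt (2 ^ (Cc * (m + n')) * κ) := Real.sqrt_le_sqrt hκ2'
      _ = _ := by rw [Real.sqrt_mul (gn_two_pos _).le, gn_two_sqrt]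
  have hT1 : 2 ^ (-((1 / 2 - Γ - γ / 4) * n')) * (Real.sqrt κ2 * N) ≤ a * 2 ^ z := by
    have h1 : Real.sqrt κ2 * N ≤ a * 2 ^ (-(γ * (m + n')) + (Γ + (p0 - 1) / 2) * m + -(p0 * m) / 2) := by
      calc Real.sqrt κ2 * N ≤ Real.sqrt κ2 * S := mul_le_mul_of_nonneg_left hNS (Real.sqrt_nonneg _)
        _ ≤ _ := H1
        _ = _ := by
          rw [hs1, gn_two_add, gn_two_add, ha]
          ring
    calc 2 ^ (-((1 / 2 - Γ - γ / 4) * n')) * (Real.sqrt κ2 * N)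
        ≤ 2 ^ (-((1 / 2 - Γ - γ / 4) * n')) * (a * 2 ^ (-(γ * (m + n')) + (Γ + (p0 - 1) / 2) * m + -(p0 * m) / 2)) :=
          mul_le_mul_of_nonneg_left h1 (gn_two_pos _).le
      _ = a * 2 ^ (-((1 / 2 - Γ - γ / 4) * n') + (-(γ * (m + n')) + (Γ + (p0 - 1) / 2) * m + -(p0 * m) / 2)) := by
          rw [gn_two_add (-((1 / 2 - Γ - γ / 4) * n'))]
          ring
      _ ≤ a * 2 ^ z := by
          apply mul_le_mul_of_nonneg_left _ ha0.le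
          apply gn_two_mono
          rw [hz]
          nlinarith [mul_nonneg hγ.le hm]
  have hT2 : 2 ^ (-((1 / 2 - Γ - γ / 4) * n')) * (Real.sqrt κ2 * (2 ^ (-(C2 * (m + n'))) * e)) ≤ a * 2 ^ z := by
    have h1 : Real.sqrt κ2 * (2 ^ (-(C2 * (m + n'))) * e) ≤ a * 2 ^ (Cc * (m + n') / 2 + -(C2 * (m + n'))) := by
      calc Real.sqrt κ2 * (2 ^ (-(C2 * (m + n'))) * e) ≤ (2 ^ (Cc * (m + n') / 2) * Real.sqrt κ) * (2 ^ (-(C2 * (m + n'))) * e) :=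
            mul_le_mul_of_nonneg_right hs2 (mul_nonneg (gn_two_pos _).le he.le)
        _ = _ := by
          rw [gn_two_add, ha]
          ring
    calc 2 ^ (-((1 / 2 - Γ - γ / 4) * n')) * (Real.sqrt κ2 * (2 ^ (-(C2 * (m + n'))) * e))
        ≤ 2 ^ (-((1 / 2 - Γ - γ / 4) * n')) * (a * 2 ^ (Cc * (m + n') / 2 + -(C2 * (m + n')))) :=
          mul_le_mul_of_nonneg_left h1 (gn_two_pos _).le
      _ = a * 2 ^ (-((1 / 2 - Γ - γ / 4) * n') + (Cc * (m + n') / 2 + -(C2 * (m + n')))) := by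
          rw [gn_two_add (-((1 / 2 - Γ - γ / 4) * n'))]
          ring
      _ ≤ a * 2 ^ z := by
          apply mul_le_mul_of_nonneg_left _ ha0.le
          apply gn_two_mono
          rw [hz]
          have p1 : 0 ≤ Γ * m := mul_nonneg hΓ hm
          have p2 : 0 ≤ γ * m := mul_nonneg hγ.le hm
          have p3 : 0 ≤ (C2 - Cc - 4 - γ) * (m + n') := mul_nonneg (by linarith) (by linarith)
          have p4 : 0 ≤ Cc * (m + n') := mul_nonneg hCc (by linarith)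
          nlinarith [p1, p2, p3, p4]
  have hfin : rdl ≤ 2 * sC * (a * 2 ^ z) := by
    calc rdl ≤ 2 ^ (-((1 / 2 - Γ - γ / 4) * n')) * Real.sqrt (Cr * κ2) * (N + 2 ^ (-(C2 * (m + n'))) * e) := H2
      _ = sC * (2 ^ (-((1 / 2 - Γ - γ / 4) * n')) * (Real.sqrt κ2 * N)) + sC * (2 ^ (-((1 / 2 - Γ - γ / 4) * n')) * (Real.sqrt κ2 * (2 ^ (-(C2 * (m + n'))) * e))) := by
          rw [hsq]
          ring
      _ ≤ sC * (a * 2 ^ z) + sC * (a * 2 ^ z) := add_le_add (mul_le_mul_of_nonneg_left hT1 hsC0) (mul_le_mul_of_nonneg_left hT2 hsC0)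
      _ = _ := by ring
  have hrd : a * (2 ^ z * 2 ^ (γ / 2 * (m + n'))) ≤ rd := by
    rw [H3, ← ha, ← gn_two_add]
    calc a * 2 ^ (z + γ / 2 * (m + n')) = 2 ^ (-((m + n') / 2)) * a * 2 ^ ((Γ - γ / 4) * (m + n')) := by
          have : z + γ / 2 * (m + n') = -((m + n') / 2) + (Γ - γ / 4) * (m + n') := by
            rw [hz]
            ring
          rw [this, gn_two_add]
          ring
      _ ≤ 2 ^ (-((m + n') / 2)) * a * val := mul_le_mul_of_nonneg_left H3' (mul_nonneg (gn_two_pos _).le ha0.le)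
  have hz0 : 0 < a * 2 ^ z := mul_pos ha0 (gn_two_pos _)
  rw [← hsC] at H4
  have h5 : 16 * sC * (a * 2 ^ z) ≤ 2 ^ (γ / 2 * (m + n')) * (a * 2 ^ z) := mul_le_mul_of_nonneg_right H4 hz0.le
  have h6 : 2 ^ (γ / 2 * (m + n')) * (a * 2 ^ z) = a * (2 ^ z * 2 ^ (γ / 2 * (m + n'))) := by ring
  linarith

/-- **TB1** (02 l.618-628, generic).   PLAN.   `ε = τ = γ/4`.   `E_l`, `E_h` = `E` with the mask `Ml`, `Mh` (`cy_split_mask` with two parts): `rd^(1/3) ≤ rd_h^(1/3) + rd_l^(1/3)`.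
`E_l ∈ Cls` (`hG.root`, validity as `cy_fw_ins_valid`), package raised to `C2 = C + 4 + ⌈γ⌉₊` (`gn_cls_mono`); `gn_tail` at the cut after the stage: states `tz (Ml i) ψ_i`, `Cr κ''`-regular (`gn_rep_stage`), `Σ ‖·‖² ≤ Σ en (Ml i) ψ_i` (`gn_tz_normsq_le`, `gn_en_mono`);
`d0 - p0/2 = Γ - 1/2`:   `rd_l ≤ 2 √Cr 2^((ε - γ) n) 2^(-(1/2 - Γ) n) e √κ ≤ 2 √Cr 2^((ε + τ - γ) n) rd ≤ rd / 8` (`gn_rd_of_val`).   Hence `rd^(1/3) ≤ 2 rd_h^(1/3)`. -/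
theorem cy_light (M : Mdl) (g : ℝ) (hG : M.Gen g) (hpl : M.Flat) (hΓ : 0 < M.Gam) (a0 γ : ℝ) (ha : 0 < a0) (hγ : 0 < γ) :
    ∃ τ : ℝ, 0 < τ ∧ ∀ C : ℕ, ∃ A n0 : ℕ, ∀ (p : M.Par) (E : Xp (M.sys p)), n0 ≤ E.n → M.Cls C A p E → 2 ^ ((M.Gam - τ) * E.n) ≤ E.val →
      ∀ (sa sb : List (Stg (M.sys p))) (σ : Stg (M.sys p)) (Mh Ml : ℕ → (M.sys p).X → ℝ) (κ'' : ℝ), E.CutAt σ.k sa (σ :: sb) → a0 * E.n ≤ ((E.kf - σ.k : ℕ) : ℝ) →
        (∀ i, IsMask (Mh i)) → (∀ i, IsMask (Ml i)) → (∀ i x, Mh i x + Ml i x = σ.M i x) → E.s ^ (C : ℝ) * E.ka ≤ κ'' → κ'' ≤ E.s ^ (-(C : ℝ)) * E.ka →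
        (∀ i ∈ ivs E.k0 E.i0 σ.k, (M.sys p).Reg (tmL σ.k i) σ.k σ.b κ'' (E.at' σ.k i sa)) →
        Real.sqrt κ'' * ∑ i ∈ ivs E.k0 E.i0 σ.k, (M.sys p).en (tmL σ.k i) σ.k σ.b (Ml i) (E.at' σ.k i sa)
          ≤ 2 ^ (-(γ * E.n)) * (E.e * 2 ^ (M.d0 * ((σ.k - E.k0 : ℕ) : ℝ)) * Real.sqrt (E.ka * 2 ^ (-(M.p0 * ((σ.k - E.k0 : ℕ) : ℝ))))) →
        E.rd ≤ 8 * (E.withSt (sa ++ ⟨σ.k, σ.b, Mh⟩ :: sb)).rd := by
  have hrate : M.Rate M.Gam := by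
    have hne : ({γ : ℝ | 0 ≤ γ ∧ M.Rate γ}).Nonempty := by
      by_contra hemp
      rw [Set.not_nonempty_iff_eq_empty] at hemp
      have : M.Gam = 0 := by
        unfold Mdl.Gam
        rw [hemp, Real.sInf_empty]
      linarith
    obtain ⟨γ0, h0, h1⟩ := hne
    exact M.bs_rate_gam h0 h1
  refine ⟨γ / 4, by positivity, fun C => ?_⟩
  obtain ⟨C2, hC2⟩ : ∃ C2 : ℕ, C2 = C + 4 + ⌈γ⌉₊ := ⟨_, rfl⟩
  have hC2r : (C : ℝ) + 4 + γ ≤ (C2 : ℝ) := by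
    rw [hC2]
    push_cast
    linarith [Nat.le_ceil γ]
  obtain ⟨Cr, hCr, Hrep⟩ := gn_rep_stage M g hG C
  obtain ⟨A, n1, Htail⟩ := gn_tail M g hG M.Gam hrate C2 a0 (γ / 4) ha (by positivity)
  obtain ⟨n2, hn2⟩ := gn_absorb Cr 1 one_pos
  obtain ⟨n3, hn3⟩ := gn_absorb (16 * Real.sqrt Cr) (γ / 2) (by positivity)
  refine ⟨A, max n1 (max n2 n3), ?_⟩
  intro p E hn hE hval sa sb σ Mh Ml κ'' hc hk hMh hMl hsum hκlo hκhi hreg hsmall
  have hn1 : n1 ≤ E.n := (le_max_left _ _).trans hn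
  have hn2' : n2 ≤ E.n := ((le_max_left _ _).trans (le_max_right _ _)).trans hn
  have hn3' : n3 ≤ E.n := ((le_max_right _ _).trans (le_max_right _ _)).trans hn
  have hV := hE.2.1
  have hgd := hE.1
  have hT := hG.tight p hgd
  have hst : E.st = sa ++ σ :: sb := hc.1
  have hσmem : σ ∈ E.st := by
    rw [hst]
    simp
  have hσb : σ.b ≤ C := hE.2.2.2.1.2.2 σ hσmem
  have hVl := cy_light_valid E hV sa sb σ hst Ml hMl
  have hVh := cy_light_valid E hV sa sb σ hst Mh hMh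
  have hsplit : E.rd ^ (1 / 3 : ℝ) ≤ (E.withSt (sa ++ ⟨σ.k, σ.b, Mh⟩ :: sb)).rd ^ (1 / 3 : ℝ) + (E.withSt (sa ++ ⟨σ.k, σ.b, Ml⟩ :: sb)).rd ^ (1 / 3 : ℝ) := by
    have h1 := cy_split_mask hT E hV sa sb σ hst (Finset.univ : Finset Bool) (fun j => cond j Mh Ml)
      (fun j _ i => by cases j; exact hMl i; exact hMh i) (fun i x => by rw [Fintype.sum_bool]; exact hsum i x)
    rw [Fintype.sum_bool] at h1
    exact h1
  have hCl : M.Cls C2 A p (E.withSt (sa ++ ⟨σ.k, σ.b, Ml⟩ :: sb)) :=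
    gn_cls_mono M hG.scale (by omega) (cy_light_cls M hG.root hE sa sb σ hst Ml hMl)
  have hcl : (E.withSt (sa ++ ⟨σ.k, σ.b, Ml⟩ :: sb)).CutAt σ.k (sa ++ [⟨σ.k, σ.b, Ml⟩]) sb := by
    refine ⟨?_, ?_, fun τ hτ => hc.2.2.1 τ (List.mem_cons_of_mem _ hτ), hc.2.2.2.1, hc.2.2.2.2⟩
    · show sa ++ (⟨σ.k, σ.b, Ml⟩ : Stg (M.sys p)) :: sb = (sa ++ [⟨σ.k, σ.b, Ml⟩]) ++ sb
      simp
    · intro τ hτ
      rw [List.mem_append, List.mem_singleton] at hτ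
      rcases hτ with hτ | hτ
      · exact hc.2.1 τ hτ
      · rw [hτ]
  have hat : ∀ i, (E.withSt (sa ++ ⟨σ.k, σ.b, Ml⟩ :: sb)).at' σ.k i (sa ++ [⟨σ.k, σ.b, Ml⟩]) = (M.sys p).tz (tmL σ.k i) σ.k σ.b (Ml i) (E.at' σ.k i sa) := by
    intro i
    show Xp.run σ.k i (sa ++ [⟨σ.k, σ.b, Ml⟩]) E.v = _
    rw [gn_run_append]
    simp only [Xp.run, gn_anc_self]
    rfl
  have hκ0 : 0 < E.ka := hV.ka_pos
  have hκ''0 : 0 ≤ κ'' := le_trans (mul_nonneg (Real.rpow_nonneg (gn_s_pos E).le _) hκ0.le) hκlo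
  have hnn : (0 : ℝ) ≤ E.n := Nat.cast_nonneg _
  have hlo : (E.withSt (sa ++ ⟨σ.k, σ.b, Ml⟩ :: sb)).s ^ (C2 : ℝ) * (E.withSt (sa ++ ⟨σ.k, σ.b, Ml⟩ :: sb)).ka ≤ Cr * κ'' := by
    show E.s ^ (C2 : ℝ) * E.ka ≤ Cr * κ''
    have h1 : E.s ^ (C2 : ℝ) ≤ E.s ^ (C : ℝ) := gn_s_anti E (by linarith)
    have h2 : E.s ^ (C2 : ℝ) * E.ka ≤ E.s ^ (C : ℝ) * E.ka := mul_le_mul_of_nonneg_right h1 hκ0.le
    nlinarith
  have hκhi' : κ'' ≤ 2 ^ ((C : ℝ) * E.n) * E.ka := by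
    rw [gn_s_rpow] at hκhi
    have : -(-(C : ℝ) * (E.n : ℝ)) = (C : ℝ) * E.n := by ring
    rwa [this] at hκhi
  have hhi : Cr * κ'' ≤ (E.withSt (sa ++ ⟨σ.k, σ.b, Ml⟩ :: sb)).s ^ (-(C2 : ℝ)) * (E.withSt (sa ++ ⟨σ.k, σ.b, Ml⟩ :: sb)).ka := by
    show Cr * κ'' ≤ E.s ^ (-(C2 : ℝ)) * E.ka
    rw [gn_s_rpow]
    have h1 := hn2 E.n hn2'
    calc Cr * κ'' ≤ 2 ^ (1 * (E.n : ℝ)) * (2 ^ ((C : ℝ) * E.n) * E.ka) :=
          mul_le_mul h1 hκhi' hκ''0 (gn_two_pos _).le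
      _ = 2 ^ (1 * (E.n : ℝ) + (C : ℝ) * E.n) * E.ka := by
          rw [gn_two_add]
          ring
      _ ≤ 2 ^ (-(-(C2 : ℝ) * (E.n : ℝ))) * E.ka := by
          apply mul_le_mul_of_nonneg_right _ hκ0.le
          apply gn_two_mono
          nlinarith
  have t1 : n1 ≤ (E.withSt (sa ++ ⟨σ.k, σ.b, Ml⟩ :: sb)).n := hn1
  have t2 : a0 * ((E.withSt (sa ++ ⟨σ.k, σ.b, Ml⟩ :: sb)).n : ℝ) ≤ (((E.withSt (sa ++ ⟨σ.k, σ.b, Ml⟩ :: sb)).kf - σ.k : ℕ) : ℝ) := hk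
  have t3 : σ.b + 1 ≤ C2 := by omega
  have htl := Htail p (E.withSt (sa ++ ⟨σ.k, σ.b, Ml⟩ :: sb)) t1 hCl σ.k (σ.b + 1) (sa ++ [⟨σ.k, σ.b, Ml⟩]) sb (Cr * κ'') hcl t2 t3 hlo hhi (fun i hi => by
    rw [hat i]
    exact Hrep p hgd (tmL σ.k i) σ.k σ.b (σ.b + 1) κ'' (Ml i) (E.at' σ.k i sa) (hMl i) hσb (by omega) (hreg i hi))
  have hNS : ∑ i ∈ ivs E.k0 E.i0 σ.k, ‖(E.withSt (sa ++ ⟨σ.k, σ.b, Ml⟩ :: sb)).at' σ.k i (sa ++ [⟨σ.k, σ.b, Ml⟩])‖ ^ 2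
      ≤ ∑ i ∈ ivs E.k0 E.i0 σ.k, (M.sys p).en (tmL σ.k i) σ.k σ.b (Ml i) (E.at' σ.k i sa) := by
    refine Finset.sum_le_sum fun i _ => ?_
    rw [hat i]
    refine (gn_tz_normsq_le hT _ _ _ (hMl i) _).trans ?_
    refine gn_en_mono _ _ _ (gn_mask_sq (hMl i)) (hMl i) (fun x => ?_) _
    have h1 := (hMl i).2 x
    nlinarith [h1.1, h1.2]
  have hmn : (((σ.k - E.k0 : ℕ) : ℝ)) + ((E.kf - σ.k : ℕ) : ℝ) = (E.n : ℝ) := by
    have h1 := hc.2.2.2.1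
    have h2 := hc.2.2.2.2
    have h3 : (σ.k - E.k0) + (E.kf - σ.k) = E.n := by
      unfold Xp.kf at *
      omega
    exact_mod_cast h3
  have hrdl : (E.withSt (sa ++ ⟨σ.k, σ.b, Ml⟩ :: sb)).rd ≤ E.rd / 8 := by
    refine cy_light_arith (Γ := M.Gam) (γ := γ) (n := E.n) (m := ((σ.k - E.k0 : ℕ) : ℝ)) (n' := ((E.kf - σ.k : ℕ) : ℝ)) (Cc := C) (C2 := C2) (Cr := Cr)
      (e := E.e) (κ := E.ka) (κ2 := κ'') (p0 := M.p0) (d0 := M.d0) (val := E.val) hΓ.le hγ (Nat.cast_nonneg _) (Nat.cast_nonneg _) hmn (Nat.cast_nonneg _) hC2r hCr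
      hV.e_pos hκ0 hκhi' hNS rfl hsmall ?_ (gn_rd_of_val E hV) hval (hn3 E.n hn3')
    have h1 : (E.withSt (sa ++ ⟨σ.k, σ.b, Ml⟩ :: sb)).s ^ (C2 : ℝ) = 2 ^ (-((C2 : ℝ) * E.n)) := gn_s_rpow E _
    rw [h1] at htl
    exact htl
  exact cy_light_cube (gn_rd_nonneg E hV) (gn_rd_nonneg _ hVh) (gn_rd_nonneg _ hVl) hsplit hrdl

/-- **TB2**.   PLAN: `gn_rd_eq`, split the sum; `gn_tr_le_w`: `Σ_S tr ≤ ρ^(3/2) tw ≤ rd / 2`. -/
theorem cy_light_end (E : Xp P) (hE : E.Valid) (ρ : ℝ) (hρ : 0 ≤ ρ) (S : Finset (Fin E.L)) (hS : ∀ l ∈ S, E.m l ≤ ρ * E.w l)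
    (h : 2 * (ρ ^ (3 / 2 : ℝ) * E.tw) ≤ E.rd) : E.rd ≤ 2 * ∑ l ∈ Sᶜ, E.tr l := by
  have h1 : E.rd = ∑ l ∈ S, E.tr l + ∑ l ∈ Sᶜ, E.tr l := by
    rw [gn_rd_eq, Finset.sum_add_sum_compl]
  have h2 : ∑ l ∈ S, E.tr l ≤ ρ ^ (3 / 2 : ℝ) * E.tw := by
    calc ∑ l ∈ S, E.tr l ≤ ∑ l ∈ S, ρ ^ (3 / 2 : ℝ) * E.w l := Finset.sum_le_sum fun l hl => gn_tr_le_w E hE l hρ (hS l hl)
      _ ≤ ∑ l, ρ ^ (3 / 2 : ℝ) * E.w l :=
          Finset.sum_le_sum_of_subset_of_nonneg (Finset.subset_univ _) fun l _ _ => mul_nonneg (Real.rpow_nonneg hρ _) (hE.w_pos l).le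
      _ = ρ ^ (3 / 2 : ℝ) * E.tw := by
          unfold Xp.tw
          rw [Finset.mul_sum]
  linarith

/-! ## TB3 + TB4 : move B.   The light labels are DROPPED (`Str.ne` forbids empty labels): `W2 = W.rsS R j` / `W.rsF R` of `Soft/MResDef` with `R = univ` (heavy or other gate), `∅` (light). -/
/-- the rows kept by move B: all rows, except for the labels of the gate `j` that read less than `θ` (no row) -/
def SfMD.tbH {P : PkSys} (W : SfMD P) (j θ : ℝ) (x : ℝ) (l : W.Lb x) : Set P.X := {_y | ¬ (x = j ∧ W.m x l < θ)}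

/-- the rows deleted by move B -/
def SfMD.tbL {P : PkSys} (W : SfMD P) (j θ : ℝ) (x : ℝ) (l : W.Lb x) : Set P.X := {_y | x = j ∧ W.m x l < θ}

theorem cy_tB_eqns_cite : True := by
  have := @SfMD.tbH.eq_1
  have := @SfMD.tbL.eq_1
  trivial

theorem cy_tB_H_of (W : SfMD P) {j θ x : ℝ} {l : W.Lb x} (h : ¬ (x = j ∧ W.m x l < θ)) : W.tbH j θ x l = Set.univ :=
  Set.eq_univ_of_forall fun _ => h

theorem cy_tB_H_not (W : SfMD P) {j θ x : ℝ} {l : W.Lb x} (h : x = j ∧ W.m x l < θ) : W.tbH j θ x l = ∅ :=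
  Set.eq_empty_of_forall_notMem fun _ hy => hy h

theorem cy_tB_L_of (W : SfMD P) {j θ x : ℝ} {l : W.Lb x} (h : x = j ∧ W.m x l < θ) : W.tbL j θ x l = Set.univ :=
  Set.eq_univ_of_forall fun _ => h

theorem cy_tB_L_not (W : SfMD P) {j θ x : ℝ} {l : W.Lb x} (h : ¬ (x = j ∧ W.m x l < θ)) : W.tbL j θ x l = ∅ :=
  Set.eq_empty_of_forall_notMem fun _ hy => h hy

/-- heavy part + light part = the mask of the gate -/
theorem cy_tB_split (W : SfMD P) (j θ : ℝ) (m : ℕ) (x : P.X) :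
    W.rsM (W.tbH j θ) j m x + W.rsM (W.tbL j θ) j m x = ∑ l, if W.iv j l = m then W.th j l x else 0 := by
  unfold SfMD.rsM
  rw [← Finset.sum_add_distrib]
  refine Finset.sum_congr rfl fun l _ => ?_
  by_cases hc : W.m j l < θ
  · rw [cy_tB_H_not W ⟨rfl, hc⟩, cy_tB_L_of W ⟨rfl, hc⟩]
    split_ifs <;> simp
  · rw [cy_tB_H_of W (fun h => hc h.2), cy_tB_L_not W (fun h => hc h.2)]
    split_ifs <;> simp

/-- the energy read by the light part of the mask -/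
theorem cy_tB_light_en (W : SfMD P) {tq : P.Tst → CyT} (hS : W.Str tq) {j : ℝ} (hj : j ∈ W.G) (θ : ℝ) :
    ∑ m ∈ ivs W.E.k0 W.E.i0 (W.k j), P.en (tmL (W.k j) m) (W.k j) (W.gb j) (W.rsM (W.tbL j θ) j m) (W.pre j m)
      = ∑ l, if W.m j l < θ then W.m j l else 0 := by
  have h1 : ∀ m, P.en (tmL (W.k j) m) (W.k j) (W.gb j) (W.rsM (W.tbL j θ) j m) (W.pre j m)
      = ∑ l, if W.iv j l = m then (if W.m j l < θ then W.m j l else 0) else 0 := by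
    intro m
    rw [sf_res_en_mask W hS hj (W.tbL j θ) (fun l => MeasurableSet.const _) m]
    refine Finset.sum_congr rfl fun l _ => ?_
    by_cases hm : W.iv j l = m
    · rw [if_pos hm, if_pos hm]
      by_cases hc : W.m j l < θ
      · rw [if_pos hc, cy_tB_L_of W ⟨rfl, hc⟩, Set.indicator_univ, ← hm]
        rfl
      · rw [if_neg hc, cy_tB_L_not W (fun h => hc h.2), Set.indicator_empty]
        simp [PkSys.en]
    · rw [if_neg hm, if_neg hm]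
  simp_rw [h1]
  rw [Finset.sum_comm]
  refine Finset.sum_congr rfl fun l _ => ?_
  have h2 : W.iv j l ∈ ivs W.E.k0 W.E.i0 (W.k j) := hS.iv_in j hj l
  rw [Finset.sum_ite_eq, if_pos h2]

theorem cy_tB_light_le (W : SfMD P) (j θ ρ : ℝ) (hw : ∀ l, θ = ρ * P.wt (W.ts j l)) (hθ : 0 ≤ θ) :
    ∑ l, (if W.m j l < θ then W.m j l else 0) ≤ ρ * ∑ l, P.wt (W.ts j l) := by
  rw [Finset.mul_sum]
  refine Finset.sum_le_sum fun l _ => ?_
  rw [← hw l]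
  split_ifs with hc
  · exact hc.le
  · exact hθ

theorem cy_tB_sum_le (W : SfMD P) (R : ∀ x, W.Lb x → Set P.X) (x : ℝ) (F : W.Lb x → ℝ) (hF : ∀ l, 0 ≤ F l) :
    ∑ l : {l : W.Lb x // W.Kp R x l}, F l.1 ≤ ∑ l, F l := by
  classical
  rw [← Finset.sum_subtype (Finset.univ.filter fun l => W.Kp R x l) (fun l => by simp) F]
  exact Finset.sum_le_sum_of_subset_of_nonneg (Finset.filter_subset _ _) fun l _ _ => hF l


theorem cy_tB_depth {Y : SfCy} {p : Y.M.Par} {W : SfMD (Y.M.sys p)} {i j h a ξ τ Ls ε : ℝ} {k q C A : ℕ}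
    (hM : CyMid Y p W i j k q h a ξ τ C A Ls ε) (hah : a ≤ h) :
    k ≤ W.k j ∧ W.E.k0 ≤ k ∧ ((k - W.E.k0 : ℕ) : ℝ) ≤ i * W.E.n ∧ (j - a) * W.E.n ≤ ((W.k j - W.E.k0 : ℕ) : ℝ) ∧
      ((W.k j - k : ℕ) : ℝ) = ((W.k j - W.E.k0 : ℕ) : ℝ) - ((k - W.E.k0 : ℕ) : ℝ) ∧ h ≤ j - i := by
  have hP := cy_fw_prev_of hM.inn.pre
  have hd := cy_fw_depth hP hM.inn.j_mem
  have hgap : h ≤ j - i := hM.inn.gap.1 i (Finset.mem_insert_self _ _) j (Finset.mem_insert_of_mem hM.inn.j_mem) hM.inn.i_lt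
  have hN : (0 : ℝ) ≤ W.E.n := Nat.cast_nonneg _
  have hk : k - W.E.k0 = ⌊i * W.E.n⌋₊ := by
    rw [hM.k_eq]
    omega
  have h1 : ((k - W.E.k0 : ℕ) : ℝ) ≤ i * W.E.n := by
    rw [hk]
    exact Nat.floor_le (mul_nonneg hM.inn.i_nn hN)
  have h2 : ((k - W.E.k0 : ℕ) : ℝ) ≤ ((W.k j - W.E.k0 : ℕ) : ℝ) := by
    have := mul_nonneg (by linarith : 0 ≤ j - a - i) hN
    linarith [hd.1]
  have h3 : k - W.E.k0 ≤ W.k j - W.E.k0 := by exact_mod_cast h2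
  have h4 := (hM.inn.pre.str.k_rg j hM.inn.j_mem).1
  have h5 : W.E.k0 ≤ k := by
    rw [hM.k_eq]
    omega
  have h6 : k ≤ W.k j := by omega
  refine ⟨h6, h5, h1, hd.1, ?_, hgap⟩
  rw [Nat.cast_sub h6, Nat.cast_sub h4, Nat.cast_sub h5]
  ring

/-- the states entering the gate `j` are `Cs κ'`-regular -/
theorem cy_tB_reg (Y : SfCy) (H : CyHyp Y) (C : ℕ) : ∃ Cs : ℝ, 1 ≤ Cs ∧ ∀ (A : ℕ) (p : Y.M.Par) (W : SfMD (Y.M.sys p)) (i j h a ξ τ Ls ε : ℝ) (k q : ℕ),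
    CyMid Y p W i j k q h a ξ τ C A Ls ε → k ≤ W.k j →
    ∀ m ∈ ivs W.E.k0 W.E.i0 (W.k j), (Y.M.sys p).Reg (tmL (W.k j) m) (W.k j) (W.gb j) (Cs * W.kap Y p k ξ) (W.pre j m) := by
  obtain ⟨Cs, hCs, HS⟩ := gn_stack_reg_pl Y.M (1 + Y.η / 2) H.L H.gen.tight C C 1 one_pos
  refine ⟨Cs, hCs, ?_⟩
  intro A p W i j h a ξ τ Ls ε k q hM hk m hm
  have hcls := hM.inn.cls
  have gd := hcls.1
  have hT := H.gen.tight p gd
  have hS := hM.inn.pre.str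
  have hj := hM.inn.j_mem
  have hV := hcls.2.1
  have e1 : W.E.st.take (W.pos j) = W.E.st.take q ++ (W.E.st.take (W.pos j)).drop q := by
    conv_lhs => rw [← List.take_append_drop q (W.E.st.take (W.pos j))]
    rw [List.take_take, min_eq_left hM.q_le]
  have hmid1 : ∀ σ ∈ (W.E.st.take (W.pos j)).drop q, σ ∈ W.E.st.drop q := by
    intro σ hσ
    rw [List.drop_take] at hσ
    exact List.mem_of_mem_take hσ
  have hmid2 : ∀ σ ∈ (W.E.st.take (W.pos j)).drop q, σ ∈ W.E.st.take (W.pos j) := fun σ hσ => List.mem_of_mem_drop hσ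
  have hcutj := cy_fw_cut W hS hj
  have hst : StOk k (W.k j) C C ((W.E.st.take (W.pos j)).drop q) := by
    refine ⟨?_, fun σ hσ => ⟨hM.cut.2.2.1 σ (hmid1 σ hσ), hcutj.2.1 σ (hmid2 σ hσ)⟩, ?_, fun σ hσ => ?_, fun σ hσ i => ?_⟩
    · refine le_trans ?_ hcls.2.2.1
      rw [List.length_drop, List.length_take]
      omega
    · exact hV.st_mono.sublist ((List.drop_sublist _ _).trans (List.take_sublist _ _))
    · exact hcls.2.2.2.1.2.2 σ (List.mem_of_mem_take (hmid2 σ hσ))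
    · have hσ' := List.mem_of_mem_take (hmid2 σ hσ)
      exact ⟨hV.st_meas σ hσ' i, hV.st_bd σ hσ' i⟩
  have hanc : ancI (W.k j) k m ∈ ivs W.E.k0 W.E.i0 k := by
    rw [gn_mem_ivs, gn_anc_anc hM.cut.2.2.2.1 hk]
    exact (gn_mem_ivs _ _ _ _).1 hm
  have hreg := hM.prep.2 _ hanc 0 le_rfl
  have hκ : 0 ≤ W.kap Y p k ξ := by
    unfold SfMD.kap
    exact mul_nonneg hV.ka_pos.le (gn_two_pos _).le
  have h2 := HS p (W.k j) m k 0 (W.gb j) _ (W.kap Y p k ξ) _ gd hst hk (Nat.zero_le _) (cy_fw_gb_le W hS hcls.2.2.2.1 hj) hκ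
    (by rw [H.pl_univ p gd]; trivial) hreg
  have e2 : W.pre j m = Xp.run (W.k j) m ((W.E.st.take (W.pos j)).drop q) (W.E.at' k (ancI (W.k j) k m) (W.E.st.take q)) := by
    unfold SfMD.pre Xp.at'
    conv_lhs => rw [e1]
    rw [gn_run_append, gn_run_anc hk m _ hM.cut.2.1]
  rw [e2]
  refine gn_reg_mono hT h2 ?_
  have h3 : (2 : ℝ) ^ ((1 - (1 + Y.η / 2)) * ((W.k j : ℝ) - k)) ≤ 1 := by
    apply Real.rpow_le_one_of_one_le_of_nonpos (by norm_num)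
    have h4 : (0 : ℝ) ≤ (W.k j : ℝ) - k := by
      have : (k : ℝ) ≤ W.k j := by exact_mod_cast hk
      linarith
    have h5 := H.eta.1
    nlinarith
  calc Cs * 2 ^ ((1 - (1 + Y.η / 2)) * ((W.k j : ℝ) - k)) * W.kap Y p k ξ ≤ Cs * 1 * W.kap Y p k ξ := by gcongr
    _ = Cs * W.kap Y p k ξ := by ring

theorem cy_tB_num_int {N ma mj dl e ka Cs p0 d0 a ξ h j S : ℝ} (he : 0 < e) (hka : 0 < ka) (hCs : 0 ≤ Cs) (hN : 0 ≤ N)
    (hdl : dl = mj - ma) (hp0 : p0 ≤ 3) (hpd0 : 0 ≤ p0 + d0) (hpd : p0 + d0 ≤ 4) (hgap : (h - a) * N ≤ mj - ma) (hj : (j - a) * N ≤ mj)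
    (ha : 0 ≤ a) (ha' : a ≤ h / 160) (hξ : ξ ≤ h / 48) (hCsN : Real.sqrt Cs ≤ 2 ^ (h / 16 * N))
    (hS : S ≤ (2 ^ (-(5 * dl)) * (ka * 2 ^ (-(p0 * ma) + ξ * N))) * (2 ^ (a * N) * (e / ka) * 2 ^ ((p0 + d0) * j * N))) :
    Real.sqrt (Cs * (ka * 2 ^ (-(p0 * ma) + ξ * N))) * S ≤ 2 ^ (-(h / 16 * N)) * (e * 2 ^ (d0 * mj) * Real.sqrt (ka * 2 ^ (-(p0 * mj)))) := by
  have hsk : 0 < Real.sqrt ka := Real.sqrt_pos.2 hka
  have e1 : Real.sqrt (Cs * (ka * 2 ^ (-(p0 * ma) + ξ * N))) = Real.sqrt Cs * (Real.sqrt ka * 2 ^ ((-(p0 * ma) + ξ * N) / 2)) := by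
    rw [Real.sqrt_mul hCs, Real.sqrt_mul hka.le, gn_two_sqrt]
  have e2 : Real.sqrt (ka * 2 ^ (-(p0 * mj))) = Real.sqrt ka * 2 ^ (-(p0 * mj) / 2) := by
    rw [Real.sqrt_mul hka.le, gn_two_sqrt]
  rw [e1, e2]
  have hpos : 0 ≤ Real.sqrt Cs * (Real.sqrt ka * 2 ^ ((-(p0 * ma) + ξ * N) / 2)) :=
    mul_nonneg (Real.sqrt_nonneg _) (mul_nonneg hsk.le (gn_two_pos _).le)
  refine (mul_le_mul_of_nonneg_left hS hpos).trans ?_
  have e3 : Real.sqrt Cs * (Real.sqrt ka * 2 ^ ((-(p0 * ma) + ξ * N) / 2)) *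
      ((2 ^ (-(5 * dl)) * (ka * 2 ^ (-(p0 * ma) + ξ * N))) * (2 ^ (a * N) * (e / ka) * 2 ^ ((p0 + d0) * j * N)))
      = Real.sqrt Cs * ((e * Real.sqrt ka) * 2 ^ ((-(p0 * ma) + ξ * N) / 2 + -(5 * dl) + (-(p0 * ma) + ξ * N) + a * N + (p0 + d0) * j * N)) := by
    rw [gn_two_add ((-(p0 * ma) + ξ * N) / 2 + -(5 * dl) + (-(p0 * ma) + ξ * N) + a * N), gn_two_add ((-(p0 * ma) + ξ * N) / 2 + -(5 * dl) + (-(p0 * ma) + ξ * N)),
      gn_two_add ((-(p0 * ma) + ξ * N) / 2 + -(5 * dl)), gn_two_add ((-(p0 * ma) + ξ * N) / 2)]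
    generalize (2 : ℝ) ^ ((-(p0 * ma) + ξ * N) / 2) = A
    generalize (2 : ℝ) ^ (-(5 * dl)) = B
    generalize (2 : ℝ) ^ (-(p0 * ma) + ξ * N) = C
    generalize (2 : ℝ) ^ (a * N) = D
    generalize (2 : ℝ) ^ ((p0 + d0) * j * N) = F
    field_simp
  have e4 : (2 : ℝ) ^ (-(h / 16 * N)) * (e * 2 ^ (d0 * mj) * (Real.sqrt ka * 2 ^ (-(p0 * mj) / 2)))
      = (e * Real.sqrt ka) * 2 ^ (-(h / 16 * N) + d0 * mj + -(p0 * mj) / 2) := by
    rw [gn_two_add (-(h / 16 * N) + d0 * mj), gn_two_add (-(h / 16 * N))]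
    ring
  rw [e3, e4]
  have hek : 0 < e * Real.sqrt ka := mul_pos he hsk
  calc Real.sqrt Cs * ((e * Real.sqrt ka) * 2 ^ ((-(p0 * ma) + ξ * N) / 2 + -(5 * dl) + (-(p0 * ma) + ξ * N) + a * N + (p0 + d0) * j * N))
      ≤ 2 ^ (h / 16 * N) * ((e * Real.sqrt ka) * 2 ^ ((-(p0 * ma) + ξ * N) / 2 + -(5 * dl) + (-(p0 * ma) + ξ * N) + a * N + (p0 + d0) * j * N)) :=
        mul_le_mul_of_nonneg_right hCsN (mul_nonneg hek.le (gn_two_pos _).le)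
    _ = (e * Real.sqrt ka) * 2 ^ (h / 16 * N + ((-(p0 * ma) + ξ * N) / 2 + -(5 * dl) + (-(p0 * ma) + ξ * N) + a * N + (p0 + d0) * j * N)) := by
        rw [gn_two_add (h / 16 * N)]
        ring
    _ ≤ (e * Real.sqrt ka) * 2 ^ (-(h / 16 * N) + d0 * mj + -(p0 * mj) / 2) := by
        refine mul_le_mul_of_nonneg_left (gn_two_mono ?_) hek.le
        have t1 : (p0 + d0) * (j * N) ≤ (p0 + d0) * (mj + a * N) := mul_le_mul_of_nonneg_left (by linarith) hpd0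
        have t2 : (p0 + d0) * (a * N) ≤ 4 * (a * N) := mul_le_mul_of_nonneg_right hpd (mul_nonneg ha hN)
        have hh : 0 ≤ h := by linarith
        have t0 : 0 ≤ mj - ma := le_trans (mul_nonneg (by linarith) hN) hgap
        have t3 : 0 ≤ (3 - p0) * (mj - ma) := mul_nonneg (by linarith) t0
        have t4 : ξ * N ≤ h / 48 * N := mul_le_mul_of_nonneg_right hξ hN
        have t5 : a * N ≤ h / 160 * N := mul_le_mul_of_nonneg_right ha' hN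
        have t6 : 0 ≤ h * N := mul_nonneg hh hN
        rw [hdl]
        nlinarith

theorem cy_tB_end_term {m ρ w : ℝ} (hm : 0 ≤ m) (hρ : 0 ≤ ρ) (hw : 0 < w) (h : m ≤ ρ * w) : m ^ (3 / 2 : ℝ) / Real.sqrt w ≤ ρ ^ (3 / 2 : ℝ) * w := by
  rw [div_le_iff₀ (Real.sqrt_pos.2 hw)]
  calc m ^ (3 / 2 : ℝ) ≤ (ρ * w) ^ (3 / 2 : ℝ) := Real.rpow_le_rpow hm h (by norm_num)
    _ = ρ ^ (3 / 2 : ℝ) * w ^ (3 / 2 : ℝ) := Real.mul_rpow hρ hw.le
    _ = ρ ^ (3 / 2 : ℝ) * w * Real.sqrt w := by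
        rw [Real.sqrt_eq_rpow, mul_assoc, show (3 / 2 : ℝ) = 1 + 1 / 2 by norm_num, Real.rpow_add hw, Real.rpow_one]

theorem cy_tB_num_end {N ma dl e ka p0 d0 Γ a ξ τ h T rd : ℝ} (he : 0 < e) (hka : 0 < ka) (hN : 0 ≤ N) (hdl : dl = N - ma) (hp0 : p0 ≤ 3)
    (hd0 : d0 = Γ + (p0 - 1) / 2) (hma : ma ≤ (1 - h) * N) (ha' : a ≤ h / 160) (hξ : ξ ≤ h / 48) (hτ : τ ≤ h) (h1 : 1 ≤ h * N)
    (hT : T ≤ (2 ^ (-(5 * dl)) * (ka * 2 ^ (-(p0 * ma) + ξ * N))) ^ (3 / 2 : ℝ) * (2 ^ (a * N) * (e / ka) * 2 ^ ((p0 + d0) * 1 * N)))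
    (hrd : 2 ^ (-(N / 2)) * (e * Real.sqrt ka) * 2 ^ ((Γ - τ) * N) ≤ rd) : 2 * T ≤ rd := by
  have hsk : 0 < Real.sqrt ka := Real.sqrt_pos.2 hka
  have hek : 0 < e * Real.sqrt ka := mul_pos he hsk
  have e1 : (2 ^ (-(5 * dl)) * (ka * 2 ^ (-(p0 * ma) + ξ * N))) ^ (3 / 2 : ℝ)
      = 2 ^ (-(5 * dl) * (3 / 2)) * ((ka * Real.sqrt ka) * 2 ^ ((-(p0 * ma) + ξ * N) * (3 / 2))) := by
    rw [Real.mul_rpow (gn_two_pos _).le (mul_nonneg hka.le (gn_two_pos _).le), Real.mul_rpow hka.le (gn_two_pos _).le, gn_two_mul, gn_two_mul,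
      Real.sqrt_eq_rpow, show (3 / 2 : ℝ) = 1 + 1 / 2 by norm_num, Real.rpow_add hka, Real.rpow_one]
  rw [e1] at hT
  have e2 : 2 * (2 ^ (-(5 * dl) * (3 / 2)) * ((ka * Real.sqrt ka) * 2 ^ ((-(p0 * ma) + ξ * N) * (3 / 2))) * (2 ^ (a * N) * (e / ka) * 2 ^ ((p0 + d0) * 1 * N)))
      = (e * Real.sqrt ka) * 2 ^ (1 + -(5 * dl) * (3 / 2) + (-(p0 * ma) + ξ * N) * (3 / 2) + a * N + (p0 + d0) * 1 * N) := by
    rw [gn_two_add (1 + -(5 * dl) * (3 / 2) + (-(p0 * ma) + ξ * N) * (3 / 2) + a * N), gn_two_add (1 + -(5 * dl) * (3 / 2) + (-(p0 * ma) + ξ * N) * (3 / 2)),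
      gn_two_add (1 + -(5 * dl) * (3 / 2)), gn_two_add 1, Real.rpow_one]
    generalize (2 : ℝ) ^ (-(5 * dl) * (3 / 2)) = B
    generalize (2 : ℝ) ^ ((-(p0 * ma) + ξ * N) * (3 / 2)) = C
    generalize (2 : ℝ) ^ (a * N) = D
    generalize (2 : ℝ) ^ ((p0 + d0) * 1 * N) = F
    field_simp
  have e3 : (2 : ℝ) ^ (-(N / 2)) * (e * Real.sqrt ka) * 2 ^ ((Γ - τ) * N) = (e * Real.sqrt ka) * 2 ^ (-(N / 2) + (Γ - τ) * N) := by
    rw [gn_two_add]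
    ring
  refine le_trans ?_ hrd
  rw [e3]
  refine (mul_le_mul_of_nonneg_left hT (by norm_num : (0 : ℝ) ≤ 2)).trans ?_
  rw [e2]
  refine mul_le_mul_of_nonneg_left (gn_two_mono ?_) hek.le
  have hh : 0 ≤ h * N := by linarith
  have t0 : h * N ≤ N - ma := by linarith
  have t3 : 0 ≤ (3 - p0) * (N - ma) := mul_nonneg (by linarith) (by linarith)
  have t4 : ξ * N ≤ h / 48 * N := mul_le_mul_of_nonneg_right hξ hN
  have t5 : a * N ≤ h / 160 * N := mul_le_mul_of_nonneg_right ha' hN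
  have t6 : τ * N ≤ h * N := mul_le_mul_of_nonneg_right hτ hN
  rw [hdl, hd0]
  nlinarith

/-- `CyMid` survives a restriction of the labels, if the stack is unchanged before the cut -/
theorem cy_tB_mid (Y : SfCy) (H : CyHyp Y) {p : Y.M.Par} (W : SfMD (Y.M.sys p)) (R : ∀ x, W.Lb x → Set (Y.M.sys p).X)
    (st' : List (Stg (Y.M.sys p))) (L' : ℕ) (iv' : Fin L' → ℕ) (ts' : Fin L' → (Y.M.sys p).Tst) (th' : Fin L' → (Y.M.sys p).X → ℝ)
    {i j h a ξ τ τ' Ls ε : ℝ} {k q C A : ℕ} (hM : CyMid Y p W i j k q h a ξ τ C A Ls ε)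
    (hS : (W.rsW R { W.E with st := st', L := L', iv := iv', ts := ts', th := th' }).Str (Y.tq p))
    (hlen : st'.length ≤ C) (hgen : ∀ σ ∈ st', σ.b ≤ C) (htake : st'.take q = W.E.st.take q) (hdrop : ∀ σ ∈ st'.drop q, k ≤ σ.k)
    (hval : 2 ^ ((Y.M.Gam - τ') * W.E.n) ≤ Xp.val { W.E with st := st', L := L', iv := iv', ts := ts', th := th' }) :
    CyMid Y p (W.rsW R { W.E with st := st', L := L', iv := iv', ts := ts', th := th' }) i j k q h a ξ τ' C A Ls ε := by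
  have hI := hM.inn
  have hP := hI.pre
  have hcls := hI.cls
  have hT := H.gen.tight p hcls.1
  refine ⟨⟨⟨hcls.1, hS.valid, hlen, ⟨hcls.2.2.2.1.1, hcls.2.2.2.1.2.1, hgen⟩, H.gen.root C A p W.E _ hcls.2.2.2.2 ⟨rfl, rfl, rfl, rfl, rfl, rfl⟩ rfl⟩,
    hI.card, hI.i_nn, hI.i_lt, hI.j_mem, hI.first, hI.gap, ⟨hS, hP.depth, fun x hx => ?_, hP.wr, fun x y hxy l l' u u' h1 h2 h3 => ?_⟩, hval⟩,
    hM.k_eq, ⟨(List.take_append_drop _ _).symm, ?_, hdrop, hM.cut.2.2.2.1, hM.cut.2.2.2.2⟩, hM.q_le, ?_⟩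
  · refine le_trans ?_ (hP.cnt x hx)
    exact cy_tB_sum_le W R x (fun l => (Y.M.sys p).wt (W.ts x l)) fun l => (hT.wt_pos _ _ (hP.str.ok x hx l)).le
  · have g1 : W.th x l.1 u ≠ 0 := by
      intro h0
      apply h1
      show (R x l.1).indicator (W.th x l.1) u = 0
      by_cases hu : u ∈ R x l.1
      · rw [Set.indicator_of_mem hu, h0]
      · exact Set.indicator_of_notMem hu _
    have g2 : W.th y l'.1 u' ≠ 0 := by
      intro h0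
      apply h2
      show (R y l'.1).indicator (W.th y l'.1) u' = 0
      by_cases hu : u' ∈ R y l'.1
      · rw [Set.indicator_of_mem hu, h0]
      · exact Set.indicator_of_notMem hu _
    exact hP.mm x y hxy l.1 l'.1 u u' g1 g2 h3
  · intro σ hσ
    have hσ' : σ ∈ st'.take q := hσ
    rw [htake] at hσ'
    exact hM.cut.2.1 σ hσ'
  · have h0 := hM.prep
    show Xp.PrepAt { W.E with st := st', L := L', iv := iv', ts := ts', th := th' } Y.M.p0 Y.M.d0 k 0 (st'.take q) ξ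
    rw [htake]
    exact h0

/-- the end of move B: everything but the loss of the readout and the structural validity -/
theorem cy_tB_fin (Y : SfCy) (H : CyHyp Y) {p : Y.M.Par} (W : SfMD (Y.M.sys p))
    (st' : List (Stg (Y.M.sys p))) (L' : ℕ) (iv' : Fin L' → ℕ) (ts' : Fin L' → (Y.M.sys p).Tst) (th' : Fin L' → (Y.M.sys p).X → ℝ)
    {i j h a ξ τ ζ Ls ε : ℝ} {k q C A : ℕ} (hM : CyMid Y p W i j k q h a ξ τ C A Ls ε)
    (hS : (W.rsW (W.tbH j (W.thr Y p j k ξ)) { W.E with st := st', L := L', iv := iv', ts := ts', th := th' }).Str (Y.tq p))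
    (hlen : st'.length ≤ C) (hgen : ∀ σ ∈ st', σ.b ≤ C) (htk : st'.take (W.pos j) = W.E.st.take (W.pos j)) (hdrop : ∀ σ ∈ st'.drop q, k ≤ σ.k)
    (hsub : CySubLab W.E { W.E with st := st', L := L', iv := iv', ts := ts', th := th' })
    (hrd : W.E.rd ≤ 8 * Xp.rd { W.E with st := st', L := L', iv := iv', ts := ts', th := th' }) (h8 : 8 ≤ (2 : ℝ) ^ (ζ * W.E.n)) :
    ∃ W2 : SfMD (Y.M.sys p), CyRel W W2 ∧ W.E.s ^ ζ * W.E.val ≤ W2.E.val ∧ CyMid Y p W2 i j k q h a ξ (τ + ζ) C A Ls ε ∧ W2.Flo Y p j k ξ := by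
  have hV := hM.inn.cls.2.1
  have hc : 0 ≤ (2 : ℝ) ^ ((W.E.n : ℝ) / 2) / (W.E.e * Real.sqrt W.E.ka) :=
    div_nonneg (gn_two_pos _).le (mul_nonneg hV.e_pos.le (Real.sqrt_nonneg _))
  have hv8 : W.E.val ≤ 8 * Xp.val { W.E with st := st', L := L', iv := iv', ts := ts', th := th' } := by
    show (2 : ℝ) ^ ((W.E.n : ℝ) / 2) / (W.E.e * Real.sqrt W.E.ka) * W.E.rd
      ≤ 8 * ((2 : ℝ) ^ ((W.E.n : ℝ) / 2) / (W.E.e * Real.sqrt W.E.ka) * Xp.rd { W.E with st := st', L := L', iv := iv', ts := ts', th := th' })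
    calc (2 : ℝ) ^ ((W.E.n : ℝ) / 2) / (W.E.e * Real.sqrt W.E.ka) * W.E.rd
        ≤ (2 : ℝ) ^ ((W.E.n : ℝ) / 2) / (W.E.e * Real.sqrt W.E.ka) * (8 * Xp.rd { W.E with st := st', L := L', iv := iv', ts := ts', th := th' }) :=
          mul_le_mul_of_nonneg_left hrd hc
      _ = _ := by ring
  have hv0 : 0 ≤ Xp.val { W.E with st := st', L := L', iv := iv', ts := ts', th := th' } := gn_val_nonneg _ hS.valid
  have hs8 : W.E.s ^ ζ * 8 ≤ 1 := by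
    rw [gn_s_rpow, gn_two_neg]
    have h0 := gn_two_pos (ζ * W.E.n)
    rw [inv_mul_le_iff₀ h0]
    linarith
  have hsp : 0 ≤ W.E.s ^ ζ := (Real.rpow_pos_of_pos (gn_s_pos W.E) _).le
  have hv : W.E.s ^ ζ * W.E.val ≤ Xp.val { W.E with st := st', L := L', iv := iv', ts := ts', th := th' } := by
    calc W.E.s ^ ζ * W.E.val ≤ W.E.s ^ ζ * (8 * Xp.val { W.E with st := st', L := L', iv := iv', ts := ts', th := th' }) :=
          mul_le_mul_of_nonneg_left hv8 hsp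
      _ = (W.E.s ^ ζ * 8) * Xp.val { W.E with st := st', L := L', iv := iv', ts := ts', th := th' } := by ring
      _ ≤ 1 * Xp.val { W.E with st := st', L := L', iv := iv', ts := ts', th := th' } := mul_le_mul_of_nonneg_right hs8 hv0
      _ = _ := one_mul _
  have hval : (2 : ℝ) ^ ((Y.M.Gam - (τ + ζ)) * W.E.n) ≤ Xp.val { W.E with st := st', L := L', iv := iv', ts := ts', th := th' } := by
    refine le_trans ?_ hv
    have e1 : (2 : ℝ) ^ ((Y.M.Gam - (τ + ζ)) * W.E.n) = W.E.s ^ ζ * 2 ^ ((Y.M.Gam - τ) * W.E.n) := by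
      rw [gn_s_rpow, ← gn_two_add]
      congr 1
      ring
    rw [e1]
    exact mul_le_mul_of_nonneg_left hM.inn.val hsp
  have htake : st'.take q = W.E.st.take q := by
    have e1 : st'.take q = (st'.take (W.pos j)).take q := by rw [List.take_take, min_eq_left hM.q_le]
    rw [e1, htk, List.take_take, min_eq_left hM.q_le]
  refine ⟨W.rsW (W.tbH j (W.thr Y p j k ξ)) { W.E with st := st', L := L', iv := iv', ts := ts', th := th' },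
    ⟨rfl, rfl, ⟨rfl, rfl, rfl, rfl, rfl, rfl⟩, rfl, hsub, fun _ _ => ⟨rfl, fun l' => ⟨l'.1, rfl, rfl⟩⟩⟩, hv, cy_tB_mid Y H W _ st' L' iv' ts' th' hM hS hlen hgen htake hdrop hval, ?_⟩
  intro l
  right
  obtain ⟨x, hx, -⟩ := l.2 hM.inn.j_mem
  have hx' : ¬ (j = j ∧ W.m j l.1 < W.thr Y p j k ξ) := hx
  show W.thr Y p j k ξ ≤ (Y.M.sys p).en (tmL (W.k j) (W.iv j l.1)) (W.k j) (W.gb j) ((W.tbH j (W.thr Y p j k ξ) j l.1).indicator (W.th j l.1))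
    (Xp.run (W.k j) (W.iv j l.1) (st'.take (W.pos j)) W.E.v)
  rw [htk, cy_tB_H_of W hx', Set.indicator_univ]
  exact not_lt.1 fun hlt => hx' ⟨rfl, hlt⟩

theorem cy_tB_cnt_conv {P : PkSys} (E : Xp P) (a pd j : ℝ) :
    E.s ^ (-a) * (E.e / E.ka) * E.s ^ (-(pd * j)) = 2 ^ (a * E.n) * (E.e / E.ka) * 2 ^ (pd * j * E.n) := by
  rw [gn_s_rpow, gn_s_rpow]
  have e1 : -(-a * (E.n : ℝ)) = a * E.n := by ring
  have e2 : -(-(pd * j) * (E.n : ℝ)) = pd * j * E.n := by ring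
  rw [e1, e2]

theorem cy_tB_del_conv (d : ℕ) : ((2 : ℝ)⁻¹ ^ d) ^ (5 : ℝ) = 2 ^ (-(5 * (d : ℝ))) := by
  rw [← Real.rpow_natCast, Real.inv_rpow (by norm_num), ← gn_two_neg, gn_two_mul]
  congr 1
  ring

theorem cy_tB_thr (Y : SfCy) (H : CyHyp Y) {p : Y.M.Par} (W : SfMD (Y.M.sys p)) (hS : W.Str (Y.tq p)) {j : ℝ} (hj : j ∈ W.G) (k : ℕ) (ξ : ℝ) (l : W.Lb j) :
    W.thr Y p j k ξ = (2 ^ (-(5 * ((W.k j - k : ℕ) : ℝ))) * W.kap Y p k ξ) * (Y.M.sys p).wt (W.ts j l) := by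
  unfold SfMD.thr
  rw [H.wt, cyWt, (hS.width j hj l).1, (hS.width j hj l).2, cy_tB_del_conv]
  ring

theorem cy_tB_thr_nn (Y : SfCy) {p : Y.M.Par} (W : SfMD (Y.M.sys p)) (hS : W.Str (Y.tq p)) {j : ℝ} (hj : j ∈ W.G) (k : ℕ) (ξ : ℝ) :
    0 ≤ W.thr Y p j k ξ := by
  unfold SfMD.thr SfMD.kap
  have h1 := hS.frame.2.2 j hj
  have h2 := h1.1
  have h3 := h1.2
  have h4 := hS.valid.ka_pos
  positivity

theorem cy_tB_num_kap {N ma ka Cs p0 ξ c : ℝ} (hka : 0 < ka) (hN : 0 ≤ N) (hCs : 1 ≤ Cs) (hCsN : Cs ≤ 2 ^ (1 * N)) (hp0 : 0 ≤ p0) (hp3 : p0 ≤ 3)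
    (hma : 0 ≤ ma) (hmaN : ma ≤ N) (hξ0 : 0 ≤ ξ) (hξ : ξ ≤ 1) (hc : 3 ≤ c) :
    2 ^ (-(c * N)) * ka ≤ Cs * (ka * 2 ^ (-(p0 * ma) + ξ * N)) ∧ Cs * (ka * 2 ^ (-(p0 * ma) + ξ * N)) ≤ 2 ^ (-(-c * N)) * ka := by
  have t1 : p0 * ma ≤ 3 * N := by nlinarith
  have t2 : 3 * N ≤ c * N := mul_le_mul_of_nonneg_right hc hN
  have t3 : 0 ≤ ξ * N := mul_nonneg hξ0 hN
  have t4 : ξ * N ≤ 1 * N := mul_le_mul_of_nonneg_right hξ hN
  have t5 : 0 ≤ p0 * ma := mul_nonneg hp0 hma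
  constructor
  · calc 2 ^ (-(c * N)) * ka ≤ 2 ^ (-(p0 * ma) + ξ * N) * ka := mul_le_mul_of_nonneg_right (gn_two_mono (by linarith)) hka.le
      _ = 1 * (ka * 2 ^ (-(p0 * ma) + ξ * N)) := by ring
      _ ≤ Cs * (ka * 2 ^ (-(p0 * ma) + ξ * N)) := mul_le_mul_of_nonneg_right hCs (mul_nonneg hka.le (gn_two_pos _).le)
  · calc Cs * (ka * 2 ^ (-(p0 * ma) + ξ * N)) ≤ 2 ^ (1 * N) * (ka * 2 ^ (-(p0 * ma) + ξ * N)) :=
          mul_le_mul_of_nonneg_right hCsN (mul_nonneg hka.le (gn_two_pos _).le)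
      _ = 2 ^ (1 * N + (-(p0 * ma) + ξ * N)) * ka := by
          rw [gn_two_add (1 * N)]
          ring
      _ ≤ 2 ^ (-(-c * N)) * ka := mul_le_mul_of_nonneg_right (gn_two_mono (by linarith)) hka.le

/-- the loss at an interior gate -/
theorem cy_tB_int (Y : SfCy) (H : CyHyp Y) (hΓ : 0 < Y.M.Gam) (h : ℝ) (hh : 0 < h) : ∃ τ0 : ℝ, 0 < τ0 ∧ ∀ C : ℕ, ∃ A0 n0 : ℕ,
    ∀ (A : ℕ) (p : Y.M.Par) (W : SfMD (Y.M.sys p)) (i j Ls ε a ξ τ : ℝ) (k q : ℕ), A0 ≤ A → n0 ≤ W.E.n → 0 < a → a ≤ h / 160 → 0 < ξ → ξ ≤ h / 48 → ξ ≤ 1 → τ ≤ τ0 →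
      CyMid Y p W i j k q h a ξ τ C A Ls ε → j < 1 → W.E.rd ≤ 8 * (W.E.withSt (W.rsSt (W.tbH j (W.thr Y p j k ξ)) j)).rd := by
  obtain ⟨τl, hτl, HL⟩ := cy_light Y.M (1 + Y.η / 2) H.gen H.pl_univ hΓ (h / 2) (h / 16) (by positivity) (by positivity)
  refine ⟨τl, hτl, fun C => ?_⟩
  obtain ⟨Al, nl, HL⟩ := HL (C + 3)
  obtain ⟨Cs, hCs, HR⟩ := cy_tB_reg Y H C
  obtain ⟨n1, hn1⟩ := gn_absorb (Real.sqrt Cs) (h / 16) (by positivity)
  obtain ⟨n2, hn2⟩ := gn_absorb Cs 1 one_pos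
  refine ⟨Al, max nl (max n1 n2), ?_⟩
  intro A p W i j Ls ε a ξ τ k q hA hn ha ha' hξ0 hξ hξ1 hτ hM hj1
  have hnl : nl ≤ W.E.n := (le_max_left _ _).trans hn
  have hCs1 := hn1 W.E.n (((le_max_left _ _).trans (le_max_right _ _)).trans hn)
  have hCs2 := hn2 W.E.n (((le_max_right _ _).trans (le_max_right _ _)).trans hn)
  have hI := hM.inn
  have hP := hI.pre
  have hS := hP.str
  have hj := hI.j_mem
  have hcls := hI.cls
  have hV := hcls.2.1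
  have hN : (0 : ℝ) ≤ W.E.n := Nat.cast_nonneg _
  obtain ⟨d1, d2, d3, d4, d5, d6⟩ := cy_tB_depth hM (by linarith : a ≤ h)
  have hp3 : Y.M.p0 ≤ 3 := by
    have := gn_p0_le Y.M _ H.gen hΓ
    linarith
  have hp0 : 0 ≤ Y.M.p0 := by
    have := gn_p0_ge Y.M _ H.gen hΓ
    have := H.eta.1
    linarith
  have hd0 := gn_d0_le Y.M _ H.gen hΓ
  obtain ⟨⟨sk, sb0, sM⟩, hlt, hmem, hs2, hσk, hσb, hσM⟩ := cy_fw_b_split W hS hj hj1
  simp only at hσk hσb hσM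
  subst hσk hσb
  have hcut : W.E.CutAt (W.k j) (W.s1 j) (⟨W.k j, W.gb j, sM⟩ :: W.E.st.drop (W.pos j + 1)) := by
    rw [← hs2]
    exact cy_fw_cut W hS hj
  have hdep : h / 2 * W.E.n ≤ ((W.E.kf - W.k j : ℕ) : ℝ) := by
    have g1 := (cy_fw_depth (cy_fw_prev_of hP) hj).2.2
    have g2 : h ≤ 1 - j := hI.gap.1 j (Finset.mem_insert_of_mem hj) 1 (Finset.mem_insert_of_mem hS.gate.1) hj1
    have g3 := mul_le_mul_of_nonneg_right (by linarith : h / 2 ≤ 1 - j - a) hN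
    linarith
  have hval : (2 : ℝ) ^ ((Y.M.Gam - τl) * W.E.n) ≤ W.E.val :=
    le_trans (gn_two_mono (mul_le_mul_of_nonneg_right (by linarith) hN)) hI.val
  have hmaN : ((k - W.E.k0 : ℕ) : ℝ) ≤ W.E.n := by
    have g1 := (hS.gate.2 j hj).2
    have g2 := mul_le_mul_of_nonneg_right (by linarith [hI.i_lt] : i ≤ 1) hN
    linarith
  have hκ := cy_tB_num_kap (c := ((C + 3 : ℕ) : ℝ)) hV.ka_pos hN hCs hCs2 hp0 hp3 (Nat.cast_nonneg (k - W.E.k0)) hmaN hξ0.le hξ1 (by push_cast; linarith [(Nat.cast_nonneg C : (0 : ℝ) ≤ C)])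
  have hκlo : W.E.s ^ ((C + 3 : ℕ) : ℝ) * W.E.ka ≤ Cs * W.kap Y p k ξ := by
    rw [gn_s_rpow]
    exact hκ.1
  have hκhi : Cs * W.kap Y p k ξ ≤ W.E.s ^ (-((C + 3 : ℕ) : ℝ)) * W.E.ka := by
    rw [gn_s_rpow]
    exact hκ.2
  have hθ0 := cy_tB_thr_nn Y W hS hj k ξ
  have hgap : (h - a) * W.E.n ≤ ((W.k j - W.E.k0 : ℕ) : ℝ) - ((k - W.E.k0 : ℕ) : ℝ) := by
    have := mul_le_mul_of_nonneg_right (by linarith : h - a ≤ j - a - i) hN
    linarith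
  have hen : Real.sqrt (Cs * W.kap Y p k ξ) * ∑ m ∈ ivs W.E.k0 W.E.i0 (W.k j),
        (Y.M.sys p).en (tmL (W.k j) m) (W.k j) (W.gb j) (W.rsM (W.tbL j (W.thr Y p j k ξ)) j m) (W.pre j m)
      ≤ 2 ^ (-(h / 16 * W.E.n)) * (W.E.e * 2 ^ (Y.M.d0 * ((W.k j - W.E.k0 : ℕ) : ℝ)) * Real.sqrt (W.E.ka * 2 ^ (-(Y.M.p0 * ((W.k j - W.E.k0 : ℕ) : ℝ))))) := by
    rw [cy_tB_light_en W hS hj]
    have hS1 := cy_tB_light_le W j (W.thr Y p j k ξ) _ (fun l => cy_tB_thr Y H W hS hj k ξ l) hθ0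
    have hρ0 : 0 ≤ 2 ^ (-(5 * ((W.k j - k : ℕ) : ℝ))) * W.kap Y p k ξ := by
      unfold SfMD.kap
      exact mul_nonneg (gn_two_pos _).le (mul_nonneg hV.ka_pos.le (gn_two_pos _).le)
    have hS2 := hS1.trans (mul_le_mul_of_nonneg_left (hP.cnt j hj) hρ0)
    rw [cy_tB_cnt_conv] at hS2
    exact cy_tB_num_int hV.e_pos hV.ka_pos (by linarith) hN d5 hp3 (by linarith [hd0.1]) (by linarith [hd0.2]) hgap d4 ha.le ha' hξ hCs1 hS2
  have key := HL p W.E hnl (gn_cls_mono Y.M H.gen.scale (by omega) (gn_cls_anti Y.M H.gen.scale hA hcls)) hval (W.s1 j) (W.E.st.drop (W.pos j + 1))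
    ⟨W.k j, W.gb j, sM⟩ (W.rsM (W.tbH j (W.thr Y p j k ξ)) j) (W.rsM (W.tbL j (W.thr Y p j k ξ)) j) (Cs * W.kap Y p k ξ) hcut hdep
    (fun m => sf_res_mask W _ hS hj (fun l => MeasurableSet.const _) m) (fun m => sf_res_mask W _ hS hj (fun l => MeasurableSet.const _) m)
    (fun m x => by rw [cy_tB_split]; exact (hσM m x).symm) hκlo hκhi (HR A p W i j h a ξ τ Ls ε k q hM d1) hen
  exact key

theorem cy_tB_end_rd {P : PkSys} (W : SfMD P) {tq : P.Tst → CyT} (hS : W.Str tq) (θ : ℝ) :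
    W.E.rd = (W.rsFE (W.tbH 1 θ)).rd + ∑ l : W.Lb 1, if W.m 1 l < θ then W.m 1 l ^ (3 / 2 : ℝ) / Real.sqrt (P.wt (W.ts 1 l)) else 0 := by
  rw [sf_res_rd_lab W hS, sf_res_f_tri_rd W hS, ← Finset.sum_add_distrib]
  refine Finset.sum_congr rfl fun l _ => ?_
  by_cases hc : W.m 1 l < θ
  · rw [if_pos hc, cy_tB_H_not W ⟨rfl, hc⟩, Set.indicator_empty]
    have h0 : P.en (W.T 1 l) (W.k 1) (W.gb 1) (fun _ => 0) (W.pre 1 (W.iv 1 l)) = 0 := by simp [PkSys.en]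
    rw [h0, Real.zero_rpow (by norm_num), zero_div, zero_add]
  · rw [if_neg hc, cy_tB_H_of W (fun h => hc h.2), Set.indicator_univ, add_zero]
    rfl

/-- the loss at the final gate -/
theorem cy_tB_end (Y : SfCy) (H : CyHyp Y) (hΓ : 0 < Y.M.Gam) {p : Y.M.Par} {W : SfMD (Y.M.sys p)} {i h a ξ τ Ls ε : ℝ} {k q C A : ℕ}
    (hM : CyMid Y p W i 1 k q h a ξ τ C A Ls ε) (ha : 0 < a) (ha' : a ≤ h / 160) (hξ : ξ ≤ h / 48) (hτ : τ ≤ h) (h1 : 1 ≤ h * W.E.n) :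
    W.E.rd ≤ 8 * (W.rsFE (W.tbH 1 (W.thr Y p 1 k ξ))).rd := by
  have hI := hM.inn
  have hP := hI.pre
  have hS := hP.str
  have hj := hS.gate.1
  have hcls := hI.cls
  have hV := hcls.2.1
  have hT := H.gen.tight p hcls.1
  have hN : (0 : ℝ) ≤ W.E.n := Nat.cast_nonneg _
  obtain ⟨d1, d2, d3, d4, d5, d6⟩ := cy_tB_depth hM (by linarith : a ≤ h)
  have hp3 : Y.M.p0 ≤ 3 := by
    have := gn_p0_le Y.M _ H.gen hΓ
    linarith
  have hmj : ((W.k 1 - W.E.k0 : ℕ) : ℝ) = W.E.n := by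
    rw [hS.k_one.1]
    unfold Xp.kf
    simp
  rw [hmj] at d5
  have hρ0 : 0 ≤ 2 ^ (-(5 * ((W.k 1 - k : ℕ) : ℝ))) * W.kap Y p k ξ := by
    unfold SfMD.kap
    exact mul_nonneg (gn_two_pos _).le (mul_nonneg hV.ka_pos.le (gn_two_pos _).le)
  have hT1 : ∑ l : W.Lb 1, (if W.m 1 l < W.thr Y p 1 k ξ then W.m 1 l ^ (3 / 2 : ℝ) / Real.sqrt ((Y.M.sys p).wt (W.ts 1 l)) else 0)
      ≤ (2 ^ (-(5 * ((W.k 1 - k : ℕ) : ℝ))) * W.kap Y p k ξ) ^ (3 / 2 : ℝ) * ∑ l, (Y.M.sys p).wt (W.ts 1 l) := by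
    rw [Finset.mul_sum]
    refine Finset.sum_le_sum fun l _ => ?_
    have hw := hT.wt_pos _ _ (hS.ok 1 hj l)
    split_ifs with hc
    · refine cy_tB_end_term (gn_en_nonneg _ _ _ (hS.nn 1 hj l) _) hρ0 hw ?_
      rw [← cy_tB_thr Y H W hS hj k ξ l]
      exact hc.le
    · exact mul_nonneg (Real.rpow_nonneg hρ0 _) hw.le
  have hT2 := hT1.trans (mul_le_mul_of_nonneg_left (hP.cnt 1 hj) (Real.rpow_nonneg hρ0 _))
  rw [cy_tB_cnt_conv] at hT2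
  have hrd := gn_rd_of_val W.E hV
  have hma : ((k - W.E.k0 : ℕ) : ℝ) ≤ (1 - h) * W.E.n := by
    have := mul_le_mul_of_nonneg_right (by linarith : i ≤ 1 - h) hN
    linarith
  have h2T := cy_tB_num_end (rd := W.E.rd) (Γ := Y.M.Gam) (τ := τ) hV.e_pos hV.ka_pos hN d5 hp3 rfl hma ha' hξ hτ h1 hT2 (by
    rw [hrd]
    exact mul_le_mul_of_nonneg_left hI.val (mul_nonneg (gn_two_pos _).le (mul_nonneg hV.e_pos.le (Real.sqrt_nonneg _))))
  have e := cy_tB_end_rd W hS (W.thr Y p 1 k ξ)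
  have hr0 := gn_rd_nonneg W.E hV
  linarith

/-- **TB4 = MOVE B** (02 l.618-628).   `W2 = W.rsS R j` (`j < 1`), `W.rsF R` (`j = 1`), `R = W.tbH j θ`, `θ = W.thr Y p j k ξ = δ^5 κ' w_j`.   `Str`: `sf_res_s_str`, `sf_res_f_str`; `CyRel`, `CyMid`, `Flo`: `cy_tB_fin`.
Loss.   `Σ_{light} m ≤ θ · #light = δ^5 κ' Σ_{light} w ≤ δ^5 κ' s^-a (e/κ) s^(-(p0+d0) j)` (`pre.cnt`, `H.wt`, `Str.width`).
`j < 1` (`cy_tB_int`): `cy_light` (`a0 = h/2`, `γ = h/16`) with `σ` = the gate, `Ml` = sum of the light weights; the states entering the gate are `κ'' = Cs κ'`-regular (`cy_tB_reg`: `gn_stack_reg_pl` from the cut `k`).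
Numbers (`cy_tB_num_int`): `√κ'' δ^5 κ' s^-a (e/κ) s^(-(p0+d0) j) ≤ √Cs δ^(5 - 3 p0/2) s^(-(3ξ/2 + 5a)) E_j √κ_j`, `5 - 3p0/2 ≥ 1/2`.
`j = 1` (`cy_tB_end`): `rd = rd' + Σ_{light} m^(3/2)/√w`, `Σ_{light} ≤ ρ^(3/2) Σ w`, `ρ = δ^5 κ'` (`cy_tB_num_end`).      `8 ≤ 2^(ζ n)`. -/
theorem cy_t_B (Y : SfCy) (H : CyHyp Y) (hΓ : 0 < Y.M.Gam) : CyStepB Y := by
  intro h ζ hh hζ
  obtain ⟨τl, hτl, HI⟩ := cy_tB_int Y H hΓ h hh
  refine ⟨h / 160, min (h / 48) 1, min τl h, by positivity, lt_min (by positivity) one_pos, lt_min hτl hh, fun C => ?_⟩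
  obtain ⟨A0, n0, HI⟩ := HI C
  obtain ⟨n3, hn3⟩ := gn_absorb 8 ζ hζ
  obtain ⟨n4, hn4⟩ := exists_nat_ge (1 / h)
  refine ⟨A0, max n0 (max n3 n4), ?_⟩
  intro A p W i j Ls ε a ξ τ k q hA hn ha ha' hξ0 hξ hτ0 hτ hM
  have hS := hM.inn.pre.str
  have hj := hM.inn.j_mem
  have hcls := hM.inn.cls
  have hV := hcls.2.1
  have h8 := hn3 W.E.n (((le_max_left _ _).trans (le_max_right _ _)).trans hn)
  have hrd0 : 0 < W.E.rd := by
    rw [gn_rd_of_val W.E hV]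
    have h1 : 0 < W.E.val := lt_of_lt_of_le (gn_two_pos _) hM.inn.val
    exact mul_pos (mul_pos (gn_two_pos _) (mul_pos hV.e_pos (Real.sqrt_pos.2 hV.ka_pos))) h1
  obtain ⟨d1, -⟩ := cy_tB_depth hM (by linarith : a ≤ h)
  rcases lt_or_eq_of_le (hS.gate.2 j hj).2 with hj1 | hj1
  · have hrd := HI A p W i j Ls ε a ξ τ k q hA ((le_max_left _ _).trans hn) ha ha' hξ0 (hξ.trans (min_le_left _ _)) (hξ.trans (min_le_right _ _))
      (hτ.trans (min_le_left _ _)) hM hj1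
    have hne := sf_res_s_ne W hS hj hj1 _ (by linarith : 0 < (W.E.withSt (W.rsSt (W.tbH j (W.thr Y p j k ξ)) j)).rd)
    have hR : SfRh W (W.tbH j (W.thr Y p j k ξ)) j := ⟨fun _ _ => MeasurableSet.const _, fun x hx l => cy_tB_H_of W (fun h => hx h.1), hne⟩
    have hS' := sf_res_s_str W _ hS hj hj1 hR
    obtain ⟨-, -, hlen0, -⟩ := sf_res_split W hS hj hj1
    have htk : (W.rsSt (W.tbH j (W.thr Y p j k ξ)) j).take (W.pos j) = W.E.st.take (W.pos j) := by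
      unfold SfMD.rsSt
      exact List.take_left' hlen0
    have hdrop : ∀ σ ∈ (W.rsSt (W.tbH j (W.thr Y p j k ξ)) j).drop q, k ≤ σ.k := by
      intro σ hσ
      unfold SfMD.rsSt at hσ
      rw [List.drop_append_of_le_length (by rw [hlen0]; exact hM.q_le)] at hσ
      rcases List.mem_append.1 hσ with h | h
      · rw [List.drop_take] at h
        exact hM.cut.2.2.1 σ (List.mem_of_mem_take h)
      · rcases List.mem_cons.1 h with h | h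
        · rw [h]
          exact d1
        · apply hM.cut.2.2.1 σ
          have e1 : W.E.st.drop (W.pos j + 1) = (W.E.st.drop q).drop (W.pos j + 1 - q) := by
            rw [List.drop_drop]
            congr 1
            have := hM.q_le
            omega
          rw [e1] at h
          exact List.mem_of_mem_drop h
    exact cy_tB_fin Y H W (W.rsSt (W.tbH j (W.thr Y p j k ξ)) j) W.E.L W.E.iv W.E.ts W.E.th hM hS'
      (by rw [sf_res_len W _ hS hj hj1]; exact hcls.2.2.1) (sf_res_s_gen W _ hS hj hj1 C hcls.2.2.2.1).2.2 htk hdrop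
      ⟨id, Function.injective_id, fun l => ⟨rfl, rfl, fun x => Or.inl rfl⟩⟩ hrd h8
  · subst hj1
    have h1 : 1 ≤ h * W.E.n := by
      have g1 : (n4 : ℝ) ≤ W.E.n := by exact_mod_cast ((le_max_right _ _).trans (le_max_right _ _)).trans hn
      have g2 : 1 / h ≤ W.E.n := hn4.trans g1
      rw [div_le_iff₀ hh] at g2
      linarith
    have hrd := cy_tB_end Y H hΓ hM ha ha' (hξ.trans (min_le_left _ _)) (hτ.trans (min_le_right _ _)) h1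
    have hne := sf_res_f_ne W hS _ (by linarith : 0 < (W.rsFE (W.tbH 1 (W.thr Y p 1 k ξ))).rd)
    have hR : SfRh W (W.tbH 1 (W.thr Y p 1 k ξ)) 1 := ⟨fun _ _ => MeasurableSet.const _, fun x hx l => cy_tB_H_of W (fun h => hx h.1), hne⟩
    have hS' := sf_res_f_str W _ hS hR
    obtain ⟨e, he⟩ := hS.final
    have hsub : CySubLab W.E (W.rsFE (W.tbH 1 (W.thr Y p 1 k ξ))) := by
      refine ⟨fun a => e ((Fintype.equivFin {l : W.Lb 1 // W.Kp (W.tbH 1 (W.thr Y p 1 k ξ)) 1 l}).symm a).1, ?_, fun a => ⟨?_, ?_, fun x => ?_⟩⟩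
      · intro a b hab
        exact (Fintype.equivFin _).symm.injective (Subtype.ext (e.injective hab))
      · exact ((he _).1).symm
      · exact ((he _).2.1).symm
      · rw [(he _).2.2]
        by_cases hx : x ∈ W.tbH 1 (W.thr Y p 1 k ξ) 1 ((Fintype.equivFin {l : W.Lb 1 // W.Kp (W.tbH 1 (W.thr Y p 1 k ξ)) 1 l}).symm a).1
        · left
          exact Set.indicator_of_mem hx _
        · right
          exact Set.indicator_of_notMem hx _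
    exact cy_tB_fin Y H W W.E.st (W.rsFE (W.tbH 1 (W.thr Y p 1 k ξ))).L (W.rsFE (W.tbH 1 (W.thr Y p 1 k ξ))).iv (W.rsFE (W.tbH 1 (W.thr Y p 1 k ξ))).ts
      (W.rsFE (W.tbH 1 (W.thr Y p 1 k ξ))).th hM hS' hcls.2.2.1 hcls.2.2.2.1.2.2 rfl hM.cut.2.2.1 hsub hrd h8

end Claimed.Agent.R256
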