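-- KEEP
import Claimed.Agent.R256.Cyl.StepAB

/-!
# Row 256 (LS paper), CYL, unit STEP, file 6 : MOVE C, part 1 = THE GAP OF A DOCUMENTED EXPERIMENT, SELECTION OF A CLASS          (chief helper255; prefix `cy_t`)

`W` = documented experiment after the moves A, B (`CyMid`, `Flo`).
* `W.gx j`      the gate experiment: prefix of `W.E` up to the gate `j`, terminal labels = ALL labels of the gate (enumerated by `Fintype.equivFin`)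
* `W.gxr j θ`   its labels with mass `≥ θ` (= the labels that survived move B);   `W.lbr j θ a : W.Lb j` the label number `a`
* `W.gap ..`, `W.gp Y p j k q ξ ε0 : CyGp Y p`   THE GAP, attachment truncation `Λ = s^(-2 ε0)`
* `sgS k S`     the stage `1_{S I}` at the depth `k`, generation `0`
 TC1 `cy_t_gap`      L  dictionary `W ↔ X`                                   0.45k
 TC2 `cy_t_gap_pol`  L  the polynomial package of the gap (from `H.poly`)      0.5k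
 TC3 `cy_t_gap_tot`  L  read mass of the gate after a new stage at the cut     0.3k
 TC4 `cy_t_read`     L  read mass at a gate WITHOUT preparation (K8, SS1)      0.45k
 TC5 `cy_t_holder`   L  Hölder                                                0.1k
 TC6 `cy_t_exUn`     L  the unattached class does not preserve                0.35k
 TC7 `cy_t_exAm`     L  the ambiguous class does not preserve                 0.5k
 TC8 `cy_t_lowb`     L  a preserving chart class has density `≥ κ_a s^ξ'`      0.6k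
 TC9 `cy_t_sel`      L  partition of unity, pigeonhole, selection              0.5k
-/

set_option autoImplicit false

namespace Claimed.Agent.R256

open MeasureTheory

/-- the gate experiment -/
noncomputable def SfMD.gx {P : PkSys} (W : SfMD P) (j : ℝ) : Xp P :=
  W.E.pre (W.k j - W.E.k0) (W.s1 j) (W.gb j) (fun a => W.iv j ((Fintype.equivFin (W.Lb j)).symm a))
    (fun a => W.ts j ((Fintype.equivFin (W.Lb j)).symm a)) (fun a => W.th j ((Fintype.equivFin (W.Lb j)).symm a))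

/-- the labels of the gate that read at least `θ` -/
noncomputable def SfMD.rt {P : PkSys} (W : SfMD P) (j θ : ℝ) : Finset (Fin (W.gx j).L) := Finset.univ.filter fun a => θ ≤ (W.gx j).m a

/-- the gate experiment with the retained labels -/
noncomputable def SfMD.gxr {P : PkSys} (W : SfMD P) (j θ : ℝ) : Xp P := (W.gx j).pick ((W.gx j).sel (W.rt j θ))

/-- the label number `a` -/
noncomputable def SfMD.lbr {P : PkSys} (W : SfMD P) (j θ : ℝ) (a : Fin (W.gxr j θ).L) : W.Lb j :=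
  (Fintype.equivFin (W.Lb j)).symm ((W.gx j).sel (W.rt j θ) a)

/-- the gap -/
noncomputable def SfMD.gap (Y : SfCy) (p : Y.M.Par) (W : SfMD (Y.M.sys p)) (j θ : ℝ) (k q : ℕ) (Λ : ℝ) : CyGp Y p :=
  ⟨W.gxr j θ, k, W.E.st.take q, (W.s1 j).drop q, W.r j, W.f j, Λ⟩

/-- the gap with the standard floor and truncation -/
noncomputable def SfMD.gp (Y : SfCy) (p : Y.M.Par) (W : SfMD (Y.M.sys p)) (j : ℝ) (k q : ℕ) (ξ ε0 : ℝ) : CyGp Y p :=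
  W.gap Y p j (W.thr Y p j k ξ) k q (W.E.s ^ (-(2 * ε0)))

/-- the stage `1_S` -/
noncomputable def sgS {P : PkSys} (k : ℕ) (S : ℕ → Set P.X) : Stg P := ⟨k, 0, fun I => (S I).indicator fun _ => 1⟩

/-- the conclusion of `cy_s_chart` for given constants -/
def CyChartP (Y : SfCy) (D0 Dst Ds : ℝ) (C0 : ℕ) : Prop :=
  ∀ (p : Y.M.Par) (X : CyGp Y p), X.Ok → X.Λ ≤ X.de⁻¹ → X.de ≤ 1 / 2 → ∃ c : CyCh X, c.Ok (X.de ^ (-D0)) (X.de ^ Ds) C0 (X.de ^ (-Dst) * X.fj)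

theorem cy_tc_eqns_cite : True := by
  have := @SfMD.gx.eq_1
  have := @SfMD.rt.eq_1
  have := @SfMD.gxr.eq_1
  have := @SfMD.lbr.eq_1
  have := @SfMD.gap.eq_1
  have := @SfMD.gp.eq_1
  have := @sgS.eq_1
  have := @CyChartP.eq_1
  trivial

theorem cy_tc1_gx_valid {Y : SfCy} (H : CyHyp Y) {p : Y.M.Par} {W : SfMD (Y.M.sys p)} (hgd : Y.M.gd p) (hS : W.Str (Y.tq p)) {j : ℝ} (hj : j ∈ W.G) :
    (W.gx j).Valid := by
  have hT := H.gen.tight p hgd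
  unfold SfMD.gx
  refine gn_pre_valid W.E hS.valid (cy_fw_cut W hS hj) (W.gb j) _ _ _ ?_ ?_ ?_ ?_ ?_ ?_ ?_
  · intro l; exact hS.iv_in j hj _
  · intro l; exact hS.ok j hj _
  · intro l; exact hT.wt_pos _ _ (hS.ok j hj _)
  · intro l; exact hS.meas j hj _
  · intro l x; exact hS.nn j hj _ x
  · intro l x hx; exact hS.supp j hj _ x hx
  · intro m x
    have := hS.sum_le j hj m x
    rw [← Equiv.sum_comp (Fintype.equivFin (W.Lb j)).symm] at this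
    exact this

theorem cy_tc1_gx_m {P : PkSys} (W : SfMD P) {tq : P.Tst → CyT} (hS : W.Str tq) {j : ℝ} (hj : j ∈ W.G) (l : Fin (W.gx j).L) :
    (W.gx j).m l = W.m j ((Fintype.equivFin (W.Lb j)).symm l) :=
  (gn_pre_m W.E (hS.k_rg j hj).1 (W.s1 j) (W.gb j) _ _ _ l).1

theorem cy_tc1_gb_le {P : PkSys} (W : SfMD P) {tq : P.Tst → CyT} (hS : W.Str tq) {j : ℝ} (hj : j ∈ W.G) {C : ℕ} (hG : W.E.GenLe C) : W.gb j ≤ C := by
  rcases lt_or_eq_of_le (hS.gate.2 j hj).2 with h1 | h1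
  · obtain ⟨σ, h2, -, h3, -⟩ := hS.stage j hj h1
    rw [← h3]
    exact hG.2.2 σ (List.mem_of_getElem? h2)
  · rw [h1, hS.k_one.2.2]; exact hG.2.1

/-- **TC1 = DICTIONARY**.   PLAN: unfold (`Xp.pre`, `Xp.pick`, `gn_pre_m`, `gn_pick_m'`, `gn_sel_mem`, `gn_sel_range`): `kf = k0 + (k j - k0) = k j` (`Str.k_rg`); `Valid` by `gn_pre_valid` (cut `cy_fw_cut`; label fields from `Str`: `iv_in` + `cy_fw_ivs`/`gn_mem_ivs`, `ok`, `meas`, `nn`, `supp`, `sum_le`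
transported along `equivFin`; `w_pos` by `Tight.wt_pos`) and `gn_pick_valid'`; the cut of `s1 j = take (pos j) st` at `q ≤ pos j`: `take q (take (pos j) st) = take q st`, depths from `hM.cut` (sublists);
`fj_dl`: `H.ok` for one label (`hne`), `Str.width`;  a label with `th ≠ 0` is heavy (`hF`), hence in `rt`. -/
theorem cy_t_gap {Y : SfCy} (H : CyHyp Y) {p : Y.M.Par} {W : SfMD (Y.M.sys p)} {i j h a ξ τ Ls ε : ℝ} {k q C A : ℕ} (hM : CyMid Y p W i j k q h a ξ τ C A Ls ε)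
    (hF : W.Flo Y p j k ξ) (hk : k ≤ W.k j) (hne : Nonempty (W.Lb j)) (θ Λ : ℝ) (hθ : θ = W.thr Y p j k ξ) (hθ0 : 0 < θ) (hΛ : 1 ≤ Λ) :
    (W.gap Y p j θ k q Λ).Ok ∧ (W.gxr j θ).kf = W.k j ∧ (W.gxr j θ).k0 = W.E.k0 ∧ (W.gxr j θ).i0 = W.E.i0 ∧ (W.gxr j θ).bT = W.gb j ∧
      (∀ a, (W.gxr j θ).iv a = W.iv j (W.lbr j θ a) ∧ (W.gxr j θ).ts a = W.ts j (W.lbr j θ a) ∧ (W.gxr j θ).th a = W.th j (W.lbr j θ a) ∧
        (W.gxr j θ).m a = W.m j (W.lbr j θ a) ∧ θ ≤ (W.gxr j θ).m a) ∧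
      Function.Injective (W.lbr j θ) ∧ (∀ l, W.th j l ≠ (fun _ => 0) → ∃ a, W.lbr j θ a = l) ∧
      (W.gxr j θ).tw ≤ ∑ l, (Y.M.sys p).wt (W.ts j l) ∧ (W.gxr j θ).st.length ≤ C ∧ (W.gxr j θ).GenLe C := by
  have hgd : Y.M.gd p := hM.inn.cls.1
  have hS : W.Str (Y.tq p) := hM.inn.pre.str
  have hj : j ∈ W.G := hM.inn.j_mem
  have hT := H.gen.tight p hgd
  have hkf : (W.gxr j θ).kf = W.k j := by
    show W.E.k0 + (W.k j - W.E.k0) = W.k j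
    have := (hS.k_rg j hj).1
    omega
  have hinj : Function.Injective (W.lbr j θ) := fun a b hab =>
    gn_sel_inj _ _ ((Fintype.equivFin (W.Lb j)).symm.injective hab)
  have hm : ∀ a, (W.gxr j θ).m a = W.m j (W.lbr j θ a) := by
    intro a
    have h1 := (gn_pick_m' (W.gx j) ((W.gx j).sel (W.rt j θ)) a).1
    exact h1.trans (cy_tc1_gx_m W hS hj _)
  have hw : ∀ a, (W.gxr j θ).w a = (Y.M.sys p).wt (W.ts j (W.lbr j θ a)) := fun a => rfl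
  have hst : (W.gxr j θ).st = W.E.st.take (W.pos j) := rfl
  refine ⟨⟨hgd, ?_, ?_, ?_, ?_, ?_, ?_, hΛ⟩, hkf, rfl, rfl, rfl, ?_, hinj, ?_, ?_, ?_, ?_⟩
  · exact gn_pick_valid' _ (cy_tc1_gx_valid H hgd hS hj) _ (gn_sel_inj _ _)
  · refine ⟨?_, ?_, ?_, ?_, ?_⟩
    · show W.E.st.take (W.pos j) = W.E.st.take q ++ (W.E.st.take (W.pos j)).drop q
      have e : W.E.st.take q = (W.E.st.take (W.pos j)).take q := by
        rw [List.take_take, min_eq_left hM.q_le]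
      rw [e, List.take_append_drop]
    · exact hM.cut.2.1
    · intro σ hσ
      have hσ' : σ ∈ (W.E.st.take (W.pos j)).drop q := hσ
      rw [List.drop_take] at hσ'
      exact hM.cut.2.2.1 σ (List.mem_of_mem_take hσ')
    · exact hM.cut.2.2.2.1
    · show k ≤ (W.gxr j θ).kf
      rw [hkf]; exact hk
  · intro l; exact hS.width j hj _
  · exact (hS.frame.2.2 j hj).1
  · exact (hS.frame.2.2 j hj).2
  · obtain ⟨l⟩ := hne
    show Y.dl p (W.gxr j θ).kf ≤ W.f j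
    rw [hkf, ← (hS.width j hj l).2]
    exact ((H.ok p _ _).1 (hS.ok j hj l)).2.2
  · intro a
    refine ⟨rfl, rfl, rfl, hm a, ?_⟩
    have h1 := gn_sel_mem (W.gx j) (W.rt j θ) a
    have h2 : θ ≤ (W.gx j).m ((W.gx j).sel (W.rt j θ) a) := (Finset.mem_filter.1 h1).2
    exact h2.trans (le_of_eq (gn_pick_m' (W.gx j) ((W.gx j).sel (W.rt j θ)) a).1.symm)
  · intro l hl
    have h1 : θ ≤ W.m j l := by
      rcases hF l with h0 | h0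
      · exact absurd h0 hl
      · rw [hθ]; exact h0
    obtain ⟨l', hl'⟩ : ∃ l' : Fin (W.gx j).L, (Fintype.equivFin (W.Lb j)).symm l' = l :=
      ⟨(Fintype.equivFin (W.Lb j)) l, Equiv.symm_apply_apply _ _⟩
    have h2 : l' ∈ W.rt j θ := by
      unfold SfMD.rt
      rw [Finset.mem_filter]
      refine ⟨Finset.mem_univ _, ?_⟩
      rw [cy_tc1_gx_m W hS hj, hl']; exact h1
    obtain ⟨a, ha⟩ := (gn_sel_range (W.gx j) (W.rt j θ) l').2 h2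
    refine ⟨a, ?_⟩
    show (Fintype.equivFin (W.Lb j)).symm ((W.gx j).sel (W.rt j θ) a) = l
    rw [ha, hl']
  · classical
    show ∑ a, (W.gxr j θ).w a ≤ _
    simp only [hw]
    rw [← Finset.sum_image (f := fun l => (Y.M.sys p).wt (W.ts j l)) (g := W.lbr j θ) (fun a _ b _ hab => hinj hab)]
    refine Finset.sum_le_sum_of_subset_of_nonneg (Finset.subset_univ _) ?_
    intro l _ _
    exact (hT.wt_pos _ _ (hS.ok j hj l)).le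
  · rw [hst]
    exact (List.length_take_le' _ _).trans hM.inn.cls.2.2.1
  · have hG := hM.inn.cls.2.2.2.1
    refine ⟨hG.1, cy_tc1_gb_le W hS hj hG, ?_⟩
    intro σ hσ
    rw [hst] at hσ
    exact hG.2.2 σ (List.mem_of_mem_take hσ)

theorem cy_tc2_pw (m : ℕ) (y : ℝ) : ((2 : ℝ)⁻¹ ^ m) ^ y = 2 ^ (-(y * m)) := by
  rw [← Real.rpow_natCast, ← Real.rpow_mul (by norm_num), Real.inv_rpow (by norm_num), ← Real.rpow_neg (by norm_num)]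
  congr 1
  ring

/-- the depths of the gap -/
theorem cy_tc2_num {Y : SfCy} {p : Y.M.Par} {W : SfMD (Y.M.sys p)} {i j h a ξ τ Ls ε : ℝ} {k q C A : ℕ} (hM : CyMid Y p W i j k q h a ξ τ C A Ls ε)
    (hh : 0 < h) (ha : a ≤ h / 4) (hn : 1 ≤ W.E.n) :
    k < W.k j ∧ h / 2 * W.E.n ≤ ((W.k j - k : ℕ) : ℝ) ∧ ((W.k j - k : ℕ) : ℝ) + ((k - W.E.k0 : ℕ) : ℝ) ≤ W.E.n := by
  have hin := hM.inn
  obtain ⟨h1, -, h3⟩ := cy_t_A_num hin hh ha hn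
  rw [← hM.k_eq] at h1 h3
  have hj := hin.j_mem
  have hS := hin.pre.str
  obtain ⟨r1, r2⟩ := hS.k_rg j hj
  have hk0 : W.E.k0 ≤ k := hM.cut.2.2.2.1
  have fl : (⌊i * W.E.n⌋₊ : ℝ) ≤ i * W.E.n := Nat.floor_le (mul_nonneg hin.i_nn (Nat.cast_nonneg _))
  have dj := (cy_fw_depth (cy_fw_prev_of hin.pre) hj).1
  have hgap : h ≤ j - i := hin.gap.1 i (Finset.mem_insert_self _ _) j (Finset.mem_insert_of_mem hj) hin.i_lt
  have hn0 : (0 : ℝ) ≤ W.E.n := Nat.cast_nonneg _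
  have e1 : ((W.k j - k : ℕ) : ℝ) = ((W.k j - W.E.k0 : ℕ) : ℝ) - ((k - W.E.k0 : ℕ) : ℝ) := by
    rw [Nat.cast_sub h1.le, Nat.cast_sub r1, Nat.cast_sub hk0]
    ring
  refine ⟨h1, ?_, ?_⟩
  · rw [e1, h3]
    nlinarith
  · rw [e1]
    have : W.k j - W.E.k0 ≤ W.E.n := by
      have : W.E.kf = W.E.k0 + W.E.n := rfl
      omega
    have : ((W.k j - W.E.k0 : ℕ) : ℝ) ≤ W.E.n := by exact_mod_cast this
    linarith

/-- **TC2 = POL**.   `δ = 2^-(k j - k) ≤ s^(h/2)`: every power of `s` is a power of `δ` (`s^-x ≤ δ^(-2x/h)`).   PLAN.   One retained label `a` (`hL`): `θ ≤ m a ≤ ms (cell) (run ..)`, `θ = δ^5 κ' w_j ≥ s^9 κ w_j`: `H.poly C 9` with the frame `Q0'` of `H.af_iff` (NOT `W.Q0`) gives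
`CyBdd (s^D') (cyNrm .. Q0' .. (tq (ts a)))`: `s^D' ≤ rj / Q0'.r, fj / Q0'.f ≤ s^-D'`.   With `CySet.ek_hi`, `ek_lo` (`H.af_def`): `e ≤ s^-(C + 4D') κ w_j`.
`reg`: `hM.prep`;  `en`: `‖ψ_I‖² ≤ e` (`gn_at_norm_le`);  `nlab`: `L w_j = tw ≤ s^-a (e/κ) s^-(p0+d0)` (`cy_t_gap`, `pre.cnt`);  `hyb`: `H 2^k / fj² ≥ H 2^k0 / Q0'.f² · (Q0'.f / fj)² ≥ s^(C + 2D')`. -/
theorem cy_t_gap_pol {Y : SfCy} (H : CyHyp Y) (hΓ : 0 < Y.M.Gam) (h : ℝ) (hh : 0 < h) (C : ℕ) : ∃ Cx A0 n0 : ℕ, ∀ (A : ℕ) (p : Y.M.Par) (W : SfMD (Y.M.sys p)) (i j a ξ τ Ls ε Λ : ℝ) (k q : ℕ),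
    A0 ≤ A → n0 ≤ W.E.n → 0 < a → a ≤ h / 4 → 0 < ξ → ξ ≤ 1 → CyMid Y p W i j k q h a ξ τ C A Ls ε → W.Flo Y p j k ξ → 1 ≤ Λ →
    0 < (W.gxr j (W.thr Y p j k ξ)).L → (W.gap Y p j (W.thr Y p j k ξ) k q Λ).Pol Cx (W.kap Y p k ξ) := by
  obtain ⟨D1, A1, n1, HP⟩ := H.poly C 9
  obtain ⟨D2, A2, n2, HF⟩ := H.gen.floor C 9
  obtain ⟨Cx, hCC, hCx⟩ : ∃ Cx : ℕ, C ≤ Cx ∧ ((D2 : ℝ) + 2 * D1 + C + 5 + h) ≤ Cx * (h / 2) := by
    obtain ⟨N, hN⟩ := exists_nat_ge (((D2 : ℝ) + 2 * D1 + C + 5 + h) / (h / 2))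
    refine ⟨max C N, le_max_left _ _, ?_⟩
    rw [div_le_iff₀ (by positivity)] at hN
    refine hN.trans ?_
    have : (N : ℝ) ≤ (max C N : ℕ) := by exact_mod_cast le_max_right _ _
    exact mul_le_mul_of_nonneg_right this (by positivity)
  refine ⟨Cx, max A1 A2, max (max n1 n2) 1, ?_⟩
  intro A p W i j a ξ τ Ls ε Λ k q hA hn ha ha4 hξ hξ1 hM hF hΛ hL
  have hgd : Y.M.gd p := hM.inn.cls.1
  have hS : W.Str (Y.tq p) := hM.inn.pre.str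
  have hj : j ∈ W.G := hM.inn.j_mem
  have hT := H.gen.tight p hgd
  have hV := hS.valid
  have hn1 : 1 ≤ W.E.n := (le_max_right _ _).trans hn
  have hnn1 : n1 ≤ W.E.n := ((le_max_left _ _).trans (le_max_left _ _)).trans hn
  have hnn2 : n2 ≤ W.E.n := ((le_max_right _ _).trans (le_max_left _ _)).trans hn
  obtain ⟨hkj, hd1, hd2⟩ := cy_tc2_num hM hh ha4 hn1
  obtain ⟨θ, hθ⟩ : ∃ θ, θ = W.thr Y p j k ξ := ⟨_, rfl⟩
  rw [← hθ] at hL ⊢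
  obtain ⟨hr, hf⟩ := hS.frame.2.2 j hj
  have hκ : 0 < W.kap Y p k ξ := by
    unfold SfMD.kap
    have := hV.ka_pos
    positivity
  have hθ0 : 0 < θ := by
    rw [hθ]
    unfold SfMD.thr
    positivity
  obtain ⟨hOk, hkf, -, -, -, hlab, -, -, htw, hlen, hgen⟩ := cy_t_gap H hM hF hkj.le (hS.lb_ne j) θ Λ hθ hθ0 hΛ
  have hFV : (W.gxr j θ).Valid := hOk.valid
  have hp1 : Y.M.p0 ≤ 3 := by
    have := gn_p0_le Y.M _ H.gen hΓ
    linarith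
  have hp2 : 1 ≤ Y.M.p0 := by
    have := gn_p0_ge Y.M _ H.gen hΓ
    have := H.eta.1
    linarith
  obtain ⟨wj, hwj⟩ : ∃ wj, wj = W.r j ^ (3 + Y.η) * W.f j ^ (1 - Y.η) := ⟨_, rfl⟩
  have hwj0 : 0 < wj := by rw [hwj]; positivity
  have hwt : ∀ l, (Y.M.sys p).wt ((W.gxr j θ).ts l) = wj := by
    intro l
    have w1 : (Y.tq p ((W.gxr j θ).ts l)).r = W.r j := (hOk.wid l).1
    have w2 : (Y.tq p ((W.gxr j θ).ts l)).f = W.f j := (hOk.wid l).2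
    rw [H.wt, hwj]
    unfold cyWt
    rw [w1, w2]
  obtain ⟨N, hN⟩ : ∃ N : ℝ, N = W.E.n := ⟨_, rfl⟩
  obtain ⟨d, hd⟩ : ∃ d : ℝ, d = ((W.k j - k : ℕ) : ℝ) := ⟨_, rfl⟩
  obtain ⟨m, hm⟩ : ∃ m : ℝ, m = ((k - W.E.k0 : ℕ) : ℝ) := ⟨_, rfl⟩
  rw [← hN, ← hd] at hd1
  rw [← hN, ← hd, ← hm] at hd2
  have hN1 : 1 ≤ N := by rw [hN]; exact_mod_cast hn1
  have hd0 : 0 ≤ d := by rw [hd]; exact Nat.cast_nonneg _
  have hm0 : 0 ≤ m := by rw [hm]; exact Nat.cast_nonneg _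
  have hka := hV.ka_pos
  have hkap : W.kap Y p k ξ = W.E.ka * 2 ^ (-(Y.M.p0 * m) + ξ * N) := by rw [hm, hN]; rfl
  have hpm : Y.M.p0 * m ≤ 3 * N - 3 * d := by
    have := mul_le_mul_of_nonneg_right hp1 hm0
    linarith
  have hξN : 0 < ξ * N := mul_pos hξ (by linarith)
  have hD1N : 0 ≤ (D1 : ℝ) * N := mul_nonneg (Nat.cast_nonneg _) (by linarith)
  have hD2N : 0 ≤ (D2 : ℝ) * N := mul_nonneg (Nat.cast_nonneg _) (by linarith)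
  have hCN : 0 ≤ (C : ℝ) * N := mul_nonneg (Nat.cast_nonneg _) (by linarith)
  have hhN : 0 ≤ h * N := mul_nonneg hh.le (by linarith)
  have haN : a * N ≤ h * N := mul_le_mul_of_nonneg_right (by linarith) (by linarith)
  have hCd : (D2 : ℝ) * N + 2 * ((D1 : ℝ) * N) + (C : ℝ) * N + 5 * N + h * N ≤ Cx * d := by
    have h1 : ((D2 : ℝ) + 2 * D1 + C + 5 + h) * N ≤ Cx * (h / 2) * N := mul_le_mul_of_nonneg_right hCx (by linarith)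
    have h2 : (Cx : ℝ) * (h / 2 * N) ≤ Cx * d := mul_le_mul_of_nonneg_left hd1 (Nat.cast_nonneg _)
    linarith
  have two : ∀ {x y : ℝ}, x ≤ y → (2 : ℝ) ^ x ≤ 2 ^ y := fun hxy => Real.rpow_le_rpow_of_exponent_le (by norm_num) hxy
  have mp : ∀ x y c w : ℝ, (2 : ℝ) ^ x * (c * 2 ^ y * w) = 2 ^ (x + y) * (c * w) := by
    intro x y c w
    rw [Real.rpow_add (by norm_num) x y]
    ring
  -- one heavy label
  have hheavy : W.E.s ^ ((9 : ℕ) : ℝ) * (W.E.ka * (Y.M.sys p).wt ((W.gxr j θ).ts ⟨0, hL⟩))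
      < (Y.M.sys p).ms (tmL (W.gxr j θ).kf ((W.gxr j θ).iv ⟨0, hL⟩)) (W.gxr j θ).kf (W.gxr j θ).bT
          ((Y.M.sys p).cell ((W.gxr j θ).ts ⟨0, hL⟩) (tmL (W.gxr j θ).kf ((W.gxr j θ).iv ⟨0, hL⟩)) (W.gxr j θ).kf)
          (Xp.run (W.gxr j θ).kf ((W.gxr j θ).iv ⟨0, hL⟩) (W.gxr j θ).st W.E.v) := by
    refine lt_of_lt_of_le ?_ ((hlab ⟨0, hL⟩).2.2.2.2.trans (gn_m_le_ms hT (W.gxr j θ) hFV ⟨0, hL⟩))
    rw [hwt, hθ]
    unfold SfMD.thr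
    rw [hkap, ← hwj, cy_tc2_pw, gn_s_rpow, ← hN, ← hd]
    rw [mp]
    refine mul_lt_mul_of_pos_right (Real.rpow_lt_rpow_of_exponent_lt (by norm_num) ?_) (by positivity)
    push_cast
    linarith
  have hstok : StOk W.E.k0 (W.gxr j θ).kf C C (W.gxr j θ).st :=
    ⟨hlen, hFV.st_dep, hFV.st_mono, hgen.2.2, fun σ hσ i => ⟨hFV.st_meas σ hσ i, hFV.st_bd σ hσ i⟩⟩
  have hk1 : W.E.k0 ≤ (W.gxr j θ).kf := Nat.le_add_right _ _
  have hk2 : (W.gxr j θ).kf ≤ W.E.kf := by rw [hkf]; exact (hS.k_rg j hj).2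
  have hcl1 : Y.M.Cls C A1 p W.E := gn_cls_anti Y.M H.gen.scale ((le_max_left _ _).trans hA) hM.inn.cls
  have hcl2 : Y.M.Cls C A2 p W.E := gn_cls_anti Y.M H.gen.scale ((le_max_right _ _).trans hA) hM.inn.cls
  have hfl := HF p W.E hnn2 hcl2 (W.gxr j θ).kf ((W.gxr j θ).iv ⟨0, hL⟩) (W.gxr j θ).bT (W.gxr j θ).st ((W.gxr j θ).ts ⟨0, hL⟩) hk1 hk2
    (hFV.iv_in ⟨0, hL⟩) hgen.2.1 hstok (hFV.ts_ok ⟨0, hL⟩) hheavy
  rw [hwt, gn_s_rpow, ← hN] at hfl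
  have he : W.E.e ≤ 2 ^ ((D2 : ℝ) * N) * (W.E.ka * wj) := by
    have e1 : W.E.e = 2 ^ ((D2 : ℝ) * N) * (2 ^ (-((D2 : ℝ) * N)) * W.E.e) := by
      rw [← mul_assoc, ← Real.rpow_add (by norm_num)]
      simp
    rw [e1]
    exact mul_le_mul_of_nonneg_left hfl (by positivity)
  have hde : ∀ y : ℝ, (W.gap Y p j θ k q Λ).de ^ y = 2 ^ (-(y * d)) := by
    intro y
    show ((2 : ℝ)⁻¹ ^ ((W.gxr j θ).kf - k)) ^ y = _
    rw [hkf, cy_tc2_pw, hd]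
  refine ⟨hlen.trans hCC, ⟨hgen.1.trans hCC, hgen.2.1.trans hCC, fun σ hσ => (hgen.2.2 σ hσ).trans hCC⟩, hκ, ?_, ?_, ?_, ?_⟩
  · intro I hI
    exact hM.prep.2 I hI 0 le_rfl
  · intro I hI
    have h1 : ‖(W.gap Y p j θ k q Λ).ps I‖ ^ 2 ≤ W.E.e := gn_at_norm_le hT (W.gxr j θ) hFV hOk.cut I
    refine h1.trans (he.trans ?_)
    have e2 : (W.gap Y p j θ k q Λ).wj = wj := by rw [hwj]; rfl
    rw [hde, e2, hkap]
    rw [mp]
    refine mul_le_mul_of_nonneg_right (two ?_) (by positivity)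
    linarith
  · rw [hde]
    have hcnt := hM.inn.pre.cnt j hj
    have e1 : (W.gxr j θ).tw = (W.gxr j θ).L * wj := by
      unfold Xp.tw Xp.w
      simp only [hwt]
      simp
    rw [gn_s_rpow, gn_s_rpow, ← hN] at hcnt
    obtain ⟨hj0, hj1⟩ := hS.gate.2 j hj
    have hpd : (Y.M.p0 + Y.M.d0) * j ≤ 4 := by
      have e : Y.M.d0 = Y.M.Gam + (Y.M.p0 - 1) / 2 := rfl
      have g := gn_p0_le Y.M _ H.gen hΓ
      have h0 : 0 ≤ Y.M.p0 + Y.M.d0 := by rw [e]; linarith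
      have h4 : Y.M.p0 + Y.M.d0 ≤ 4 := by rw [e]; linarith
      have := mul_le_mul_of_nonneg_left hj1 h0
      linarith
    have hpdN : (Y.M.p0 + Y.M.d0) * j * N ≤ 4 * N := mul_le_mul_of_nonneg_right hpd (by linarith)
    have h2 : W.E.e / W.E.ka ≤ 2 ^ ((D2 : ℝ) * N) * wj := by
      rw [div_le_iff₀ hka]
      calc W.E.e ≤ 2 ^ ((D2 : ℝ) * N) * (W.E.ka * wj) := he
        _ = 2 ^ ((D2 : ℝ) * N) * wj * W.E.ka := by ring
    have h3 : ((W.gxr j θ).L : ℝ) * wj ≤ 2 ^ (-(-a * N) + (D2 : ℝ) * N + -(-((Y.M.p0 + Y.M.d0) * j) * N)) * wj := by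
      rw [← e1]
      refine (htw.trans hcnt).trans ?_
      rw [Real.rpow_add (by norm_num), Real.rpow_add (by norm_num)]
      calc (2 : ℝ) ^ (-(-a * N)) * (W.E.e / W.E.ka) * 2 ^ (-(-((Y.M.p0 + Y.M.d0) * j) * N))
          ≤ (2 : ℝ) ^ (-(-a * N)) * (2 ^ ((D2 : ℝ) * N) * wj) * 2 ^ (-(-((Y.M.p0 + Y.M.d0) * j) * N)) := by gcongr
        _ = _ := by ring
    refine (le_of_mul_le_mul_right h3 hwj0).trans (two ?_)
    linarith
  · intro hy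
    rw [hde]
    obtain ⟨Q0, haf⟩ := (H.af_iff C A1 p W.E hgd).1 hcl1.2.2.2.2
    obtain ⟨-, hset, hH⟩ := (H.af_def C A1 p W.E Q0).1 haf
    have hH1 := (hH hy).1
    have hbd := HP p W.E Q0 hnn1 hcl1 haf (W.gxr j θ).kf ((W.gxr j θ).iv ⟨0, hL⟩) (W.gxr j θ).bT (W.gxr j θ).st ((W.gxr j θ).ts ⟨0, hL⟩) hk1 hk2
      (hFV.iv_in ⟨0, hL⟩) hgen.2.1 hstok (hFV.ts_ok ⟨0, hL⟩) hheavy
    have hb5 : (Y.tq p ((W.gxr j θ).ts ⟨0, hL⟩)).f / Q0.f ≤ (W.E.s ^ (D1 : ℝ))⁻¹ := hbd.2.2.2.2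
    have w2 : (Y.tq p ((W.gxr j θ).ts ⟨0, hL⟩)).f = W.f j := (hOk.wid ⟨0, hL⟩).2
    rw [w2, gn_s_rpow, ← hN, ← Real.rpow_neg (by norm_num), div_le_iff₀ hset.f_pos] at hb5
    rw [gn_s_rpow, ← hN] at hH1
    have hH0 : 0 ≤ Y.H p := by
      have := H.dl_sq p hgd 0
      have h0 : 0 ≤ Y.dl p 0 ^ 2 := sq_nonneg _
      rw [this] at h0
      simpa using h0
    show _ ≤ Y.H p * 2 ^ k / W.f j ^ 2
    have hk0 : W.E.k0 ≤ k := hM.cut.2.2.2.1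
    have h2k : (2 : ℝ) ^ W.E.k0 ≤ 2 ^ k := pow_le_pow_right₀ (by norm_num) hk0
    have hQf := hset.f_pos
    have hsq : W.f j ^ 2 ≤ 2 ^ (2 * ((D1 : ℝ) * N)) * Q0.f ^ 2 := by
      have : (2 : ℝ) ^ (2 * ((D1 : ℝ) * N)) = (2 ^ (- -((D1 : ℝ) * N))) ^ 2 := by
        rw [← Real.rpow_natCast, ← Real.rpow_mul (by norm_num)]
        congr 1
        push_cast
        ring
      rw [this, ← mul_pow]
      exact pow_le_pow_left₀ hf.le hb5 2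
    rw [le_div_iff₀ (by positivity)]
    calc (2 : ℝ) ^ (-((Cx : ℝ) * d)) * W.f j ^ 2 ≤ 2 ^ (-((Cx : ℝ) * d)) * (2 ^ (2 * ((D1 : ℝ) * N)) * Q0.f ^ 2) := by gcongr
      _ = 2 ^ (-((Cx : ℝ) * d) + 2 * ((D1 : ℝ) * N)) * Q0.f ^ 2 := by
          rw [Real.rpow_add (by norm_num)]
          ring
      _ ≤ 2 ^ (-((C : ℝ) * N)) * Q0.f ^ 2 := by
          refine mul_le_mul_of_nonneg_right (two ?_) (by positivity)
          linarith
      _ ≤ Y.H p * 2 ^ W.E.k0 / Q0.f ^ 2 * Q0.f ^ 2 := by gcongr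
      _ = Y.H p * 2 ^ W.E.k0 := by field_simp
      _ ≤ Y.H p * 2 ^ k := by gcongr

/-- **TC3**.   PLAN: `tot = Σ_l m`; deleted labels read `0` (`hF`, `th = 0`); the others are enumerated by `lbr` (`cy_t_gap`: injective, onto the labels with `th ≠ 0`; a heavy label with.. `th = 0` cannot occur as `θ > 0`);
`cy_t_inq_pre`, `gn_run_append`, `Xp.run` of the new stage, `gn_run_anc` (`take q` has depths `≤ k`), `gn_anc_self`: the state entering the gate on `m` is `run (k j) m ((s1 j).drop q) (cutS I (S I))`, `I = ancI (k j) k m`. -/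
theorem cy_t_gap_tot {Y : SfCy} (H : CyHyp Y) {p : Y.M.Par} {W : SfMD (Y.M.sys p)} {i j h a ξ τ Ls ε : ℝ} {k q C A : ℕ} (hM : CyMid Y p W i j k q h a ξ τ C A Ls ε)
    (hF : W.Flo Y p j k ξ) (hk : k ≤ W.k j) (hne : Nonempty (W.Lb j)) (θ Λ : ℝ) (hθ : θ = W.thr Y p j k ξ) (hθ0 : 0 < θ) (S : ℕ → Set (Y.M.sys p).X) :
    (W.inq q (sgS k S)).tot j = ∑ a, (W.gap Y p j θ k q Λ).rdm a ((W.gap Y p j θ k q Λ).cutS ((W.gap Y p j θ k q Λ).an a) (S ((W.gap Y p j θ k q Λ).an a))) := by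
  obtain ⟨-, e_kf, -, -, e_bT, e_lab, h_inj, h_surj, -⟩ := cy_t_gap H hM hF hk hne θ 1 hθ hθ0 le_rfl
  have hstr := hM.inn.pre.str
  have hj := hM.inn.j_mem
  have hl : W.pos j ≤ W.E.st.length := by
    rcases lt_or_eq_of_le (hstr.gate.2 j hj).2 with hj1 | hj1
    · have := (hstr.k_mono j hj 1 hstr.gate.1 hj1).2
      rw [hstr.k_one.2.1] at this
      exact this.le
    · rw [hj1, hstr.k_one.2.1]
  -- the mass of a label after the insertion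
  have key : ∀ l : W.Lb j, (W.inq q (sgS k S)).m j l = (Y.M.sys p).en (tmL (W.k j) (W.iv j l)) (W.k j) (W.gb j) (W.th j l)
      (Xp.run (W.k j) (W.iv j l) ((W.s1 j).drop q) ((Y.M.sys p).tz (tmL k (ancI (W.k j) k (W.iv j l))) k 0 ((S (ancI (W.k j) k (W.iv j l))).indicator fun _ => 1)
        (Xp.run k (ancI (W.k j) k (W.iv j l)) (W.E.st.take q) W.E.v))) := by
    intro l
    have e1 := cy_t_inq_pre W q (sgS k S) j hM.q_le hl (W.iv j l)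
    have e2 : Xp.run (W.k j) (W.iv j l) (W.E.st.take q ++ sgS k S :: (W.E.st.take (W.pos j)).drop q) W.E.v
        = Xp.run (W.k j) (W.iv j l) ((W.s1 j).drop q) ((Y.M.sys p).tz (tmL k (ancI (W.k j) k (W.iv j l))) k 0 ((S (ancI (W.k j) k (W.iv j l))).indicator fun _ => 1)
        (Xp.run k (ancI (W.k j) k (W.iv j l)) (W.E.st.take q) W.E.v)) := by
      rw [gn_run_append, gn_run_anc hk _ _ hM.cut.2.1]
      rfl
    show (Y.M.sys p).en (tmL (W.k j) (W.iv j l)) (W.k j) (W.gb j) (W.th j l) ((W.inq q (sgS k S)).pre j (W.iv j l)) = _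
    rw [e1, e2]
  have key2 : ∀ a, (W.gap Y p j θ k q Λ).rdm a ((W.gap Y p j θ k q Λ).cutS ((W.gap Y p j θ k q Λ).an a) (S ((W.gap Y p j θ k q Λ).an a)))
      = (W.inq q (sgS k S)).m j (W.lbr j θ a) := by
    intro a
    rw [key]
    obtain ⟨f1, -, f3, -, -⟩ := e_lab a
    show (Y.M.sys p).en (tmL (W.gxr j θ).kf ((W.gxr j θ).iv a)) (W.gxr j θ).kf (W.gxr j θ).bT ((W.gxr j θ).th a)
      (Xp.run (W.gxr j θ).kf ((W.gxr j θ).iv a) ((W.s1 j).drop q)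
        ((Y.M.sys p).tz (tmL k (ancI (W.gxr j θ).kf k ((W.gxr j θ).iv a))) k 0 ((S (ancI (W.gxr j θ).kf k ((W.gxr j θ).iv a))).indicator fun _ => 1)
          (Xp.run k (ancI (W.gxr j θ).kf k ((W.gxr j θ).iv a)) (W.E.st.take q) W.E.v))) = _
    rw [e_kf, e_bT, f1, f3]
  show ∑ l : W.Lb j, (W.inq q (sgS k S)).m j l = _
  symm
  refine Finset.sum_of_injOn (W.lbr j θ) h_inj.injOn (fun _ _ => Finset.mem_coe.2 (Finset.mem_univ _)) ?_ (fun a _ => key2 a)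
  intro l _ hl'
  have h0 : W.th j l = fun _ => 0 := by
    by_contra hn
    obtain ⟨a, ha⟩ := h_surj l hn
    exact hl' ⟨a, Finset.mem_coe.2 (Finset.mem_univ _), ha⟩
  rw [key, h0]
  unfold PkSys.en
  simp

/-- numerics of an interior gate -/
theorem cy_tc4_num1 {P : PkSys} (E : Xp P) (he : 0 < E.e) (d0 ξ a j K : ℝ) (ha : |d0| * a ≤ ξ / 2) (hK : |K - j * E.n| ≤ a * E.n) :
    E.s ^ ξ * E.e * E.s ^ (-(d0 * j)) ≤ E.e * 2 ^ (d0 * K - ξ / 2 * E.n) := by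
  rw [gn_s_rpow, gn_s_rpow]
  have key : (2 : ℝ) ^ (-(ξ * E.n)) * 2 ^ (-(-(d0 * j) * E.n)) ≤ 2 ^ (d0 * K - ξ / 2 * E.n) := by
    rw [← gn_two_add]
    apply gn_two_mono
    have h1 : d0 * (j * E.n - K) ≤ |d0| * (a * E.n) := by
      calc d0 * (j * E.n - K) ≤ |d0 * (j * E.n - K)| := le_abs_self _
        _ = |d0| * |K - j * E.n| := by rw [abs_mul, abs_sub_comm]
        _ ≤ |d0| * (a * E.n) := mul_le_mul_of_nonneg_left hK (abs_nonneg _)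
    have h2 : |d0| * (a * E.n) ≤ ξ / 2 * E.n := by
      rw [← mul_assoc]
      exact mul_le_mul_of_nonneg_right ha (Nat.cast_nonneg _)
    linarith
  calc (2 : ℝ) ^ (-(ξ * E.n)) * E.e * 2 ^ (-(-(d0 * j) * E.n)) = E.e * (2 ^ (-(ξ * E.n)) * 2 ^ (-(-(d0 * j) * E.n))) := by ring
    _ ≤ _ := mul_le_mul_of_nonneg_left key he.le

/-- an interior gate: the energy after the gate is at most the read mass -/
theorem cy_tc4_int {P : PkSys} (hT : P.Tight) {W : SfMD P} {tq : P.Tst → CyT} (hS : W.Str tq) (hL : 0 < W.E.L) {j : ℝ} (hj : j ∈ W.G) (hj1 : j < 1) :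
    ∃ (σ : Stg P) (r : List (Stg P)), W.E.CutAt (W.k j) (W.s1 j ++ [σ]) r ∧
      ∑ i ∈ ivs W.E.k0 W.E.i0 (W.k j), ‖W.E.at' (W.k j) i (W.s1 j ++ [σ])‖ ^ 2 ≤ W.tot j := by
  obtain ⟨σ, r, h2, hk, hb, hM⟩ := cy_fw_s2_cons W hS hj hj1
  have hc := cy_fw_cut W hS hj
  rw [h2, ← hk] at hc
  have hc' := cy_fw_cut_after W.E hc
  have hmem : σ ∈ W.E.st := by
    rw [hc.1]
    exact List.mem_append_right _ List.mem_cons_self
  have hmask : ∀ i, IsMask (σ.M i) := fun i => ⟨hS.valid.st_meas σ hmem i, hS.valid.st_bd σ hmem i⟩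
  refine ⟨σ, r, by rw [← hk]; exact hc', ?_⟩
  rw [cy_fw_tot W hS hL hj σ hk hb hM, ← hk]
  refine Finset.sum_le_sum fun i _ => ?_
  rw [gn_lvl_at]
  refine (gn_tz_normsq_le hT _ _ _ (hmask i) _).trans ?_
  refine gn_en_mono _ _ _ (gn_mask_sq (hmask i)) (hmask i) (fun x => ?_) _
  have := (hmask i).2 x
  nlinarith [this.1, this.2]

/-- numerics of the final gate -/
theorem cy_tc4_num2 (n e ka val tm Γ p0 d0 ξ τ rd : ℝ) (hn : 0 ≤ n) (he : 0 < e) (hka : 0 < ka) (hd : d0 = Γ + (p0 - 1) / 2) (hτ : τ ≤ ξ / 4)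
    (h2 : 2 ≤ (2 : ℝ) ^ (ξ / 2 * n)) (hval : (2 : ℝ) ^ ((Γ - τ) * n) ≤ val) (hrd : rd = 2 ^ (-(n / 2)) * (e * Real.sqrt ka) * val)
    (hle : rd ≤ 2 * (Real.sqrt (ka * 2 ^ (-((p0 - ξ / 2) * n))) * tm)) : (2 : ℝ) ^ (-(ξ * n)) * e * 2 ^ (-(-(d0 * 1) * n)) ≤ tm := by
  have hsk : 0 < Real.sqrt ka := Real.sqrt_pos.2 hka
  have e1 : Real.sqrt (ka * 2 ^ (-((p0 - ξ / 2) * n))) = Real.sqrt ka * 2 ^ (-((p0 - ξ / 2) * n) / 2) := by
    rw [Real.sqrt_mul hka.le, Real.sqrt_eq_rpow ((2 : ℝ) ^ (-((p0 - ξ / 2) * n))), gn_two_mul]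
    congr 2
    ring
  rw [e1, hrd] at hle
  obtain ⟨B, hB⟩ : ∃ B : ℝ, B = 2 ^ (-((p0 - ξ / 2) * n) / 2) := ⟨_, rfl⟩
  have hBp : 0 < B := by rw [hB]; exact gn_two_pos _
  rw [← hB] at hle
  have h3 : (2 : ℝ) ^ (-(n / 2)) * e * val ≤ 2 * B * tm := by
    have : Real.sqrt ka * ((2 : ℝ) ^ (-(n / 2)) * e * val) ≤ Real.sqrt ka * (2 * B * tm) := by
      calc Real.sqrt ka * ((2 : ℝ) ^ (-(n / 2)) * e * val) = 2 ^ (-(n / 2)) * (e * Real.sqrt ka) * val := by ring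
        _ ≤ 2 * (Real.sqrt ka * B * tm) := hle
        _ = _ := by ring
    exact le_of_mul_le_mul_left this hsk
  have h4 : (2 : ℝ) ^ (-(n / 2)) * e * 2 ^ ((Γ - τ) * n) ≤ 2 ^ (-(n / 2)) * e * val :=
    mul_le_mul_of_nonneg_left hval (mul_pos (gn_two_pos _) he).le
  have h5 : 2 * B * ((2 : ℝ) ^ (-(ξ * n)) * 2 ^ (-(-(d0 * 1) * n))) ≤ 2 ^ (-(n / 2)) * 2 ^ ((Γ - τ) * n) := by
    calc 2 * B * ((2 : ℝ) ^ (-(ξ * n)) * 2 ^ (-(-(d0 * 1) * n)))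
        ≤ 2 ^ (ξ / 2 * n) * B * ((2 : ℝ) ^ (-(ξ * n)) * 2 ^ (-(-(d0 * 1) * n))) :=
          mul_le_mul_of_nonneg_right (mul_le_mul_of_nonneg_right h2 hBp.le) (mul_pos (gn_two_pos _) (gn_two_pos _)).le
      _ = 2 ^ (ξ / 2 * n + -((p0 - ξ / 2) * n) / 2 + (-(ξ * n) + -(-(d0 * 1) * n))) := by
          rw [hB, gn_two_add, gn_two_add, gn_two_add]
      _ ≤ 2 ^ (-(n / 2) + (Γ - τ) * n) := by
          apply gn_two_mono
          rw [hd]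
          have : τ * n ≤ ξ / 4 * n := mul_le_mul_of_nonneg_right hτ hn
          nlinarith [this]
      _ = _ := gn_two_add _ _
  have h6 : 2 * B * ((2 : ℝ) ^ (-(ξ * n)) * e * 2 ^ (-(-(d0 * 1) * n))) ≤ 2 * B * tm := by
    calc 2 * B * ((2 : ℝ) ^ (-(ξ * n)) * e * 2 ^ (-(-(d0 * 1) * n))) = e * (2 * B * ((2 : ℝ) ^ (-(ξ * n)) * 2 ^ (-(-(d0 * 1) * n)))) := by ring
      _ ≤ e * (2 ^ (-(n / 2)) * 2 ^ ((Γ - τ) * n)) := mul_le_mul_of_nonneg_left h5 he.le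
      _ = (2 : ℝ) ^ (-(n / 2)) * e * 2 ^ ((Γ - τ) * n) := by ring
      _ ≤ _ := h4.trans h3
  exact le_of_mul_le_mul_left h6 (by positivity)

/-- **TC4 = READ** (02 l.601-611): no preparation at the gate is assumed.   PLAN.   `j < 1`: `τ8` from `cy_read (a0 = h/2) (ξ/2)`; `σ, r` from `cy_fw_s2_cons`; cut AFTER the gate (`cy_fw_cut`, `cy_fw_cut_after`); `kf - k j ≥ (1 - j - a) n ≥ (h/2) n` (`cy_fw_depth`, `cy_fw_gap`);
`‖tz (σ.M m) ψ‖² ≤ en (σ.M m) ψ` (`gn_lvl_at`, `gn_tz_normsq_le`, `gn_en_mono`, `gn_mask_sq`), `cy_fw_tot`; `Cnt` by `cy_fw_count`; `2^(d0 (k j - k0)) ≥ 2^(d0 (j - a) n)`.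
`j = 1`: `gn_ss1_set ⊤ p0 (gn_pmin_p0 ..)` at `ξ/2`: `rd ≤ 2 Σ_S tr ≤ 2 √(κ s^(p0 - ξ/2)) tm` (`gn_tr_le`), `gn_rd_of_val`, `d0 = Γ + (p0-1)/2`, `cy_fw_final`. -/
theorem cy_t_read (Y : SfCy) (H : CyHyp Y) (hΓ : 0 < Y.M.Gam) (h ξ : ℝ) (hh : 0 < h) (hξ : 0 < ξ) : ∃ a0 τ0 : ℝ, 0 < a0 ∧ 0 < τ0 ∧ ∀ C : ℕ, ∃ A0 n0 : ℕ,
    ∀ (A : ℕ) (p : Y.M.Par) (W : SfMD (Y.M.sys p)) (Ls ε a j : ℝ), A0 ≤ A → n0 ≤ W.E.n → 0 < a → a ≤ a0 → Y.M.Cls C A p W.E → CyGap W.G h →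
      W.Pre Y p Y.M.p0 Y.M.d0 Ls ε a → 2 ^ ((Y.M.Gam - τ0) * W.E.n) ≤ W.E.val → j ∈ W.G → W.E.s ^ ξ * W.E.e * W.E.s ^ (-(Y.M.d0 * j)) ≤ W.tot j := by
  have hfl : Y.M.Flat := H.pl_univ
  obtain ⟨τ8, hτ8, H8⟩ := cy_read Y.M (1 + Y.η / 2) H.gen hfl hΓ (h / 2) (ξ / 2) (by positivity) (by positivity)
  obtain ⟨τ1, hτ1, H1⟩ := gn_ss1_set Y.M (1 + Y.η / 2) H.gen ⊤ Y.M.p0 (gn_pmin_p0 Y.M _ H.gen hΓ) (ξ / 2) (by positivity)
  have hd1 : 0 < |Y.M.d0| + 1 := by positivity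
  refine ⟨min (min (h / 2) (ξ / 2 / (|Y.M.d0| + 1))) (min τ8 τ1), min (min τ8 τ1) (ξ / 4),
    lt_min (lt_min (by positivity) (by positivity)) (lt_min hτ8 hτ1), lt_min (lt_min hτ8 hτ1) (by positivity), fun C => ?_⟩
  obtain ⟨A8, n8, H8⟩ := H8 C
  obtain ⟨A1, n1, H1⟩ := H1 C
  obtain ⟨n2, hn2⟩ := gn_absorb 2 (ξ / 2) (by positivity)
  refine ⟨max A8 A1, max (max n8 n1) n2, fun A p W Ls ε a j hA hn ha ha0 hcls hgap hpre hval hj => ?_⟩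
  have ha1 : a ≤ h / 2 := ha0.trans ((min_le_left _ _).trans (min_le_left _ _))
  have ha2 : a ≤ ξ / 2 / (|Y.M.d0| + 1) := ha0.trans ((min_le_left _ _).trans (min_le_right _ _))
  have ha3 : a ≤ τ8 := ha0.trans ((min_le_right _ _).trans (min_le_left _ _))
  have ha4 : a ≤ τ1 := ha0.trans ((min_le_right _ _).trans (min_le_right _ _))
  have hnn : (0 : ℝ) ≤ W.E.n := Nat.cast_nonneg _
  have hS := hpre.str
  have hV := hS.valid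
  have hP := cy_fw_prev_of hpre
  have hT := H.gen.tight p hcls.1
  have hvpos : 0 < W.E.val := lt_of_lt_of_le (gn_two_pos _) hval
  have hL := cy_fw_label W.E hvpos
  rcases lt_or_eq_of_le (hS.gate.2 j hj).2 with hj1 | rfl
  · obtain ⟨σ, r, hc, hle⟩ := cy_tc4_int hT hS hL hj hj1
    have hcl8 : Y.M.Cls C A8 p W.E := gn_cls_anti Y.M H.gen.scale ((le_max_left _ _).trans hA) hcls
    have hcnt : W.E.Cnt (Y.M.p0 + Y.M.d0) τ8 := cy_fw_count hP ha3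
    have hv8 : (2 : ℝ) ^ ((Y.M.Gam - τ8) * W.E.n) ≤ W.E.val := by
      refine (gn_two_mono (mul_le_mul_of_nonneg_right ?_ hnn)).trans hval
      have : min (min τ8 τ1) (ξ / 4) ≤ τ8 := (min_le_left _ _).trans (min_le_left _ _)
      linarith
    have hdep : h / 2 * W.E.n ≤ ((W.E.kf - W.k j : ℕ) : ℝ) := by
      refine le_trans (mul_le_mul_of_nonneg_right ?_ hnn) (cy_fw_depth hP hj).2.2
      rcases (cy_fw_gap hS hS.gate.1 (Finset.Subset.refl _) hgap hj).2 with h1 | h1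
      · exact absurd h1 hj1.ne
      · linarith
    have h8 := H8 p W.E (((le_max_left _ _).trans (le_max_left _ _)).trans hn) hcl8 hcnt hv8 (W.k j) _ _ hc hdep
    refine le_trans ?_ (h8.trans hle)
    refine cy_tc4_num1 W.E hV.e_pos Y.M.d0 ξ a j _ ?_ ?_
    · calc |Y.M.d0| * a ≤ (|Y.M.d0| + 1) * a := mul_le_mul_of_nonneg_right (by linarith) ha.le
        _ ≤ (|Y.M.d0| + 1) * (ξ / 2 / (|Y.M.d0| + 1)) := mul_le_mul_of_nonneg_left ha2 hd1.le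
        _ = ξ / 2 := by field_simp
    · rw [Nat.cast_sub (hS.k_rg j hj).1]
      exact hpre.depth j hj
  · have hcl1 : Y.M.Cls C A1 p W.E := gn_cls_anti Y.M H.gen.scale ((le_max_right _ _).trans hA) hcls
    have hcnt : W.E.tw ≤ W.E.e / W.E.ka * W.E.s ^ (-(Y.M.p0 + Y.M.dOf Y.M.p0) - τ1) := cy_fw_count hP ha4
    have hv1 : (2 : ℝ) ^ ((Y.M.Gam - τ1) * W.E.n) ≤ W.E.val := by
      refine (gn_two_mono (mul_le_mul_of_nonneg_right ?_ hnn)).trans hval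
      have : min (min τ8 τ1) (ξ / 4) ≤ τ1 := (min_le_left _ _).trans (min_le_right _ _)
      linarith
    obtain ⟨S, hSm, hrd⟩ := H1 p W.E (((le_max_right _ _).trans (le_max_left _ _)).trans hn) hcl1 le_top hcnt hv1
    rw [(cy_fw_final W hS).2.1, gn_s_rpow, gn_s_rpow]
    refine cy_tc4_num2 W.E.n W.E.e W.E.ka W.E.val W.E.tm Y.M.Gam Y.M.p0 Y.M.d0 ξ _ W.E.rd hnn hV.e_pos hV.ka_pos rfl (min_le_right _ _)
      (hn2 _ ((le_max_right _ _).trans hn)) hval (gn_rd_of_val W.E hV) ?_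
    refine hrd.trans (mul_le_mul_of_nonneg_left ?_ (by norm_num))
    rw [← gn_s_rpow]
    calc ∑ l ∈ S, W.E.tr l ≤ ∑ l ∈ S, Real.sqrt (W.E.ka * W.E.s ^ (Y.M.p0 - ξ / 2)) * W.E.m l := by
          refine Finset.sum_le_sum fun l hl => gn_tr_le W.E hV l ?_
          refine (hSm l hl).2.trans (le_of_eq ?_)
          ring
      _ = Real.sqrt (W.E.ka * W.E.s ^ (Y.M.p0 - ξ / 2)) * ∑ l ∈ S, W.E.m l := by rw [Finset.mul_sum]
      _ ≤ Real.sqrt (W.E.ka * W.E.s ^ (Y.M.p0 - ξ / 2)) * W.E.tm := by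
          refine mul_le_mul_of_nonneg_left ?_ (Real.sqrt_nonneg _)
          exact Finset.sum_le_sum_of_subset_of_nonneg (Finset.subset_univ _) fun l _ _ => gn_m_nonneg W.E hV l

/-- **TC5**.   PLAN: `Real.inner_le_Lp_mul_Lq` with `p = 3/2`, `q = 3`, `f = m / w^(1/3)`, `g = w^(1/3)`; raise to the power `3/2`. -/
theorem cy_t_holder {ι : Type} (s : Finset ι) (m w : ι → ℝ) (hm : ∀ i ∈ s, 0 ≤ m i) (hw : ∀ i ∈ s, 0 < w i) :
    (∑ i ∈ s, m i) ^ (3 / 2 : ℝ) ≤ (∑ i ∈ s, m i ^ (3 / 2 : ℝ) / Real.sqrt (w i)) * Real.sqrt (∑ i ∈ s, w i) := by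
  have hpq : (3 / 2 : ℝ).HolderConjugate 3 := by
    rw [Real.holderConjugate_iff]
    constructor <;> norm_num
  have h1 := Real.inner_le_Lp_mul_Lq_of_nonneg s hpq (f := fun i => m i / w i ^ (1 / 3 : ℝ)) (g := fun i => w i ^ (1 / 3 : ℝ))
    (fun i hi => div_nonneg (hm i hi) (Real.rpow_nonneg (hw i hi).le _)) (fun i hi => Real.rpow_nonneg (hw i hi).le _)
  have e1 : ∑ i ∈ s, m i / w i ^ (1 / 3 : ℝ) * w i ^ (1 / 3 : ℝ) = ∑ i ∈ s, m i := by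
    refine Finset.sum_congr rfl fun i hi => ?_
    have : 0 < w i ^ (1 / 3 : ℝ) := Real.rpow_pos_of_pos (hw i hi) _
    field_simp
  have e2 : ∑ i ∈ s, (m i / w i ^ (1 / 3 : ℝ)) ^ (3 / 2 : ℝ) = ∑ i ∈ s, m i ^ (3 / 2 : ℝ) / Real.sqrt (w i) := by
    refine Finset.sum_congr rfl fun i hi => ?_
    rw [Real.div_rpow (hm i hi) (Real.rpow_nonneg (hw i hi).le _), ← Real.rpow_mul (hw i hi).le, Real.sqrt_eq_rpow]
    norm_num
  have e3 : ∑ i ∈ s, (w i ^ (1 / 3 : ℝ)) ^ (3 : ℝ) = ∑ i ∈ s, w i := by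
    refine Finset.sum_congr rfl fun i hi => ?_
    rw [← Real.rpow_mul (hw i hi).le]
    norm_num
  rw [e1, e2, e3] at h1
  have hA : 0 ≤ ∑ i ∈ s, m i ^ (3 / 2 : ℝ) / Real.sqrt (w i) :=
    Finset.sum_nonneg fun i hi => div_nonneg (Real.rpow_nonneg (hm i hi) _) (Real.sqrt_nonneg _)
  have hB : 0 ≤ ∑ i ∈ s, w i := Finset.sum_nonneg fun i hi => (hw i hi).le
  have hS : 0 ≤ ∑ i ∈ s, m i := Finset.sum_nonneg hm
  have h2 := Real.rpow_le_rpow hS h1 (by norm_num : (0 : ℝ) ≤ 3 / 2)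
  rw [Real.mul_rpow (Real.rpow_nonneg hA _) (Real.rpow_nonneg hB _), ← Real.rpow_mul hA, ← Real.rpow_mul hB] at h2
  rw [Real.sqrt_eq_rpow]
  norm_num at h2 ⊢
  exact h2

/-- **TC6**.   PLAN.   `X = W.gp ..`.   `W3 = W.inq q (sgS k X.Un)`: `Str` (`cy_t_inq_str`, `cy_s_meas`, `gn_mask_ind`), `Pre` (`cy_fw_pre_re`), `Cls (C+1)` (`cy_fw_ins_cls`).   `cy_t_read` at `ξ2 = h/8`: `tot j ≥ s^ξ2 e`.
`cy_t_gap_tot` + `cy_s_far` (`S = Un I`, disjoint from every `att`; order `A = Cx + 2`): `tot j ≤ L δ^A max ‖ψ‖² ≤ δ^(A - Cx) e ≤ s^(h/2 · 2) e`.   Contradiction.   (`0 < L`, `Nonempty (Lb j)`: from `cy_t_read` for `W` itself: `tot j > 0`.) -/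
theorem cy_t_exUn (Y : SfCy) (H : CyHyp Y) (hΓ : 0 < Y.M.Gam) (h ε0 : ℝ) (hh : 0 < h) (hε : 0 < ε0) : ∃ a0 ξ0 τ0 : ℝ, 0 < a0 ∧ 0 < ξ0 ∧ 0 < τ0 ∧ ∀ C : ℕ, ∃ A0 n0 : ℕ,
    ∀ (A : ℕ) (p : Y.M.Par) (W : SfMD (Y.M.sys p)) (i j a ξ τ Ls ε : ℝ) (k q : ℕ), A0 ≤ A → n0 ≤ W.E.n → 0 < a → a ≤ a0 → 0 < ξ → ξ ≤ ξ0 → 0 < τ → τ ≤ τ0 →
      CyMid Y p W i j k q h a ξ τ C A Ls ε → W.Flo Y p j k ξ →
      (W.inq q (sgS k (W.gp Y p j k q ξ ε0).Un)).E.val < 2 ^ ((Y.M.Gam - τ0) * W.E.n) := by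
  obtain ⟨ar, τr, har, hτr, HR⟩ := cy_t_read Y H hΓ h (h / 8) hh (by positivity)
  refine ⟨min ar (h / 4), 1, τr, lt_min har (by positivity), one_pos, hτr, fun C => ?_⟩
  obtain ⟨Cx, Ap, np, HP⟩ := cy_t_gap_pol H hΓ h hh C
  obtain ⟨Ar, nr, HR⟩ := HR (C + 1)
  obtain ⟨nf, HF⟩ := cy_s_far H C (Cx + 2) (2 * ε0) (by positivity)
  obtain ⟨nh, hnh⟩ := exists_nat_ge ((nf : ℝ) / (h / 2))
  refine ⟨max Ap Ar, max (max np nr) (max nh 1), ?_⟩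
  intro A p W i j a ξ τ Ls ε k q hA hn ha0 ha hξ0 hξ hτ0 hτ hM hF
  by_contra hcon
  have hval3 := not_lt.1 hcon
  have hAp : Ap ≤ A := (le_max_left _ _).trans hA
  have hAr : Ar ≤ A := (le_max_right _ _).trans hA
  have hnp : np ≤ W.E.n := ((le_max_left _ _).trans (le_max_left _ _)).trans hn
  have hnr : nr ≤ W.E.n := ((le_max_right _ _).trans (le_max_left _ _)).trans hn
  have hnh' : nh ≤ W.E.n := ((le_max_left _ _).trans (le_max_right _ _)).trans hn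
  have hn1 : 1 ≤ W.E.n := ((le_max_right _ _).trans (le_max_right _ _)).trans hn
  have hin := hM.inn
  have hstr := hin.pre.str
  have hV := hstr.valid
  have hT := H.gen.tight p hin.cls.1
  have ha4 : a ≤ h / 4 := ha.trans (min_le_right _ _)
  have hnR : (1 : ℝ) ≤ W.E.n := by exact_mod_cast hn1
  obtain ⟨hk, -, -⟩ := cy_t_A_num hin hh ha4 hn1
  rw [← hM.k_eq] at hk
  obtain ⟨hrj, hfj⟩ := hstr.frame.2.2 j hin.j_mem
  have hθ0 : 0 < W.thr Y p j k ξ := by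
    unfold SfMD.thr SfMD.kap
    have := hV.ka_pos
    positivity
  have hΛ : 1 ≤ W.E.s ^ (-(2 * ε0)) :=
    Real.one_le_rpow_of_pos_of_le_one_of_nonpos (gn_s_pos _) (gn_s_le_one _) (by linarith)
  obtain ⟨X, hXd⟩ : ∃ X, X = W.gap Y p j (W.thr Y p j k ξ) k q (W.E.s ^ (-(2 * ε0))) := ⟨_, rfl⟩
  have hXgp : W.gp Y p j k q ξ ε0 = X := by rw [hXd]; rfl
  rw [hXgp] at hval3
  obtain ⟨hXok, hkf, -, -, -, -, -, -, -, hlen, hgen⟩ := cy_t_gap H hM hF hk.le (hstr.lb_ne j) _ _ rfl hθ0 hΛ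
  rw [← hXd] at hXok
  have hXF : X.F = W.gxr j (W.thr Y p j k ξ) := by rw [hXd]; rfl
  have hXk : X.k = k := by rw [hXd]; rfl
  have hXΛ : X.Λ = W.E.s ^ (-(2 * ε0)) := by rw [hXd]; rfl
  have hmeas := (cy_s_meas H X hXok).2.1
  have hMk : ∀ m, IsMask ((sgS k X.Un).M m) := fun m => gn_mask_ind (hmeas m)
  have hqall : ∀ x ∈ W.G, q ≤ W.pos x := by
    intro x hx
    rcases eq_or_lt_of_le (hin.first x hx) with h1 | h1
    · rw [← h1]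
      exact hM.q_le
    · exact hM.q_le.trans (hstr.k_mono j hin.j_mem x hx h1).2.le
  have hstr3 : (W.inq q (sgS k X.Un)).Str (Y.tq p) := cy_t_inq_str W hstr q (sgS k X.Un) hqall hM.cut hMk
  have hpre3 : (W.inq q (sgS k X.Un)).Pre Y p Y.M.p0 Y.M.d0 Ls ε a := cy_fw_pre_re hin.pre _ _ hstr3
  have hcls3 : Y.M.Cls (C + 1) A p (W.inq q (sgS k X.Un)).E :=
    cy_fw_ins_cls Y.M H.gen.root (gn_cls_mono Y.M H.gen.scale (Nat.le_succ C) hin.cls) (Nat.succ_le_succ hin.cls.2.2.1) hM.cut (sgS k X.Un) rfl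
      (Nat.zero_le _) hMk
  have hgap : CyGap W.G h :=
    ⟨fun x hx y hy => hin.gap.1 x (Finset.mem_insert_of_mem hx) y (Finset.mem_insert_of_mem hy), fun x hx => hin.gap.2 x (Finset.mem_insert_of_mem hx)⟩
  have hlow : W.E.s ^ (h / 8) * W.E.e * W.E.s ^ (-(Y.M.d0 * j)) ≤ (W.inq q (sgS k X.Un)).tot j :=
    HR A p (W.inq q (sgS k X.Un)) Ls ε a j hAr hnr ha0 (ha.trans (min_le_left _ _)) hcls3 hgap hpre3 hval3 hin.j_mem
  have htot := cy_t_gap_tot H hM hF hk.le (hstr.lb_ne j) _ (W.E.s ^ (-(2 * ε0))) rfl hθ0 X.Un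
  rw [← hXd] at htot
  -- the depth of the gap
  obtain ⟨m, hmd⟩ : ∃ m : ℕ, m = W.k j - k := ⟨_, rfl⟩
  have hXm : X.F.kf - X.k = m := by rw [hXF, hkf, hXk, hmd]
  have hm1 : h / 2 * W.E.n ≤ (m : ℝ) := by
    have dj := (cy_fw_depth (cy_fw_prev_of hin.pre) hin.j_mem).1
    have fl : (⌊i * W.E.n⌋₊ : ℝ) ≤ i * W.E.n := Nat.floor_le (mul_nonneg hin.i_nn (Nat.cast_nonneg _))
    have hg : h ≤ j - i := hin.gap.1 i (Finset.mem_insert_self _ _) j (Finset.mem_insert_of_mem hin.j_mem) hin.i_lt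
    have e1 : (m : ℝ) = ((W.k j - W.E.k0 : ℕ) : ℝ) - (⌊i * W.E.n⌋₊ : ℝ) := by
      have hk' := hk
      rw [hM.k_eq] at hk'
      have : m = (W.k j - W.E.k0) - ⌊i * W.E.n⌋₊ := by rw [hmd, hM.k_eq]; omega
      rw [this, Nat.cast_sub (by omega)]
    rw [e1]
    have h9 : h / 2 * W.E.n ≤ (j - a - i) * W.E.n := mul_le_mul_of_nonneg_right (by linarith) (by linarith)
    linarith
  have hm2 : (m : ℝ) ≤ W.E.n := by
    have h1 := (hstr.k_rg j hin.j_mem).2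
    have h2 : W.E.kf = W.E.k0 + W.E.n := rfl
    have h3 : W.E.k0 ≤ k := hM.cut.2.2.2.1
    have : m ≤ W.E.n := by omega
    exact_mod_cast this
  have hde : ∀ y : ℝ, X.de ^ y = 2 ^ (-((m : ℝ) * y)) := by
    intro y
    unfold CyGp.de
    rw [hXm, ← Real.rpow_natCast, ← Real.rpow_mul (by norm_num), Real.inv_rpow (by norm_num), ← Real.rpow_neg (by norm_num)]
  have hnf : nf ≤ X.F.kf - X.k := by
    rw [hXm]
    have h1 : (nf : ℝ) ≤ h / 2 * nh := by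
      rw [div_le_iff₀ (by positivity)] at hnh
      linarith
    have h2 : (nh : ℝ) ≤ W.E.n := by exact_mod_cast hnh'
    have h3 : (nf : ℝ) ≤ m := by
      have := mul_le_mul_of_nonneg_left h2 (by positivity : 0 ≤ h / 2)
      linarith
    exact_mod_cast h3
  have hΛ2 : X.de ^ (-(2 * ε0)) ≤ X.Λ := by
    rw [hXΛ, hde, gn_s_rpow]
    refine gn_two_mono ?_
    have := mul_le_mul_of_nonneg_left hm2 (by positivity : 0 ≤ 2 * ε0)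
    linarith
  have hterm : ∀ l : Fin X.F.L, X.rdm l (X.cutS (X.an l) (X.Un (X.an l))) ≤ X.de ^ ((Cx + 2 : ℕ) : ℝ) * W.E.e := by
    intro l
    have h1 := HF p X l (X.Un (X.an l)) hXok (by rw [hXF]; exact hlen) (by rw [hXF]; exact hgen) hnf hΛ2 (hmeas _)
      (Set.disjoint_left.2 fun x hx hx' => hx l hx')
    refine h1.trans (mul_le_mul_of_nonneg_left ?_ (by rw [hde]; exact (gn_two_pos _).le))
    have h2 := gn_at_norm_le hT X.F hXok.valid hXok.cut (X.an l)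
    have e : X.F.e = W.E.e := by rw [hXF]; rfl
    rw [e] at h2
    exact h2
  have hsum : (W.inq q (sgS k X.Un)).tot j ≤ (X.F.L : ℝ) * (X.de ^ ((Cx + 2 : ℕ) : ℝ) * W.E.e) := by
    rw [htot]
    calc _ ≤ ∑ _l : Fin X.F.L, X.de ^ ((Cx + 2 : ℕ) : ℝ) * W.E.e := Finset.sum_le_sum fun l _ => hterm l
      _ = _ := by rw [Finset.sum_const, Finset.card_univ, Fintype.card_fin, nsmul_eq_mul]
  have he := hV.e_pos
  have hlow2 : (2 : ℝ) ^ (-(h / 8 * W.E.n)) * W.E.e ≤ (W.inq q (sgS k X.Un)).tot j := by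
    refine le_trans ?_ hlow
    rw [gn_s_rpow]
    have h1 : 1 ≤ W.E.s ^ (-(Y.M.d0 * j)) :=
      Real.one_le_rpow_of_pos_of_le_one_of_nonpos (gn_s_pos _) (gn_s_le_one _)
        (by have := mul_nonneg (gn_d0_le Y.M _ H.gen hΓ).1.le (hstr.gate.2 j hin.j_mem).1; linarith)
    have h2 : 0 ≤ (2 : ℝ) ^ (-(h / 8 * W.E.n)) * W.E.e := mul_nonneg (gn_two_pos _).le he.le
    exact le_mul_of_one_le_right h2 h1
  have hlowpos : 0 < (W.inq q (sgS k X.Un)).tot j := lt_of_lt_of_le (mul_pos (gn_two_pos _) he) hlow2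
  have hL : 0 < X.F.L := by
    rcases Nat.eq_zero_or_pos X.F.L with h0 | h0
    · rw [h0] at hsum
      simp at hsum
      linarith
    · exact h0
  have hpol := HP A p W i j a ξ τ Ls ε (W.E.s ^ (-(2 * ε0))) k q hAp hnp ha0 ha4 hξ0 hξ hM hF hΛ (by rw [← hXF]; exact hL)
  rw [← hXd] at hpol
  have hnl := hpol.nlab
  have hfin : (2 : ℝ) ^ (-(h / 8 * W.E.n)) * W.E.e ≤ 2 ^ (-(h * W.E.n)) * W.E.e := by
    refine hlow2.trans (hsum.trans ?_)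
    calc (X.F.L : ℝ) * (X.de ^ ((Cx + 2 : ℕ) : ℝ) * W.E.e) ≤ X.de ^ (-(Cx : ℝ)) * (X.de ^ ((Cx + 2 : ℕ) : ℝ) * W.E.e) :=
          mul_le_mul_of_nonneg_right hnl (mul_nonneg (by rw [hde]; exact (gn_two_pos _).le) he.le)
      _ = (X.de ^ (-(Cx : ℝ)) * X.de ^ ((Cx + 2 : ℕ) : ℝ)) * W.E.e := by ring
      _ ≤ 2 ^ (-(h * W.E.n)) * W.E.e := by
          refine mul_le_mul_of_nonneg_right ?_ he.le
          rw [hde, hde, ← gn_two_add]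
          refine gn_two_mono ?_
          have e9 : -((m : ℝ) * -(Cx : ℝ)) + -((m : ℝ) * ((Cx + 2 : ℕ) : ℝ)) = -(2 * (m : ℝ)) := by
            push_cast
            ring
          rw [e9]
          linarith
  have h5 := le_of_mul_le_mul_right hfin he
  have h6 := (Real.rpow_le_rpow_left_iff (by norm_num : (1 : ℝ) < 2)).1 h5
  have h7 : 0 < h * W.E.n := mul_pos hh (by linarith)
  linarith

theorem cy_tc7_B {Ca e κ n ma dk p0 d0 ξ a j ε0 η D0 h tw : ℝ} (hCa : 0 < Ca) (he : 0 < e) (hκ : 0 < κ) (hn : 0 ≤ n) (hdk0 : 0 ≤ dk)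
    (hdk : h / 4 * n ≤ dk) (hε' : ε0 ≤ h / 16) (hD0 : 13 ≤ η * D0) (hpd0 : 0 ≤ p0 + d0) (hpd : p0 + d0 ≤ 4) (hj : j * n ≤ ma + dk + a * n) (ha : 0 ≤ a)
    (htw : tw ≤ 2 ^ (a * n) * (e / κ) * 2 ^ ((p0 + d0) * j * n)) :
    Ca * 2 ^ (4 * ε0 * n) * 2 ^ (6 * dk) * 2 ^ (-(D0 * η * dk)) * (κ * 2 ^ (-(p0 * ma) + ξ * n) * tw) ≤ Ca * e * 2 ^ (-2 * dk + d0 * ma + (ξ + 5 * a) * n) := by
  have h1 : κ * 2 ^ (-(p0 * ma) + ξ * n) * tw ≤ κ * 2 ^ (-(p0 * ma) + ξ * n) * (2 ^ (a * n) * (e / κ) * 2 ^ ((p0 + d0) * j * n)) :=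
    mul_le_mul_of_nonneg_left htw (mul_nonneg hκ.le (gn_two_pos _).le)
  have h2 : κ * 2 ^ (-(p0 * ma) + ξ * n) * (2 ^ (a * n) * (e / κ) * 2 ^ ((p0 + d0) * j * n)) = e * 2 ^ (-(p0 * ma) + ξ * n + a * n + (p0 + d0) * j * n) := by
    rw [gn_two_add (-(p0 * ma) + ξ * n + a * n), gn_two_add (-(p0 * ma) + ξ * n)]
    field_simp
  rw [h2] at h1
  have h0 : 0 ≤ Ca * 2 ^ (4 * ε0 * n) * 2 ^ (6 * dk) * 2 ^ (-(D0 * η * dk)) := by
    have := gn_two_pos (4 * ε0 * n)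
    have := gn_two_pos (6 * dk)
    have := gn_two_pos (-(D0 * η * dk))
    positivity
  refine (mul_le_mul_of_nonneg_left h1 h0).trans ?_
  have e1 : Ca * 2 ^ (4 * ε0 * n) * 2 ^ (6 * dk) * 2 ^ (-(D0 * η * dk)) * (e * 2 ^ (-(p0 * ma) + ξ * n + a * n + (p0 + d0) * j * n))
      = Ca * e * 2 ^ (4 * ε0 * n + 6 * dk + -(D0 * η * dk) + (-(p0 * ma) + ξ * n + a * n + (p0 + d0) * j * n)) := by
    rw [gn_two_add (4 * ε0 * n + 6 * dk + -(D0 * η * dk)), gn_two_add (4 * ε0 * n + 6 * dk), gn_two_add (4 * ε0 * n)]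
    ring
  rw [e1]
  refine mul_le_mul_of_nonneg_left (gn_two_mono ?_) (by positivity)
  have b1 : 4 * ε0 * n ≤ dk := by nlinarith
  have b2 : 13 * dk ≤ D0 * η * dk := by nlinarith
  have b3 : (p0 + d0) * j * n ≤ (p0 + d0) * (ma + dk + a * n) := by
    rw [mul_assoc]
    exact mul_le_mul_of_nonneg_left hj hpd0
  have b4 : (p0 + d0) * (dk + a * n) ≤ 4 * (dk + a * n) := mul_le_mul_of_nonneg_right hpd (by positivity)
  nlinarith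

theorem cy_tc7_fin {n ma N' dk e κ Cr Ca Γ p0 d0 ξ a h τ0 C3 rd Sg : ℝ} (hn : 0 ≤ n) (hma : 0 ≤ ma) (hN : 0 ≤ N') (hsum : N' + ma = n) (he : 0 < e) (hκ : 0 < κ)
    (hCr : 1 ≤ Cr) (hCa : 0 < Ca) (hΓ : 0 < Γ) (hp0 : 0 ≤ p0) (hd0 : d0 = Γ + (p0 - 1) / 2) (hh0 : 0 < h) (hh1 : h ≤ 1) (hdk : 3 * h / 4 * n ≤ dk)
    (hξ : ξ ≤ h / 12) (ha0 : 0 < a) (ha : a ≤ h / 40) (hC3 : 3 ≤ C3) (hτ : 2 * τ0 ≤ h)
    (hK : Real.sqrt Cr * (Ca + 1) + 1 ≤ 2 ^ (τ0 * n))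
    (hSg : Sg ≤ Ca * e * 2 ^ (-2 * dk + d0 * ma + (ξ + 5 * a) * n))
    (hrd : rd ≤ 2 ^ (-((1 / 2 - Γ - h / 8) * N')) * Real.sqrt (Cr * (κ * 2 ^ (-(p0 * ma) + ξ * n))) * (Sg + 2 ^ (-(C3 * n)) * e)) :
    2 ^ (n / 2) / (e * Real.sqrt κ) * rd < 2 ^ ((Γ - τ0) * n) := by
  have hsκ : 0 < Real.sqrt κ := Real.sqrt_pos.2 hκ
  have hsq : Real.sqrt (Cr * (κ * 2 ^ (-(p0 * ma) + ξ * n))) = Real.sqrt Cr * Real.sqrt κ * 2 ^ ((-(p0 * ma) + ξ * n) / 2) := by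
    rw [Real.sqrt_mul (by linarith), Real.sqrt_mul hκ.le, gn_two_sqrt]
    ring
  have h1 : Sg + 2 ^ (-(C3 * n)) * e ≤ e * (Ca * 2 ^ (-2 * dk + d0 * ma + (ξ + 5 * a) * n) + 2 ^ (-(C3 * n))) := by linarith
  have h0 : 0 ≤ 2 ^ (-((1 / 2 - Γ - h / 8) * N')) * Real.sqrt (Cr * (κ * 2 ^ (-(p0 * ma) + ξ * n))) :=
    mul_nonneg (gn_two_pos _).le (Real.sqrt_nonneg _)
  have h2 := hrd.trans (mul_le_mul_of_nonneg_left h1 h0)
  rw [hsq] at h2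
  have hc : 0 ≤ 2 ^ (n / 2) / (e * Real.sqrt κ) := div_nonneg (gn_two_pos _).le (by positivity)
  have hsCr : 0 ≤ Real.sqrt Cr := Real.sqrt_nonneg _
  calc 2 ^ (n / 2) / (e * Real.sqrt κ) * rd
      ≤ 2 ^ (n / 2) / (e * Real.sqrt κ) * (2 ^ (-((1 / 2 - Γ - h / 8) * N')) * (Real.sqrt Cr * Real.sqrt κ * 2 ^ ((-(p0 * ma) + ξ * n) / 2)) *
          (e * (Ca * 2 ^ (-2 * dk + d0 * ma + (ξ + 5 * a) * n) + 2 ^ (-(C3 * n))))) := mul_le_mul_of_nonneg_left h2 hc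
    _ = Real.sqrt Cr * (Ca * 2 ^ (n / 2 + -((1 / 2 - Γ - h / 8) * N') + (-(p0 * ma) + ξ * n) / 2 + (-2 * dk + d0 * ma + (ξ + 5 * a) * n))
          + 2 ^ (n / 2 + -((1 / 2 - Γ - h / 8) * N') + (-(p0 * ma) + ξ * n) / 2 + -(C3 * n))) := by
        rw [gn_two_add (n / 2 + -((1 / 2 - Γ - h / 8) * N') + (-(p0 * ma) + ξ * n) / 2) (-2 * dk + d0 * ma + (ξ + 5 * a) * n),
          gn_two_add (n / 2 + -((1 / 2 - Γ - h / 8) * N') + (-(p0 * ma) + ξ * n) / 2) (-(C3 * n)),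
          gn_two_add (n / 2 + -((1 / 2 - Γ - h / 8) * N')), gn_two_add (n / 2)]
        field_simp
    _ ≤ Real.sqrt Cr * (Ca * 2 ^ ((Γ - 2 * τ0) * n) + 2 ^ ((Γ - 2 * τ0) * n)) := by
        refine mul_le_mul_of_nonneg_left (add_le_add (mul_le_mul_of_nonneg_left (gn_two_mono ?_) hCa.le) (gn_two_mono ?_)) hsCr
        · have e1 : N' = n - ma := by linarith
          rw [e1, hd0]
          nlinarith
        · have e1 : N' = n - ma := by linarith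
          rw [e1]
          nlinarith
    _ = (Real.sqrt Cr * (Ca + 1)) * 2 ^ ((Γ - 2 * τ0) * n) := by ring
    _ < 2 ^ (τ0 * n) * 2 ^ ((Γ - 2 * τ0) * n) := mul_lt_mul_of_pos_right (by linarith) (gn_two_pos _)
    _ = 2 ^ ((Γ - τ0) * n) := by
        rw [← gn_two_add]
        congr 1
        ring

theorem cy_tc7_nums {Y : SfCy} {p : Y.M.Par} {W : SfMD (Y.M.sys p)} {i j h a ξ τ Ls ε : ℝ} {k q C A : ℕ} (hM : CyMid Y p W i j k q h a ξ τ C A Ls ε)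
    (hh : 0 < h) (ha0 : 0 < a) (ha : a ≤ h / 40) (hn : 1 ≤ W.E.n) :
    k < W.k j ∧ h / 2 * W.E.n ≤ ((W.E.kf - k : ℕ) : ℝ) ∧ ((W.E.kf - k : ℕ) : ℝ) + ((k - W.E.k0 : ℕ) : ℝ) = W.E.n ∧ 3 * h / 4 * W.E.n ≤ ((W.k j - k : ℕ) : ℝ) ∧
      j * W.E.n ≤ ((k - W.E.k0 : ℕ) : ℝ) + ((W.k j - k : ℕ) : ℝ) + a * W.E.n ∧ ((W.k j - k : ℕ) : ℝ) ≤ W.E.n ∧ h ≤ 1 := by
  have hin := hM.inn
  have hpre := hin.pre
  have hstr := hpre.str
  obtain ⟨q1, q2, q3⟩ := cy_t_A_num hin hh (by linarith) hn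
  rw [← hM.k_eq] at q1 q2 q3
  have hn0 : (0 : ℝ) ≤ W.E.n := Nat.cast_nonneg _
  have hk0 : W.E.k0 ≤ k := hM.cut.2.2.2.1
  have hkf : k ≤ W.E.kf := hM.cut.2.2.2.2
  have hsum : ((W.E.kf - k : ℕ) : ℝ) + ((k - W.E.k0 : ℕ) : ℝ) = W.E.n := by
    have h3 : W.E.kf - k + (k - W.E.k0) = W.E.n := by
      unfold Xp.kf at hkf ⊢
      omega
    exact_mod_cast h3
  obtain ⟨dj1, dj2, -⟩ := cy_fw_depth (cy_fw_prev_of hpre) hin.j_mem
  have hkj : ((W.k j - W.E.k0 : ℕ) : ℝ) = ((k - W.E.k0 : ℕ) : ℝ) + ((W.k j - k : ℕ) : ℝ) := by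
    have h3 : W.k j - W.E.k0 = (k - W.E.k0) + (W.k j - k) := by omega
    rw [h3]
    push_cast
    ring
  rw [hkj] at dj1 dj2
  have hfl : ((k - W.E.k0 : ℕ) : ℝ) ≤ i * W.E.n := by
    rw [q3]
    exact Nat.floor_le (mul_nonneg hin.i_nn (Nat.cast_nonneg _))
  have hgap : h ≤ j - i := hin.gap.1 i (Finset.mem_insert_self _ _) j (Finset.mem_insert_of_mem hin.j_mem) hin.i_lt
  have hj1 : j ≤ 1 := (hstr.gate.2 j hin.j_mem).2
  have hdkn : ((W.k j - k : ℕ) : ℝ) ≤ W.E.n := by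
    have h3 : W.k j - k ≤ W.E.n := by
      have := (hstr.k_rg j hin.j_mem).2
      unfold Xp.kf at this
      omega
    exact_mod_cast h3
  refine ⟨q1, q2, hsum, ?_, ?_, hdkn, by linarith [hin.i_nn]⟩
  · nlinarith
  · nlinarith

theorem cy_tc7_de {Y : SfCy} {p : Y.M.Par} (X : CyGp Y p) (y : ℝ) : X.de ^ y = 2 ^ (-(y * ((X.F.kf - X.k : ℕ) : ℝ))) := by
  unfold CyGp.de
  rw [← Real.rpow_natCast, ← Real.rpow_mul (by norm_num), Real.inv_rpow (by norm_num), ← Real.rpow_neg (by norm_num)]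
  congr 1
  ring

theorem cy_tc7_one_le {x : ℝ} (hx : 0 ≤ x) : (1 : ℝ) ≤ 2 ^ x := by
  have : (1 : ℝ) = 2 ^ (0 : ℝ) := by simp
  rw [this]
  exact gn_two_mono hx

/-- the energy of the ambiguous rows -/
theorem cy_tc7_amb {Y : SfCy} (H : CyHyp Y) (hΓ : 0 < Y.M.Gam) {D0 h ε0 Ca : ℝ} (hD0 : 13 ≤ Y.η * D0) (hε' : ε0 ≤ h / 16) (hCa : 0 < Ca)
    {p : Y.M.Par} {W : SfMD (Y.M.sys p)} {j a ξ Ls ε : ℝ} {k : ℕ} (X : CyGp Y p) (hpre : W.Pre Y p Y.M.p0 Y.M.d0 Ls ε a) (hj : j ∈ W.G) (ha0 : 0 < a)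
    (hkf : X.F.kf = W.k j) (hk : X.k = k) (hΛ : X.Λ = W.E.s ^ (-(2 * ε0)))
    (hdk : 3 * h / 4 * W.E.n ≤ ((W.k j - k : ℕ) : ℝ))
    (hjn : j * W.E.n ≤ ((k - W.E.k0 : ℕ) : ℝ) + ((W.k j - k : ℕ) : ℝ) + a * W.E.n)
    (htw : X.F.tw ≤ ∑ l, (Y.M.sys p).wt (W.ts j l))
    (hamb : 0 < X.F.L → ∑ I ∈ X.iv, (Y.M.sys p).ms (tmL X.k I) X.k 0 (X.Am (X.de ^ (-D0)) I) (X.ps I) ≤
      Ca * X.Λ ^ 2 * X.de ^ (-((5 : ℝ) + 1)) * (X.de ^ (-D0)) ^ (-Y.η) * (W.kap Y p k ξ * X.F.tw)) :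
    ∑ I ∈ X.iv, (Y.M.sys p).ms (tmL X.k I) X.k 0 (X.Am (X.de ^ (-D0)) I) (X.ps I) ≤
      Ca * W.E.e * 2 ^ (-2 * ((W.k j - k : ℕ) : ℝ) + Y.M.d0 * ((k - W.E.k0 : ℕ) : ℝ) + (ξ + 5 * a) * W.E.n) := by
  have hV := hpre.str.valid
  have hn0 : (0 : ℝ) ≤ W.E.n := Nat.cast_nonneg _
  have hdk0 : (0 : ℝ) ≤ ((W.k j - k : ℕ) : ℝ) := Nat.cast_nonneg _
  rcases Nat.eq_zero_or_pos X.F.L with hL | hL
  · have hemp : ∀ I, X.Am (X.de ^ (-D0)) I = ∅ := by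
      intro I
      ext x
      simp only [Set.mem_empty_iff_false, iff_false]
      rintro ⟨l, -⟩
      have := l.2
      omega
    rw [Finset.sum_eq_zero (fun I _ => by rw [hemp I]; exact gn_ms_empty _ _ _ _)]
    have := hV.e_pos
    have := gn_two_pos (-2 * ((W.k j - k : ℕ) : ℝ) + Y.M.d0 * ((k - W.E.k0 : ℕ) : ℝ) + (ξ + 5 * a) * W.E.n)
    positivity
  · refine (hamb hL).trans ?_
    have hp0a := gn_p0_ge Y.M _ H.gen hΓ
    have hp0b := gn_p0_le Y.M _ H.gen hΓ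
    have hd0 := gn_d0_le Y.M _ H.gen hΓ
    have hη := H.eta
    have hde : ∀ y : ℝ, X.de ^ y = 2 ^ (-(y * ((W.k j - k : ℕ) : ℝ))) := by
      intro y
      rw [cy_tc7_de, hkf, hk]
    have e1 : X.Λ ^ 2 = 2 ^ (4 * ε0 * W.E.n) := by
      rw [hΛ, gn_s_rpow, ← Real.rpow_natCast, gn_two_mul]
      congr 1
      push_cast
      ring
    have e2 : X.de ^ (-((5 : ℝ) + 1)) = 2 ^ (6 * ((W.k j - k : ℕ) : ℝ)) := by
      rw [hde]
      congr 1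
      ring
    have e3 : (X.de ^ (-D0)) ^ (-Y.η) = 2 ^ (-(D0 * Y.η * ((W.k j - k : ℕ) : ℝ))) := by
      rw [hde, gn_two_mul]
      congr 1
      ring
    have htw' : X.F.tw ≤ 2 ^ (a * W.E.n) * (W.E.e / W.E.ka) * 2 ^ ((Y.M.p0 + Y.M.d0) * j * W.E.n) := by
      refine htw.trans ((hpre.cnt j hj).trans (le_of_eq ?_))
      rw [gn_s_rpow, gn_s_rpow]
      congr 2
      · congr 1
        ring
      · ring
    rw [e1, e2, e3]
    exact cy_tc7_B hCa hV.e_pos hV.ka_pos hn0 hdk0 (by nlinarith) hε' hD0 (by linarith [hd0.1, hη.1]) (by linarith [hd0.2]) hjn ha0.le htw'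

theorem cy_tc7_low {n ma κ Cr p0 ξ C3 sC : ℝ} (hn : 0 ≤ n) (hma : 0 ≤ ma) (hman : ma ≤ n) (hκ : 0 < κ) (hCr : 1 ≤ Cr) (hp3 : p0 ≤ 3) (hξ : 0 ≤ ξ)
    (hC3 : 3 ≤ C3) (hs : sC = 2 ^ (-(C3 * n))) : sC * κ ≤ Cr * (κ * 2 ^ (-(p0 * ma) + ξ * n)) := by
  have h1 : (2 : ℝ) ^ (-(C3 * n)) ≤ 2 ^ (-(p0 * ma) + ξ * n) := by
    refine gn_two_mono ?_
    have b1 : p0 * ma ≤ 3 * n := (mul_le_mul_of_nonneg_right hp3 hma).trans (mul_le_mul_of_nonneg_left hman (by norm_num))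
    have b2 : 3 * n ≤ C3 * n := mul_le_mul_of_nonneg_right hC3 hn
    have b3 : 0 ≤ ξ * n := mul_nonneg hξ hn
    linarith
  have h2 : 0 < κ * 2 ^ (-(p0 * ma) + ξ * n) := mul_pos hκ (gn_two_pos _)
  rw [hs]
  calc 2 ^ (-(C3 * n)) * κ ≤ 2 ^ (-(p0 * ma) + ξ * n) * κ := mul_le_mul_of_nonneg_right h1 hκ.le
    _ = 1 * (κ * 2 ^ (-(p0 * ma) + ξ * n)) := by ring
    _ ≤ Cr * (κ * 2 ^ (-(p0 * ma) + ξ * n)) := mul_le_mul_of_nonneg_right hCr h2.le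

theorem cy_tc7_upp {n ma κ Cr p0 ξ C3 sC : ℝ} (hn : 0 ≤ n) (hma : 0 ≤ ma) (hκ : 0 < κ) (hCr : Cr ≤ 2 ^ (1 * n)) (hp0 : 0 ≤ p0) (hξ : ξ ≤ 1)
    (hC3 : 3 ≤ C3) (hs : sC = 2 ^ (-(-C3 * n))) : Cr * (κ * 2 ^ (-(p0 * ma) + ξ * n)) ≤ sC * κ := by
  have h2 : 0 < κ * 2 ^ (-(p0 * ma) + ξ * n) := mul_pos hκ (gn_two_pos _)
  rw [hs]
  calc Cr * (κ * 2 ^ (-(p0 * ma) + ξ * n)) ≤ 2 ^ (1 * n) * (κ * 2 ^ (-(p0 * ma) + ξ * n)) := mul_le_mul_of_nonneg_right hCr h2.le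
    _ = 2 ^ (1 * n + (-(p0 * ma) + ξ * n)) * κ := by
        rw [gn_two_add (1 * n)]
        ring
    _ ≤ 2 ^ (-(-C3 * n)) * κ := by
        refine mul_le_mul_of_nonneg_right (gn_two_mono ?_) hκ.le
        have b1 : 0 ≤ p0 * ma := mul_nonneg hp0 hma
        have b2 : 3 * n ≤ C3 * n := mul_le_mul_of_nonneg_right hC3 hn
        have b3 : ξ * n ≤ 1 * n := mul_le_mul_of_nonneg_right hξ hn
        linarith

/-- **TC7** (02 l.642-652).   `η D0 ≥ 13`, `ε0 ≤ h / 16` (`Λ² = s^(-4 ε0) ≤ δ^-1`).   PLAN.   `X = W.gp ..`, `S = X.Am (δ^-D0)`.   `cy_s_amb` (`D = 5`): `Σ_I ms (Am) ψ_I ≤ Ca Λ² δ^-6 δ^(η D0) κ' tw`;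
`κ' tw ≤ s^-(ξ + a) κ_a (e/κ) s^(-(p0+d0) j) ≤ s^-(ξ + 5a) δ^-4 E_a`  (`p0 + d0 ≤ 4`, `j n - m_a ≤ (k j - k) + a n`):  `Σ_I ‖cutS I (Am)‖² ≤ Ca δ² s^-(ξ+5a) E_a`.   The states `cutS` are `Cr κ'`-regular (`gn_rep_stage`).
`gn_tail` for `(W.inq q (sgS k S)).E` at the cut behind the new stage (`kf - k ≥ (h/2) n`; package raised by `gn_cls_mono`): `rd ≤ 2^(-(1/2-Γ-ε)(kf-k)) √(Cr κ') (Ca δ² s^-(ξ+5a) E_a + s^C2 e)`, and `2^(-(1/2-Γ)(kf-k)) √κ_a E_a = 2^(-(1/2-Γ) n) √κ e`;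
`val < 2^((Γ - τ0) n)` as `δ² ≤ s^h`. -/
theorem cy_t_exAm (Y : SfCy) (H : CyHyp Y) (hΓ : 0 < Y.M.Gam) (D0 : ℝ) (hD0 : 13 ≤ Y.η * D0) (h ε0 : ℝ) (hh : 0 < h) (hε : 0 < ε0) (hε' : ε0 ≤ h / 16) :
    ∃ a0 ξ0 τ0 : ℝ, 0 < a0 ∧ 0 < ξ0 ∧ 0 < τ0 ∧ ∀ C : ℕ, ∃ A0 n0 : ℕ,
    ∀ (A : ℕ) (p : Y.M.Par) (W : SfMD (Y.M.sys p)) (i j a ξ τ Ls ε : ℝ) (k q : ℕ), A0 ≤ A → n0 ≤ W.E.n → 0 < a → a ≤ a0 → 0 < ξ → ξ ≤ ξ0 → 0 < τ → τ ≤ τ0 →
      CyMid Y p W i j k q h a ξ τ C A Ls ε → W.Flo Y p j k ξ →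
      (W.inq q (sgS k ((W.gp Y p j k q ξ ε0).Am ((W.gp Y p j k q ξ ε0).de ^ (-D0))))).E.val < 2 ^ ((Y.M.Gam - τ0) * W.E.n) := by
  obtain ⟨Ca, hCa, HA⟩ := cy_s_amb H
  obtain ⟨Cr, hCr, HR⟩ := gn_rep_stage Y.M _ H.gen 0
  have hη := H.eta
  have hτ0 : 0 < min h 1 / 2 := half_pos (lt_min hh one_pos)
  have hD0p : 0 < D0 := by
    by_contra hc
    rw [not_lt] at hc
    nlinarith [hη.1]
  refine ⟨h / 40, min (h / 12) 1, min h 1 / 2, by positivity, lt_min (by positivity) one_pos, hτ0, fun C => ?_⟩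
  obtain ⟨Cx, Ap, np, HP⟩ := cy_t_gap_pol H hΓ h hh C
  obtain ⟨na, HA⟩ := HA Cx 5 (2 * ε0) (by positivity) (by norm_num)
  obtain ⟨At, nt, HT⟩ := gn_tail Y.M _ H.gen Y.M.Gam (gn_rate_gam Y.M _ H.gen) (C + 3) (h / 2) (h / 8) (by positivity) (by positivity)
  obtain ⟨n1, hn1⟩ := gn_absorb (Real.sqrt Cr * (Ca + 1) + 1) (min h 1 / 2) hτ0
  obtain ⟨n2, hn2⟩ := gn_absorb Cr 1 one_pos
  refine ⟨max Ap At, max (max 1 np) (max nt (max n1 (max n2 ⌈(na : ℝ) / (h / 2)⌉₊))), ?_⟩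
  intro A p W i j a ξ τ Ls ε k q hA hn ha0 ha hξ0 hξ hτp hτ hM hF
  have hin := hM.inn
  have hpre := hin.pre
  have hstr := hpre.str
  have hV := hstr.valid
  have hp : Y.M.gd p := hin.cls.1
  have hT := H.gen.tight p hp
  have hnn1 : 1 ≤ W.E.n := ((le_max_left _ _).trans (le_max_left _ _)).trans hn
  have hnp : np ≤ W.E.n := ((le_max_right _ _).trans (le_max_left _ _)).trans hn
  have hnt : nt ≤ W.E.n := ((le_max_left _ _).trans (le_max_right _ _)).trans hn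
  have hnn2 : n1 ≤ W.E.n := ((le_max_left _ _).trans ((le_max_right _ _).trans (le_max_right _ _))).trans hn
  have hnn3 : n2 ≤ W.E.n := ((le_max_left _ _).trans ((le_max_right _ _).trans ((le_max_right _ _).trans (le_max_right _ _)))).trans hn
  have hnn4 : ⌈(na : ℝ) / (h / 2)⌉₊ ≤ W.E.n := ((le_max_right _ _).trans ((le_max_right _ _).trans ((le_max_right _ _).trans (le_max_right _ _)))).trans hn
  have ha4 : a ≤ h / 4 := by linarith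
  obtain ⟨q1, q2, hsum, hdk, hjn, hdkn, hh1⟩ := cy_tc7_nums hM hh ha0 ha hnn1
  have hn0 : (0 : ℝ) ≤ W.E.n := Nat.cast_nonneg _
  set X := W.gp Y p j k q ξ ε0 with hX
  have hrf := hstr.frame.2.2 j hin.j_mem
  have hkap : 0 < W.kap Y p k ξ := mul_pos hV.ka_pos (gn_two_pos _)
  have hθ0 : 0 < W.thr Y p j k ξ := by
    unfold SfMD.thr
    have := hrf.1
    have := hrf.2
    positivity
  have hΛ : 1 ≤ W.E.s ^ (-(2 * ε0)) := by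
    rw [gn_s_rpow]
    refine cy_tc7_one_le ?_
    have : 0 ≤ 2 * ε0 * (W.E.n : ℝ) := by positivity
    linarith
  obtain ⟨g1, g2, g3, g4, g5, g6, g7, g8, g9, g10, g11⟩ := cy_t_gap H hM hF q1.le (hstr.lb_ne j) (W.thr Y p j k ξ) (W.E.s ^ (-(2 * ε0))) rfl hθ0 hΛ
  have hXok : X.Ok := g1
  have hXkf : X.F.kf = W.k j := g2
  have hmeas := (cy_s_meas H X hXok).2.2
  have hSg := cy_tc7_amb H hΓ hD0 hε' hCa X hpre hin.j_mem ha0 hXkf rfl rfl hdk hjn g9 (ξ := ξ) (fun hL => by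
    have hpol := HP A p W i j a ξ τ Ls ε (W.E.s ^ (-(2 * ε0))) k q ((le_max_left _ _).trans hA) hnp ha0 ha4 hξ0 (hξ.trans (min_le_right _ _)) hM hF hΛ hL
    have c1 : na ≤ X.F.kf - X.k := by
      have h3 : (na : ℝ) / (h / 2) ≤ W.E.n := (Nat.le_ceil _).trans (by exact_mod_cast hnn4)
      rw [div_le_iff₀ (by positivity)] at h3
      have h4 : (na : ℝ) ≤ ((W.k j - k : ℕ) : ℝ) := by
        have : (W.E.n : ℝ) * (h / 2) ≤ 3 * h / 4 * W.E.n := by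
          have : 0 ≤ h * (W.E.n : ℝ) := by positivity
          linarith
        linarith
      rw [hXkf]
      exact_mod_cast h4
    have c2 : X.de ^ (-(2 * ε0)) ≤ X.Λ := by
      show X.de ^ (-(2 * ε0)) ≤ W.E.s ^ (-(2 * ε0))
      rw [cy_tc7_de, gn_s_rpow, hXkf]
      refine gn_two_mono ?_
      have : 2 * ε0 * ((W.k j - k : ℕ) : ℝ) ≤ 2 * ε0 * W.E.n := mul_le_mul_of_nonneg_left hdkn (by positivity)
      have e : ((W.k j - X.k : ℕ) : ℝ) = ((W.k j - k : ℕ) : ℝ) := rfl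
      rw [e]
      linarith
    have c3 : ∀ l, X.de ^ (5 : ℝ) * (W.kap Y p k ξ * X.wj) ≤ X.F.m l := by
      intro l
      have e : X.de = (2 : ℝ)⁻¹ ^ (W.k j - k) := by
        show (2 : ℝ)⁻¹ ^ (X.F.kf - X.k) = _
        rw [hXkf]
        rfl
      rw [e]
      exact (g6 l).2.2.2.2
    have c4 : 1 ≤ X.de ^ (-D0) := by
      rw [cy_tc7_de]
      refine cy_tc7_one_le ?_
      have : 0 ≤ D0 * ((X.F.kf - X.k : ℕ) : ℝ) := mul_nonneg hD0p.le (Nat.cast_nonneg _)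
      linarith
    exact HA p X (W.kap Y p k ξ) (X.de ^ (-D0)) hXok hpol c1 c2 c3 c4)
  set S : ℕ → Set (Y.M.sys p).X := X.Am (X.de ^ (-D0)) with hS
  set σ : Stg (Y.M.sys p) := sgS k S with hσ
  have hσM : ∀ I, IsMask (σ.M I) := fun I => gn_mask_ind (hmeas _ I)
  have hV3 : (W.E.withSt (W.E.st.take q ++ σ :: W.E.st.drop q)).Valid := cy_fw_ins_valid W.E hV hM.cut σ rfl hσM
  have hcls3 : Y.M.Cls (C + 3) At p (W.E.withSt (W.E.st.take q ++ σ :: W.E.st.drop q)) :=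
    gn_cls_mono Y.M H.gen.scale (by omega) (gn_cls_anti Y.M H.gen.scale ((le_max_right _ _).trans hA) (cy_k8_cls Y.M _ H.gen hin.cls hM.cut.1 rfl hV3))
  have hcut3 : (W.E.withSt (W.E.st.take q ++ σ :: W.E.st.drop q)).CutAt k (W.E.st.take q ++ [σ]) (W.E.st.drop q) :=
    cy_fw_cut_after _ (cy_fw_cut_ins W.E hM.cut σ rfl)
  show (W.E.withSt (W.E.st.take q ++ σ :: W.E.st.drop q)).val < _
  set E3 := W.E.withSt (W.E.st.take q ++ σ :: W.E.st.drop q) with hE3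
  have hat : ∀ I, E3.at' k I (W.E.st.take q ++ [σ]) = (Y.M.sys p).tz (tmL k I) k 0 (σ.M I) (X.ps I) := fun I => gn_lvl_at E3 (W.E.st.take q) σ I
  have hreg : ∀ I ∈ ivs E3.k0 E3.i0 k, E3.at' k I (W.E.st.take q ++ [σ]) ∈ (Y.M.sys p).Pl 0 ∧
      (Y.M.sys p).Reg (tmL k I) k 0 (Cr * W.kap Y p k ξ) (E3.at' k I (W.E.st.take q ++ [σ])) := by
    intro I hI
    refine ⟨by rw [H.pl_univ p hp 0]; exact Set.mem_univ _, ?_⟩
    rw [hat I]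
    exact (HR p hp (tmL k I) k 0 0 (W.kap Y p k ξ) (σ.M I) (X.ps I) (hσM I) le_rfl (Nat.zero_le _) (hM.prep.2 I hI 0 le_rfl)).2
  have hnorm : ∑ I ∈ ivs E3.k0 E3.i0 k, ‖E3.at' k I (W.E.st.take q ++ [σ])‖ ^ 2 ≤ ∑ I ∈ X.iv, (Y.M.sys p).ms (tmL X.k I) X.k 0 (S I) (X.ps I) := by
    refine Finset.sum_le_sum fun I _ => ?_
    rw [hat I]
    refine (gn_tz_normsq_le hT (tmL k I) k 0 (hσM I) (X.ps I)).trans (le_of_eq ?_)
    show (Y.M.sys p).en (tmL k I) k 0 (fun x => ((S I).indicator (fun _ => (1 : ℝ)) x) ^ 2) (X.ps I) = (Y.M.sys p).en (tmL k I) k 0 ((S I).indicator fun _ => 1) (X.ps I)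
    congr 1
    funext x
    by_cases hx : x ∈ S I <;> simp [hx]
  have hp0a : 0 ≤ Y.M.p0 := by linarith [gn_p0_ge Y.M _ H.gen hΓ, hη.1]
  have hp0b : Y.M.p0 ≤ 3 := by linarith [gn_p0_le Y.M _ H.gen hΓ]
  have hma0 : (0 : ℝ) ≤ ((k - W.E.k0 : ℕ) : ℝ) := Nat.cast_nonneg _
  have hN0 : (0 : ℝ) ≤ ((W.E.kf - k : ℕ) : ℝ) := Nat.cast_nonneg _
  have hman : ((k - W.E.k0 : ℕ) : ℝ) ≤ W.E.n := by linarith
  have hC3 : (3 : ℝ) ≤ ((C + 3 : ℕ) : ℝ) := by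
    push_cast
    linarith [(Nat.cast_nonneg C : (0 : ℝ) ≤ (C : ℝ))]
  have hlow : E3.s ^ ((C + 3 : ℕ) : ℝ) * E3.ka ≤ Cr * W.kap Y p k ξ :=
    cy_tc7_low hn0 hma0 hman hV.ka_pos hCr hp0b hξ0.le hC3 (gn_s_rpow E3 _)
  have hupp : Cr * W.kap Y p k ξ ≤ E3.s ^ (-((C + 3 : ℕ) : ℝ)) * E3.ka :=
    cy_tc7_upp hn0 hma0 hV.ka_pos (hn2 _ hnn3) hp0a (hξ.trans (min_le_right _ _)) hC3 (gn_s_rpow E3 _)
  have hrd := HT p E3 hnt hcls3 k 0 (W.E.st.take q ++ [σ]) (W.E.st.drop q) (Cr * W.kap Y p k ξ) hcut3 q2 (Nat.zero_le _) hlow hupp hreg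
  rw [gn_s_rpow E3] at hrd
  exact cy_tc7_fin hn0 hma0 hN0 hsum hV.e_pos hV.ka_pos hCr hCa hΓ hp0a rfl hh hh1 hdk (hξ.trans (min_le_left _ _)) ha0 ha hC3
    (by linarith [min_le_left h 1]) (hn1 _ hnn2) (hnorm.trans hSg) hrd

/-- numerics of TC8 -/
theorem cy_tc8_num (n m ma e ka b T R tw En Γ p0 d0 j a ξ ξ2 ε1 ξ' : ℝ) (hn : 0 ≤ n) (hm0 : 0 ≤ m) (hm : m ≤ n) (he : 0 < e) (hka : 0 < ka) (hb : 0 < b)
    (hε1 : 0 ≤ ε1) (ha : 0 ≤ a) (hd : d0 = Γ + (p0 - 1) / 2)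
    (h1 : (2 : ℝ) ^ (-(ξ2 * n)) * e * 2 ^ (-(-(d0 * j) * n)) ≤ T) (h2 : T ^ (3 / 2 : ℝ) ≤ R * Real.sqrt tw)
    (h3 : R ≤ 2 ^ (-((1 / 2 - Γ - ε1) * m)) * Real.sqrt b * En) (h4 : En ≤ e * 2 ^ (d0 * ma + ξ * n))
    (h5 : tw ≤ 2 ^ (-(-a * n)) * (e / ka) * 2 ^ (-(-((p0 + d0) * j) * n))) (h6 : |ma + m - j * n| ≤ a * n)
    (hx : 3 * ξ2 + 2 * ξ + 2 * ε1 + (1 + 2 * |Γ - 1 / 2|) * a ≤ ξ') :
    ka * 2 ^ (-(p0 * ma) - ξ' * n) ≤ b := by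
  have hse : 0 < Real.sqrt e := Real.sqrt_pos.2 he
  have hsk : 0 < Real.sqrt ka := Real.sqrt_pos.2 hka
  have hsb : 0 < Real.sqrt b := Real.sqrt_pos.2 hb
  -- lower bound of T^(3/2)
  have t1 : e * Real.sqrt e * 2 ^ ((-(ξ2 * n) + d0 * j * n) * (3 / 2)) ≤ T ^ (3 / 2 : ℝ) := by
    have e1 : (2 : ℝ) ^ (-(ξ2 * n)) * e * 2 ^ (-(-(d0 * j) * n)) = e * 2 ^ (-(ξ2 * n) + d0 * j * n) := by
      rw [gn_two_add]
      have : -(-(d0 * j) * n) = d0 * j * n := by ring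
      rw [this]
      ring
    rw [e1] at h1
    have h7 := Real.rpow_le_rpow (mul_pos he (gn_two_pos _)).le h1 (by norm_num : (0 : ℝ) ≤ 3 / 2)
    rw [Real.mul_rpow he.le (gn_two_pos _).le, gn_two_mul] at h7
    have e2 : e ^ (3 / 2 : ℝ) = e * Real.sqrt e := by
      rw [Real.sqrt_eq_rpow, show (3 / 2 : ℝ) = 1 + 1 / 2 by norm_num, Real.rpow_add he, Real.rpow_one]
    rw [e2] at h7
    exact h7
  -- upper bound of sqrt tw
  have t2 : Real.sqrt tw ≤ 2 ^ ((a * n + (p0 + d0) * j * n) / 2) * (Real.sqrt e / Real.sqrt ka) := by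
    have e1 : (2 : ℝ) ^ (-(-a * n)) * (e / ka) * 2 ^ (-(-((p0 + d0) * j) * n)) = 2 ^ (a * n + (p0 + d0) * j * n) * (e / ka) := by
      rw [gn_two_add]
      have x1 : -(-a * n) = a * n := by ring
      have x2 : -(-((p0 + d0) * j) * n) = (p0 + d0) * j * n := by ring
      rw [x1, x2]
      ring
    rw [e1] at h5
    have h7 := Real.sqrt_le_sqrt h5
    rw [Real.sqrt_mul (gn_two_pos _).le, gn_two_sqrt, Real.sqrt_div he.le] at h7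
    exact h7
  have hR0 : 0 ≤ 2 ^ (-((1 / 2 - Γ - ε1) * m)) * Real.sqrt b * En → True := fun _ => trivial
  have hEn : 0 ≤ e * (2 : ℝ) ^ (d0 * ma + ξ * n) := (mul_pos he (gn_two_pos _)).le
  have t3 : R ≤ 2 ^ (-((1 / 2 - Γ - ε1) * m)) * Real.sqrt b * (e * 2 ^ (d0 * ma + ξ * n)) :=
    h3.trans (mul_le_mul_of_nonneg_left h4 (mul_pos (gn_two_pos _) hsb).le)
  have t4 : e * Real.sqrt e * 2 ^ ((-(ξ2 * n) + d0 * j * n) * (3 / 2)) ≤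
      (2 ^ (-((1 / 2 - Γ - ε1) * m)) * Real.sqrt b * (e * 2 ^ (d0 * ma + ξ * n))) * (2 ^ ((a * n + (p0 + d0) * j * n) / 2) * (Real.sqrt e / Real.sqrt ka)) := by
    refine t1.trans (h2.trans ?_)
    refine (mul_le_mul_of_nonneg_right t3 (Real.sqrt_nonneg _)).trans ?_
    exact mul_le_mul_of_nonneg_left t2 (mul_pos (mul_pos (gn_two_pos _) hsb) (mul_pos he (gn_two_pos _))).le
  -- cancel
  have t5 : Real.sqrt ka * 2 ^ ((-(ξ2 * n) + d0 * j * n) * (3 / 2)) ≤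
      Real.sqrt b * 2 ^ (-((1 / 2 - Γ - ε1) * m) + (d0 * ma + ξ * n) + (a * n + (p0 + d0) * j * n) / 2) := by
    rw [gn_two_add, gn_two_add]
    have hpos : 0 < e * Real.sqrt e / Real.sqrt ka := by positivity
    refine le_of_mul_le_mul_left ?_ hpos
    calc e * Real.sqrt e / Real.sqrt ka * (Real.sqrt ka * 2 ^ ((-(ξ2 * n) + d0 * j * n) * (3 / 2)))
        = e * Real.sqrt e * 2 ^ ((-(ξ2 * n) + d0 * j * n) * (3 / 2)) := by field_simp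
      _ ≤ _ := t4
      _ = _ := by field_simp
  have t6 : Real.sqrt ka * 2 ^ ((-(p0 * ma) - ξ' * n) / 2) ≤ Real.sqrt b := by
    have hY := gn_two_pos (-((1 / 2 - Γ - ε1) * m) + (d0 * ma + ξ * n) + (a * n + (p0 + d0) * j * n) / 2)
    refine le_of_mul_le_mul_right ?_ hY
    refine le_trans ?_ t5
    rw [mul_assoc, ← gn_two_add]
    refine mul_le_mul_of_nonneg_left (gn_two_mono ?_) hsk.le
    obtain ⟨u, hu⟩ : ∃ u, u = ma + m - j * n := ⟨_, rfl⟩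
    rw [← hu] at h6
    have hjn : j * n = ma + m - u := by rw [hu]; ring
    have e9 : d0 * j * n = d0 * (j * n) := by ring
    have e8 : (p0 + d0) * j * n = (p0 + d0) * (j * n) := by ring
    rw [e9, e8, hjn, hd]
    have k1 : (Γ - 1 / 2) * u ≤ |Γ - 1 / 2| * (a * n) := by
      calc (Γ - 1 / 2) * u ≤ |(Γ - 1 / 2) * u| := le_abs_self _
        _ = |Γ - 1 / 2| * |u| := abs_mul _ _
        _ ≤ _ := mul_le_mul_of_nonneg_left h6 (abs_nonneg _)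
    have k2 : ε1 * m ≤ ε1 * n := mul_le_mul_of_nonneg_left hm hε1
    have k3 : (3 * ξ2 + 2 * ξ + 2 * ε1 + (1 + 2 * |Γ - 1 / 2|) * a) * n ≤ ξ' * n := mul_le_mul_of_nonneg_right hx hn
    nlinarith [k1, k2, k3]
  have t7 := mul_self_le_mul_self (mul_pos hsk (gn_two_pos _)).le t6
  rw [Real.mul_self_sqrt hb.le] at t7
  refine le_trans (le_of_eq ?_) t7
  have : Real.sqrt ka * 2 ^ ((-(p0 * ma) - ξ' * n) / 2) * (Real.sqrt ka * 2 ^ ((-(p0 * ma) - ξ' * n) / 2))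
      = (Real.sqrt ka * Real.sqrt ka) * (2 ^ ((-(p0 * ma) - ξ' * n) / 2) * 2 ^ ((-(p0 * ma) - ξ' * n) / 2)) := by ring
  rw [this, Real.mul_self_sqrt hka.le, ← gn_two_add]
  congr 2
  ring


/-- the polynomial package is monotone -/
theorem cy_tc8_pol_mono {Y : SfCy} {p : Y.M.Par} {X : CyGp Y p} {C C' : ℕ} {κ' : ℝ} (hC : C ≤ C') (hok : X.Ok) (h : X.Pol C κ') : X.Pol C' κ' := by
  have hde0 : 0 < X.de := by unfold CyGp.de; positivity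
  have hde1 : X.de ≤ 1 := by unfold CyGp.de; exact pow_le_one₀ (by norm_num) (by norm_num)
  have hCr : (C : ℝ) ≤ C' := by exact_mod_cast hC
  have hneg : X.de ^ (-(C : ℝ)) ≤ X.de ^ (-(C' : ℝ)) := Real.rpow_le_rpow_of_exponent_ge hde0 hde1 (neg_le_neg hCr)
  have hw : 0 ≤ X.wj := by
    unfold CyGp.wj
    exact mul_nonneg (Real.rpow_nonneg hok.rj_pos.le _) (Real.rpow_nonneg hok.fj_pos.le _)
  refine ⟨h.len.trans hC, ⟨h.gen.1.trans hC, h.gen.2.1.trans hC, fun σ hσ => (h.gen.2.2 σ hσ).trans hC⟩, h.ka_pos, h.reg, ?_, h.nlab.trans hneg, ?_⟩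
  · intro I hI
    exact (h.en I hI).trans (mul_le_mul_of_nonneg_right hneg (mul_nonneg h.ka_pos.le hw))
  · intro hy
    exact (Real.rpow_le_rpow_of_exponent_ge hde0 hde1 hCr).trans (h.hyb hy)

set_option maxHeartbeats 1600000 in
/-- **TC8** (02 l.726-737).   PLAN.   `X = W.gp ..`, `S∪ I = ⋃ G, S I G`, `W3 = W.inq q (sgS k S∪)` (as in TC6).   `T = W3.tot j = Σ_a rdm` (`cy_t_gap_tot`), `R = X.F.rdc ..` (definition: `Σ_a rdm^(3/2)/√w`), `cy_t_holder`: `T^(3/2) ≤ R √tw`.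
`cy_t_read` at `ξ2`: `T ≥ s^ξ2 e s^(-d0 j)`;   `hU` with the package `max Cx Cf`, accuracy `ε1`, and `b' = max b (δ^Cx κ')` (regularity is monotone in `b`): `R ≤ 2^(-(1/2-Γ-ε1)(k j - k)) √b' Σ ‖ψ_I‖²`;   `prep`: `Σ ‖ψ_I‖² ≤ e 2^(d0 m_a + ξ n)`;   `cnt`: `tw ≤ s^-a (e/κ) s^(-(p0+d0) j)`.
Exponents (`d0 - p0/2 = Γ - 1/2`, `|m_j - j n| ≤ a n`): `√(b'/κ) ≥ 2^(-(p0/2) m_a - (3ξ2/2 + ξ + ε1 + 3a) n)`.   Choose `ξ2 = ε1 = ξ'/8`, `ξ0 = a0 = ξ'/32`.   Finally `δ^Cx κ' < κ 2^(-p0 m_a - ξ' n)` (`δ ≤ s^(h/2)`, `ξ + ξ' < h/2`), so `b' = b`. -/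
theorem cy_t_lowb (Y : SfCy) (H : CyHyp Y) (hΓ : 0 < Y.M.Gam) (Ds D1 : ℝ) (C0 : ℕ) (hU : CyUpper Y Ds D1 C0) (h ε0 ξ' : ℝ) (hh : 0 < h) (hε : 0 < ε0) (hξ' : 0 < ξ') (hξh : ξ' ≤ h / 8) (Cf : ℕ) :
    ∃ a0 ξ0 τ0 : ℝ, 0 < a0 ∧ 0 < ξ0 ∧ 0 < τ0 ∧ ∀ C : ℕ, ∃ A0 n0 : ℕ,
    ∀ (A : ℕ) (p : Y.M.Par) (W : SfMD (Y.M.sys p)) (i j a ξ τ Ls ε : ℝ) (k q : ℕ), A0 ≤ A → n0 ≤ W.E.n → 0 < a → a ≤ a0 → 0 < ξ → ξ ≤ ξ0 → 0 < τ → τ ≤ τ0 →
      CyMid Y p W i j k q h a ξ τ C A Ls ε → W.Flo Y p j k ξ →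
      ∀ (Mb fs b : ℝ) (c : CyCh (W.gp Y p j k q ξ ε0)) (S : ℕ → c.ι → Set (Y.M.sys p).X), c.Ok Mb ((W.gp Y p j k q ξ ε0).de ^ Ds) C0 fs → W.f j ≤ fs →
        fs ≤ (W.gp Y p j k q ξ ε0).de ^ (-(Cf : ℝ)) * W.f j → (∀ I G, MeasurableSet (S I G) ∧ S I G ⊆ c.rw I G) → 0 < b → b ≤ 32 * W.kap Y p k ξ →
        (∀ I ∈ (W.gp Y p j k q ξ ε0).iv, ∀ G, ∀ Q ∈ (W.gp Y p j k q ξ ε0).Fam (c.fr I G) I ((W.gp Y p j k q ξ ε0).de ^ D1),
          (Y.M.sys p).ms (tmL k I) k 0 ((Y.M.sys p).cell Q (tmL k I) k ∩ S I G) ((W.gp Y p j k q ξ ε0).ps I) ≤ b * (Y.M.sys p).wt Q) →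
        2 ^ ((Y.M.Gam - τ0) * W.E.n) ≤ (W.inq q (sgS k fun I => ⋃ G, S I G)).E.val →
        W.E.ka * 2 ^ (-(Y.M.p0 * ((k - W.E.k0 : ℕ) : ℝ)) - ξ' * W.E.n) ≤ b := by
  obtain ⟨ar, τr, har, hτr, HR⟩ := cy_t_read Y H hΓ h (ξ' / 8) hh (by positivity)
  have hg1 : 0 < 1 + 2 * |Y.M.Gam - 1 / 2| := by positivity
  refine ⟨min (min ar (h / 4)) (ξ' / 16 / (1 + 2 * |Y.M.Gam - 1 / 2|)), min (ξ' / 16) 1, τr, lt_min (lt_min har (by positivity)) (by positivity),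
    lt_min (by positivity) one_pos, hτr, fun C => ?_⟩
  obtain ⟨Cx, Ap, np, HP⟩ := cy_t_gap_pol H hΓ h hh C
  obtain ⟨Ar, nr, HR⟩ := HR (C + 1)
  obtain ⟨Cp, hCp⟩ : ∃ Cp : ℕ, Cp = max (max Cx Cf) 5 := ⟨_, rfl⟩
  have hCx : Cx ≤ Cp := by rw [hCp]; exact (le_max_left _ _).trans (le_max_left _ _)
  have hCf : Cf ≤ Cp := by rw [hCp]; exact (le_max_right _ _).trans (le_max_left _ _)
  have hC5 : 5 ≤ Cp := by rw [hCp]; exact le_max_right _ _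
  obtain ⟨nu, HU⟩ := hU Cp (ξ' / 8) (2 * ε0) (by positivity) (by positivity)
  obtain ⟨nh, hnh⟩ := exists_nat_ge ((nu : ℝ) / (h / 2))
  refine ⟨max Ap Ar, max (max np nr) (max nh 1), ?_⟩
  intro A p W i j a ξ τ Ls ε k q hA hn ha0 ha hξ0 hξ hτ0 hτ hM hF
  generalize hXd : W.gp Y p j k q ξ ε0 = X
  intro Mb fs b c S hc hfs1 hfs2 hS hb0 hb32 hden hval3
  have hAp : Ap ≤ A := (le_max_left _ _).trans hA
  have hAr : Ar ≤ A := (le_max_right _ _).trans hA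
  have hnp : np ≤ W.E.n := ((le_max_left _ _).trans (le_max_left _ _)).trans hn
  have hnr : nr ≤ W.E.n := ((le_max_right _ _).trans (le_max_left _ _)).trans hn
  have hnh' : nh ≤ W.E.n := ((le_max_left _ _).trans (le_max_right _ _)).trans hn
  have hn1 : 1 ≤ W.E.n := ((le_max_right _ _).trans (le_max_right _ _)).trans hn
  have hin := hM.inn
  have hstr := hin.pre.str
  have hV := hstr.valid
  have hT := H.gen.tight p hin.cls.1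
  have har' : a ≤ ar := ha.trans ((min_le_left _ _).trans (min_le_left _ _))
  have ha4 : a ≤ h / 4 := ha.trans ((min_le_left _ _).trans (min_le_right _ _))
  have ha16 : a ≤ ξ' / 16 / (1 + 2 * |Y.M.Gam - 1 / 2|) := ha.trans (min_le_right _ _)
  have hξ16 : ξ ≤ ξ' / 16 := hξ.trans (min_le_left _ _)
  have hξ1 : ξ ≤ 1 := hξ.trans (min_le_right _ _)
  have hnR : (1 : ℝ) ≤ W.E.n := by exact_mod_cast hn1
  obtain ⟨hk, -, -⟩ := cy_t_A_num hin hh ha4 hn1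
  rw [← hM.k_eq] at hk
  have hθ0 : 0 < W.thr Y p j k ξ := by
    obtain ⟨hrj, hfj⟩ := hstr.frame.2.2 j hin.j_mem
    unfold SfMD.thr SfMD.kap
    have := hV.ka_pos
    positivity
  have hΛ : 1 ≤ W.E.s ^ (-(2 * ε0)) :=
    Real.one_le_rpow_of_pos_of_le_one_of_nonpos (gn_s_pos _) (gn_s_le_one _) (by linarith)
  have hXgap : W.gap Y p j (W.thr Y p j k ξ) k q (W.E.s ^ (-(2 * ε0))) = X := hXd
  obtain ⟨hXok, hkf, hk0, hi0, -, -, -, -, htw, hlen, hgen⟩ := cy_t_gap H hM hF hk.le (hstr.lb_ne j) _ _ rfl hθ0 hΛ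
  rw [hXgap] at hXok
  have hXF : X.F = W.gxr j (W.thr Y p j k ξ) := by rw [← hXd]; rfl
  have hXk : X.k = k := by rw [← hXd]; rfl
  have hXΛ : X.Λ = W.E.s ^ (-(2 * ε0)) := by rw [← hXd]; rfl
  have hXfj : X.fj = W.f j := by rw [← hXd]; rfl
  have hXps : ∀ I, X.ps I = W.E.at' k I (W.E.st.take q) := by intro I; rw [← hXd]; rfl
  have hXiv : X.iv = ivs W.E.k0 W.E.i0 k := by
    unfold CyGp.iv
    rw [hXF, hk0, hi0, hXk]
  obtain ⟨SU, hSU⟩ : ∃ SU : ℕ → Set (Y.M.sys p).X, SU = fun I => ⋃ G, S I G := ⟨_, rfl⟩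
  rw [← hSU] at hval3
  have hmeas : ∀ I, MeasurableSet (SU I) := by
    intro I
    rw [hSU]
    exact MeasurableSet.iUnion fun G => (hS I G).1
  have hMk : ∀ m, IsMask ((sgS k SU).M m) := fun m => gn_mask_ind (hmeas m)
  have hqall : ∀ x ∈ W.G, q ≤ W.pos x := by
    intro x hx
    rcases eq_or_lt_of_le (hin.first x hx) with h1 | h1
    · rw [← h1]
      exact hM.q_le
    · exact hM.q_le.trans (hstr.k_mono j hin.j_mem x hx h1).2.le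
  have hstr3 : (W.inq q (sgS k SU)).Str (Y.tq p) := cy_t_inq_str W hstr q (sgS k SU) hqall hM.cut hMk
  have hpre3 : (W.inq q (sgS k SU)).Pre Y p Y.M.p0 Y.M.d0 Ls ε a := cy_fw_pre_re hin.pre _ _ hstr3
  have hcls3 : Y.M.Cls (C + 1) A p (W.inq q (sgS k SU)).E :=
    cy_fw_ins_cls Y.M H.gen.root (gn_cls_mono Y.M H.gen.scale (Nat.le_succ C) hin.cls) (Nat.succ_le_succ hin.cls.2.2.1) hM.cut (sgS k SU) rfl
      (Nat.zero_le _) hMk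
  have hgap : CyGap W.G h :=
    ⟨fun x hx y hy => hin.gap.1 x (Finset.mem_insert_of_mem hx) y (Finset.mem_insert_of_mem hy), fun x hx => hin.gap.2 x (Finset.mem_insert_of_mem hx)⟩
  have hlow : W.E.s ^ (ξ' / 8) * W.E.e * W.E.s ^ (-(Y.M.d0 * j)) ≤ (W.inq q (sgS k SU)).tot j :=
    HR A p (W.inq q (sgS k SU)) Ls ε a j hAr hnr ha0 har' hcls3 hgap hpre3 hval3 hin.j_mem
  have htot := cy_t_gap_tot H hM hF hk.le (hstr.lb_ne j) _ (W.E.s ^ (-(2 * ε0))) rfl hθ0 SU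
  rw [hXgap] at htot
  -- the depth of the gap
  obtain ⟨m, hmd⟩ : ∃ m : ℕ, m = W.k j - k := ⟨_, rfl⟩
  have hXm : X.F.kf - X.k = m := by rw [hXF, hkf, hXk, hmd]
  have hk0k : W.E.k0 ≤ k := hM.cut.2.2.2.1
  have hm1 : h / 2 * W.E.n ≤ (m : ℝ) := by
    have dj := (cy_fw_depth (cy_fw_prev_of hin.pre) hin.j_mem).1
    have fl : (⌊i * W.E.n⌋₊ : ℝ) ≤ i * W.E.n := Nat.floor_le (mul_nonneg hin.i_nn (Nat.cast_nonneg _))
    have hg : h ≤ j - i := hin.gap.1 i (Finset.mem_insert_self _ _) j (Finset.mem_insert_of_mem hin.j_mem) hin.i_lt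
    have e1 : (m : ℝ) = ((W.k j - W.E.k0 : ℕ) : ℝ) - (⌊i * W.E.n⌋₊ : ℝ) := by
      have hk' := hk
      rw [hM.k_eq] at hk'
      have : m = (W.k j - W.E.k0) - ⌊i * W.E.n⌋₊ := by rw [hmd, hM.k_eq]; omega
      rw [this, Nat.cast_sub (by omega)]
    rw [e1]
    have h9 : h / 2 * W.E.n ≤ (j - a - i) * W.E.n := mul_le_mul_of_nonneg_right (by linarith) (by linarith)
    linarith
  have hm2 : (m : ℝ) ≤ W.E.n := by
    have h1 := (hstr.k_rg j hin.j_mem).2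
    have h2 : W.E.kf = W.E.k0 + W.E.n := rfl
    have : m ≤ W.E.n := by omega
    exact_mod_cast this
  have hmpos : (1 : ℝ) ≤ m := by
    have : 1 ≤ m := by omega
    exact_mod_cast this
  have hde : ∀ y : ℝ, X.de ^ y = 2 ^ (-((m : ℝ) * y)) := by
    intro y
    unfold CyGp.de
    rw [hXm, ← Real.rpow_natCast, ← Real.rpow_mul (by norm_num), Real.inv_rpow (by norm_num), ← Real.rpow_neg (by norm_num)]
  have hnu : nu ≤ X.F.kf - X.k := by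
    rw [hXm]
    have h1 : (nu : ℝ) ≤ h / 2 * nh := by
      rw [div_le_iff₀ (by positivity)] at hnh
      linarith
    have h2 : (nh : ℝ) ≤ W.E.n := by exact_mod_cast hnh'
    have h3 : (nu : ℝ) ≤ m := by
      have := mul_le_mul_of_nonneg_left h2 (by positivity : 0 ≤ h / 2)
      linarith
    exact_mod_cast h3
  have hΛ2 : X.de ^ (-(2 * ε0)) ≤ X.Λ := by
    rw [hXΛ, hde, gn_s_rpow]
    refine gn_two_mono ?_
    have := mul_le_mul_of_nonneg_left hm2 (by positivity : 0 ≤ 2 * ε0)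
    linarith
  have he := hV.e_pos
  have hka := hV.ka_pos
  have hlowpos : 0 < (W.inq q (sgS k SU)).tot j :=
    lt_of_lt_of_le (mul_pos (mul_pos (Real.rpow_pos_of_pos (gn_s_pos _) _) he) (Real.rpow_pos_of_pos (gn_s_pos _) _)) hlow
  have hL : 0 < X.F.L := by
    rcases Nat.eq_zero_or_pos X.F.L with h0 | h0
    · exfalso
      rw [htot] at hlowpos
      have : IsEmpty (Fin X.F.L) := by rw [h0]; infer_instance
      rw [Finset.univ_eq_empty, Finset.sum_empty] at hlowpos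
      exact lt_irrefl _ hlowpos
    · exact h0
  have hpol := HP A p W i j a ξ τ Ls ε (W.E.s ^ (-(2 * ε0))) k q hAp hnp ha0 ha4 hξ0 hξ1 hM hF hΛ (by rw [← hXF]; exact hL)
  rw [hXgap] at hpol
  have hpol' : X.Pol Cp (W.kap Y p k ξ) := cy_tc8_pol_mono hCx hXok hpol
  obtain ⟨κ', hκ'⟩ : ∃ κ' : ℝ, κ' = W.kap Y p k ξ := ⟨_, rfl⟩
  rw [← hκ'] at hpol' hb32
  have hκp : 0 < κ' := hpol'.ka_pos
  obtain ⟨b', hb'⟩ : ∃ b' : ℝ, b' = max b (X.de ^ (Cp : ℝ) * κ') := ⟨_, rfl⟩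
  have hbb : b ≤ b' := by rw [hb']; exact le_max_left _ _
  have hb'0 : 0 < b' := lt_of_lt_of_le hb0 hbb
  have hCpR : (5 : ℝ) ≤ Cp := by exact_mod_cast hC5
  have h32 : (32 : ℝ) ≤ X.de ^ (-(Cp : ℝ)) := by
    rw [hde]
    have e5 : (32 : ℝ) = 2 ^ (5 : ℝ) := by norm_num
    rw [e5]
    refine gn_two_mono ?_
    nlinarith
  have hup := HU p X κ' b' Mb fs c S hXok hpol' hnu hΛ2 hc (by rw [hXfj]; exact hfs1)
    (by
      rw [hXfj]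
      refine hfs2.trans (mul_le_mul_of_nonneg_right ?_ (hstr.frame.2.2 j hin.j_mem).2.le)
      rw [hde, hde]
      refine gn_two_mono ?_
      have : (Cf : ℝ) ≤ Cp := by exact_mod_cast hCf
      nlinarith)
    hS (by rw [hb']; exact le_max_right _ _)
    (by
      rw [hb']
      refine max_le (hb32.trans (mul_le_mul_of_nonneg_right h32 hκp.le)) (mul_le_mul_of_nonneg_right ?_ hκp.le)
      rw [hde, hde]
      refine gn_two_mono ?_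
      nlinarith)
    (by
      intro I hI G Q hQ
      rw [hXk]
      refine (hden I hI G Q hQ).trans (mul_le_mul_of_nonneg_right hbb ?_)
      exact (hT.wt_pos _ _ hQ.1).le)
  -- Hölder
  have hhol := cy_t_holder Finset.univ (fun l : Fin X.F.L => X.rdm l (X.cutS (X.an l) (SU (X.an l)))) (fun l => X.F.w l)
    (fun l _ => gn_en_nonneg _ _ _ (hXok.valid.th_nn l) _) (fun l _ => hXok.valid.w_pos l)
  rw [← htot] at hhol
  have hR : ∑ l : Fin X.F.L, X.rdm l (X.cutS (X.an l) (SU (X.an l))) ^ (3 / 2 : ℝ) / Real.sqrt (X.F.w l)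
      = X.F.rdc X.k X.st2 (fun I => X.cutS I (⋃ G, S I G)) := by
    rw [hSU]
    rfl
  rw [hR] at hhol
  have hprep : ∑ I ∈ X.iv, ‖X.ps I‖ ^ 2 ≤ W.E.e * 2 ^ (Y.M.d0 * ((k - W.E.k0 : ℕ) : ℝ) + ξ * W.E.n) := by
    rw [hXiv]
    simp only [hXps]
    exact hM.prep.1
  have hcnt : X.F.tw ≤ 2 ^ (-(-a * W.E.n)) * (W.E.e / W.E.ka) * 2 ^ (-(-((Y.M.p0 + Y.M.d0) * j) * W.E.n)) := by
    rw [hXF, ← gn_s_rpow, ← gn_s_rpow]
    exact htw.trans (hin.pre.cnt j hin.j_mem)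
  have hdep : |((k - W.E.k0 : ℕ) : ℝ) + (m : ℝ) - j * W.E.n| ≤ a * W.E.n := by
    have h1 := hin.pre.depth j hin.j_mem
    have e1 : ((k - W.E.k0 : ℕ) : ℝ) + (m : ℝ) = (W.k j : ℝ) - W.E.k0 := by
      rw [hmd, Nat.cast_sub hk0k, Nat.cast_sub hk.le]
      ring
    rw [e1]
    exact h1
  rw [gn_s_rpow, gn_s_rpow] at hlow
  rw [hXm] at hup
  have hmain := cy_tc8_num W.E.n m ((k - W.E.k0 : ℕ) : ℝ) W.E.e W.E.ka b' _ _ _ _ Y.M.Gam Y.M.p0 Y.M.d0 j a ξ (ξ' / 8) (ξ' / 8) ξ'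
    (Nat.cast_nonneg _) (Nat.cast_nonneg _) hm2 he hka hb'0 (by positivity) ha0.le rfl hlow hhol hup hprep hcnt hdep
    (by
      have : (1 + 2 * |Y.M.Gam - 1 / 2|) * a ≤ ξ' / 16 := by
        rw [le_div_iff₀ hg1] at ha16
        linarith
      linarith)
  rw [hb'] at hmain
  rcases le_max_iff.1 hmain with h1 | h1
  · exact h1
  · exfalso
    rw [hκ', hde] at h1
    unfold SfMD.kap at h1
    have h2 : W.E.ka * (2 : ℝ) ^ (-(Y.M.p0 * ((k - W.E.k0 : ℕ) : ℝ)) - ξ' * W.E.n)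
        ≤ W.E.ka * 2 ^ (-((m : ℝ) * (Cp : ℝ)) + (-(Y.M.p0 * ((k - W.E.k0 : ℕ) : ℝ)) + ξ * W.E.n)) := by
      rw [gn_two_add]
      refine h1.trans (le_of_eq ?_)
      ring
    have h3 := le_of_mul_le_mul_left h2 hka
    have h4 := (Real.rpow_le_rpow_left_iff (by norm_num : (1 : ℝ) < 2)).1 h3
    have h5 : (m : ℝ) * 5 ≤ (m : ℝ) * (Cp : ℝ) := mul_le_mul_of_nonneg_left hCpR (Nat.cast_nonneg _)
    have h6 : 0 < h * W.E.n := mul_pos hh (by linarith)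
    have h7 : (ξ + ξ') * W.E.n ≤ (h / 8 + h / 8) * W.E.n := mul_le_mul_of_nonneg_right (by linarith) (by linarith)
    nlinarith

/-- the selected class -/
structure CySel (Y : SfCy) (p : Y.M.Par) (W : SfMD (Y.M.sys p)) (j : ℝ) (k q : ℕ) (ξ ε0 ξ' D0 Dst Ds D1 : ℝ) (C0 : ℕ) where
  c : CyCh (W.gp Y p j k q ξ ε0)
  S : ℕ → c.ι → Set (Y.M.sys p).X
  β : ℝ
  u : ℝ
  v : ℝ
  ok : c.Ok ((W.gp Y p j k q ξ ε0).de ^ (-D0)) ((W.gp Y p j k q ξ ε0).de ^ Ds) C0 ((W.gp Y p j k q ξ ε0).de ^ (-Dst) * W.f j)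
  cls : CyCls c ((W.gp Y p j k q ξ ε0).de ^ D1) (W.kap Y p k ξ) ((W.gp Y p j k q ξ ε0).de ^ ((1 : ℕ) : ℝ)) ((W.gp Y p j k q ξ ε0).de ^ (-Dst) * W.f j) S β u v
  /-- not the remainder -/
  lvl : (W.gp Y p j k q ξ ε0).de ^ ((1 : ℕ) : ℝ) * W.kap Y p k ξ < β
  low : W.E.ka * 2 ^ (-(Y.M.p0 * ((k - W.E.k0 : ℕ) : ℝ)) - ξ' * W.E.n) ≤ 32 * β
  val : W.E.s ^ ξ' * W.E.val ≤ (W.inq q (sgS k fun I => ⋃ G, S I G)).E.val

/-- **SEL** as a `Prop` -/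
def CySelP (Y : SfCy) (D0 Dst Ds D1 : ℝ) (C0 : ℕ) : Prop :=
  ∀ h : ℝ, 0 < h → ∃ ε0 : ℝ, 0 < ε0 ∧ ∀ ξ' : ℝ, 0 < ξ' → ∃ a0 ξ0 τ0 : ℝ, 0 < a0 ∧ 0 < ξ0 ∧ 0 < τ0 ∧ ∀ C : ℕ, ∃ A0 n0 : ℕ,
    ∀ (A : ℕ) (p : Y.M.Par) (W : SfMD (Y.M.sys p)) (i j a ξ τ Ls ε : ℝ) (k q : ℕ), A0 ≤ A → n0 ≤ W.E.n → 0 < a → a ≤ a0 → 0 < ξ → ξ ≤ ξ0 → 0 < τ → τ ≤ τ0 →
      CyMid Y p W i j k q h a ξ τ C A Ls ε → W.Flo Y p j k ξ → Nonempty (CySel Y p W j k q ξ ε0 ξ' D0 Dst Ds D1 C0)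

theorem cy_tc2_eqns_cite : True := by
  have := @CySelP.eq_1
  trivial

/-- generic step of TC9 (helper179): a finite measurable partition of the rows at a cut: one piece keeps the terminal readout up to `card³` (`gn_split` + pigeonhole on cube roots) -/
theorem cy_t_sel_split {P : PkSys} (hT : P.Tight) (E : Xp P) (hE : E.Valid) (k : ℕ) (st1 st2 : List (Stg P)) (hc : E.CutAt k st1 st2)
    (hpl : ∀ i ∈ ivs E.k0 E.i0 k, E.at' k i st1 ∈ P.Pl 0) {ι : Type} [Fintype ι] [Nonempty ι] (S : ι → ℕ → Set P.X) (hm : ∀ t I, MeasurableSet (S t I))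
    (hd : ∀ I t t', t ≠ t' → Disjoint (S t I) (S t' I)) (hu : ∀ I, ⋃ t, S t I = Set.univ) :
    ∃ t, E.rd ≤ (Fintype.card ι : ℝ) ^ 3 * (E.withSt (st1 ++ sgS k (S t) :: st2)).rd := by
  classical
  have hsum : ∀ i x, ∑ t ∈ (Finset.univ : Finset ι), (S t i).indicator (fun _ => (1 : ℝ)) x = 1 := by
    intro i x
    have hx : x ∈ ⋃ t, S t i := by rw [hu i]; exact Set.mem_univ x
    obtain ⟨t0, ht0⟩ := Set.mem_iUnion.1 hx
    rw [Finset.sum_eq_single t0, Set.indicator_of_mem ht0]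
    · intro t _ hne
      exact Set.indicator_of_notMem (fun h => Set.disjoint_left.1 (hd i t t0 hne) h ht0) _
    · intro h
      exact absurd (Finset.mem_univ t0) h
  have h := gn_split hT E hE k 0 st1 st2 hc hpl Finset.univ (fun t I => (S t I).indicator fun _ => (1 : ℝ))
    (fun t _ i => gn_mask_ind (hm t i)) hsum
  have hnn : ∀ t, 0 ≤ (E.withSt (st1 ++ sgS k (S t) :: st2)).rd := fun t =>
    Finset.sum_nonneg fun l _ => div_nonneg (Real.rpow_nonneg (gn_en_nonneg _ _ _ (hE.th_nn l) _) _) (Real.sqrt_nonneg _)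
  obtain ⟨t, -, ht⟩ := Finset.exists_max_image (Finset.univ : Finset ι) (fun t => (E.withSt (st1 ++ sgS k (S t) :: st2)).rd) Finset.univ_nonempty
  refine ⟨t, ?_⟩
  set R := (E.withSt (st1 ++ sgS k (S t) :: st2)).rd with hR
  have hx := gn_rd_nonneg E hE
  have hx3 : (E.rd ^ (1 / 3 : ℝ)) ^ 3 = E.rd := by
    rw [← Real.rpow_natCast, ← Real.rpow_mul hx]
    norm_num
  have hR0 : 0 ≤ R := hnn t
  have hR3 : (R ^ (1 / 3 : ℝ)) ^ 3 = R := by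
    rw [← Real.rpow_natCast, ← Real.rpow_mul hR0]
    norm_num
  have h1 : ∑ t' ∈ (Finset.univ : Finset ι), (E.withSt (st1 ++ sgS k (S t') :: st2)).rd ^ (1 / 3 : ℝ) ≤ (Fintype.card ι : ℝ) * R ^ (1 / 3 : ℝ) := by
    calc ∑ t' ∈ (Finset.univ : Finset ι), (E.withSt (st1 ++ sgS k (S t') :: st2)).rd ^ (1 / 3 : ℝ) ≤ ∑ _t' ∈ (Finset.univ : Finset ι), R ^ (1 / 3 : ℝ) :=
          Finset.sum_le_sum fun t' ht' => Real.rpow_le_rpow (hnn t') (ht t' ht') (by norm_num)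
      _ = (Fintype.card ι : ℝ) * R ^ (1 / 3 : ℝ) := by rw [Finset.sum_const, Finset.card_univ, nsmul_eq_mul]
  calc E.rd = (E.rd ^ (1 / 3 : ℝ)) ^ 3 := hx3.symm
    _ ≤ ((Fintype.card ι : ℝ) * R ^ (1 / 3 : ℝ)) ^ 3 := pow_le_pow_left₀ (Real.rpow_nonneg hx _) (h.trans h1) 3
    _ = (Fintype.card ι : ℝ) ^ 3 * R := by rw [mul_pow, hR3]

/-- polynomially many classes are absorbed -/
theorem cy_tc9_absorb (Cn δ : ℝ) (hδ : 0 < δ) : ∃ n0 : ℕ, ∀ (n m N : ℕ), n0 ≤ n → m ≤ n → (N : ℝ) ≤ Cn * ((m : ℝ) + 1) ^ 3 →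
    ((N + 2 : ℕ) : ℝ) ^ 3 ≤ 2 ^ (δ * n) := by
  obtain ⟨n1, hn1⟩ := gn_absorb_poly 1 1 (δ / 4) (by positivity)
  obtain ⟨n2, hn2⟩ := gn_absorb ((|Cn| + 2) ^ 3) (δ / 4) (by positivity)
  refine ⟨max n1 n2, fun n m N hn hm hN => ?_⟩
  have h1 := hn1 n ((le_max_left _ _).trans hn)
  have h2 := hn2 n ((le_max_right _ _).trans hn)
  have e1 : ((1 * n + 1 : ℕ) : ℝ) = (n : ℝ) + 1 := by push_cast; ring
  rw [e1, one_mul] at h1
  have hm' : (m : ℝ) + 1 ≤ (n : ℝ) + 1 := by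
    have : (m : ℝ) ≤ n := by exact_mod_cast hm
    linarith
  have hm0 : (0 : ℝ) ≤ (m : ℝ) + 1 := by positivity
  have h3 : ((m : ℝ) + 1) ^ 3 ≤ ((n : ℝ) + 1) ^ 3 := pow_le_pow_left₀ hm0 hm' 3
  have h4 : (1 : ℝ) ≤ ((n : ℝ) + 1) ^ 3 := one_le_pow₀ (by
    have : (0 : ℝ) ≤ n := Nat.cast_nonneg _
    linarith)
  have h5 : ((N + 2 : ℕ) : ℝ) ≤ (|Cn| + 2) * ((n : ℝ) + 1) ^ 3 := by
    push_cast
    have g1 : Cn * ((m : ℝ) + 1) ^ 3 ≤ |Cn| * ((n : ℝ) + 1) ^ 3 :=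
      (mul_le_mul_of_nonneg_right (le_abs_self Cn) (by positivity)).trans (mul_le_mul_of_nonneg_left h3 (abs_nonneg _))
    nlinarith
  have hp := gn_two_pos (δ / 4 * n)
  calc ((N + 2 : ℕ) : ℝ) ^ 3 ≤ ((|Cn| + 2) * ((n : ℝ) + 1) ^ 3) ^ 3 := pow_le_pow_left₀ (Nat.cast_nonneg _) h5 3
    _ = (|Cn| + 2) ^ 3 * (((n : ℝ) + 1) ^ 3) ^ 3 := by ring
    _ ≤ 2 ^ (δ / 4 * n) * (2 ^ (δ / 4 * n)) ^ 3 := mul_le_mul h2 (pow_le_pow_left₀ (by positivity) h1 3) (by positivity) hp.le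
    _ = 2 ^ (δ * n) := by
        rw [← Real.rpow_natCast (2 ^ (δ / 4 * (n : ℝ))) 3, gn_two_mul, ← gn_two_add]
        congr 1
        push_cast
        ring

/-- partition of unity at a cut + pigeonhole -/
theorem cy_tc9_pig {P : PkSys} (hT : P.Tight) (hpl : ∀ b, P.Pl b = Set.univ) (E : Xp P) (hE : E.Valid) (k q : ℕ) (hcut : E.CutAt k (E.st.take q) (E.st.drop q))
    {ι : Type} [Fintype ι] (Z : ι → ℕ → Set P.X) (hm : ∀ b I, MeasurableSet (Z b I)) (hd : ∀ I b b', b ≠ b' → Disjoint (Z b I) (Z b' I))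
    (hcov : ∀ I, ⋃ b, Z b I = Set.univ) (hpos : 0 < E.rd) :
    ∃ b, ∀ δ : ℝ, (Fintype.card ι : ℝ) ^ 3 ≤ 2 ^ (δ * E.n) → E.s ^ δ * E.val ≤ (E.withSt (E.st.take q ++ sgS k (Z b) :: E.st.drop q)).val := by
  have hmask : ∀ b I, IsMask ((Z b I).indicator fun _ => (1 : ℝ)) := fun b I => gn_mask_ind (hm b I)
  have hsum : ∀ I x, ∑ b ∈ (Finset.univ : Finset ι), (Z b I).indicator (fun _ => (1 : ℝ)) x = 1 := by
    intro I x
    have h1 := sf_res_part (fun b => Z b I) (hd I) (fun _ => (1 : ℝ)) x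
    rw [hcov I, Set.compl_univ, Set.indicator_empty] at h1
    simpa using h1
  have h2 := gn_split hT E hE k 0 _ _ hcut (fun i _ => by rw [hpl]; trivial) Finset.univ (fun b I => (Z b I).indicator fun _ => (1 : ℝ))
    (fun b _ I => hmask b I) hsum
  have h0 : ∀ b, 0 ≤ (E.withSt (E.st.take q ++ sgS k (Z b) :: E.st.drop q)).rd :=
    fun b => gn_rd_nonneg _ (cy_fw_ins_valid E hE hcut (sgS k (Z b)) rfl (fun I => hmask b I))
  obtain ⟨b, hb, -⟩ := sf_res_pig3 E.rd (fun b => (E.withSt (E.st.take q ++ sgS k (Z b) :: E.st.drop q)).rd) hpos h0 h2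
  exact ⟨b, fun δ hδ => cy_t_A_val E hE _ δ (hb.trans (mul_le_mul_of_nonneg_right hδ (h0 b)))⟩

/-- unattached rows, ambiguous rows and the classes of a chart system partition the rows -/
theorem cy_tc9_part {Y : SfCy} {p : Y.M.Par} {X : CyGp Y p} {c : CyCh X} {Mb ρs fs : ℝ} {C0 : ℕ} (hc : c.Ok Mb ρs C0 fs) {N : ℕ}
    (S : Fin N → ℕ → c.ι → Set (Y.M.sys p).X) (hsub : ∀ a I G, S a I G ⊆ c.rw I G) (hdisj : ∀ I G a a', a ≠ a' → Disjoint (S a I G) (S a' I G))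
    (hcov : ∀ I G, ⋃ a, S a I G = c.rw I G) (I : ℕ) :
    (∀ b b' : Option (Option (Fin N)), b ≠ b' →
      Disjoint (b.elim (X.Un I) fun b1 => b1.elim (X.Am Mb I) fun a => ⋃ G, S a I G) (b'.elim (X.Un I) fun b1 => b1.elim (X.Am Mb I) fun a => ⋃ G, S a I G)) ∧
    ⋃ b : Option (Option (Fin N)), (b.elim (X.Un I) fun b1 => b1.elim (X.Am Mb I) fun a => ⋃ G, S a I G) = Set.univ := by
  have f1 : Disjoint (X.Un I) (X.Am Mb I) := by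
    rw [Set.disjoint_left]
    rintro x hx ⟨l, -, hl, -⟩
    exact hx l hl
  have f2 : ∀ a, (⋃ G, S a I G) ⊆ (X.Un I ∪ X.Am Mb I)ᶜ := by
    intro a
    rw [← hc.cov I]
    exact Set.iUnion_mono fun G => hsub a I G
  have f2a : ∀ a, Disjoint (X.Un I) (⋃ G, S a I G) := by
    intro a
    rw [Set.disjoint_left]
    intro x hx hx'
    exact f2 a hx' (Or.inl hx)
  have f2b : ∀ a, Disjoint (X.Am Mb I) (⋃ G, S a I G) := by
    intro a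
    rw [Set.disjoint_left]
    intro x hx hx'
    exact f2 a hx' (Or.inr hx)
  have f3 : ∀ a a', a ≠ a' → Disjoint (⋃ G, S a I G) (⋃ G, S a' I G) := by
    intro a a' haa
    rw [Set.disjoint_left]
    intro x hx hx'
    obtain ⟨G, hG⟩ := Set.mem_iUnion.1 hx
    obtain ⟨G', hG'⟩ := Set.mem_iUnion.1 hx'
    by_cases hGG : G = G'
    · subst hGG
      exact Set.disjoint_left.1 (hdisj I G a a' haa) hG hG'
    · exact Set.disjoint_left.1 (hc.disj I G G' hGG) (hsub a I G hG) (hsub a' I G' hG')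
  constructor
  · intro b b' hbb
    rcases b with _ | _ | a <;> rcases b' with _ | _ | a'
    · exact absurd rfl hbb
    · exact f1
    · exact f2a a'
    · exact f1.symm
    · exact absurd rfl hbb
    · exact f2b a'
    · exact (f2a a).symm
    · exact (f2b a).symm
    · exact f3 a a' fun h => hbb (by rw [h])
  · refine Set.eq_univ_of_forall fun x => ?_
    rw [Set.mem_iUnion]
    by_cases h1 : x ∈ X.Un I
    · exact ⟨none, h1⟩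
    by_cases h2 : x ∈ X.Am Mb I
    · exact ⟨some none, h2⟩
    have h3 : x ∈ (X.Un I ∪ X.Am Mb I)ᶜ := fun h => h.elim h1 h2
    rw [← hc.cov I] at h3
    obtain ⟨G, hG⟩ := Set.mem_iUnion.1 h3
    rw [← hcov I G] at hG
    obtain ⟨a, ha⟩ := Set.mem_iUnion.1 hG
    exact ⟨some (some a), Set.mem_iUnion.2 ⟨G, ha⟩⟩

/-- one of the `N + 2` classes of rows keeps the functional up to `(N + 2)^3` -/
theorem cy_tc9_pick {Y : SfCy} (H : CyHyp Y) {p : Y.M.Par} (E : Xp (Y.M.sys p)) (hgd : Y.M.gd p) (hE : E.Valid) (k q : ℕ)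
    (hcut : E.CutAt k (E.st.take q) (E.st.drop q)) (hpos : 0 < E.rd) (X : CyGp Y p) (hX : X.Ok) (c : CyCh X) {Mb ρs fs : ℝ} {C0 : ℕ} (hc : c.Ok Mb ρs C0 fs)
    {N : ℕ} (S : Fin N → ℕ → c.ι → Set (Y.M.sys p).X) (hmeas : ∀ a I G, MeasurableSet (S a I G) ∧ S a I G ⊆ c.rw I G)
    (hdisj : ∀ I G a a', a ≠ a' → Disjoint (S a I G) (S a' I G)) (hcov : ∀ I G, ⋃ a, S a I G = c.rw I G) (δ : ℝ) (hδ : ((N + 2 : ℕ) : ℝ) ^ 3 ≤ 2 ^ (δ * E.n)) :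
    E.s ^ δ * E.val ≤ (E.withSt (E.st.take q ++ sgS k X.Un :: E.st.drop q)).val ∨
      E.s ^ δ * E.val ≤ (E.withSt (E.st.take q ++ sgS k (X.Am Mb) :: E.st.drop q)).val ∨
      ∃ a, E.s ^ δ * E.val ≤ (E.withSt (E.st.take q ++ sgS k (fun I => ⋃ G, S a I G) :: E.st.drop q)).val := by
  obtain ⟨-, mUn, mAm⟩ := cy_s_meas H X hX
  have hcard : (Fintype.card (Option (Option (Fin N))) : ℝ) = ((N + 2 : ℕ) : ℝ) := by
    rw [Fintype.card_option, Fintype.card_option, Fintype.card_fin]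
  obtain ⟨b, hb⟩ := cy_tc9_pig (H.gen.tight p hgd) (H.pl_univ p hgd) E hE k q hcut
    (fun (b : Option (Option (Fin N))) I => b.elim (X.Un I) fun b1 => b1.elim (X.Am Mb I) fun a => ⋃ G, S a I G)
    (by
      intro b I
      rcases b with _ | _ | a
      · exact mUn I
      · exact mAm _ I
      · exact MeasurableSet.iUnion fun G => (hmeas a I G).1)
    (fun I => (cy_tc9_part hc S (fun a I G => (hmeas a I G).2) hdisj hcov I).1)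
    (fun I => (cy_tc9_part hc S (fun a I G => (hmeas a I G).2) hdisj hcov I).2) hpos
  have hv := hb δ (by rw [hcard]; exact hδ)
  rcases b with _ | _ | a
  · exact Or.inl hv
  · exact Or.inr (Or.inl hv)
  · exact Or.inr (Or.inr ⟨a, hv⟩)

theorem cy_tc9_thr_pos (Y : SfCy) {p : Y.M.Par} (W : SfMD (Y.M.sys p)) (hS : W.Str (Y.tq p)) {j : ℝ} (hj : j ∈ W.G) (k : ℕ) (ξ : ℝ) :
    0 < W.thr Y p j k ξ := by
  unfold SfMD.thr SfMD.kap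
  have h1 := hS.frame.2.2 j hj
  have h2 := h1.1
  have h3 := h1.2
  have h4 := hS.valid.ka_pos
  positivity

theorem cy_tc9_lvl {N dn ma ka p0 ξ ξ8 h β : ℝ} (hka : 0 < ka) (hdn : 3 * h / 4 * N ≤ dn) (hN : 0 ≤ N) (hξ : ξ ≤ h / 8) (hξ8 : ξ8 ≤ h / 8) (hhN : 12 ≤ h * N)
    (hlow : ka * 2 ^ (-(p0 * ma) - ξ8 * N) ≤ 32 * β) : 2 ^ (-dn) * (ka * 2 ^ (-(p0 * ma) + ξ * N)) < β := by
  have e : (2 : ℝ) ^ (5 : ℝ) = 32 := by
    rw [show (5 : ℝ) = ((5 : ℕ) : ℝ) by norm_num, Real.rpow_natCast]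
    norm_num
  have h1 : 32 * (2 ^ (-dn) * (ka * 2 ^ (-(p0 * ma) + ξ * N))) = ka * 2 ^ (5 + -dn + (-(p0 * ma) + ξ * N)) := by
    rw [gn_two_add (5 + -dn), gn_two_add 5, e]
    ring
  have t1 : ξ * N ≤ h / 8 * N := mul_le_mul_of_nonneg_right hξ hN
  have t2 : ξ8 * N ≤ h / 8 * N := mul_le_mul_of_nonneg_right hξ8 hN
  have h2 : ka * 2 ^ (5 + -dn + (-(p0 * ma) + ξ * N)) < ka * 2 ^ (-(p0 * ma) - ξ8 * N) :=
    mul_lt_mul_of_pos_left (Real.rpow_lt_rpow_of_exponent_lt (by norm_num) (by linarith)) hka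
  linarith

/-- the gap of a documented experiment behind the moves A, B: structure and scale -/
theorem cy_tc9_geo {Y : SfCy} (H : CyHyp Y) {p : Y.M.Par} {W : SfMD (Y.M.sys p)} {i j h a ξ τ Ls ε : ℝ} {k q C A : ℕ} (hM : CyMid Y p W i j k q h a ξ τ C A Ls ε)
    (hF : W.Flo Y p j k ξ) (hh : 0 < h) (ha : a ≤ h / 4) (hhN : 12 ≤ h * W.E.n) :
    (W.gp Y p j k q ξ (h / 16)).Ok ∧ (W.gp Y p j k q ξ (h / 16)).de = 2 ^ (-((W.k j - k : ℕ) : ℝ)) ∧ 3 * h / 4 * W.E.n ≤ ((W.k j - k : ℕ) : ℝ) ∧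
      (W.gp Y p j k q ξ (h / 16)).Λ ≤ (W.gp Y p j k q ξ (h / 16)).de⁻¹ ∧ (W.gp Y p j k q ξ (h / 16)).de ≤ 1 / 2 ∧
      (W.gp Y p j k q ξ (h / 16)).F.kf - (W.gp Y p j k q ξ (h / 16)).k ≤ W.E.n := by
  have hS := hM.inn.pre.str
  have hj := hM.inn.j_mem
  have hN : (0 : ℝ) ≤ W.E.n := Nat.cast_nonneg _
  obtain ⟨d1, d2, d3, d4, d5, d6⟩ := cy_tB_depth hM (by linarith : a ≤ h)
  have hdn : 3 * h / 4 * W.E.n ≤ ((W.k j - k : ℕ) : ℝ) := by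
    have := mul_le_mul_of_nonneg_right (by linarith : 3 * h / 4 ≤ j - a - i) hN
    rw [d5]
    linarith
  have hθ0 := cy_tc9_thr_pos Y W hS hj k ξ
  have hΛ1 : 1 ≤ W.E.s ^ (-(2 * (h / 16))) := by
    rw [gn_s_rpow]
    refine Real.one_le_rpow (by norm_num) ?_
    have : 0 ≤ 2 * (h / 16) * (W.E.n : ℝ) := by positivity
    linarith
  obtain ⟨hXok0, hkf, -⟩ := cy_t_gap H hM hF d1 (hS.lb_ne j) (W.thr Y p j k ξ) (W.E.s ^ (-(2 * (h / 16)))) rfl hθ0 hΛ1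
  have hde : (W.gp Y p j k q ξ (h / 16)).de = 2 ^ (-((W.k j - k : ℕ) : ℝ)) := by
    show (2 : ℝ)⁻¹ ^ ((W.gxr j (W.thr Y p j k ξ)).kf - k) = _
    rw [hkf, ← Real.rpow_natCast, Real.inv_rpow (by norm_num), ← gn_two_neg]
  refine ⟨hXok0, hde, hdn, ?_, ?_, ?_⟩
  · rw [hde, ← gn_two_neg, neg_neg]
    show W.E.s ^ (-(2 * (h / 16))) ≤ _
    rw [gn_s_rpow]
    refine gn_two_mono ?_
    linarith
  · rw [hde]
    have e : (1 / 2 : ℝ) = 2 ^ (-(1 : ℝ)) := by rw [gn_two_neg, Real.rpow_one]; norm_num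
    rw [e]
    refine gn_two_mono ?_
    linarith
  · show (W.gxr j (W.thr Y p j k ξ)).kf - k ≤ W.E.n
    rw [hkf]
    have := (hS.k_rg j hj).2
    unfold Xp.kf at this
    omega

/-- the selected class -/
theorem cy_tc9_mk {Y : SfCy} {p : Y.M.Par} {W : SfMD (Y.M.sys p)} {j h ξ ξ' ξ2 D0 Dst Ds D1 β u v : ℝ} {k q C0 : ℕ} (hV : W.E.Valid) (hval0 : 0 ≤ W.E.val)
    (hde : (W.gp Y p j k q ξ (h / 16)).de = 2 ^ (-((W.k j - k : ℕ) : ℝ))) (hdn : 3 * h / 4 * W.E.n ≤ ((W.k j - k : ℕ) : ℝ)) (hhN : 12 ≤ h * W.E.n) (hξ : ξ ≤ h / 8)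
    (hξ2 : ξ2 ≤ ξ') (c : CyCh (W.gp Y p j k q ξ (h / 16))) (S : ℕ → c.ι → Set (Y.M.sys p).X)
    (hc : c.Ok ((W.gp Y p j k q ξ (h / 16)).de ^ (-D0)) ((W.gp Y p j k q ξ (h / 16)).de ^ Ds) C0 ((W.gp Y p j k q ξ (h / 16)).de ^ (-Dst) * W.f j))
    (hcl : CyCls c ((W.gp Y p j k q ξ (h / 16)).de ^ D1) (W.kap Y p k ξ) ((W.gp Y p j k q ξ (h / 16)).de ^ ((1 : ℕ) : ℝ)) ((W.gp Y p j k q ξ (h / 16)).de ^ (-Dst) * W.f j) S β u v)
    (hlow : W.E.ka * 2 ^ (-(Y.M.p0 * ((k - W.E.k0 : ℕ) : ℝ)) - min ξ' (h / 8) * W.E.n) ≤ 32 * β)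
    (hv : W.E.s ^ ξ2 * W.E.val ≤ (W.inq q (sgS k fun I => ⋃ G, S I G)).E.val) : Nonempty (CySel Y p W j k q ξ (h / 16) ξ' D0 Dst Ds D1 C0) := by
  have hN : (0 : ℝ) ≤ W.E.n := Nat.cast_nonneg _
  refine ⟨⟨c, S, β, u, v, hc, hcl, ?_, ?_, ?_⟩⟩
  · rw [Nat.cast_one, Real.rpow_one, hde]
    unfold SfMD.kap
    exact cy_tc9_lvl hV.ka_pos hdn hN hξ (min_le_right _ _) hhN hlow
  · refine le_trans (mul_le_mul_of_nonneg_left (gn_two_mono ?_) hV.ka_pos.le) hlow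
    have := mul_le_mul_of_nonneg_right (min_le_left ξ' (h / 8)) hN
    linarith
  · exact (mul_le_mul_of_nonneg_right (gn_s_anti W.E hξ2) hval0).trans hv

/-- **TC9 = SEL** (02 l.683-686 + the exclusions).   PLAN.   `ε0 = h/16`.   WLOG `ξ' ≤ h/8` (monotone: `low`, `val` get weaker).   Thresholds: minima of those of TC6, TC7, TC8 (at `ξ'`, `Cf = ⌈Dst⌉₊`), `τ0 := min(..)/2`, and `ξ'/2 ≤` the `τ0`'s of TC6-8 after replacing `ξ'` by `min ξ' (τ's)`: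
the selected class has `val ≥ s^(ξ'') val ≥ 2^((Γ - τ - ξ'') n)`, `ξ'' = min ξ' (min τ6 τ7 τ8 / 2)`.
`X = W.gp ..`: `X.Ok` (`cy_t_gap`), `X.de = 2^-(k j - k) ≤ s^(h/2) ≤ 1/2`, `X.Λ = s^(-2ε0) ≤ δ^-1`; chart system `c` from `hCh`; classes `S a`, `a < N`, from `cy_s_classes D1 (Df = 1)` (`reg` from `hM.prep`).
Partition of unity at the cut, index `Option (Option (Fin N))`: `1_{Un}`, `1_{Am}`, `1_{⋃_G S a I G}` (`c.Ok.cov`, disjointness, `Un ∩ Am = ∅`); `gn_split` (generation `0`, `H.pl_univ`); pigeonhole: some class has `rd ≥ rd(E)/(N+2)³`, `(N+2)³ ≤ 2^(ξ'' n)` (`cy_fw_poly_absorb`-type).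
`Un`, `Am` are excluded by TC6, TC7.   For the class `a`: TC8 with `b = 32 β a` gives `low`; `lvl` follows: `δ κ' = δ s^-ξ κ_a < κ_a s^ξ' / 32`. -/
theorem cy_t_sel (Y : SfCy) (H : CyHyp Y) (hΓ : 0 < Y.M.Gam) (D0 Dst Ds D1 : ℝ) (C0 : ℕ) (hD0 : 13 ≤ Y.η * D0) (hDst : 0 < Dst) (hD1 : 0 < D1) (hCh : CyChartP Y D0 Dst Ds C0)
    (hU : CyUpper Y Ds D1 C0) : CySelP Y D0 Dst Ds D1 C0 := by
  intro h hh
  refine ⟨h / 16, by positivity, fun ξ' hξ' => ?_⟩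
  obtain ⟨a6, ξ6, τ6, ha6, hξ6, hτ6, H6⟩ := cy_t_exUn Y H hΓ h (h / 16) hh (by positivity)
  obtain ⟨a7, ξ7, τ7, ha7, hξ7, hτ7, H7⟩ := cy_t_exAm Y H hΓ D0 hD0 h (h / 16) hh (by positivity) le_rfl
  obtain ⟨a8, ξ8, τ8, ha8, hξ8, hτ8, H8⟩ := cy_t_lowb Y H hΓ Ds D1 C0 hU h (h / 16) (min ξ' (h / 8)) hh (by positivity)
    (lt_min hξ' (by positivity)) (min_le_right _ _) ⌈Dst⌉₊
  obtain ⟨τm, hτmdef⟩ : ∃ τm, τm = min τ6 (min τ7 τ8) := ⟨_, rfl⟩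
  have hτm : 0 < τm := by rw [hτmdef]; exact lt_min hτ6 (lt_min hτ7 hτ8)
  have hτm6 : τm ≤ τ6 := by rw [hτmdef]; exact min_le_left _ _
  have hτm7 : τm ≤ τ7 := by rw [hτmdef]; exact (min_le_right _ _).trans (min_le_left _ _)
  have hτm8 : τm ≤ τ8 := by rw [hτmdef]; exact (min_le_right _ _).trans (min_le_right _ _)
  obtain ⟨ξ2, hξ2def⟩ : ∃ ξ2, ξ2 = min ξ' (τm / 2) := ⟨_, rfl⟩
  have hξ2 : 0 < ξ2 := by rw [hξ2def]; exact lt_min hξ' (by positivity)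
  have hξ2a : ξ2 ≤ ξ' := by rw [hξ2def]; exact min_le_left _ _
  have hξ2b : ξ2 ≤ τm / 2 := by rw [hξ2def]; exact min_le_right _ _
  obtain ⟨Cn, HC⟩ := cy_s_classes H D1 hD1 1
  refine ⟨min (min a6 a7) (min a8 (h / 4)), min (min ξ6 ξ7) (min ξ8 (h / 8)), τm / 2, lt_min (lt_min ha6 ha7) (lt_min ha8 (by positivity)),
    lt_min (lt_min hξ6 hξ7) (lt_min hξ8 (by positivity)), by positivity, fun C => ?_⟩
  obtain ⟨A6, n6, H6⟩ := H6 C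
  obtain ⟨A7, n7, H7⟩ := H7 C
  obtain ⟨A8, n8, H8⟩ := H8 C
  obtain ⟨n9, hn9⟩ := cy_tc9_absorb Cn ξ2 hξ2
  obtain ⟨n10, hn10⟩ := exists_nat_ge (12 / h)
  refine ⟨max A6 (max A7 A8), max (max n6 n7) (max n8 (max n9 n10)), ?_⟩
  intro A p W i j a ξ τ Ls ε k q hA hn ha ha0 hξ hξ0 hτ hτ0 hM hF
  have hA6 : A6 ≤ A := (le_max_left _ _).trans hA
  have hA7 : A7 ≤ A := ((le_max_left _ _).trans (le_max_right _ _)).trans hA
  have hA8 : A8 ≤ A := ((le_max_right _ _).trans (le_max_right _ _)).trans hA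
  have hn6 : n6 ≤ W.E.n := ((le_max_left _ _).trans (le_max_left _ _)).trans hn
  have hn7 : n7 ≤ W.E.n := ((le_max_right _ _).trans (le_max_left _ _)).trans hn
  have hn8 : n8 ≤ W.E.n := ((le_max_left _ _).trans (le_max_right _ _)).trans hn
  have hn9' : n9 ≤ W.E.n := (((le_max_left _ _).trans (le_max_right _ _)).trans (le_max_right _ _)).trans hn
  have hn10' : n10 ≤ W.E.n := (((le_max_right _ _).trans (le_max_right _ _)).trans (le_max_right _ _)).trans hn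
  have haa6 : a ≤ a6 := ha0.trans ((min_le_left _ _).trans (min_le_left _ _))
  have haa7 : a ≤ a7 := ha0.trans ((min_le_left _ _).trans (min_le_right _ _))
  have haa8 : a ≤ a8 := ha0.trans ((min_le_right _ _).trans (min_le_left _ _))
  have haah : a ≤ h / 4 := ha0.trans ((min_le_right _ _).trans (min_le_right _ _))
  have hξξ6 : ξ ≤ ξ6 := hξ0.trans ((min_le_left _ _).trans (min_le_left _ _))
  have hξξ7 : ξ ≤ ξ7 := hξ0.trans ((min_le_left _ _).trans (min_le_right _ _))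
  have hξξ8 : ξ ≤ ξ8 := hξ0.trans ((min_le_right _ _).trans (min_le_left _ _))
  have hξξh : ξ ≤ h / 8 := hξ0.trans ((min_le_right _ _).trans (min_le_right _ _))
  have hττ6 : τ ≤ τ6 := by linarith
  have hττ7 : τ ≤ τ7 := by linarith
  have hττ8 : τ ≤ τ8 := by linarith
  have hN : (0 : ℝ) ≤ W.E.n := Nat.cast_nonneg _
  have gm : (2 : ℝ) ^ ((Y.M.Gam - τm) * W.E.n) ≤ 2 ^ ((Y.M.Gam - (τ + ξ2)) * W.E.n) := gn_two_mono (mul_le_mul_of_nonneg_right (by linarith) hN)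
  have g6 : (2 : ℝ) ^ ((Y.M.Gam - τ6) * W.E.n) ≤ 2 ^ ((Y.M.Gam - τm) * W.E.n) := gn_two_mono (mul_le_mul_of_nonneg_right (by linarith) hN)
  have g7 : (2 : ℝ) ^ ((Y.M.Gam - τ7) * W.E.n) ≤ 2 ^ ((Y.M.Gam - τm) * W.E.n) := gn_two_mono (mul_le_mul_of_nonneg_right (by linarith) hN)
  have g8 : (2 : ℝ) ^ ((Y.M.Gam - τ8) * W.E.n) ≤ 2 ^ ((Y.M.Gam - τm) * W.E.n) := gn_two_mono (mul_le_mul_of_nonneg_right (by linarith) hN)
  have hhN : 12 ≤ h * W.E.n := by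
    have g1 : (n10 : ℝ) ≤ W.E.n := by exact_mod_cast hn10'
    have g2 : 12 / h ≤ W.E.n := hn10.trans g1
    rw [div_le_iff₀ hh] at g2
    linarith
  have H6' := H6 A p W i j a ξ τ Ls ε k q hA6 hn6 ha haa6 hξ hξξ6 hτ hττ6 hM hF
  have H7' := H7 A p W i j a ξ τ Ls ε k q hA7 hn7 ha haa7 hξ hξξ7 hτ hττ7 hM hF
  have H8' := H8 A p W i j a ξ τ Ls ε k q hA8 hn8 ha haa8 hξ hξξ8 hτ hττ8 hM hF
  clear H6 H7 H8
  have hS := hM.inn.pre.str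
  have hj := hM.inn.j_mem
  have hcls := hM.inn.cls
  have hV := hcls.2.1
  obtain ⟨hXok, hde, hdn, hΛde, hde2, hmn⟩ := cy_tc9_geo H hM hF hh haah hhN
  have hde0 : 0 < (W.gp Y p j k q ξ (h / 16)).de := by rw [hde]; exact gn_two_pos _
  have hdn0 : (0 : ℝ) ≤ ((W.k j - k : ℕ) : ℝ) := Nat.cast_nonneg _
  obtain ⟨c, hc⟩ := hCh p _ hXok hΛde hde2
  have hfj : 0 < W.f j := (hS.frame.2.2 j hj).2
  have hκ : 0 < W.kap Y p k ξ := by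
    unfold SfMD.kap
    exact mul_pos hV.ka_pos (gn_two_pos _)
  have hfs0 : 0 < (W.gp Y p j k q ξ (h / 16)).de ^ (-Dst) * W.f j := mul_pos (Real.rpow_pos_of_pos hde0 _) hfj
  obtain ⟨N, S, β, u, v, hNle, hcl, hdisj, hcov⟩ := HC p _ (W.kap Y p k ξ) _ _ _ C0 c hXok hκ (fun I hI => hM.prep.2 I hI 0 le_rfl) hc hfs0
  have hval0 : 0 < W.E.val := lt_of_lt_of_le (gn_two_pos _) hM.inn.val
  have hrd0 : 0 < W.E.rd := by
    rw [gn_rd_of_val W.E hV]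
    exact mul_pos (mul_pos (gn_two_pos _) (mul_pos hV.e_pos (Real.sqrt_pos.2 hV.ka_pos))) hval0
  have hlow := gm.trans (cy_t_A_low W.E Y.M.Gam τ ξ2 W.E.val hM.inn.val)
  rcases cy_tc9_pick H W.E hcls.1 hV k q hM.cut hrd0 _ hXok c hc S (fun a => (hcl a).meas) hdisj hcov ξ2 (hn9 W.E.n _ N hn9' hmn hNle) with hv | hv | ⟨a, hv⟩
  · exact absurd (g6.trans (hlow.trans hv)) (not_le.2 H6')
  · exact absurd (g7.trans (hlow.trans hv)) (not_le.2 H7')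
  · have hfs1 : W.f j ≤ (W.gp Y p j k q ξ (h / 16)).de ^ (-Dst) * W.f j := by
      have g1 : 1 ≤ (W.gp Y p j k q ξ (h / 16)).de ^ (-Dst) := by
        rw [hde, gn_two_mul]
        refine Real.one_le_rpow (by norm_num) ?_
        rw [neg_mul_neg]
        exact mul_nonneg hdn0 hDst.le
      calc W.f j = 1 * W.f j := (one_mul _).symm
        _ ≤ _ := mul_le_mul_of_nonneg_right g1 hfj.le
    have hfs2 : (W.gp Y p j k q ξ (h / 16)).de ^ (-Dst) * W.f j ≤ (W.gp Y p j k q ξ (h / 16)).de ^ (-((⌈Dst⌉₊ : ℕ) : ℝ)) * W.f j := by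
      refine mul_le_mul_of_nonneg_right ?_ hfj.le
      rw [hde, gn_two_mul, gn_two_mul]
      refine gn_two_mono ?_
      rw [neg_mul_neg, neg_mul_neg]
      exact mul_le_mul_of_nonneg_left (Nat.le_ceil Dst) hdn0
    have hβ := (hcl a).beta
    have hlow8 := H8' _ _ (32 * β a) c (S a) hc hfs1 hfs2 (hcl a).meas
      (mul_pos (by norm_num) hβ.1) (mul_le_mul_of_nonneg_left hβ.2 (by norm_num)) (hcl a).reg (g8.trans (hlow.trans hv))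
    exact cy_tc9_mk hV hval0.le hde hdn hhN hξξh hξ2a c (S a) hc (hcl a) hlow8 hv

end Claimed.Agent.R256
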