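-- KEEP
import Claimed.Agent.R256.Cyl.FwdB

/-!
# Row 256 (LS paper), CYL, unit STEP, move C, block NEW GATE, file 1 : THE OPERATION          (architect helper202; prefix `cy_n`; top of move C: helper148)

PAPER FREE, NO ANALYSIS: lists, positions, `Finset` sums, case analysis.
* `CyNg P`        the data of a new gate: parameter `i`, cut `(k, q)` (`q` = number of stages before the cut), mask `Mk`, a finite type of labels `Lb` with interval `iv`, test `ts`, row set `R`; common widths `(u, v)`.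
* `W.ng N`        the documented experiment with the new gate: the stage `(k, 0, Mk)` is inserted at the position `q`; the positions of the old gates are shifted by one;
                  labels of the gate `x`:  `{s : N.Lb ⊕ W.Lb x // x = N.i ↔ s.isLeft}`   (uniform subtype of a sum: NO type-level `if`).   All data of a label are `Sum.elim (new) (old) s.1`.
* `N.Ok W tq`     what makes `W.ng N` structurally valid.
* `cy_n_str`      `W.Str tq → N.Ok W tq → (W.ng N).Str tq`      (glue proved from the leaves S1-S6).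
HOW TO USE A LABEL:   `obtain ⟨s, hs⟩ := l; rcases s with l0 | l0`;  in the branch `inl`: `hs.2 rfl : x = N.i`;  in the branch `inr`: `x ≠ N.i` (`cy_n_inr`).
-/

set_option autoImplicit false

namespace Claimed.Agent.R256

open MeasureTheory

/-- the data of a new gate -/
structure CyNg (P : PkSys) where
  i : ℝ
  k : ℕ
  q : ℕ
  Mk : ℕ → P.X → ℝ
  Lb : Type
  fLb : Fintype Lb
  iv : Lb → ℕ
  ts : Lb → P.Tst
  R : Lb → Set P.X
  u : ℝ
  v : ℝ

attribute [instance] CyNg.fLb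

variable {P : PkSys}

/-- the documented experiment with the new gate -/
noncomputable def SfMD.ng (W : SfMD P) (N : CyNg P) : SfMD P where
  E := W.E.withSt (W.E.st.take N.q ++ ⟨N.k, 0, N.Mk⟩ :: W.E.st.drop N.q)
  Q0 := W.Q0
  G := insert N.i W.G
  k := fun x => if x = N.i then N.k else W.k x
  pos := fun x => if x = N.i then N.q else W.pos x + 1
  gb := fun x => if x = N.i then 0 else W.gb x
  Lb := fun x => {s : N.Lb ⊕ W.Lb x // x = N.i ↔ s.isLeft = true}
  fLb := fun _ => inferInstance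
  iv := fun x s => Sum.elim N.iv (W.iv x) s.1
  ts := fun x s => Sum.elim N.ts (W.ts x) s.1
  th := fun x s => Sum.elim (fun l => (N.R l).indicator fun _ => 1) (W.th x) s.1
  r := fun x => if x = N.i then N.u else W.r x
  f := fun x => if x = N.i then N.v else W.f x

/-- what makes the new gate structurally valid -/
structure CyNg.Ok (N : CyNg P) (W : SfMD P) (tq : P.Tst → CyT) : Prop where
  i_nn : 0 ≤ N.i
  i_lt : ∀ x ∈ W.G, N.i < x
  cut : W.E.CutAt N.k (W.E.st.take N.q) (W.E.st.drop N.q)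
  q_le : ∀ x ∈ W.G, N.q ≤ W.pos x
  msk : ∀ m x, N.Mk m x = ∑ l, if N.iv l = m then (N.R l).indicator (fun _ => (1 : ℝ)) x else 0
  meas : ∀ l, MeasurableSet (N.R l)
  ne : ∀ l, (N.R l).Nonempty
  lb_ne : Nonempty N.Lb
  disj : ∀ l l', l ≠ l' → N.iv l = N.iv l' → Disjoint (N.R l) (N.R l')
  supp : ∀ l, N.R l ⊆ P.cell (N.ts l) (tmL N.k (N.iv l)) N.k
  iv_in : ∀ l, N.iv l ∈ ivs W.E.k0 W.E.i0 N.k
  ok : ∀ l, P.ok (N.ts l) N.k
  width : ∀ l, (tq (N.ts l)).r = N.u ∧ (tq (N.ts l)).f = N.v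
  pos : 0 < N.u ∧ 0 < N.v

theorem cy_n1_eqns_cite : True := by
  have := @SfMD.ng.eq_1
  trivial

/-! ## reading the new experiment -/

theorem cy_n_inr (W : SfMD P) (N : CyNg P) {x : ℝ} {l0 : W.Lb x} (hs : x = N.i ↔ (Sum.inr l0 : N.Lb ⊕ W.Lb x).isLeft = true) : x ≠ N.i :=
  fun h => by simpa using hs.1 h

theorem cy_n_k_new (W : SfMD P) (N : CyNg P) : (W.ng N).k N.i = N.k := if_pos rfl
theorem cy_n_k_old (W : SfMD P) (N : CyNg P) {x : ℝ} (hx : x ≠ N.i) : (W.ng N).k x = W.k x := if_neg hx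
theorem cy_n_pos_new (W : SfMD P) (N : CyNg P) : (W.ng N).pos N.i = N.q := if_pos rfl
theorem cy_n_pos_old (W : SfMD P) (N : CyNg P) {x : ℝ} (hx : x ≠ N.i) : (W.ng N).pos x = W.pos x + 1 := if_neg hx
theorem cy_n_gb_new (W : SfMD P) (N : CyNg P) : (W.ng N).gb N.i = 0 := if_pos rfl
theorem cy_n_gb_old (W : SfMD P) (N : CyNg P) {x : ℝ} (hx : x ≠ N.i) : (W.ng N).gb x = W.gb x := if_neg hx
theorem cy_n_r_new (W : SfMD P) (N : CyNg P) : (W.ng N).r N.i = N.u := if_pos rfl
theorem cy_n_r_old (W : SfMD P) (N : CyNg P) {x : ℝ} (hx : x ≠ N.i) : (W.ng N).r x = W.r x := if_neg hx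
theorem cy_n_f_new (W : SfMD P) (N : CyNg P) : (W.ng N).f N.i = N.v := if_pos rfl
theorem cy_n_f_old (W : SfMD P) (N : CyNg P) {x : ℝ} (hx : x ≠ N.i) : (W.ng N).f x = W.f x := if_neg hx

/-- an old gate is not the new one -/
theorem cy_n_ne {W : SfMD P} {N : CyNg P} {tq : P.Tst → CyT} (hN : N.Ok W tq) {x : ℝ} (hx : x ∈ W.G) : x ≠ N.i := (hN.i_lt x hx).ne'

/-- the labels of the new gate -/
def cyNgNew (W : SfMD P) (N : CyNg P) : N.Lb ≃ (W.ng N).Lb N.i where
  toFun l := ⟨Sum.inl l, by simp⟩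
  invFun s := match s with
    | ⟨Sum.inl l, _⟩ => l
    | ⟨Sum.inr _, h⟩ => absurd rfl (cy_n_inr W N h)
  left_inv _ := rfl
  right_inv s := by
    obtain ⟨s, hs⟩ := s
    rcases s with l | l
    · rfl
    · exact absurd rfl (cy_n_inr W N hs)

/-- the labels of an old gate -/
def cyNgOld (W : SfMD P) (N : CyNg P) {x : ℝ} (hx : x ≠ N.i) : W.Lb x ≃ (W.ng N).Lb x where
  toFun l := ⟨Sum.inr l, by simp [hx]⟩
  invFun s := match s with
    | ⟨Sum.inl _, h⟩ => absurd (h.2 rfl) hx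
    | ⟨Sum.inr l, _⟩ => l
  left_inv _ := rfl
  right_inv s := by
    obtain ⟨s, hs⟩ := s
    rcases s with l | l
    · exact absurd (hs.2 rfl) hx
    · rfl

theorem cy_n1b_eqns_cite : True := by
  have := @cyNgNew.eq_1
  have := @cyNgOld.eq_1
  trivial

/-- sums over the labels of the new gate -/
theorem cy_n_sum_new (W : SfMD P) (N : CyNg P) (F : N.Lb ⊕ W.Lb N.i → ℝ) : ∑ l : (W.ng N).Lb N.i, F l.1 = ∑ l : N.Lb, F (Sum.inl l) :=
  (Fintype.sum_equiv (cyNgNew W N) (fun l => F (Sum.inl l)) (fun l => F l.1) (fun _ => rfl)).symm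

/-- sums over the labels of an old gate -/
theorem cy_n_sum_old (W : SfMD P) (N : CyNg P) {x : ℝ} (hx : x ≠ N.i) (F : N.Lb ⊕ W.Lb x → ℝ) : ∑ l : (W.ng N).Lb x, F l.1 = ∑ l : W.Lb x, F (Sum.inr l) :=
  (Fintype.sum_equiv (cyNgOld W N hx) (fun l => F (Sum.inr l)) (fun l => F l.1) (fun _ => rfl)).symm

/-! ## the leaves of `Str` -/

/-- **L-256-CYL-N-S1a**.   At most one label of an interval contains a row.
PLAN: if no `l` has `N.iv l = m ∧ x ∈ N.R l` all terms vanish.   Otherwise fix such an `l0`: every other term vanishes (`hN.disj`, `Set.disjoint_left`), `Finset.sum_eq_single l0`, value `1`. -/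
theorem cy_n_sum_le1 {W : SfMD P} {N : CyNg P} {tq : P.Tst → CyT} (hN : N.Ok W tq) (m : ℕ) (x : P.X) :
    ∑ l, (if N.iv l = m then (N.R l).indicator (fun _ => (1 : ℝ)) x else 0) ≤ 1 := by
  by_cases hex : ∃ l0, N.iv l0 = m ∧ x ∈ N.R l0
  · obtain ⟨l0, h1, h2⟩ := hex
    rw [Finset.sum_eq_single l0]
    · rw [if_pos h1, Set.indicator_of_mem h2]
    · intro l _ hl
      split_ifs with h3
      · exact Set.indicator_of_notMem (fun hx => Set.disjoint_left.1 (hN.disj l l0 hl (h3.trans h1.symm)) hx h2) _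
      · rfl
    · intro h
      exact absurd (Finset.mem_univ l0) h
  · rw [Finset.sum_eq_zero]
    · exact zero_le_one
    · intro l _
      split_ifs with h3
      · exact Set.indicator_of_notMem (fun hx => hex ⟨l, h3, hx⟩) _
      · rfl

/-- **L-256-CYL-N-S1b**.   The mask of the new gate is a mask.
PLAN: `funext`-rewrite `N.Mk m` by `hN.msk`; measurable: `Finset.measurable_sum`, `Measurable.ite` with a constant condition (or `split_ifs`), `measurable_const.indicator (hN.meas l)`;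
`0 ≤`: `Finset.sum_nonneg`, `Set.indicator_nonneg`; `≤ 1`: `cy_n_sum_le1`. -/
theorem cy_n_mask {W : SfMD P} {N : CyNg P} {tq : P.Tst → CyT} (hN : N.Ok W tq) (m : ℕ) : IsMask (N.Mk m) := by
  have e : N.Mk m = fun x => ∑ l, if N.iv l = m then (N.R l).indicator (fun _ => (1 : ℝ)) x else 0 := funext (hN.msk m)
  rw [e]
  refine ⟨Finset.measurable_sum _ fun l _ => ?_, fun x => ⟨Finset.sum_nonneg fun l _ => ?_, cy_n_sum_le1 hN m x⟩⟩
  · by_cases h : N.iv l = m
    · simp only [h, if_true]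
      exact measurable_const.indicator (hN.meas l)
    · simp only [h, if_false]
      exact measurable_const
  · split_ifs
    · exact Set.indicator_nonneg (fun _ _ => zero_le_one) x
    · exact le_rfl

/-- **L-256-CYL-N-S2**.   The new cut is not deeper than the old gates.
PLAN: `y < 1`: `h.stage y hy` gives `σ = st[pos y]` of depth `W.k y`; `N.q ≤ W.pos y` (`hN.q_le`), so `σ ∈ st.drop N.q` (`List.getElem?_drop`, `List.mem_of_getElem?`), `hN.cut.2.2.1`.   `y = 1`: `h.k_one.1`, `hN.cut.2.2.2.2`. -/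
theorem cy_n_k_le {W : SfMD P} {N : CyNg P} {tq : P.Tst → CyT} (h : W.Str tq) (hN : N.Ok W tq) {y : ℝ} (hy : y ∈ W.G) : N.k ≤ W.k y := by
  rcases lt_or_eq_of_le (h.gate.2 y hy).2 with hy1 | rfl
  · obtain ⟨σ, a1, a2, -, -⟩ := h.stage y hy hy1
    rw [← a2]
    refine hN.cut.2.2.1 σ ?_
    have hq := hN.q_le y hy
    have : (W.E.st.drop N.q)[W.pos y - N.q]? = some σ := by
      rw [List.getElem?_drop, Nat.add_sub_cancel' hq]
      exact a1
    exact List.mem_of_getElem? this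
  · rw [h.k_one.1]
    exact hN.cut.2.2.2.2

theorem cy_n_list {α : Type*} (L : List α) (q : ℕ) (hq : q ≤ L.length) (σ : α) :
    (L.take q ++ σ :: L.drop q)[q]? = some σ ∧ (∀ a, q ≤ a → (L.take q ++ σ :: L.drop q)[a + 1]? = L[a]?) ∧
      (L.take q ++ σ :: L.drop q).length = L.length + 1 := by
  have hl : (L.take q).length = q := by
    rw [List.length_take]
    exact min_eq_left hq
  refine ⟨?_, ?_, ?_⟩
  · rw [List.getElem?_append_right (by rw [hl]), hl, Nat.sub_self]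
    rfl
  · intro a ha
    rw [List.getElem?_append_right (by rw [hl]; omega), hl]
    have e : a + 1 - q = (a - q) + 1 := by omega
    rw [e, List.getElem?_cons_succ, List.getElem?_drop]
    congr 1
    omega
  · rw [List.length_append, List.length_cons, List.length_drop, hl]
    omega

/-- **L-256-CYL-N-S3**.   The new stack.
PLAN: `N.q ≤ st.length` (`hN.q_le 1 h.gate.1`, `h.k_one.2.1`), so `(st.take q).length = q`.   `List.getElem?_append_right`, `List.getElem?_cons_zero`, `List.getElem?_cons_succ`, `List.getElem?_drop`; `List.length_append`, `List.length_take`, `List.length_drop`. -/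
theorem cy_n_stack {W : SfMD P} {N : CyNg P} {tq : P.Tst → CyT} (h : W.Str tq) (hN : N.Ok W tq) (σ : Stg P) :
    (W.E.st.take N.q ++ σ :: W.E.st.drop N.q)[N.q]? = some σ ∧ (∀ a, N.q ≤ a → (W.E.st.take N.q ++ σ :: W.E.st.drop N.q)[a + 1]? = W.E.st[a]?) ∧
      (W.E.st.take N.q ++ σ :: W.E.st.drop N.q).length = W.E.st.length + 1 :=
  cy_n_list W.E.st N.q ((hN.q_le 1 h.gate.1).trans h.k_one.2.1.le) σ

/-- **L-256-CYL-N-S4**.   The final assignment.   PLAN: `e := (cyNgOld W N h1).symm.trans e0` with `e0` from `h.final`; for a label `⟨Sum.inr l, _⟩` everything is `rfl` after `obtain ⟨s, hs⟩ := l; rcases s`. -/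
theorem cy_n_final {W : SfMD P} {N : CyNg P} {tq : P.Tst → CyT} (h : W.Str tq) (hN : N.Ok W tq) :
    ∃ e : (W.ng N).Lb 1 ≃ Fin (W.ng N).E.L, ∀ l, (W.ng N).E.iv (e l) = (W.ng N).iv 1 l ∧ (W.ng N).E.ts (e l) = (W.ng N).ts 1 l ∧ (W.ng N).E.th (e l) = (W.ng N).th 1 l := by
  have h1 : (1 : ℝ) ≠ N.i := cy_n_ne hN h.gate.1
  obtain ⟨e0, he0⟩ := h.final
  refine ⟨(cyNgOld W N h1).symm.trans e0, fun l => ?_⟩
  obtain ⟨s, hs⟩ := l
  rcases s with l | l
  · exact absurd (hs.2 rfl) h1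
  · exact he0 l

/-- the sum of the weights of the labels of a gate over an interval -/
theorem cy_n_wsum_new (W : SfMD P) (N : CyNg P) (m : ℕ) (x : P.X) :
    ∑ l, (if (W.ng N).iv N.i l = m then (W.ng N).th N.i l x else 0) = ∑ l, if N.iv l = m then (N.R l).indicator (fun _ => (1 : ℝ)) x else 0 :=
  cy_n_sum_new W N (fun s => if Sum.elim N.iv (W.iv N.i) s = m then Sum.elim (fun l => (N.R l).indicator fun _ => (1 : ℝ)) (W.th N.i) s x else 0)

theorem cy_n_wsum_old (W : SfMD P) (N : CyNg P) {y : ℝ} (hy : y ≠ N.i) (m : ℕ) (x : P.X) :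
    ∑ l, (if (W.ng N).iv y l = m then (W.ng N).th y l x else 0) = ∑ l, if W.iv y l = m then W.th y l x else 0 :=
  cy_n_sum_old W N hy (fun s => if Sum.elim N.iv (W.iv y) s = m then Sum.elim (fun l => (N.R l).indicator fun _ => (1 : ℝ)) (W.th y) s x else 0)

/-- a statement about all labels of all gates of `W.ng N` -/
theorem cy_n_all {W : SfMD P} {N : CyNg P} {tq : P.Tst → CyT} (hN : N.Ok W tq) (Φ : ∀ y, (W.ng N).Lb y → Prop)
    (hnew : ∀ l, Φ N.i (cyNgNew W N l)) (hold : ∀ y (hy : y ∈ W.G) (l : W.Lb y), Φ y (cyNgOld W N (cy_n_ne hN hy) l)) :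
    ∀ y ∈ (W.ng N).G, ∀ l, Φ y l := by
  intro y hy l
  rcases Finset.mem_insert.1 hy with rfl | hy
  · have := hnew ((cyNgNew W N).symm l)
    rwa [Equiv.apply_symm_apply] at this
  · have := hold y hy ((cyNgOld W N (cy_n_ne hN hy)).symm l)
    rwa [Equiv.apply_symm_apply] at this

/-- **the structure of the experiment with the new gate** -/
theorem cy_n_str {W : SfMD P} {N : CyNg P} {tq : P.Tst → CyT} (h : W.Str tq) (hN : N.Ok W tq) : (W.ng N).Str tq := by
  have h1 : (1 : ℝ) ≠ N.i := cy_n_ne hN h.gate.1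
  obtain ⟨s1, s2, s3⟩ := cy_n_stack h hN ⟨N.k, 0, N.Mk⟩
  refine
    { valid := cy_fw_ins_valid W.E h.valid hN.cut ⟨N.k, 0, N.Mk⟩ rfl (cy_n_mask hN)
      gate := ⟨Finset.mem_insert_of_mem h.gate.1, ?_⟩
      k_one := ⟨(cy_n_k_old W N h1).trans h.k_one.1, ?_, (cy_n_gb_old W N h1).trans h.k_one.2.2⟩
      k_rg := ?_
      k_mono := ?_
      stage := ?_
      zero_one := ?_
      final := cy_n_final h hN
      meas := ?_
      ne := ?_
      lb_ne := ?_
      nn := ?_
      sum_le := ?_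
      supp := ?_
      iv_in := ?_
      ok := ?_
      width := ?_
      frame := ⟨h.frame.1.trans (cy_n_r_old W N h1).symm, h.frame.2.1.trans (cy_n_f_old W N h1).symm, ?_⟩ }
  · intro y hy
    rcases Finset.mem_insert.1 hy with rfl | hy
    · exact ⟨hN.i_nn, ((hN.i_lt 1 h.gate.1).le)⟩
    · exact h.gate.2 y hy
  · rw [cy_n_pos_old W N h1, h.k_one.2.1]
    exact s3.symm
  · intro y hy
    rcases Finset.mem_insert.1 hy with rfl | hy
    · rw [cy_n_k_new]
      exact ⟨hN.cut.2.2.2.1, hN.cut.2.2.2.2⟩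
    · rw [cy_n_k_old W N (cy_n_ne hN hy)]
      exact h.k_rg y hy
  · intro y hy y' hy' hlt
    rcases Finset.mem_insert.1 hy with rfl | hy
    · rcases Finset.mem_insert.1 hy' with rfl | hy'
      · exact absurd hlt (lt_irrefl _)
      · rw [cy_n_k_new, cy_n_pos_new, cy_n_k_old W N (cy_n_ne hN hy'), cy_n_pos_old W N (cy_n_ne hN hy')]
        exact ⟨cy_n_k_le h hN hy', Nat.lt_succ_of_le (hN.q_le y' hy')⟩
    · rcases Finset.mem_insert.1 hy' with rfl | hy'
      · exact absurd hlt (not_lt.2 (hN.i_lt y hy).le)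
      · rw [cy_n_k_old W N (cy_n_ne hN hy), cy_n_pos_old W N (cy_n_ne hN hy), cy_n_k_old W N (cy_n_ne hN hy'), cy_n_pos_old W N (cy_n_ne hN hy')]
        exact ⟨(h.k_mono y hy y' hy' hlt).1, Nat.succ_lt_succ (h.k_mono y hy y' hy' hlt).2⟩
  · intro y hy hy1
    rcases Finset.mem_insert.1 hy with rfl | hy
    · refine ⟨⟨N.k, 0, N.Mk⟩, ?_, (cy_n_k_new W N).symm, (cy_n_gb_new W N).symm, fun m x => ?_⟩
      · rw [cy_n_pos_new]
        exact s1
      · rw [cy_n_wsum_new]
        exact hN.msk m x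
    · obtain ⟨σ, a1, a2, a3, a4⟩ := h.stage y hy hy1
      refine ⟨σ, ?_, a2.trans (cy_n_k_old W N (cy_n_ne hN hy)).symm, a3.trans (cy_n_gb_old W N (cy_n_ne hN hy)).symm, fun m x => ?_⟩
      · rw [cy_n_pos_old W N (cy_n_ne hN hy)]
        exact (s2 _ (hN.q_le y hy)).trans a1
      · rw [cy_n_wsum_old W N (cy_n_ne hN hy)]
        exact a4 m x
  · intro y hy hy1 l
    refine cy_n_all hN (fun y l => y < 1 → ∀ x, (W.ng N).th y l x = 0 ∨ (W.ng N).th y l x = 1) ?_ ?_ y hy l hy1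
    · intro l _ x
      show (N.R l).indicator (fun _ => (1 : ℝ)) x = 0 ∨ (N.R l).indicator (fun _ => (1 : ℝ)) x = 1
      by_cases hx : x ∈ N.R l
      · exact Or.inr (Set.indicator_of_mem hx _)
      · exact Or.inl (Set.indicator_of_notMem hx _)
    · intro y hy l hy1 x
      exact h.zero_one y hy hy1 l x
  · refine cy_n_all hN (fun y l => Measurable ((W.ng N).th y l)) ?_ ?_
    · intro l
      exact measurable_const.indicator (hN.meas l)
    · intro y hy l
      exact h.meas y hy l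
  · refine cy_n_all hN (fun y l => ∃ x, (W.ng N).th y l x ≠ 0) ?_ ?_
    · intro l
      obtain ⟨x, hx⟩ := hN.ne l
      refine ⟨x, ?_⟩
      show (N.R l).indicator (fun _ => (1 : ℝ)) x ≠ 0
      rw [Set.indicator_of_mem hx]
      exact one_ne_zero
    · intro y hy l
      exact h.ne y hy l
  · intro y
    by_cases hy : y = N.i
    · subst hy
      obtain ⟨l⟩ := hN.lb_ne
      exact ⟨cyNgNew W N l⟩
    · obtain ⟨l⟩ := h.lb_ne y
      exact ⟨cyNgOld W N hy l⟩
  · refine cy_n_all hN (fun y l => ∀ x, 0 ≤ (W.ng N).th y l x) ?_ ?_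
    · intro l x
      exact Set.indicator_nonneg (fun _ _ => zero_le_one) x
    · intro y hy l
      exact h.nn y hy l
  · intro y hy m x
    rcases Finset.mem_insert.1 hy with rfl | hy
    · rw [cy_n_wsum_new]
      exact cy_n_sum_le1 hN m x
    · rw [cy_n_wsum_old W N (cy_n_ne hN hy)]
      exact h.sum_le y hy m x
  · refine cy_n_all hN (fun y l => ∀ x, (W.ng N).th y l x ≠ 0 → x ∈ P.cell ((W.ng N).ts y l) ((W.ng N).T y l) ((W.ng N).k y)) ?_ ?_
    · intro l x hx
      have hx' : x ∈ N.R l := by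
        by_contra hc
        exact hx (Set.indicator_of_notMem hc (fun _ => (1 : ℝ)))
      have := hN.supp l hx'
      unfold SfMD.T
      rw [cy_n_k_new]
      exact this
    · intro y hy l x hx
      have := h.supp y hy l x hx
      unfold SfMD.T at this ⊢
      rw [cy_n_k_old W N (cy_n_ne hN hy)]
      exact this
  · refine cy_n_all hN (fun y l => (W.ng N).iv y l ∈ (W.ng N).ivs y) ?_ ?_
    · intro l
      unfold SfMD.ivs
      rw [cy_n_k_new]
      exact hN.iv_in l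
    · intro y hy l
      have := h.iv_in y hy l
      unfold SfMD.ivs at this ⊢
      rw [cy_n_k_old W N (cy_n_ne hN hy)]
      exact this
  · refine cy_n_all hN (fun y l => P.ok ((W.ng N).ts y l) ((W.ng N).k y)) ?_ ?_
    · intro l
      rw [cy_n_k_new]
      exact hN.ok l
    · intro y hy l
      rw [cy_n_k_old W N (cy_n_ne hN hy)]
      exact h.ok y hy l
  · refine cy_n_all hN (fun y l => (tq ((W.ng N).ts y l)).r = (W.ng N).r y ∧ (tq ((W.ng N).ts y l)).f = (W.ng N).f y) ?_ ?_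
    · intro l
      rw [cy_n_r_new, cy_n_f_new]
      exact hN.width l
    · intro y hy l
      rw [cy_n_r_old W N (cy_n_ne hN hy), cy_n_f_old W N (cy_n_ne hN hy)]
      exact h.width y hy l
  · intro y hy
    rcases Finset.mem_insert.1 hy with rfl | hy
    · rw [cy_n_r_new, cy_n_f_new]
      exact hN.pos
    · rw [cy_n_r_old W N (cy_n_ne hN hy), cy_n_f_old W N (cy_n_ne hN hy)]
      exact h.frame.2.2 y hy

/-! ## `Pre` of the experiment with the new gate -/

/-- **L-256-CYL-N-P1**.   Consecutive gates of the new mesh.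
PLAN: unfold `sfNext`, `(W.ng N).G = insert N.i W.G` (`Finset.mem_insert`).   `x = N.i`: `y ∈ W.G` (`x < y`); if `y ≠ j` then `j < y` (`hj'`), `N.i < j`: `j` lies strictly between, contradiction.
`x ∈ W.G`: `y ≠ N.i` (`N.i < x < y`), so `y ∈ W.G`; the condition on the intermediate points restricts to `W.G`. -/
theorem cy_n_next {W : SfMD P} {N : CyNg P} {tq : P.Tst → CyT} (hN : N.Ok W tq) {j : ℝ} (hj : j ∈ W.G) (hj' : ∀ x ∈ W.G, j ≤ x) {x y : ℝ}
    (h : sfNext (W.ng N).G x y) : (x = N.i ∧ y = j) ∨ sfNext W.G x y := by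
  obtain ⟨hx, hy, hxy, hb⟩ := h
  have hG : (W.ng N).G = insert N.i W.G := rfl
  rw [hG] at hx hy hb
  rcases Finset.mem_insert.1 hx with rfl | hx
  · left
    refine ⟨rfl, ?_⟩
    rcases Finset.mem_insert.1 hy with rfl | hy
    · exact absurd hxy (lt_irrefl _)
    · by_contra hne
      exact hb j (Finset.mem_insert_of_mem hj) ⟨hN.i_lt j hj, lt_of_le_of_ne (hj' y hy) (Ne.symm hne)⟩
  · right
    rcases Finset.mem_insert.1 hy with rfl | hy
    · exact absurd hxy (not_lt.2 (hN.i_lt x hx).le)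
    · exact ⟨hx, hy, hxy, fun k hk => hb k (Finset.mem_insert_of_mem hk)⟩

theorem cy_n_T_new (W : SfMD P) (N : CyNg P) (l : N.Lb) : (W.ng N).T N.i (cyNgNew W N l) = tmL N.k (N.iv l) := by
  unfold SfMD.T
  rw [cy_n_k_new]
  rfl

theorem cy_n_T_old (W : SfMD P) (N : CyNg P) {x : ℝ} (hx : x ≠ N.i) (l : W.Lb x) : (W.ng N).T x (cyNgOld W N hx l) = W.T x l := by
  unfold SfMD.T
  rw [cy_n_k_old W N hx]
  rfl

/-- the part of `Pre` that concerns the new gate (`j` = the first old gate) -/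
structure CyNg.PreN {Y : SfCy} {p : Y.M.Par} (N : CyNg (Y.M.sys p)) (W : SfMD (Y.M.sys p)) (j pe de Ls ε a : ℝ) : Prop where
  depth : |((N.k : ℝ) - W.E.k0) - N.i * W.E.n| ≤ a * W.E.n
  cnt : ∑ l, (Y.M.sys p).wt (N.ts l) ≤ W.E.s ^ (-a) * (W.E.e / W.E.ka) * W.E.s ^ (-((pe + de) * N.i))
  wr : W.E.s ^ (Ls * (j - N.i) + a) ≤ N.u / W.r j ∧ N.u / W.r j ≤ 1 ∧ W.E.s ^ (Ls * (j - N.i) + a) ≤ N.v / W.f j ∧ N.v / W.f j ≤ W.E.s ^ (-(Ls * (j - N.i) + a))
  mm : ∀ (l : N.Lb) (l' : W.Lb j) (x x' : (Y.M.sys p).X), x ∈ N.R l → W.th j l' x' ≠ 0 →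
    sfCn Y p (W.E.s ^ (-ε)) (tmL N.k (N.iv l)) N.k (W.T j l') (W.k j) x x' →
    |(sfTestAt (tmL N.k (N.iv l)) (Y.tq p (N.ts l))).be - (sfTestAt (W.T j l') (Y.tq p (W.ts j l'))).beAt (tmL N.k (N.iv l))|
        + (2 : ℝ)⁻¹ ^ N.k * |(Y.tq p (N.ts l)).K - (Y.tq p (W.ts j l')).K| ≤ W.f j / W.r j ^ 2 * W.E.s ^ (-(Ls * (j - N.i) + a)) ∧
    |(sfTestAt (tmL N.k (N.iv l)) (Y.tq p (N.ts l))).Pd (sfRayAt (tmL N.k (N.iv l)) (Y.co p (tmL N.k (N.iv l)) x))
        - (sfTestAt (W.T j l') (Y.tq p (W.ts j l'))).Pd (sfRayAt (tmL N.k (N.iv l)) (Y.co p (tmL N.k (N.iv l)) x))| ≤ W.f j / W.r j * W.E.s ^ (-(Ls * (j - N.i) + a))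

/-- **`Pre` of the experiment with the new gate** -/
theorem cy_n_pre {Y : SfCy} {p : Y.M.Par} {W : SfMD (Y.M.sys p)} {N : CyNg (Y.M.sys p)} {j pe de Ls ε a : ℝ} (h : W.Pre Y p pe de Ls ε a) (hN : N.Ok W (Y.tq p))
    (hj : j ∈ W.G) (hj' : ∀ x ∈ W.G, j ≤ x) (hP : N.PreN W j pe de Ls ε a) : (W.ng N).Pre Y p pe de Ls ε a := by
  have hji : j ≠ N.i := cy_n_ne hN hj
  refine ⟨cy_n_str h.str hN, ?_, ?_, ?_, ?_⟩
  · intro y hy
    rcases Finset.mem_insert.1 hy with rfl | hy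
    · rw [cy_n_k_new]
      exact hP.depth
    · rw [cy_n_k_old W N (cy_n_ne hN hy)]
      exact h.depth y hy
  · intro y hy
    rcases Finset.mem_insert.1 hy with rfl | hy
    · exact (cy_n_sum_new W N (fun s => (Y.M.sys p).wt (Sum.elim N.ts (W.ts N.i) s))).le.trans hP.cnt
    · exact (cy_n_sum_old W N (cy_n_ne hN hy) (fun s => (Y.M.sys p).wt (Sum.elim N.ts (W.ts y) s))).le.trans (h.cnt y hy)
  · intro x y hxy
    rcases cy_n_next hN hj hj' hxy with ⟨rfl, rfl⟩ | hxy
    · rw [cy_n_r_new, cy_n_f_new, cy_n_r_old W N hji, cy_n_f_old W N hji]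
      exact hP.wr
    · rw [cy_n_r_old W N (cy_n_ne hN hxy.1), cy_n_f_old W N (cy_n_ne hN hxy.1), cy_n_r_old W N (cy_n_ne hN hxy.2.1), cy_n_f_old W N (cy_n_ne hN hxy.2.1)]
      exact h.wr x y hxy
  · intro x y hxy
    rcases cy_n_next hN hj hj' hxy with ⟨rfl, rfl⟩ | hxy
    · intro l l' x x' h1 h2 h3
      obtain ⟨l, rfl⟩ := (cyNgNew W N).surjective l
      obtain ⟨l', rfl⟩ := (cyNgOld W N hji).surjective l'
      rw [cy_n_T_new, cy_n_T_old, cy_n_k_new, cy_n_k_old W N hji] at h3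
      rw [cy_n_T_new, cy_n_T_old, cy_n_k_new, cy_n_r_old W N hji, cy_n_f_old W N hji]
      have hx : x ∈ N.R l := by
        by_contra hc
        exact h1 (Set.indicator_of_notMem hc (fun _ => (1 : ℝ)))
      exact hP.mm l l' x x' hx h2 h3
    · intro l l' x' x'' h1 h2 h3
      obtain ⟨l, rfl⟩ := (cyNgOld W N (cy_n_ne hN hxy.1)).surjective l
      obtain ⟨l', rfl⟩ := (cyNgOld W N (cy_n_ne hN hxy.2.1)).surjective l'
      rw [cy_n_T_old, cy_n_T_old, cy_n_k_old W N (cy_n_ne hN hxy.1), cy_n_k_old W N (cy_n_ne hN hxy.2.1)] at h3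
      rw [cy_n_T_old, cy_n_T_old, cy_n_k_old W N (cy_n_ne hN hxy.1), cy_n_r_old W N (cy_n_ne hN hxy.2.1), cy_n_f_old W N (cy_n_ne hN hxy.2.1)]
      exact h.mm x y hxy l l' x' x'' h1 h2 h3

end Claimed.Agent.R256
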