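-- KEEP
import Claimed.Agent.R256.Cyl.StepC
import Claimed.Agent.R256.Cyl.StepN1

/-!
# Row 256 (LS paper), CYL, unit STEP, file 7 : MOVE C, part 2 = THE NEW GATE; THE EXIT `cy_t_main`          (chief helper255; prefix `cy_t`)

* `W.addG i q k NL ivN tsN thN u v`   the documented experiment with a NEW GATE `i` BEFORE ALL GATES: stage number `q` (depth `k`, generation `0`, mask = sum of the weights `thN`), labels `NL`.
  Labels of the gate `x`:  `{u : NL ⊕ W.Lb x // x = i ↔ u.isLeft}`  (no casts: `Sum.elim`).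
 TD1 `cy_t_addG_eqv`   L   the two equivalences of label types, sums                                   0.15k
 TD2 `cy_t_addG_str`   L   `Str` of `addG`                                                              0.6k
 TD3 `cy_t_addG_pre`   L   `Pre` of `addG` from `Pre` of `W` and the four new facts (depth, cnt, wr, mm)   0.45k
 TD4 `cy_t_flat`       L   the successes of the selected class as ONE finite family of labels             0.35k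
 TD5 `cy_t_cnt`        L   weight count of the new gate                                                  0.3k
 TD6 `cy_t_wr`         L   width ratios (numbers)                                                        0.25k
 TD7 `cy_t_mm`         L   (M) between the new gate and the gate `j`                                      0.45k
 TD9 `cy_t_hv`         L   the new labels are heavy at the floor `s^10 κ`                                 0.25k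
 TD8 `cy_t_asm`        L   assembly                                                                      0.6k
 `cy_t_C`, `cy_t_main`: glue, PROVED HERE.
-/

set_option autoImplicit false

namespace Claimed.Agent.R256

open MeasureTheory

/-- the labels after a new gate at `i` -/
def SfMD.LbA {P : PkSys} (W : SfMD P) (i : ℝ) (NL : Type) (x : ℝ) : Type := {u : NL ⊕ W.Lb x // (x = i ↔ u.isLeft = true)}

noncomputable instance cyLbAFintype {P : PkSys} (W : SfMD P) (i : ℝ) (NL : Type) [Fintype NL] (x : ℝ) : Fintype (W.LbA i NL x) := by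
  classical
  unfold SfMD.LbA
  infer_instance

/-- a new gate before all gates -/
noncomputable def SfMD.addG {P : PkSys} (W : SfMD P) (i : ℝ) (q k : ℕ) (NL : Type) [Fintype NL] (ivN : NL → ℕ) (tsN : NL → P.Tst) (thN : NL → P.X → ℝ) (u v : ℝ) : SfMD P where
  E := W.E.withSt (W.E.st.take q ++ ⟨k, 0, fun m x => ∑ l, if ivN l = m then thN l x else 0⟩ :: W.E.st.drop q)
  Q0 := W.Q0
  G := insert i W.G
  k := fun x => if x = i then k else W.k x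
  pos := fun x => if x = i then q else W.pos x + 1
  gb := fun x => if x = i then 0 else W.gb x
  Lb := W.LbA i NL
  fLb := fun x => cyLbAFintype W i NL x
  iv := fun x l => Sum.elim ivN (W.iv x) l.1
  ts := fun x l => Sum.elim tsN (W.ts x) l.1
  th := fun x l => Sum.elim thN (W.th x) l.1
  r := fun x => if x = i then u else W.r x
  f := fun x => if x = i then v else W.f x

theorem cy_td_eqns_cite : True := by
  have := @SfMD.LbA.eq_1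
  have := @SfMD.addG.eq_1
  trivial

variable {P : PkSys}

/-- **TD1**: the labels of the new gate are `NL`, those of the other gates are the old ones -/
theorem cy_t_addG_eqv (W : SfMD P) (i : ℝ) (NL : Type) [Fintype NL] :
    (∃ e : NL ≃ W.LbA i NL i, ∀ l, (e l).1 = Sum.inl l) ∧ ∀ x, x ≠ i → ∃ e : W.Lb x ≃ W.LbA i NL x, ∀ l, (e l).1 = Sum.inr l := by
  refine ⟨⟨⟨fun l => ⟨Sum.inl l, by simp⟩, fun s => match s with
      | ⟨Sum.inl l, _⟩ => l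
      | ⟨Sum.inr _, h⟩ => absurd (h.1 rfl) (by simp), fun _ => rfl, ?_⟩, fun _ => rfl⟩, fun x hx =>
    ⟨⟨fun l => ⟨Sum.inr l, by simp [hx]⟩, fun s => match s with
      | ⟨Sum.inl _, h⟩ => absurd (h.2 rfl) hx
      | ⟨Sum.inr l, _⟩ => l, fun _ => rfl, ?_⟩, fun _ => rfl⟩⟩
  · rintro ⟨s, hs⟩
    rcases s with l | l
    · rfl
    · exact absurd (hs.1 rfl) (by simp)
  · rintro ⟨s, hs⟩
    rcases s with l | l
    · exact absurd (hs.2 rfl) hx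
    · rfl

/-- `addG` with `0/1` weights is `ng` -/
theorem cy_t_addG_ng (W : SfMD P) (i : ℝ) (q k : ℕ) (NL : Type) [Fintype NL] (ivN : NL → ℕ) (tsN : NL → P.Tst) (R : NL → Set P.X) (u v : ℝ) :
    W.addG i q k NL ivN tsN (fun l => (R l).indicator fun _ => 1) u v
      = W.ng ⟨i, k, q, fun m x => ∑ l, if ivN l = m then (R l).indicator (fun _ => (1 : ℝ)) x else 0, NL, inferInstance, ivN, tsN, R, u, v⟩ := by
  unfold SfMD.addG SfMD.ng
  congr 1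

theorem cy_t_addG_ind (NL : Type) (thN : NL → P.X → ℝ) (h01 : ∀ l x, thN l x = 0 ∨ thN l x = 1) :
    thN = fun l => ({x | thN l x ≠ 0} : Set P.X).indicator fun _ => 1 := by
  funext l x
  by_cases hx : thN l x = 0
  · rw [Set.indicator_of_notMem (by simpa using hx)]
    exact hx
  · rw [Set.indicator_of_mem (show x ∈ {x | thN l x ≠ 0} from hx)]
    exact (h01 l x).resolve_left hx

/-- **TD2**.   PLAN: field by field; gates `x ∈ W.G` (`x ≠ i` by `hi`): all `if`s reduce, sums over `LbA` by `cy_t_addG_eqv` (`Equiv.sum_comp`); stack as in `cy_t_inq_str`; gate `i`: `stage` at the index `q` (`List.getElem?_append_right`, `length (take q) = q`), the hypotheses on the new labels.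
`k_mono`: `i < x`: `k ≤ W.k x`, `q < pos x + 1`.   `final`: compose `h.final` with the equivalence at `x = 1 ≠ i`.   `valid`: `cy_fw_ins_valid` (the mask of the new stage: `hmeas`, `h01`, `hsum`).   `ne`: `hne` / `h.ne`.   `lb_ne`: `hNL` at `x = i`, `h.lb_ne x` otherwise. -/
theorem cy_t_addG_str (W : SfMD P) {tq : P.Tst → CyT} (h : W.Str tq) (i : ℝ) (q k : ℕ) (NL : Type) [Fintype NL] (ivN : NL → ℕ) (tsN : NL → P.Tst) (thN : NL → P.X → ℝ) (u v : ℝ)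
    (hi0 : 0 ≤ i) (hi : ∀ x ∈ W.G, i < x) (hq : ∀ x ∈ W.G, q ≤ W.pos x) (hk : ∀ x ∈ W.G, k ≤ W.k x) (hc : W.E.CutAt k (W.E.st.take q) (W.E.st.drop q))
    (hmeas : ∀ l, Measurable (thN l)) (h01 : ∀ l x, thN l x = 0 ∨ thN l x = 1) (hsum : ∀ m x, ∑ l, (if ivN l = m then thN l x else 0) ≤ 1)
    (hsupp : ∀ l x, thN l x ≠ 0 → x ∈ P.cell (tsN l) (tmL k (ivN l)) k) (hiv : ∀ l, ivN l ∈ ivs W.E.k0 W.E.i0 k) (hok : ∀ l, P.ok (tsN l) k)
    (hw : ∀ l, (tq (tsN l)).r = u ∧ (tq (tsN l)).f = v) (hu : 0 < u) (hv : 0 < v) (hne : ∀ l, ∃ x, thN l x ≠ 0) (hNL : Nonempty NL) : (W.addG i q k NL ivN tsN thN u v).Str tq := by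
  classical
  have hR := cy_t_addG_ind NL thN h01
  obtain ⟨R, hRdef⟩ : ∃ R : NL → Set P.X, R = fun l => {x | thN l x ≠ 0} := ⟨_, rfl⟩
  have hR' : thN = fun l => (R l).indicator fun _ => 1 := by rw [hRdef]; exact hR
  have hmem : ∀ l x, x ∈ R l ↔ thN l x ≠ 0 := by
    intro l x
    rw [hRdef]
    exact Iff.rfl
  have hRm : ∀ l, MeasurableSet (R l) := by
    intro l
    have : R l = (thN l) ⁻¹' {0}ᶜ := by
      ext x
      rw [hmem]
      simp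
    rw [this]
    exact hmeas l (measurableSet_singleton 0).compl
  have hdis : ∀ l l', l ≠ l' → ivN l = ivN l' → Disjoint (R l) (R l') := by
    intro l l' hll hiv'
    rw [Set.disjoint_left]
    intro x hx hx'
    have e1 : thN l x = 1 := (h01 l x).resolve_left ((hmem l x).1 hx)
    have e2 : thN l' x = 1 := (h01 l' x).resolve_left ((hmem l' x).1 hx')
    have hs := hsum (ivN l) x
    have hnn : ∀ a ∈ Finset.univ, 0 ≤ (if ivN a = ivN l then thN a x else 0) := by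
      intro a _
      split_ifs
      · rcases h01 a x with h | h <;> rw [h] <;> norm_num
      · exact le_rfl
    have h2 : (if ivN l = ivN l then thN l x else 0) + (if ivN l' = ivN l then thN l' x else 0) ≤ ∑ a, (if ivN a = ivN l then thN a x else 0) := by
      have := Finset.sum_le_sum_of_subset_of_nonneg (Finset.subset_univ ({l, l'} : Finset NL)) (fun a ha _ => hnn a ha)
      rwa [Finset.sum_pair hll] at this
    rw [if_pos rfl, if_pos hiv'.symm, e1, e2] at h2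
    linarith
  subst hR'
  rw [cy_t_addG_ng]
  exact cy_n_str h
    { i_nn := hi0
      i_lt := hi
      cut := hc
      q_le := hq
      msk := fun _ _ => rfl
      meas := hRm
      ne := fun l => by
        obtain ⟨x, hx⟩ := hne l
        exact ⟨x, (hmem l x).2 hx⟩
      lb_ne := hNL
      disj := hdis
      supp := fun l x hx => hsupp l x ((hmem l x).1 hx)
      iv_in := hiv
      ok := hok
      width := hw
      pos := ⟨hu, hv⟩ }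

/-- a label of the new gate is a new label -/
theorem cy_td3_inl {P : PkSys} (W : SfMD P) (i : ℝ) (NL : Type) (l : W.LbA i NL i) : ∃ l0 : NL, l.1 = Sum.inl l0 := by
  obtain ⟨u, hu⟩ := l
  cases u with
  | inl a => exact ⟨a, rfl⟩
  | inr b =>
    have := hu.1 rfl
    simp at this

/-- a label of another gate is an old label -/
theorem cy_td3_inr {P : PkSys} (W : SfMD P) (i : ℝ) (NL : Type) {x : ℝ} (hx : x ≠ i) (l : W.LbA i NL x) : ∃ l0 : W.Lb x, l.1 = Sum.inr l0 := by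
  obtain ⟨u, hu⟩ := l
  cases u with
  | inl a => exact absurd (hu.2 rfl) hx
  | inr b => exact ⟨b, rfl⟩

/-- consecutive gates after the insertion of a gate below all gates -/
theorem cy_td3_next {G : Finset ℝ} {i j : ℝ} (hi : ∀ x ∈ G, i < x) (hj : j ∈ G) (hfirst : ∀ x ∈ G, j ≤ x) {x y : ℝ} (h : sfNext (insert i G) x y) :
    (x = i ∧ y = j) ∨ (x ≠ i ∧ y ≠ i ∧ sfNext G x y) := by
  obtain ⟨hx, hy, hxy, hno⟩ := h
  rcases Finset.mem_insert.1 hx with rfl | hx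
  · left
    refine ⟨rfl, ?_⟩
    rcases Finset.mem_insert.1 hy with rfl | hy
    · exact absurd hxy (lt_irrefl _)
    · rcases (hfirst y hy).lt_or_eq with h1 | h1
      · exact absurd ⟨hi j hj, h1⟩ (hno j (Finset.mem_insert_of_mem hj))
      · exact h1.symm
  · right
    have hxi := hi x hx
    rcases Finset.mem_insert.1 hy with rfl | hy
    · exact absurd (hxy.trans hxi) (lt_irrefl _)
    · exact ⟨hxi.ne', (hi y hy).ne', hx, hy, hxy, fun k hk => hno k (Finset.mem_insert_of_mem hk)⟩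

/-- **TD3**.   PLAN: `str` given; `sfNext (insert i G) x y` ⟹ (`x = i`, `y = j`) or `sfNext G x y` (`i` is below all gates, `j` is the first gate); old gates/pairs: the fields of `hP` at `a ≤ a'` (`cy_fw_pre_mono`), transported by `cy_t_addG_eqv`
(every label of a gate `x ≠ i` is `⟨inr l, _⟩`, of the gate `i` is `⟨inl l, _⟩`: `Subtype`/`Sum` cases, the impossible cases by the `iff`); `E.s, e, ka, k0, n` are those of `W.E` (`rfl`). -/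
theorem cy_t_addG_pre {Y : SfCy} {p : Y.M.Par} (W : SfMD (Y.M.sys p)) {pe de Ls ε a a' : ℝ} (hP : W.Pre Y p pe de Ls ε a) (haa : a ≤ a') (i j : ℝ) (q k : ℕ) (NL : Type) [Fintype NL]
    (ivN : NL → ℕ) (tsN : NL → (Y.M.sys p).Tst) (thN : NL → (Y.M.sys p).X → ℝ) (u v : ℝ) (hstr : (W.addG i q k NL ivN tsN thN u v).Str (Y.tq p))
    (hi : ∀ x ∈ W.G, i < x) (hj : j ∈ W.G) (hfirst : ∀ x ∈ W.G, j ≤ x)
    (hdep : |((k : ℝ) - W.E.k0) - i * W.E.n| ≤ a' * W.E.n)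
    (hcnt : ∑ l, (Y.M.sys p).wt (tsN l) ≤ W.E.s ^ (-a') * (W.E.e / W.E.ka) * W.E.s ^ (-((pe + de) * i)))
    (hwr : W.E.s ^ (Ls * (j - i) + a') ≤ u / W.r j ∧ u / W.r j ≤ 1 ∧ W.E.s ^ (Ls * (j - i) + a') ≤ v / W.f j ∧ v / W.f j ≤ W.E.s ^ (-(Ls * (j - i) + a')))
    (hmm : ∀ (l : NL) (l' : W.Lb j) (x x' : (Y.M.sys p).X), thN l x ≠ 0 → W.th j l' x' ≠ 0 →
      sfCn Y p (W.E.s ^ (-ε)) (tmL k (ivN l)) k (W.T j l') (W.k j) x x' →
      |(sfTestAt (tmL k (ivN l)) (Y.tq p (tsN l))).be - (sfTestAt (W.T j l') (Y.tq p (W.ts j l'))).beAt (tmL k (ivN l))|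
          + (2 : ℝ)⁻¹ ^ k * |(Y.tq p (tsN l)).K - (Y.tq p (W.ts j l')).K| ≤ W.f j / W.r j ^ 2 * W.E.s ^ (-(Ls * (j - i) + a')) ∧
      |(sfTestAt (tmL k (ivN l)) (Y.tq p (tsN l))).Pd (sfRayAt (tmL k (ivN l)) (Y.co p (tmL k (ivN l)) x))
          - (sfTestAt (W.T j l') (Y.tq p (W.ts j l'))).Pd (sfRayAt (tmL k (ivN l)) (Y.co p (tmL k (ivN l)) x))| ≤ W.f j / W.r j * W.E.s ^ (-(Ls * (j - i) + a'))) :
    (W.addG i q k NL ivN tsN thN u v).Pre Y p pe de Ls ε a' := by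
  have hP' := cy_fw_pre_mono hP haa
  obtain ⟨⟨eN, heN⟩, hold⟩ := cy_t_addG_eqv W i NL
  -- the fields of the new documented experiment
  have kI : (W.addG i q k NL ivN tsN thN u v).k i = k := if_pos rfl
  have rI : (W.addG i q k NL ivN tsN thN u v).r i = u := if_pos rfl
  have fI : (W.addG i q k NL ivN tsN thN u v).f i = v := if_pos rfl
  have kO : ∀ x, x ≠ i → (W.addG i q k NL ivN tsN thN u v).k x = W.k x := fun x hx => if_neg hx
  have rO : ∀ x, x ≠ i → (W.addG i q k NL ivN tsN thN u v).r x = W.r x := fun x hx => if_neg hx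
  have fO : ∀ x, x ≠ i → (W.addG i q k NL ivN tsN thN u v).f x = W.f x := fun x hx => if_neg hx
  have hji : j ≠ i := (hi j hj).ne'
  refine ⟨hstr, ?_, ?_, ?_, ?_⟩
  · intro x hx
    rcases Finset.mem_insert.1 hx with rfl | hx
    · rw [kI]
      exact hdep
    · rw [kO x (hi x hx).ne']
      exact hP'.depth x hx
  · intro x hx
    rcases Finset.mem_insert.1 hx with rfl | hx
    · refine le_trans (le_of_eq ?_) hcnt
      have h0 := @Equiv.sum_comp NL (W.LbA x NL x) ℝ _ (cyLbAFintype W x NL x) _ eN (fun l => (Y.M.sys p).wt (Sum.elim tsN (W.ts x) l.1))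
      refine Eq.trans h0.symm ?_
      refine Finset.sum_congr rfl fun l _ => ?_
      show (Y.M.sys p).wt (Sum.elim tsN (W.ts x) (eN l).1) = _
      rw [heN l]
      rfl
    · obtain ⟨e, he⟩ := hold x (hi x hx).ne'
      refine le_trans (le_of_eq ?_) (hP'.cnt x hx)
      have h0 := @Equiv.sum_comp (W.Lb x) (W.LbA i NL x) ℝ _ (cyLbAFintype W i NL x) _ e (fun l => (Y.M.sys p).wt (Sum.elim tsN (W.ts x) l.1))
      refine Eq.trans h0.symm ?_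
      refine Finset.sum_congr rfl fun l _ => ?_
      show (Y.M.sys p).wt (Sum.elim tsN (W.ts x) (e l).1) = _
      rw [he l]
      rfl
  · intro x y hxy
    rcases cy_td3_next hi hj hfirst hxy with ⟨rfl, rfl⟩ | ⟨hx, hy, hn⟩
    · rw [rI, fI, rO y hji, fO y hji]
      exact hwr
    · rw [rO x hx, fO x hx, rO y hy, fO y hy]
      exact hP'.wr x y hn
  · intro x y hxy l l' z z' h1 h2 h3
    rcases cy_td3_next hi hj hfirst hxy with ⟨rfl, rfl⟩ | ⟨hx, hy, hn⟩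
    · obtain ⟨l0, hl0⟩ := cy_td3_inl W x NL l
      obtain ⟨l1, hl1⟩ := cy_td3_inr W x NL hji l'
      have e1 : (W.addG x q k NL ivN tsN thN u v).T x l = tmL k (ivN l0) := by
        show tmL ((W.addG x q k NL ivN tsN thN u v).k x) (Sum.elim ivN (W.iv x) l.1) = _
        rw [kI, hl0]
        rfl
      have e2 : (W.addG x q k NL ivN tsN thN u v).ts x l = tsN l0 := by
        show Sum.elim tsN (W.ts x) l.1 = _
        rw [hl0]
        rfl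
      have e3 : (W.addG x q k NL ivN tsN thN u v).th x l = thN l0 := by
        show Sum.elim thN (W.th x) l.1 = _
        rw [hl0]
        rfl
      have e4 : (W.addG x q k NL ivN tsN thN u v).T y l' = W.T y l1 := by
        show tmL ((W.addG x q k NL ivN tsN thN u v).k y) (Sum.elim ivN (W.iv y) l'.1) = _
        rw [kO y hji, hl1]
        rfl
      have e5 : (W.addG x q k NL ivN tsN thN u v).ts y l' = W.ts y l1 := by
        show Sum.elim tsN (W.ts y) l'.1 = _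
        rw [hl1]
        rfl
      have e6 : (W.addG x q k NL ivN tsN thN u v).th y l' = W.th y l1 := by
        show Sum.elim thN (W.th y) l'.1 = _
        rw [hl1]
        rfl
      rw [e3] at h1
      rw [e6] at h2
      rw [e1, e4, kI, kO y hji] at h3
      rw [e1, e2, e4, e5, kI, rO y hji, fO y hji]
      exact hmm l0 l1 z z' h1 h2 h3
    · obtain ⟨l0, hl0⟩ := cy_td3_inr W i NL hx l
      obtain ⟨l1, hl1⟩ := cy_td3_inr W i NL hy l'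
      have e1 : (W.addG i q k NL ivN tsN thN u v).T x l = W.T x l0 := by
        show tmL ((W.addG i q k NL ivN tsN thN u v).k x) (Sum.elim ivN (W.iv x) l.1) = _
        rw [kO x hx, hl0]
        rfl
      have e2 : (W.addG i q k NL ivN tsN thN u v).ts x l = W.ts x l0 := by
        show Sum.elim tsN (W.ts x) l.1 = _
        rw [hl0]
        rfl
      have e3 : (W.addG i q k NL ivN tsN thN u v).th x l = W.th x l0 := by
        show Sum.elim thN (W.th x) l.1 = _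
        rw [hl0]
        rfl
      have e4 : (W.addG i q k NL ivN tsN thN u v).T y l' = W.T y l1 := by
        show tmL ((W.addG i q k NL ivN tsN thN u v).k y) (Sum.elim ivN (W.iv y) l'.1) = _
        rw [kO y hy, hl1]
        rfl
      have e5 : (W.addG i q k NL ivN tsN thN u v).ts y l' = W.ts y l1 := by
        show Sum.elim tsN (W.ts y) l'.1 = _
        rw [hl1]
        rfl
      have e6 : (W.addG i q k NL ivN tsN thN u v).th y l' = W.th y l1 := by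
        show Sum.elim thN (W.th y) l'.1 = _
        rw [hl1]
        rfl
      rw [e3] at h1
      rw [e6] at h2
      rw [e1, e4, kO x hx, kO y hy] at h3
      rw [e1, e2, e4, e5, kO x hx, rO y hy, fO y hy]
      exact hP'.mm x y hn l0 l1 z z' h1 h2 h3

/-- the successes of the selected class as one family of labels -/
structure CyFlat {Y : SfCy} {p : Y.M.Par} {W : SfMD (Y.M.sys p)} {j : ℝ} {k q : ℕ} {ξ ε0 ξ' D0 Dst Ds D1 : ℝ} {C0 : ℕ} (Z : CySel Y p W j k q ξ ε0 ξ' D0 Dst Ds D1 C0)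
    (NL : Type) (ivN : NL → ℕ) (chN : NL → Z.c.ι) (tsN : NL → (Y.M.sys p).Tst) (RN : NL → Set (Y.M.sys p).X) : Prop where
  iv : ∀ l, ivN l ∈ (W.gp Y p j k q ξ ε0).iv
  fam : ∀ l, tsN l ∈ (W.gp Y p j k q ξ ε0).Fam (Z.c.fr (ivN l) (chN l)) (ivN l) ((W.gp Y p j k q ξ ε0).de ^ D1)
  wid : ∀ l, (Y.tq p (tsN l)).r = Z.u ∧ (Y.tq p (tsN l)).f = Z.v
  meas : ∀ l, MeasurableSet (RN l)
  sub : ∀ l, RN l ⊆ (Y.M.sys p).cell (tsN l) (tmL k (ivN l)) k ∧ RN l ⊆ Z.S (ivN l) (chN l)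
  disj : ∀ l l', l ≠ l' → ivN l = ivN l' → Disjoint (RN l) (RN l')
  cov : ∀ I, ⋃ l, ⋃ (_ : ivN l = I), RN l = ⋃ G, Z.S I G
  heavy : ∀ l, Z.β * (Y.M.sys p).wt (tsN l) < (Y.M.sys p).ms (tmL k (ivN l)) k 0 (RN l) ((W.gp Y p j k q ξ ε0).ps (ivN l))

/-- the flat family of the successes of a class, for an abstract gap -/
theorem cy_t_flat_aux {Y : SfCy} {p : Y.M.Par} {X : CyGp Y p} (hX : X.Ok) {c : CyCh X} {Mb ρs fs : ℝ} {C0 : ℕ} (hc : c.Ok Mb ρs C0 fs) (ρ1 β u v : ℝ)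
    (S : ℕ → c.ι → Set (Y.M.sys p).X) (hS : ∀ I G, MeasurableSet (S I G) ∧ S I G ⊆ c.rw I G)
    (halt : ∀ I ∈ X.iv, ∀ G, ∃ (t : ℕ) (Qt : Fin t → (Y.M.sys p).Tst) (R : Fin t → Set (Y.M.sys p).X),
      (∀ a, Qt a ∈ X.Fam (c.fr I G) I ρ1 ∧ (Y.tq p (Qt a)).r = u ∧ (Y.tq p (Qt a)).f = v ∧ MeasurableSet (R a) ∧ R a ⊆ (Y.M.sys p).cell (Qt a) (tmL X.k I) X.k) ∧
      (∀ a a', a ≠ a' → Disjoint (R a) (R a')) ∧ S I G = ⋃ a, R a ∧ ∀ a, β * (Y.M.sys p).wt (Qt a) < (Y.M.sys p).ms (tmL X.k I) X.k 0 (R a) (X.ps I)) :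
    ∃ (NL : Type) (_ : Fintype NL) (ivN : NL → ℕ) (chN : NL → c.ι) (tsN : NL → (Y.M.sys p).Tst) (RN : NL → Set (Y.M.sys p).X),
      (∀ l, ivN l ∈ X.iv) ∧ (∀ l, tsN l ∈ X.Fam (c.fr (ivN l) (chN l)) (ivN l) ρ1) ∧ (∀ l, (Y.tq p (tsN l)).r = u ∧ (Y.tq p (tsN l)).f = v) ∧
      (∀ l, MeasurableSet (RN l)) ∧ (∀ l, RN l ⊆ (Y.M.sys p).cell (tsN l) (tmL X.k (ivN l)) X.k ∧ RN l ⊆ S (ivN l) (chN l)) ∧
      (∀ l l', l ≠ l' → ivN l = ivN l' → Disjoint (RN l) (RN l')) ∧ (∀ I, ⋃ l, ⋃ (_ : ivN l = I), RN l = ⋃ G, S I G) ∧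
      ∀ l, β * (Y.M.sys p).wt (tsN l) < (Y.M.sys p).ms (tmL X.k (ivN l)) X.k 0 (RN l) (X.ps (ivN l)) := by
  classical
  have halt' : ∀ (I : {I // I ∈ X.iv}) (G : c.ι), ∃ (t : ℕ) (Qt : Fin t → (Y.M.sys p).Tst) (R : Fin t → Set (Y.M.sys p).X),
      (∀ a, Qt a ∈ X.Fam (c.fr I.1 G) I.1 ρ1 ∧ (Y.tq p (Qt a)).r = u ∧ (Y.tq p (Qt a)).f = v ∧ MeasurableSet (R a) ∧ R a ⊆ (Y.M.sys p).cell (Qt a) (tmL X.k I.1) X.k) ∧
      (∀ a a', a ≠ a' → Disjoint (R a) (R a')) ∧ S I.1 G = ⋃ a, R a ∧ ∀ a, β * (Y.M.sys p).wt (Qt a) < (Y.M.sys p).ms (tmL X.k I.1) X.k 0 (R a) (X.ps I.1) :=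
    fun I G => halt I.1 I.2 G
  choose t Qt R h1 h2 h3 h4 using halt'
  have hsub : ∀ (I : {I // I ∈ X.iv}) (G : c.ι) (a : Fin (t I G)), R I G a ⊆ S I.1 G := by
    intro I G a
    rw [h3 I G]
    exact Set.subset_iUnion (R I G) a
  refine ⟨(I : {I // I ∈ X.iv}) × (G : c.ι) × Fin (t I G), inferInstance, fun l => l.1.1, fun l => l.2.1, fun l => Qt l.1 l.2.1 l.2.2, fun l => R l.1 l.2.1 l.2.2,
    fun l => l.1.2, fun l => (h1 l.1 l.2.1 l.2.2).1, fun l => ⟨(h1 l.1 l.2.1 l.2.2).2.1, (h1 l.1 l.2.1 l.2.2).2.2.1⟩, fun l => (h1 l.1 l.2.1 l.2.2).2.2.2.1,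
    fun l => ⟨(h1 l.1 l.2.1 l.2.2).2.2.2.2, hsub _ _ _⟩, ?_, ?_, fun l => h4 l.1 l.2.1 l.2.2⟩
  · rintro ⟨I, G, a⟩ ⟨I', G', a'⟩ hne hI
    have hI' : I = I' := Subtype.ext hI
    subst hI'
    by_cases hG : G = G'
    · subst hG
      exact h2 I G a a' (fun h => hne (by rw [h]))
    · exact Set.disjoint_of_subset ((hsub I G a).trans (hS I.1 G).2) ((hsub I G' a').trans (hS I.1 G').2) (hc.disj I.1 G G' hG)
  · intro I
    ext x
    simp only [Set.mem_iUnion]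
    constructor
    · rintro ⟨⟨I', G, a⟩, hI, hx⟩
      have hI2 : I'.1 = I := hI
      exact ⟨G, hI2 ▸ hsub I' G a hx⟩
    · rintro ⟨G, hx⟩
      by_cases hI : I ∈ X.iv
      · have hx' : x ∈ S (⟨I, hI⟩ : {I // I ∈ X.iv}).1 G := hx
        rw [h3 ⟨I, hI⟩ G] at hx'
        obtain ⟨a, ha⟩ := Set.mem_iUnion.1 hx'
        exact ⟨⟨⟨I, hI⟩, G, a⟩, rfl, ha⟩
      · have := (hS I G).2 hx
        rw [cy_s_classes_out hX hc hI G] at this
        exact absurd this (Set.notMem_empty x)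

/-- **TD4**.   PLAN: `Z.cls.alt` is the second alternative (`Z.lvl`); choose `(t, Qt, R)` for `I ∈ iv`, `G`; `NL = Σ (I : {I // I ∈ iv}) (G : ι), Fin (t I G)`.   `disj`: same `(I, G)`: successes are disjoint; different `G`: `R ⊆ S I G ⊆ rw I G`, `Z.ok.disj`.
`cov`: `I ∈ iv`: `S I G = ⋃ R`; `I ∉ iv`: both sides are empty (`S I G ⊆ rw I G`, `Z.ok.cov`, `Un I = univ` since no label lies below `I`: `gn_iv_anc`). -/
theorem cy_t_flat {Y : SfCy} (H : CyHyp Y) {p : Y.M.Par} {W : SfMD (Y.M.sys p)} {j : ℝ} {k q : ℕ} {ξ ε0 ξ' D0 Dst Ds D1 : ℝ} {C0 : ℕ} (Z : CySel Y p W j k q ξ ε0 ξ' D0 Dst Ds D1 C0)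
    (hX : (W.gp Y p j k q ξ ε0).Ok) :
    ∃ (NL : Type) (_ : Fintype NL) (ivN : NL → ℕ) (chN : NL → Z.c.ι) (tsN : NL → (Y.M.sys p).Tst) (RN : NL → Set (Y.M.sys p).X), CyFlat Z NL ivN chN tsN RN := by
  rcases Z.cls.alt with h | ⟨_, _, _, _, halt⟩
  · exact absurd Z.lvl (not_lt.2 h)
  · obtain ⟨NL, fN, ivN, chN, tsN, RN, g1, g2, g3, g4, g5, g6, g7, g8⟩ := cy_t_flat_aux hX Z.ok _ Z.β Z.u Z.v Z.S Z.cls.meas halt
    exact ⟨NL, fN, ivN, chN, tsN, RN, ⟨g1, g2, g3, g4, g5, g6, g7, g8⟩⟩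

/-- pure numbers of `cy_t_cnt` -/
theorem cy_t_cnt_num {e κ β Sw pd m N i a' ξ ξ' d0 p0 : ℝ} (he : 0 < e) (hκ : 0 < κ) (hβ : 0 < β) (hN : 0 ≤ N) (hpd : 0 ≤ p0 + d0) (hm : m ≤ i * N)
    (h1 : β * Sw ≤ e * 2 ^ (d0 * m + ξ * N)) (h2 : κ * 2 ^ (-(p0 * m) - ξ' * N) ≤ 32 * β) (hξ : ξ + ξ' ≤ a' / 2) (h32 : (32 : ℝ) ≤ 2 ^ (a' / 2 * N)) (hpd' : pd = p0 + d0) :
    Sw ≤ 2 ^ (-(-a' * N)) * (e / κ) * 2 ^ (-(-(pd * i) * N)) := by
  subst hpd'
  have hA : (0 : ℝ) < 2 ^ (-(p0 * m) - ξ' * N) := by positivity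
  -- `κ A Sw ≤ 32 β Sw ≤ 32 e B`
  by_cases hw : Sw ≤ 0
  · exact hw.trans (by positivity)
  push Not at hw
  have h3 : κ * 2 ^ (-(p0 * m) - ξ' * N) * Sw ≤ 32 * (e * 2 ^ (d0 * m + ξ * N)) := by
    calc κ * 2 ^ (-(p0 * m) - ξ' * N) * Sw ≤ 32 * β * Sw := mul_le_mul_of_nonneg_right h2 hw.le
      _ = 32 * (β * Sw) := by ring
      _ ≤ 32 * (e * 2 ^ (d0 * m + ξ * N)) := by linarith
  have h4 : Sw ≤ 32 * (e * 2 ^ (d0 * m + ξ * N)) / (κ * 2 ^ (-(p0 * m) - ξ' * N)) := by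
    rw [le_div_iff₀ (mul_pos hκ hA)]
    linarith
  refine h4.trans ?_
  have e1 : 32 * (e * 2 ^ (d0 * m + ξ * N)) / (κ * 2 ^ (-(p0 * m) - ξ' * N)) = (e / κ) * (32 * 2 ^ ((p0 + d0) * m + (ξ + ξ') * N)) := by
    have : (2 : ℝ) ^ ((p0 + d0) * m + (ξ + ξ') * N) = 2 ^ (d0 * m + ξ * N) / 2 ^ (-(p0 * m) - ξ' * N) := by
      rw [← Real.rpow_sub (by norm_num)]
      congr 1
      ring
    rw [this]
    field_simp
  have e2 : (2 : ℝ) ^ (-(-a' * N)) * (e / κ) * 2 ^ (-(-((p0 + d0) * i) * N)) = (e / κ) * (2 ^ (a' / 2 * N) * 2 ^ (a' / 2 * N + (p0 + d0) * i * N)) := by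
    rw [← Real.rpow_add (by norm_num)]
    have : (2 : ℝ) ^ (a' / 2 * N + (a' / 2 * N + (p0 + d0) * i * N)) = 2 ^ (-(-a' * N)) * 2 ^ (-(-((p0 + d0) * i) * N)) := by
      rw [← Real.rpow_add (by norm_num)]
      congr 1
      ring
    rw [this]
    ring
  rw [e1, e2]
  refine mul_le_mul_of_nonneg_left ?_ (by positivity)
  refine mul_le_mul h32 (gn_two_mono ?_) (by positivity) (by positivity)
  have a1 : (p0 + d0) * m ≤ (p0 + d0) * (i * N) := mul_le_mul_of_nonneg_left hm hpd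
  have a2 : (ξ + ξ') * N ≤ a' / 2 * N := mul_le_mul_of_nonneg_right hξ hN
  linarith

/-- **TD5** (02 l.738).   PLAN: `β wt < ms (RN l) ψ`; for fixed `I` the `RN l` are disjoint: `Σ_{ivN l = I} ms ≤ ‖ψ_I‖²` (`gn_ms_iUnion`-type for a `Finset`, `gn_ms_le`); `hM.prep`: `Σ_I ‖ψ_I‖² ≤ e 2^(d0 m_a + ξ n)`; `Z.low`: `β ≥ κ 2^(-p0 m_a - ξ' n)/32`;
`m_a = ⌊i n⌋ ≤ i n`, `p0 + d0 ≥ 0`: `Σ wt ≤ 32 (e/κ) 2^((p0+d0) i n + (ξ + ξ') n) ≤ s^-a' (e/κ) s^(-(p0+d0) i)` if `ξ + ξ' ≤ a'/2`, `32 ≤ 2^(a' n/2)`. -/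
theorem cy_t_cnt (Y : SfCy) (H : CyHyp Y) (hΓ : 0 < Y.M.Gam) (a' : ℝ) (ha' : 0 < a') : ∃ n0 : ℕ, ∀ (p : Y.M.Par) (W : SfMD (Y.M.sys p)) (i j h a ξ τ Ls ε ε0 ξ' D0 Dst Ds D1 : ℝ) (k q C A C0 : ℕ)
    (Z : CySel Y p W j k q ξ ε0 ξ' D0 Dst Ds D1 C0) (NL : Type) (_ : Fintype NL) (ivN : NL → ℕ) (chN : NL → Z.c.ι) (tsN : NL → (Y.M.sys p).Tst) (RN : NL → Set (Y.M.sys p).X),
    n0 ≤ W.E.n → 0 < ξ → 0 < ξ' → ξ + ξ' ≤ a' / 2 → CyMid Y p W i j k q h a ξ τ C A Ls ε → CyFlat Z NL ivN chN tsN RN →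
    ∑ l, (Y.M.sys p).wt (tsN l) ≤ W.E.s ^ (-a') * (W.E.e / W.E.ka) * W.E.s ^ (-((Y.M.p0 + Y.M.d0) * i)) := by
  classical
  obtain ⟨n0, hn0⟩ := gn_absorb 32 (a' / 2) (half_pos ha')
  refine ⟨n0, fun p W i j h a ξ τ Ls ε ε0 ξ' D0 Dst Ds D1 k q C A C0 Z NL _ ivN chN tsN RN hn hξ hξ' hξξ hM hF => ?_⟩
  have hp : Y.M.gd p := hM.inn.cls.1
  have hV : W.E.Valid := hM.inn.cls.2.1
  have hT := H.gen.tight p hp
  have hp0 : 1 + Y.η / 2 ≤ Y.M.p0 := gn_p0_ge Y.M _ H.gen hΓ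
  have hd0 := (gn_d0_le Y.M _ H.gen hΓ).1
  have hη := H.eta.1
  -- the energies
  have hI : ∀ I, ∑ l, (if ivN l = I then (Y.M.sys p).ms (tmL k (ivN l)) k 0 (RN l) ((W.gp Y p j k q ξ ε0).ps (ivN l)) else 0) ≤ ‖W.E.at' k I (W.E.st.take q)‖ ^ 2 := by
    intro I
    have := cy_s_upper_disj hT (tmL k I) k 0 (fun l => if ivN l = I then RN l else ∅)
      (fun l => by split_ifs; exacts [hF.meas l, MeasurableSet.empty])
      (fun l l' hne => by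
        by_cases c1 : ivN l = I
        · by_cases c2 : ivN l' = I
          · simp only [c1, c2, if_true]
            exact hF.disj l l' hne (c1.trans c2.symm)
          · simp only [c2, if_false]
            exact Set.disjoint_empty _
        · simp only [c1, if_false]
          exact Set.empty_disjoint _) (W.E.at' k I (W.E.st.take q))
    refine le_trans (le_of_eq (Finset.sum_congr rfl fun l _ => ?_)) this
    by_cases c1 : ivN l = I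
    · simp only [c1, if_true]
      rfl
    · simp only [c1, if_false]
      rw [gn_ms_empty]
  have hsum : ∑ l, (Y.M.sys p).ms (tmL k (ivN l)) k 0 (RN l) ((W.gp Y p j k q ξ ε0).ps (ivN l)) ≤ ∑ I ∈ ivs W.E.k0 W.E.i0 k, ‖W.E.at' k I (W.E.st.take q)‖ ^ 2 := by
    refine le_trans (le_of_eq ?_) (Finset.sum_le_sum fun I _ => hI I)
    rw [Finset.sum_comm]
    refine Finset.sum_congr rfl fun l _ => ?_
    rw [Finset.sum_ite_eq]
    have hl : ivN l ∈ ivs W.E.k0 W.E.i0 k := hF.iv l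
    rw [if_pos hl]
  have h1 : Z.β * ∑ l, (Y.M.sys p).wt (tsN l) ≤ W.E.e * 2 ^ (Y.M.d0 * ((k - W.E.k0 : ℕ) : ℝ) + ξ * W.E.n) := by
    rw [Finset.mul_sum]
    exact (Finset.sum_le_sum fun l _ => (hF.heavy l).le).trans (hsum.trans hM.prep.1)
  have hm : ((k - W.E.k0 : ℕ) : ℝ) ≤ i * W.E.n := by
    rw [hM.k_eq, Nat.add_sub_cancel_left]
    exact Nat.floor_le (mul_nonneg hM.inn.i_nn (Nat.cast_nonneg _))
  rw [gn_s_rpow, gn_s_rpow]
  exact cy_t_cnt_num hV.e_pos hV.ka_pos Z.cls.beta.1 (Nat.cast_nonneg _) (by linarith) hm h1 Z.low hξξ (hn0 _ hn) rfl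

theorem cy_td6_de (N : ℕ) (x : ℝ) : ((2 : ℝ)⁻¹ ^ N) ^ x = 2 ^ (-((N : ℝ) * x)) := by
  rw [← Real.rpow_natCast, ← Real.rpow_mul (by norm_num), Real.inv_rpow (by norm_num), ← Real.rpow_neg (by norm_num)]

theorem cy_td6_exp {n N x Lx dij a a' : ℝ} (hn : 0 ≤ n) (hx0 : 0 ≤ x) (hxL : x ≤ Lx) (hd : 0 ≤ dij) (ha0 : 0 ≤ a)
    (hN : N ≤ (dij + a) * n + 1) (ha : Lx * a ≤ a' / 2) (hn' : Lx ≤ a' / 2 * n) : N * x ≤ (Lx * dij + a') * n := by
  have h1 : N * x ≤ ((dij + a) * n + 1) * x := mul_le_mul_of_nonneg_right hN hx0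
  have h2 : ((dij + a) * n + 1) * x ≤ ((dij + a) * n + 1) * Lx := mul_le_mul_of_nonneg_left hxL (by positivity)
  have h3 : Lx * a * n ≤ a' / 2 * n := mul_le_mul_of_nonneg_right ha hn
  have e : ((dij + a) * n + 1) * Lx = Lx * dij * n + Lx * a * n + Lx := by ring
  have e2 : (Lx * dij + a') * n = Lx * dij * n + a' / 2 * n + a' / 2 * n := by ring
  linarith

/-- **TD6** (numbers).   `δ = 2^-(k j - k)`, `k j - k ≤ (j - i + a) n + 1` (`cy_fw_depth`, `k - k0 ≥ i n - 1`), so `δ^x ≥ s^(x (j - i) + x a + x/n)` for `x ≥ 0`.   PLAN: `Z.cls.alt` (second alternative by `Z.lvl`): `δ^D1 rj ≤ u ≤ rj`, `δ^D1 fs ≤ v ≤ fs`, `fs = δ^-Dst fj`;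
`Ls ≥ max D1 Dst`; `Ls (a + 1/n) ≤ a'`. -/
theorem cy_t_wr (Y : SfCy) (Ls Dst D1 a' : ℝ) (hDst : 0 < Dst) (hD1 : 0 < D1) (hLs : D1 + Dst ≤ Ls) (ha' : 0 < a') : ∃ (a0 : ℝ) (n0 : ℕ), 0 < a0 ∧
    ∀ (p : Y.M.Par) (W : SfMD (Y.M.sys p)) (i j h a ξ τ ε ε0 ξ' D0 Ds : ℝ) (k q C A C0 : ℕ) (Z : CySel Y p W j k q ξ ε0 ξ' D0 Dst Ds D1 C0),
    n0 ≤ W.E.n → 0 < a → a ≤ a0 → CyMid Y p W i j k q h a ξ τ C A Ls ε →
    0 < Z.u ∧ 0 < Z.v ∧ W.E.s ^ (Ls * (j - i) + a') ≤ Z.u / W.r j ∧ Z.u / W.r j ≤ 1 ∧ W.E.s ^ (Ls * (j - i) + a') ≤ Z.v / W.f j ∧ Z.v / W.f j ≤ W.E.s ^ (-(Ls * (j - i) + a')) := by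
  have hLs : 0 < Ls := by linarith
  refine ⟨a' / (2 * Ls), ⌈2 * Ls / a'⌉₊ + 1, by positivity, ?_⟩
  intro p W i j h a ξ τ ε ε0 ξ' D0 Ds k q C A C0 Z hn ha0 ha hM
  have hS : W.Str (Y.tq p) := hM.inn.pre.str
  have hj : j ∈ W.G := hM.inn.j_mem
  obtain ⟨hr, hf⟩ := hS.frame.2.2 j hj
  have hij : 0 ≤ j - i := by linarith [hM.inn.i_lt]
  have hn0 : (0 : ℝ) ≤ W.E.n := Nat.cast_nonneg _
  have hLa : Ls * a ≤ a' / 2 := by
    have := mul_le_mul_of_nonneg_left ha hLs.le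
    have e : Ls * (a' / (2 * Ls)) = a' / 2 := by field_simp
    linarith
  have hLn : Ls ≤ a' / 2 * W.E.n := by
    have h1 : (2 * Ls / a' : ℝ) ≤ W.E.n := by
      have h2 : ((⌈2 * Ls / a'⌉₊ + 1 : ℕ) : ℝ) ≤ W.E.n := by exact_mod_cast hn
      have h3 := Nat.le_ceil (2 * Ls / a')
      push_cast at h2
      linarith
    rw [div_le_iff₀ ha'] at h1
    linarith
  have hkf : (W.gxr j (W.thr Y p j k ξ)).kf = W.k j := by
    show W.E.k0 + (W.k j - W.E.k0) = W.k j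
    have := (hS.k_rg j hj).1
    omega
  have hde : (W.gp Y p j k q ξ ε0).de = (2 : ℝ)⁻¹ ^ (W.k j - k) := by
    show (2 : ℝ)⁻¹ ^ ((W.gxr j (W.thr Y p j k ξ)).kf - k) = _
    rw [hkf]
  have hN : ((W.k j - k : ℕ) : ℝ) ≤ (j - i + a) * W.E.n + 1 := by
    by_cases hk : k ≤ W.k j
    · rw [Nat.cast_sub hk]
      have h1 := (abs_le.1 (hM.inn.pre.depth j hj)).2
      have h2 : (k : ℝ) = (W.E.k0 : ℝ) + (⌊i * W.E.n⌋₊ : ℝ) := by
        rw [hM.k_eq]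
        push_cast
        ring
      have h3 := Nat.lt_floor_add_one (i * (W.E.n : ℝ))
      rw [h2]
      nlinarith
    · rw [Nat.sub_eq_zero_of_le (not_le.1 hk).le, Nat.cast_zero]
      have : 0 ≤ (j - i + a) * W.E.n := mul_nonneg (by linarith) hn0
      linarith
  have hNn : (0 : ℝ) ≤ ((W.k j - k : ℕ) : ℝ) := Nat.cast_nonneg _
  have A1 : (2 : ℝ) ^ (-((Ls * (j - i) + a') * W.E.n)) ≤ ((2 : ℝ)⁻¹ ^ (W.k j - k)) ^ D1 := by
    rw [cy_td6_de]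
    exact gn_two_mono (neg_le_neg (cy_td6_exp hn0 hD1.le (by linarith) hij ha0.le hN hLa hLn))
  have A2 : ((2 : ℝ)⁻¹ ^ (W.k j - k)) ^ (-Dst) ≤ (2 : ℝ) ^ ((Ls * (j - i) + a') * W.E.n) := by
    rw [cy_td6_de]
    refine gn_two_mono ?_
    have := cy_td6_exp hn0 hDst.le (by linarith : Dst ≤ Ls) hij ha0.le hN hLa hLn
    linarith
  have A3 : (1 : ℝ) ≤ ((2 : ℝ)⁻¹ ^ (W.k j - k)) ^ (-Dst) := by
    rw [cy_td6_de]
    have h0 : (2 : ℝ) ^ (0 : ℝ) ≤ 2 ^ (-(((W.k j - k : ℕ) : ℝ) * -Dst)) := gn_two_mono (by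
      have := mul_nonneg hNn hDst.le
      linarith)
    rwa [Real.rpow_zero] at h0
  have hp1 : (0 : ℝ) < ((2 : ℝ)⁻¹ ^ (W.k j - k)) ^ D1 := Real.rpow_pos_of_pos (by positivity) _
  have hp2 : (0 : ℝ) < ((2 : ℝ)⁻¹ ^ (W.k j - k)) ^ (-Dst) := Real.rpow_pos_of_pos (by positivity) _
  rcases Z.cls.alt with h1 | ⟨h1, h2, h3, h4, -⟩
  · exact absurd h1 (not_le.2 Z.lvl)
  have h1' : ((2 : ℝ)⁻¹ ^ (W.k j - k)) ^ D1 * W.r j ≤ Z.u := by
    rw [← hde]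
    exact h1
  have h2' : Z.u ≤ W.r j := h2
  have h3' : ((2 : ℝ)⁻¹ ^ (W.k j - k)) ^ D1 * (((2 : ℝ)⁻¹ ^ (W.k j - k)) ^ (-Dst) * W.f j) ≤ Z.v := by
    rw [← hde]
    exact h3
  have h4' : Z.v ≤ ((2 : ℝ)⁻¹ ^ (W.k j - k)) ^ (-Dst) * W.f j := by
    rw [← hde]
    exact h4
  refine ⟨lt_of_lt_of_le (mul_pos hp1 hr) h1', lt_of_lt_of_le (mul_pos hp1 (mul_pos hp2 hf)) h3', ?_, ?_, ?_, ?_⟩
  · rw [gn_s_rpow, le_div_iff₀ hr]
    exact (mul_le_mul_of_nonneg_right A1 hr.le).trans h1'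
  · rw [div_le_one hr]
    exact h2'
  · rw [gn_s_rpow, le_div_iff₀ hf]
    refine le_trans ?_ h3'
    have b1 : W.f j ≤ ((2 : ℝ)⁻¹ ^ (W.k j - k)) ^ (-Dst) * W.f j := by
      have := mul_le_mul_of_nonneg_right A3 hf.le
      linarith
    exact mul_le_mul A1 b1 hf.le hp1.le
  · rw [gn_s_rpow, div_le_iff₀ hf]
    refine h4'.trans (mul_le_mul_of_nonneg_right (A2.trans (le_of_eq ?_)) hf.le)
    congr 1
    ring

/-- dyadic intervals: nested times determine the ancestor -/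
theorem cy_td7_anc {k k' I m : ℕ} (hk : k ≤ k') (h1 : tmL k I ≤ tmL k' m) (h2 : tmL k' m + (2 : ℝ)⁻¹ ^ k' ≤ tmL k I + (2 : ℝ)⁻¹ ^ k) :
    ancI k' k m = I := by
  obtain ⟨d, rfl⟩ := Nat.exists_eq_add_of_le hk
  unfold tmL at h1 h2
  unfold ancI
  have e : k + d - k = d := by omega
  rw [e]
  have hp : (0 : ℝ) < 2 ^ k := by positivity
  have hd : (0 : ℝ) < 2 ^ d := by positivity
  have a1 : (I : ℝ) * 2 ^ d ≤ m := by
    rw [pow_add, div_le_div_iff₀ hp (by positivity)] at h1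
    have : (I : ℝ) * 2 ^ d * 2 ^ k ≤ m * 2 ^ k := by nlinarith
    exact le_of_mul_le_mul_right this hp
  have a2 : (m : ℝ) + 1 ≤ ((I : ℝ) + 1) * 2 ^ d := by
    rw [inv_pow, inv_pow, pow_add] at h2
    have e1 : (m : ℝ) / (2 ^ k * 2 ^ d) + (2 ^ k * 2 ^ d)⁻¹ = ((m : ℝ) + 1) / (2 ^ k * 2 ^ d) := by
      field_simp
    have e2 : (I : ℝ) / 2 ^ k + (2 ^ k)⁻¹ = ((I : ℝ) + 1) / 2 ^ k := by
      field_simp
    rw [e1, e2, div_le_div_iff₀ (by positivity) hp] at h2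
    have : ((m : ℝ) + 1) * 2 ^ k ≤ ((I : ℝ) + 1) * 2 ^ d * 2 ^ k := by nlinarith
    exact le_of_mul_le_mul_right this hp
  have b1 : I * 2 ^ d ≤ m := by exact_mod_cast a1
  have b2 : m + 1 ≤ (I + 1) * 2 ^ d := by exact_mod_cast a2
  apply Nat.div_eq_of_lt_le
  · exact b1
  · exact b2

/-- the numerology of the gap -/
theorem cy_td7_num (Ls a' : ℝ) (hLs : 0 < Ls) (ha' : 0 < a') : ∃ (a0 : ℝ) (n0 : ℕ), 0 < a0 ∧ ∀ (n d : ℕ) (i j a : ℝ), n0 ≤ n → a ≤ a0 →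
    (d : ℝ) ≤ (j - i + a) * n + 1 → 4 + Ls * d ≤ (Ls * (j - i) + a') * n := by
  refine ⟨a' / (2 * Ls), ⌈2 * (4 + Ls) / a'⌉₊, by positivity, ?_⟩
  intro n d i j a hn ha hd
  have hn' : 2 * (4 + Ls) / a' ≤ n := (Nat.le_ceil _).trans (by exact_mod_cast hn)
  rw [div_le_iff₀ ha'] at hn'
  have hn0 : (0 : ℝ) ≤ n := Nat.cast_nonneg _
  have h1 : Ls * a ≤ a' / 2 := by
    have := mul_le_mul_of_nonneg_left ha hLs.le
    have e : Ls * (a' / (2 * Ls)) = a' / 2 := by field_simp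
    linarith
  have h2 : Ls * d ≤ Ls * ((j - i + a) * n + 1) := mul_le_mul_of_nonneg_left hd hLs.le
  have h3 : Ls * a * n ≤ a' / 2 * n := mul_le_mul_of_nonneg_right h1 hn0
  nlinarith

/-- the depth of the gap -/
theorem cy_td7_dep {Y : SfCy} {p : Y.M.Par} {W : SfMD (Y.M.sys p)} {i j h a ξ τ Ls ε : ℝ} {k q C A : ℕ} (hM : CyMid Y p W i j k q h a ξ τ C A Ls ε) :
    ((W.k j - k : ℕ) : ℝ) ≤ (j - i + a) * W.E.n + 1 := by
  have h1 := hM.inn.pre.depth j hM.inn.j_mem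
  have h2 := Nat.lt_floor_add_one (i * (W.E.n : ℝ))
  have h3 : (k : ℝ) = W.E.k0 + (⌊i * (W.E.n : ℝ)⌋₊ : ℕ) := by
    have := hM.k_eq
    exact_mod_cast this
  have h0 : 0 ≤ a * (W.E.n : ℝ) := (abs_nonneg _).trans h1
  have h4 : 0 ≤ (j - i) * (W.E.n : ℝ) := mul_nonneg (by linarith [hM.inn.i_lt]) (Nat.cast_nonneg _)
  rw [abs_le] at h1
  rcases le_total k (W.k j) with hk | hk
  · rw [Nat.cast_sub hk]
    nlinarith [h1.2]
  · rw [Nat.sub_eq_zero_of_le hk]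
    push_cast
    nlinarith

theorem cy_td7_pow (d : ℕ) (y : ℝ) : ((2 : ℝ)⁻¹ ^ d) ^ y = 2 ^ (-(y * d)) := by
  rw [← Real.rpow_natCast, ← Real.rpow_mul (by positivity), Real.inv_rpow (by norm_num), ← Real.rpow_neg (by norm_num)]
  congr 1
  ring

/-- the constants of `cy_s_mm` in powers of `s` -/
theorem cy_td7_bd {Ls Dst Ds D1 a' i j : ℝ} {n d : ℕ} (hDs : 0 < Ds) (hD1 : 0 < D1) (hLs : Dst + D1 + Ds + 3 ≤ Ls)
    (hnum : 4 + Ls * d ≤ (Ls * (j - i) + a') * n) :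
    ((2 : ℝ)⁻¹ ^ d) ^ (-Dst) * (8 * ((((2 : ℝ)⁻¹ ^ d) ^ D1)⁻¹ + (((2 : ℝ)⁻¹ ^ d) ^ Ds)⁻¹)) ≤ ((2 : ℝ)⁻¹ ^ n) ^ (-(Ls * (j - i) + a')) := by
  rw [cy_td7_pow, cy_td7_pow, cy_td7_pow, cy_td7_pow, ← Real.rpow_neg (by norm_num), ← Real.rpow_neg (by norm_num)]
  have hd : (0 : ℝ) ≤ d := Nat.cast_nonneg _
  have h2 : (1 : ℝ) < 2 := by norm_num
  have e1 : (2 : ℝ) ^ (- -(D1 * d)) ≤ 2 ^ ((D1 + Ds) * d) := Real.rpow_le_rpow_of_exponent_le h2.le (by nlinarith)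
  have e2 : (2 : ℝ) ^ (- -(Ds * d)) ≤ 2 ^ ((D1 + Ds) * d) := Real.rpow_le_rpow_of_exponent_le h2.le (by nlinarith)
  have p1 : (0 : ℝ) < 2 ^ (-(-Dst * d)) := Real.rpow_pos_of_pos (by norm_num) _
  calc (2 : ℝ) ^ (-(-Dst * d)) * (8 * (2 ^ (- -(D1 * d)) + 2 ^ (- -(Ds * d))))
      ≤ 2 ^ (-(-Dst * d)) * (8 * (2 ^ ((D1 + Ds) * d) + 2 ^ ((D1 + Ds) * d))) := by gcongr
    _ = 2 ^ (-(-Dst * d)) * (2 ^ (4 : ℝ) * 2 ^ ((D1 + Ds) * d)) := by
        have : (2 : ℝ) ^ (4 : ℝ) = 16 := by norm_num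
        rw [this]; ring
    _ = 2 ^ (4 + (Dst + D1 + Ds) * d) := by
        rw [← Real.rpow_add (by norm_num), ← Real.rpow_add (by norm_num)]; congr 1; ring
    _ ≤ 2 ^ (-(-(Ls * (j - i) + a') * n)) := by
        refine Real.rpow_le_rpow_of_exponent_le h2.le ?_
        nlinarith

/-- **TD7** (02 l.739-745).   PLAN.   `x ∈ RN l ⊆ S I G ⊆ rw I G` (`I = ivN l`, `G = chN l`).   `l'` has `th ≠ 0`: `l' = lbr a` (`cy_t_gap`), `x' ∈ cell (ts a)` (`Str.supp`).   The two time inequalities of `sfCn` give `X.an a = I` (dyadic intervals: `tmL k I ≤ tmL (k j) m`, `tmL (k j) m + 2^-(k j) ≤ tmL k I + 2^-k`).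
`s^-ε ≤ s^(-2ε0) = X.Λ`: `cy_s_att_cn`: `x ∈ att I a`; `Z.ok.bdd`: `CyBdd (δ^Ds) (cyNrm .. (fr I G) ..)`; `fam`: `CyTr .. (δ^D1)`; `Z.ok.box`: `cyIn (fr I G) la (co x)`; `cy_s_mm` with `Qs = fr I G` (`r = rj`, `f = δ^-Dst fj`):
bounds `fj/rj² δ^-Dst 4 (δ^-D1 + δ^-Ds) ≤ fj/rj² δ^-(Dst + D1 + Ds + 3)` (`δ ≤ 1/2`), then `δ^-x ≤ s^-(x (j-i) + x a + x/n)` as in TD6; `Ls = Dst + D1 + Ds + 3`. -/
theorem cy_t_mm (Y : SfCy) (H : CyHyp Y) (Ls Dst Ds D1 a' h : ℝ) (hDst : 0 < Dst) (hDs : 0 < Ds) (hD1 : 0 < D1) (hLs : Dst + D1 + Ds + 3 ≤ Ls) (ha' : 0 < a') (hh : 0 < h) : ∃ (a0 : ℝ) (n0 : ℕ), 0 < a0 ∧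
    ∀ (p : Y.M.Par) (W : SfMD (Y.M.sys p)) (i j a ξ τ ε ε0 ξ' D0 : ℝ) (k q C A C0 : ℕ) (Z : CySel Y p W j k q ξ ε0 ξ' D0 Dst Ds D1 C0)
      (NL : Type) (ivN : NL → ℕ) (chN : NL → Z.c.ι) (tsN : NL → (Y.M.sys p).Tst) (RN : NL → Set (Y.M.sys p).X),
    n0 ≤ W.E.n → 0 < a → a ≤ a0 → 0 < ε → ε ≤ ε0 → 0 < ξ → CyMid Y p W i j k q h a ξ τ C A Ls ε → W.Flo Y p j k ξ → CyFlat Z NL ivN chN tsN RN →
    ∀ (l : NL) (l' : W.Lb j) (x x' : (Y.M.sys p).X), x ∈ RN l → W.th j l' x' ≠ 0 → sfCn Y p (W.E.s ^ (-ε)) (tmL k (ivN l)) k (W.T j l') (W.k j) x x' →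
      |(sfTestAt (tmL k (ivN l)) (Y.tq p (tsN l))).be - (sfTestAt (W.T j l') (Y.tq p (W.ts j l'))).beAt (tmL k (ivN l))|
          + (2 : ℝ)⁻¹ ^ k * |(Y.tq p (tsN l)).K - (Y.tq p (W.ts j l')).K| ≤ W.f j / W.r j ^ 2 * W.E.s ^ (-(Ls * (j - i) + a')) ∧
      |(sfTestAt (tmL k (ivN l)) (Y.tq p (tsN l))).Pd (sfRayAt (tmL k (ivN l)) (Y.co p (tmL k (ivN l)) x))
          - (sfTestAt (W.T j l') (Y.tq p (W.ts j l'))).Pd (sfRayAt (tmL k (ivN l)) (Y.co p (tmL k (ivN l)) x))| ≤ W.f j / W.r j * W.E.s ^ (-(Ls * (j - i) + a')) := by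
  obtain ⟨a0, n0, ha0, hnum⟩ := cy_td7_num Ls a' (by linarith) ha'
  refine ⟨a0, n0, ha0, ?_⟩
  intro p W i j a ξ τ ε ε0 ξ' D0 k q C A C0 Z NL ivN chN tsN RN hn ha haa hε hεε hξ hM hF hFl l l' x x' hx hth hcn
  have hS : W.Str (Y.tq p) := hM.inn.pre.str
  have hj : j ∈ W.G := hM.inn.j_mem
  have hV := hS.valid
  have hrj := (hS.frame.2.2 j hj).1
  have hfj := (hS.frame.2.2 j hj).2
  have hs0 : 0 < W.E.s := by unfold Xp.s; positivity
  have hs1 : W.E.s ≤ 1 := by unfold Xp.s; exact pow_le_one₀ (by norm_num) (by norm_num)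
  -- the depths
  have hk : k ≤ W.k j := by
    have h1 := hcn.1
    have h2 := hcn.2.1
    have h3 : (2 : ℝ)⁻¹ ^ W.k j ≤ (2 : ℝ)⁻¹ ^ k := by linarith
    exact (pow_le_pow_iff_right_of_lt_one₀ (by norm_num) (by norm_num)).1 h3
  have hθ0 : 0 < W.thr Y p j k ξ := by
    unfold SfMD.thr SfMD.kap
    have := hV.ka_pos
    positivity
  have hΛ : 1 ≤ W.E.s ^ (-(2 * ε0)) := Real.one_le_rpow_of_pos_of_le_one_of_nonpos hs0 hs1 (by linarith)
  obtain ⟨hOk, hkf, -, -, -, hlab, -, hsur, -, -, -⟩ := cy_t_gap H hM hF hk ⟨l'⟩ (W.thr Y p j k ξ) (W.E.s ^ (-(2 * ε0))) rfl hθ0 hΛ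
  obtain ⟨X, hXdef⟩ : ∃ X, X = W.gp Y p j k q ξ ε0 := ⟨_, rfl⟩
  have hne : W.th j l' ≠ fun _ => 0 := fun h0 => hth (by rw [h0])
  obtain ⟨b, hb⟩ := hsur l' hne
  obtain ⟨hiv, hts, -, -, -⟩ := hlab b
  rw [hb] at hiv hts
  -- translation to the gap
  have htl : (W.gp Y p j k q ξ ε0).tl b = W.T j l' := by
    show tmL (W.gxr j (W.thr Y p j k ξ)).kf ((W.gxr j (W.thr Y p j k ξ)).iv b) = tmL (W.k j) (W.iv j l')
    rw [hkf, hiv]
  have han : (W.gp Y p j k q ξ ε0).an b = ivN l := by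
    show ancI (W.gxr j (W.thr Y p j k ξ)).kf k ((W.gxr j (W.thr Y p j k ξ)).iv b) = ivN l
    rw [hkf, hiv]
    exact cy_td7_anc hk hcn.1 hcn.2.1
  have hcell : x' ∈ (Y.M.sys p).cell ((W.gp Y p j k q ξ ε0).F.ts b) ((W.gp Y p j k q ξ ε0).tl b) (W.gp Y p j k q ξ ε0).F.kf := by
    rw [htl]
    show x' ∈ (Y.M.sys p).cell ((W.gxr j (W.thr Y p j k ξ)).ts b) (W.T j l') (W.gxr j (W.thr Y p j k ξ)).kf
    rw [hts, hkf]
    exact hS.supp j hj l' x' hth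
  have hΛ' : W.E.s ^ (-ε) ≤ (W.gp Y p j k q ξ ε0).Λ :=
    Real.rpow_le_rpow_of_exponent_ge hs0 hs1 (by linarith)
  have hcn' : sfCn Y p (W.E.s ^ (-ε)) (tmL (W.gp Y p j k q ξ ε0).k ((W.gp Y p j k q ξ ε0).an b)) (W.gp Y p j k q ξ ε0).k
      ((W.gp Y p j k q ξ ε0).tl b) (W.gp Y p j k q ξ ε0).F.kf x x' := by
    rw [han, htl]
    show sfCn Y p (W.E.s ^ (-ε)) (tmL k (ivN l)) k (W.T j l') (W.gxr j (W.thr Y p j k ξ)).kf x x'
    rw [hkf]; exact hcn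
  have hatt := cy_s_att_cn H (W.gp Y p j k q ξ ε0) hOk (W.E.s ^ (-ε)) hΛ' b x x' hcell hcn'
  rw [han] at hatt
  have hrw : x ∈ Z.c.rw (ivN l) (chN l) := (Z.cls.meas _ _).2 ((hFl.sub l).2 hx)
  have hbdd := Z.ok.bdd (ivN l) (chN l) b x hrw hatt
  rw [htl] at hbdd
  have hbdd' : CyBdd ((W.gp Y p j k q ξ ε0).de ^ Ds) (cyNrm (tmL k (ivN l)) k (Z.c.fr (ivN l) (chN l)) (W.T j l') (Y.tq p (W.ts j l'))) := by
    have e : (W.gp Y p j k q ξ ε0).F.ts b = W.ts j l' := hts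
    rw [e] at hbdd
    exact hbdd
  have hfam : CyTr (tmL k (ivN l)) k (Z.c.fr (ivN l) (chN l)) ((W.gp Y p j k q ξ ε0).de ^ D1) (Y.tq p (tsN l)) := (hFl.fam l).2
  have hbox : cyIn (Z.c.fr (ivN l) (chN l)) ((2 : ℝ)⁻¹ ^ k) (Y.co p (tmL k (ivN l)) x) := Z.ok.box (ivN l) (chN l) x hrw
  obtain ⟨hwr, hwf⟩ := Z.ok.wid (ivN l) (chN l)
  have hwr' : (Z.c.fr (ivN l) (chN l)).r = W.r j := hwr
  have hde : (W.gp Y p j k q ξ ε0).de = (2 : ℝ)⁻¹ ^ (W.k j - k) := by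
    show (2 : ℝ)⁻¹ ^ ((W.gxr j (W.thr Y p j k ξ)).kf - k) = _
    rw [hkf]
  have hde0 : 0 < (W.gp Y p j k q ξ ε0).de := by rw [hde]; positivity
  have hmm := cy_s_mm (tmL k (ivN l)) k (Z.c.fr (ivN l) (chN l)) (Y.tq p (tsN l)) (Y.tq p (W.ts j l')) (W.T j l')
    ((W.gp Y p j k q ξ ε0).de ^ D1) ((W.gp Y p j k q ξ ε0).de ^ Ds) (Y.co p (tmL k (ivN l)) x)
    (by rw [hwr']; exact hrj) (by rw [hwf]; positivity) hcn.1
    (by have := hcn.2.1; have h0 : (0 : ℝ) ≤ (2 : ℝ)⁻¹ ^ W.k j := by positivity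
        linarith)
    (Real.rpow_pos_of_pos hde0 _) (Real.rpow_pos_of_pos hde0 _) hfam hbdd' hbox
  rw [hwr', hwf] at hmm
  -- numbers
  have hN := cy_td7_bd (Dst := Dst) hDs hD1 hLs (hnum W.E.n (W.k j - k) i j a hn haa (cy_td7_dep hM))
  rw [← hde] at hN
  have hN' : (W.gp Y p j k q ξ ε0).de ^ (-Dst) * (8 * (((W.gp Y p j k q ξ ε0).de ^ D1)⁻¹ + ((W.gp Y p j k q ξ ε0).de ^ Ds)⁻¹))
      ≤ W.E.s ^ (-(Ls * (j - i) + a')) := hN
  obtain ⟨δ, hδ⟩ : ∃ δ, δ = (W.gp Y p j k q ξ ε0).de := ⟨_, rfl⟩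
  rw [← hδ] at hmm hN'
  rw [← hδ] at hde0
  have hB : 0 ≤ (δ ^ D1)⁻¹ + (δ ^ Ds)⁻¹ := by positivity
  have hA : 0 < δ ^ (-Dst) := Real.rpow_pos_of_pos hde0 _
  constructor
  · refine hmm.1.trans ?_
    have e : δ ^ (-Dst) * W.f j / W.r j ^ 2 * (4 * ((δ ^ D1)⁻¹ + (δ ^ Ds)⁻¹))
        = W.f j / W.r j ^ 2 * (δ ^ (-Dst) * (4 * ((δ ^ D1)⁻¹ + (δ ^ Ds)⁻¹))) := by ring
    rw [e]
    refine mul_le_mul_of_nonneg_left (le_trans ?_ hN') (by positivity)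
    refine mul_le_mul_of_nonneg_left ?_ hA.le
    linarith
  · refine hmm.2.trans ?_
    have e : δ ^ (-Dst) * W.f j / W.r j * (8 * ((δ ^ D1)⁻¹ + (δ ^ Ds)⁻¹))
        = W.f j / W.r j * (δ ^ (-Dst) * (8 * ((δ ^ D1)⁻¹ + (δ ^ Ds)⁻¹))) := by ring
    rw [e]
    exact mul_le_mul_of_nonneg_left hN' (by positivity)

/-- **TD9**: the new labels are heavy at the floor `s^10 κ` on the state entering the new gate (for `CyHv`; POLY is applied in TOP).   PLAN.   `X.ps I = Xp.run k I (take q st) v` (unfold `CyGp.ps`, `Xp.at'`, `SfMD.gp`, `gap`, `gxr`, `gx`, `Xp.pick`, `Xp.pre`: same `v`, `k0`, `i0`).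
`β wt < ms (RN l) ψ ≤ ms (cell) ψ` (`gn_ms_mono`, `sub`, `meas`, measurability of cells);  `Z.low`: `32 β ≥ κ 2^(-p0 m_a - ξ' n) ≥ κ s^(p0 + 1)` (`m_a = ⌊i n⌋ ≤ n` as `i < j ≤ 1`, `ξ' ≤ 1`), `p0 ≤ 3` (as in TB4), `32 ≤ 2^n`... `β ≥ s^10 κ` for `n ≥ 5`; `wt > 0` (`Tight.wt_pos`). -/
theorem cy_t_hv (Y : SfCy) (H : CyHyp Y) (hΓ : 0 < Y.M.Gam) : ∃ n0 : ℕ, ∀ (p : Y.M.Par) (W : SfMD (Y.M.sys p)) (i j h a ξ τ Ls ε ε0 ξ' D0 Dst Ds D1 : ℝ) (k q C A C0 : ℕ)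
    (Z : CySel Y p W j k q ξ ε0 ξ' D0 Dst Ds D1 C0) (NL : Type) (ivN : NL → ℕ) (chN : NL → Z.c.ι) (tsN : NL → (Y.M.sys p).Tst) (RN : NL → Set (Y.M.sys p).X),
    n0 ≤ W.E.n → 0 < ξ' → ξ' ≤ 1 → CyMid Y p W i j k q h a ξ τ C A Ls ε → CyFlat Z NL ivN chN tsN RN →
    ∀ l, W.E.s ^ ((10 : ℕ) : ℝ) * (W.E.ka * (Y.M.sys p).wt (tsN l))
      < (Y.M.sys p).ms (tmL k (ivN l)) k 0 ((Y.M.sys p).cell (tsN l) (tmL k (ivN l)) k) (Xp.run k (ivN l) (W.E.st.take q) W.E.v) := by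
  refine ⟨1, ?_⟩
  intro p W i j h a ξ τ Ls ε ε0 ξ' D0 Dst Ds D1 k q C A C0 Z NL ivN chN tsN RN hn hξ' hξ1 hM F l
  have hgd : Y.M.gd p := hM.inn.cls.1
  have hT := H.gen.tight p hgd
  have hv : W.E.Valid := hM.inn.cls.2.1
  have hp3 : Y.M.p0 ≤ 3 := by
    have := gn_p0_le Y.M _ H.gen hΓ
    linarith
  have hps : (W.gp Y p j k q ξ ε0).ps (ivN l) = Xp.run k (ivN l) (W.E.st.take q) W.E.v := rfl
  have h1 := F.heavy l
  rw [hps] at h1
  have h2 := gn_ms_mono (tmL k (ivN l)) k 0 (F.meas l) (hT.cellM (tsN l) (tmL k (ivN l)) k) (F.sub l).1 (Xp.run k (ivN l) (W.E.st.take q) W.E.v)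
  have hok : (Y.M.sys p).ok (tsN l) k := (F.fam l).1
  have hw : 0 < (Y.M.sys p).wt (tsN l) := hT.wt_pos _ _ hok
  refine lt_of_le_of_lt ?_ (lt_of_lt_of_le h1 h2)
  rw [← mul_assoc]
  refine mul_le_mul_of_nonneg_right ?_ hw.le
  have hlow := Z.low
  have hj1 : j ≤ 1 := (hM.inn.pre.str.gate.2 j hM.inn.j_mem).2
  have hn0 : (0 : ℝ) ≤ W.E.n := Nat.cast_nonneg _
  have hn1 : (1 : ℝ) ≤ W.E.n := by exact_mod_cast hn
  have hm : ((k - W.E.k0 : ℕ) : ℝ) ≤ W.E.n := by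
    have e1 : k - W.E.k0 = ⌊i * W.E.n⌋₊ := by
      rw [hM.k_eq]; omega
    rw [e1]
    refine (Nat.floor_le (mul_nonneg hM.inn.i_nn hn0)).trans ?_
    have : i ≤ 1 := hM.inn.i_lt.le.trans hj1
    nlinarith
  have hm0 : (0 : ℝ) ≤ ((k - W.E.k0 : ℕ) : ℝ) := Nat.cast_nonneg _
  have hexp : -(10 * (W.E.n : ℝ)) + 5 ≤ -(Y.M.p0 * ((k - W.E.k0 : ℕ) : ℝ)) - ξ' * W.E.n := by
    have e1 : Y.M.p0 * ((k - W.E.k0 : ℕ) : ℝ) ≤ 3 * W.E.n := by nlinarith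
    have e2 : ξ' * W.E.n ≤ W.E.n := by nlinarith
    linarith
  have h3 : (2 : ℝ) ^ (-(10 * (W.E.n : ℝ)) + 5) ≤ 2 ^ (-(Y.M.p0 * ((k - W.E.k0 : ℕ) : ℝ)) - ξ' * W.E.n) :=
    Real.rpow_le_rpow_of_exponent_le (by norm_num) hexp
  have h4 : (2 : ℝ) ^ (-(10 * (W.E.n : ℝ)) + 5) = 32 * W.E.s ^ ((10 : ℕ) : ℝ) := by
    rw [gn_s_rpow, Real.rpow_add (by norm_num)]
    have : (2 : ℝ) ^ (5 : ℝ) = 32 := by
      rw [show (5 : ℝ) = ((5 : ℕ) : ℝ) by norm_num, Real.rpow_natCast]; norm_num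
    rw [this, mul_comm]
    norm_num
  have h5 : W.E.ka * (32 * W.E.s ^ ((10 : ℕ) : ℝ)) ≤ 32 * Z.β := by
    rw [← h4]
    exact (mul_le_mul_of_nonneg_left h3 hv.ka_pos.le).trans hlow
  nlinarith

/-- **ASM** as a `Prop` -/
def CyAsmP (Y : SfCy) (Ls D0 Dst Ds D1 : ℝ) (C0 : ℕ) : Prop :=
  ∀ h ε0 a' : ℝ, 0 < h → 0 < ε0 → 0 < a' → ∃ ξ1 a0 : ℝ, 0 < ξ1 ∧ 0 < a0 ∧ ∀ C : ℕ, ∃ n0 : ℕ,
    ∀ (A : ℕ) (p : Y.M.Par) (W : SfMD (Y.M.sys p)) (i j ε a ξ ξ' τ : ℝ) (k q : ℕ), n0 ≤ W.E.n → 0 < ε → ε ≤ ε0 → 0 < a → a ≤ a0 → 0 < ξ → ξ ≤ ξ1 → 0 < ξ' → ξ' ≤ ξ1 → 0 < τ →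
      CyMid Y p W i j k q h a ξ τ C A Ls ε → W.Flo Y p j k ξ → Nonempty (CySel Y p W j k q ξ ε0 ξ' D0 Dst Ds D1 C0) →
      ∃ W' : SfMD (Y.M.sys p), W'.G = insert i W.G ∧ W'.Q0 = W.Q0 ∧ Y.M.Cls (C + 1) A p W'.E ∧ Mdl.SameRoot W.E W'.E ∧ W'.E.n = W.E.n ∧
        CySubLab W.E W'.E ∧ W.E.s ^ ξ' * W.E.val ≤ W'.E.val ∧ W'.Pre Y p Y.M.p0 Y.M.d0 Ls ε a' ∧ CyKeep W W' ∧ CyHv W' i (C + 10)

theorem cy_td2_eqns_cite : True := by
  have := @CyAsmP.eq_1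
  trivial

/-- the mask of the new stage is the indicator of the union -/
theorem cy_td8_mask {X : Type} {NL : Type} [Fintype NL] (ivN : NL → ℕ) (RN : NL → Set X) (U : ℕ → Set X)
    (hd : ∀ l l', l ≠ l' → ivN l = ivN l' → Disjoint (RN l) (RN l'))
    (hc : ∀ I, ⋃ l, ⋃ (_ : ivN l = I), RN l = U I) (m : ℕ) (x : X) :
    ∑ l, (if ivN l = m then (RN l).indicator (fun _ => (1 : ℝ)) x else 0) = (U m).indicator (fun _ => 1) x := by
  classical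
  by_cases hx : x ∈ U m
  · rw [Set.indicator_of_mem hx]
    rw [← hc m] at hx
    simp only [Set.mem_iUnion] at hx
    obtain ⟨l0, h0, hx0⟩ := hx
    rw [Finset.sum_eq_single l0]
    · rw [if_pos h0, Set.indicator_of_mem hx0]
    · intro l _ hl
      by_cases h1 : ivN l = m
      · rw [if_pos h1, Set.indicator_of_notMem]
        intro hxl
        exact Set.disjoint_left.1 (hd l l0 hl (h1.trans h0.symm)) hxl hx0
      · rw [if_neg h1]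
    · intro h
      exact absurd (Finset.mem_univ _) h
  · rw [Set.indicator_of_notMem hx]
    refine Finset.sum_eq_zero fun l _ => ?_
    by_cases h1 : ivN l = m
    · rw [if_pos h1, Set.indicator_of_notMem]
      intro hxl
      apply hx
      rw [← hc m]
      simp only [Set.mem_iUnion]
      exact ⟨l, h1, hxl⟩
    · rw [if_neg h1]

theorem cy_td8_mulR0 (P : PkSys) (k : ℕ) (F : Lp P.Fb 2 (P.rho k)) : P.mulR k (fun _ => 0) F = 0 := by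
  unfold PkSys.mulR
  split_ifs with h
  · apply Lp.ext
    filter_upwards [MemLp.coeFn_toLp h, Lp.coeFn_zero P.Fb 2 (P.rho k)] with x h1 h2
    rw [h1, h2]
    simp
  · rfl

/-- a stage with the mask `0` kills the functional -/
theorem cy_td8_zero {P : PkSys} (E : Xp P) (st1 st2 : List (Stg P)) (k b : ℕ) :
    (E.withSt (st1 ++ ⟨k, b, fun _ _ => 0⟩ :: st2)).val = 0 := by
  have hm : ∀ l, (E.withSt (st1 ++ ⟨k, b, fun _ _ => 0⟩ :: st2)).m l = 0 := by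
    intro l
    unfold Xp.m Xp.fin
    show P.en _ _ _ _ (Xp.run _ _ (st1 ++ ⟨k, b, fun _ _ => 0⟩ :: st2) _) = 0
    rw [gn_run_append]
    have h1 : ∀ (k' i : ℕ) (w : P.Kc), Xp.run k' i ((⟨k, b, fun _ _ => 0⟩ : Stg P) :: st2) w = 0 := by
      intro k' i w
      rw [Xp.run]
      have h2 : P.tz (tmL k (ancI k' k i)) k b (fun _ => 0) w = 0 := by
        unfold PkSys.tz
        rw [cy_td8_mulR0, map_zero]
      show Xp.run k' i st2 (P.tz (tmL k (ancI k' k i)) k b (fun _ => 0) w) = 0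
      rw [h2, gn_run_zero]
    rw [h1, gn_en_zero]
  unfold Xp.val Xp.rd
  rw [Finset.sum_eq_zero, mul_zero]
  intro l _
  rw [hm l, Real.zero_rpow (by norm_num), zero_div]

theorem cy_td8_lb_new {P : PkSys} (W : SfMD P) (i : ℝ) (NL : Type) (l : W.LbA i NL i) : ∃ l0 : NL, l.1 = Sum.inl l0 := by
  obtain ⟨u, hu⟩ := l
  rcases u with l0 | l0
  · exact ⟨l0, rfl⟩
  · have := hu.1 rfl
    simp at this

theorem cy_td8_lb_old {P : PkSys} (W : SfMD P) (i : ℝ) (NL : Type) {x : ℝ} (hx : x ≠ i) (l : W.LbA i NL x) : ∃ l0 : W.Lb x, l.1 = Sum.inr l0 := by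
  obtain ⟨u, hu⟩ := l
  rcases u with l0 | l0
  · exact absurd (hu.2 rfl) hx
  · exact ⟨l0, rfl⟩

theorem cy_td8_keep {P : PkSys} (W : SfMD P) (i : ℝ) (q k : ℕ) (NL : Type) [Fintype NL] (ivN : NL → ℕ) (tsN : NL → P.Tst) (thN : NL → P.X → ℝ) (u v : ℝ)
    (hi : ∀ x ∈ W.G, i < x) : CyKeep W (W.addG i q k NL ivN tsN thN u v) := by
  intro g hg
  have hgi : g ≠ i := (hi g hg).ne'
  refine ⟨if_neg hgi, fun l' => ?_⟩
  obtain ⟨l0, hl0⟩ := cy_td8_lb_old W i NL hgi l'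
  refine ⟨l0, ?_, ?_⟩
  · show Sum.elim ivN (W.iv g) l'.1 = _
    rw [hl0]
    rfl
  · show Sum.elim tsN (W.ts g) l'.1 = _
    rw [hl0]
    rfl

theorem cy_td8_hv {P : PkSys} (W : SfMD P) (i : ℝ) (q k : ℕ) (NL : Type) [Fintype NL] (ivN : NL → ℕ) (tsN : NL → P.Tst) (thN : NL → P.X → ℝ) (u v : ℝ) (D : ℕ)
    (hq : q ≤ W.E.st.length)
    (h : ∀ l, W.E.s ^ (D : ℝ) * (W.E.ka * P.wt (tsN l)) < P.ms (tmL k (ivN l)) k 0 (P.cell (tsN l) (tmL k (ivN l)) k) (Xp.run k (ivN l) (W.E.st.take q) W.E.v)) :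
    CyHv (W.addG i q k NL ivN tsN thN u v) i D := by
  intro l
  obtain ⟨l0, hl0⟩ := cy_td8_lb_new W i NL l
  have hk' : (W.addG i q k NL ivN tsN thN u v).k i = k := if_pos rfl
  have hgb : (W.addG i q k NL ivN tsN thN u v).gb i = 0 := if_pos rfl
  have hpos : (W.addG i q k NL ivN tsN thN u v).pos i = q := if_pos rfl
  have hts : (W.addG i q k NL ivN tsN thN u v).ts i l = tsN l0 := by
    show Sum.elim tsN (W.ts i) l.1 = _
    rw [hl0]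
    rfl
  have hiv : (W.addG i q k NL ivN tsN thN u v).iv i l = ivN l0 := by
    show Sum.elim ivN (W.iv i) l.1 = _
    rw [hl0]
    rfl
  have hlen : (W.E.st.take q).length = q := by
    rw [List.length_take]
    exact min_eq_left hq
  have hst : (W.addG i q k NL ivN tsN thN u v).E.st.take q = W.E.st.take q := by
    show (W.E.st.take q ++ _ :: W.E.st.drop q).take q = _
    rw [List.take_append, hlen, Nat.sub_self, List.take_zero, List.append_nil, List.take_of_length_le (by rw [hlen])]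
  unfold SfMD.T SfMD.pre
  rw [hk', hgb, hpos, hts, hiv, hst]
  exact h l0

/-- **TD8 = ASM**.   PLAN.   `ξ1 = min (a'/4) 1`; `a0`, `n0` from TD5-TD7, TD9, `a0 ≤ min a' (h/4)`, `1 ≤ a' n`.   `Z` from the hypothesis; `X.Ok` by `cy_t_gap` (`Nonempty (Lb j)`: `Str.lb_ne`);
`cy_t_flat`; `thN l = 1_{RN l}`; `W' = W.addG i q k NL ivN tsN thN Z.u Z.v`.   The mask of the new stage is `1_{⋃_G S I G}` (`CyFlat.disj`, `cov`): `W'.E = (W.inq q (sgS k ..)).E` (`congr`, `funext`): `val` by `Z.val`.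
`Str`: `cy_t_addG_str` (`first` + `i_lt`: `i < x`; `q ≤ pos j ≤ pos x`; `k ≤ k j ≤ k x`; `ok` from `fam`; `hne`: `heavy` ⟹ `ms (RN l) > 0` ⟹ `RN l ≠ ∅` (`ms ∅ = 0`);
`hNL`: if `NL` is empty all `⋃_G S I G` are empty (`cov`), the new mask is `0`, every later state is `0` (`gn_tz_normsq_le` + `en` of the mask `0`; `Xp.run` of `0`), `rd = 0`, `val = 0`, against `Z.val`, `hM.inn.val`).
`Pre`: `cy_t_addG_pre` with `|k - k0 - i n| ≤ 1` (`k_eq`, `Nat.floor`), TD5, TD6, TD7 (`thN l x ≠ 0 ↔ x ∈ RN l`).      `Cls (C+1) A`: `cy_fw_ins_cls`.   `SameRoot`, `n`, `CySubLab` (identity): `rfl`.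
`CyKeep`: gates `x ∈ W.G` (`x ≠ i`): every label is `⟨inr l, _⟩`, same `k`, `iv`, `ts`.      `CyHv`: every label of the gate `i` is `⟨inl l, _⟩`; `W'.pre i m = run k m (take q st) v` (`take q (take q st ++ ..) = take q st`); TD9; `s^(C+10) ≤ s^10`, `κ wt ≥ 0`. -/
theorem cy_t_asm (Y : SfCy) (H : CyHyp Y) (hΓ : 0 < Y.M.Gam) (Ls D0 Dst Ds D1 : ℝ) (C0 : ℕ) (hDst : 0 < Dst) (hDs : 0 < Ds) (hD1 : 0 < D1) (hLs : Dst + D1 + Ds + 3 ≤ Ls) :
    CyAsmP Y Ls D0 Dst Ds D1 C0 := by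
  intro h ε0 a' hh hε0 ha'
  obtain ⟨n5, H5⟩ := cy_t_cnt Y H hΓ a' ha'
  obtain ⟨a6, n6, ha6, H6⟩ := cy_t_wr Y Ls Dst D1 a' hDst hD1 (by linarith) ha'
  obtain ⟨a7, n7, ha7, H7⟩ := cy_t_mm Y H Ls Dst Ds D1 a' h hDst hDs hD1 hLs ha' hh
  obtain ⟨n9, H9⟩ := cy_t_hv Y H hΓ
  obtain ⟨nA, hnA⟩ := exists_nat_ge (1 / a')
  refine ⟨min (a' / 4) 1, min (min a6 a7) (min a' (h / 4)), lt_min (by positivity) one_pos,
    lt_min (lt_min ha6 ha7) (lt_min ha' (by positivity)), fun C => ⟨max (max n5 n6) (max (max n7 n9) (max nA 1)), ?_⟩⟩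
  intro A p W i j ε a ξ ξ' τ k q hn hε hεε ha haa hξ hξξ hξ' hξ'ξ hτ hM hF ⟨Z⟩
  have hn5 : n5 ≤ W.E.n := ((le_max_left _ _).trans (le_max_left _ _)).trans hn
  have hn6 : n6 ≤ W.E.n := ((le_max_right _ _).trans (le_max_left _ _)).trans hn
  have hn7 : n7 ≤ W.E.n := (((le_max_left _ _).trans (le_max_left _ _)).trans (le_max_right _ _)).trans hn
  have hn9 : n9 ≤ W.E.n := (((le_max_right _ _).trans (le_max_left _ _)).trans (le_max_right _ _)).trans hn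
  have hnA' : nA ≤ W.E.n := (((le_max_left _ _).trans (le_max_right _ _)).trans (le_max_right _ _)).trans hn
  have hn1 : 1 ≤ W.E.n := (((le_max_right _ _).trans (le_max_right _ _)).trans (le_max_right _ _)).trans hn
  have ha6' : a ≤ a6 := haa.trans ((min_le_left _ _).trans (min_le_left _ _))
  have ha7' : a ≤ a7 := haa.trans ((min_le_left _ _).trans (min_le_right _ _))
  have haa' : a ≤ a' := haa.trans ((min_le_right _ _).trans (min_le_left _ _))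
  have hah : a ≤ h / 4 := haa.trans ((min_le_right _ _).trans (min_le_right _ _))
  have hin := hM.inn
  have hstr := hin.pre.str
  have hE := hstr.valid
  have hgd : Y.M.gd p := hin.cls.1
  have hT : (Y.M.sys p).Tight := H.gen.tight p hgd
  have hj := hin.j_mem
  -- the cut
  have hkj : k ≤ W.k j := by
    have := (cy_t_A_num hin hh hah hn1).1
    rw [hM.k_eq]
    exact this.le
  have hiall : ∀ x ∈ W.G, i < x := fun x hx => lt_of_lt_of_le hin.i_lt (hin.first x hx)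
  have hqall : ∀ x ∈ W.G, q ≤ W.pos x := by
    intro x hx
    rcases eq_or_lt_of_le (hin.first x hx) with h1 | h1
    · rw [← h1]
      exact hM.q_le
    · exact hM.q_le.trans (hstr.k_mono j hj x hx h1).2.le
  have hkall : ∀ x ∈ W.G, k ≤ W.k x := by
    intro x hx
    rcases eq_or_lt_of_le (hin.first x hx) with h1 | h1
    · rw [← h1]
      exact hkj
    · exact hkj.trans (hstr.k_mono j hj x hx h1).1
  have hqlen : q ≤ W.E.st.length := hM.q_le.trans (cy_fw_b_pos_le W hstr hj)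
  -- the gap
  have hθ0 : 0 < W.thr Y p j k ξ := by
    obtain ⟨hr, hf⟩ := hstr.frame.2.2 j hj
    have hka := hE.ka_pos
    unfold SfMD.thr SfMD.kap
    positivity
  have hΛ : 1 ≤ W.E.s ^ (-(2 * ε0)) :=
    Real.one_le_rpow_of_pos_of_le_one_of_nonpos (gn_s_pos W.E) (gn_s_le_one W.E) (by linarith)
  have hgap := cy_t_gap H hM hF hkj (hstr.lb_ne j) (W.thr Y p j k ξ) (W.E.s ^ (-(2 * ε0))) rfl hθ0 hΛ
  have hX : (W.gp Y p j k q ξ ε0).Ok := hgap.1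
  obtain ⟨NL, fNL, ivN, chN, tsN, RN, hFl⟩ := cy_t_flat H Z hX
  -- the leaves
  have h5 := H5 p W i j h a ξ τ Ls ε ε0 ξ' D0 Dst Ds D1 k q C A C0 Z NL fNL ivN chN tsN RN hn5 hξ hξ'
    (by have := hξξ.trans (min_le_left _ _); have := hξ'ξ.trans (min_le_left _ _); linarith) hM hFl
  obtain ⟨hu, hv, h6⟩ := H6 p W i j h a ξ τ ε ε0 ξ' D0 Ds k q C A C0 Z hn6 ha ha6' hM
  have h7 := H7 p W i j a ξ τ ε ε0 ξ' D0 k q C A C0 Z NL ivN chN tsN RN hn7 ha ha7' hε hεε hξ hM hF hFl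
  have h9 := H9 p W i j h a ξ τ Ls ε ε0 ξ' D0 Dst Ds D1 k q C A C0 Z NL ivN chN tsN RN hn9 hξ' (hξ'ξ.trans (min_le_right _ _)) hM hFl
  -- the weights
  obtain ⟨thN, hthN⟩ : ∃ thN : NL → (Y.M.sys p).X → ℝ, thN = fun l => (RN l).indicator fun _ => 1 := ⟨_, rfl⟩
  have hth_ne : ∀ l x, thN l x ≠ 0 → x ∈ RN l := by
    intro l x hx
    rw [hthN] at hx
    exact Set.mem_of_indicator_ne_zero hx
  have hmask : (fun (m : ℕ) (x : (Y.M.sys p).X) => ∑ l, if ivN l = m then thN l x else 0) = fun I => (⋃ G, Z.S I G).indicator fun _ => 1 := by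
    funext m x
    rw [hthN]
    exact cy_td8_mask ivN RN (fun I => ⋃ G, Z.S I G) hFl.disj hFl.cov m x
  have hSm : ∀ I, MeasurableSet (⋃ G, Z.S I G) := fun I => MeasurableSet.iUnion fun G => (Z.cls.meas I G).1
  have hEeq : (W.addG i q k NL ivN tsN thN Z.u Z.v).E = (W.inq q (sgS k fun I => ⋃ G, Z.S I G)).E := by
    show W.E.withSt (W.E.st.take q ++ ⟨k, 0, fun m x => ∑ l, if ivN l = m then thN l x else 0⟩ :: W.E.st.drop q)
      = W.E.withSt (W.E.st.take q ++ sgS k (fun I => ⋃ G, Z.S I G) :: W.E.st.drop q)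
    rw [hmask]
    rfl
  have hval0 : 0 < W.E.val := lt_of_lt_of_le (by positivity) hin.val
  have hvalZ : 0 < (W.inq q (sgS k fun I => ⋃ G, Z.S I G)).E.val :=
    lt_of_lt_of_le (mul_pos (Real.rpow_pos_of_pos (gn_s_pos W.E) _) hval0) Z.val
  have hNL : Nonempty NL := by
    by_contra hemp
    rw [not_nonempty_iff] at hemp
    have h0 : (fun I => (⋃ G, Z.S I G).indicator fun _ => (1 : ℝ)) = fun _ _ => 0 := by
      funext I x
      rw [← hFl.cov I]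
      simp
    have h1 : (W.inq q (sgS k fun I => ⋃ G, Z.S I G)).E.val = 0 := by
      show (W.E.withSt (W.E.st.take q ++ ⟨k, 0, fun I => (⋃ G, Z.S I G).indicator fun _ => (1 : ℝ)⟩ :: W.E.st.drop q)).val = 0
      rw [h0]
      exact cy_td8_zero W.E _ _ k 0
    rw [h1] at hvalZ
    exact lt_irrefl _ hvalZ
  have hokN : ∀ l, (Y.M.sys p).ok (tsN l) k := fun l => (hFl.fam l).1
  have hstr' : (W.addG i q k NL ivN tsN thN Z.u Z.v).Str (Y.tq p) := by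
    refine cy_t_addG_str W hstr i q k NL ivN tsN thN Z.u Z.v hin.i_nn hiall hqall hkall hM.cut ?_ ?_ ?_ ?_ ?_ hokN hFl.wid hu hv ?_ hNL
    · intro l
      rw [hthN]
      exact measurable_const.indicator (hFl.meas l)
    · intro l x
      rw [hthN]
      by_cases hx : x ∈ RN l
      · right
        exact Set.indicator_of_mem hx _
      · left
        exact Set.indicator_of_notMem hx _
    · intro m x
      rw [congrFun (congrFun hmask m) x]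
      exact ((gn_mask_ind (hSm m)).2 x).2
    · intro l x hx
      exact (hFl.sub l).1 (hth_ne l x hx)
    · intro l
      have := hFl.iv l
      exact this
    · intro l
      have h1 : 0 < (Y.M.sys p).ms (tmL k (ivN l)) k 0 (RN l) ((W.gp Y p j k q ξ ε0).ps (ivN l)) :=
        lt_of_le_of_lt (mul_nonneg Z.cls.beta.1.le (hT.wt_pos _ _ (hokN l)).le) (hFl.heavy l)
      have h2 : (RN l).Nonempty := by
        rw [Set.nonempty_iff_ne_empty]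
        intro h3
        rw [h3, gn_ms_empty] at h1
        exact lt_irrefl _ h1
      obtain ⟨x, hx⟩ := h2
      refine ⟨x, ?_⟩
      rw [hthN]
      show (RN l).indicator (fun _ => (1 : ℝ)) x ≠ 0
      rw [Set.indicator_of_mem hx]
      exact one_ne_zero
  have hnn : (0 : ℝ) ≤ W.E.n := Nat.cast_nonneg _
  have han : 1 ≤ a' * W.E.n := by
    have h1 : (nA : ℝ) ≤ W.E.n := by exact_mod_cast hnA'
    have h2 : 1 / a' ≤ W.E.n := hnA.trans h1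
    rw [div_le_iff₀ ha'] at h2
    linarith
  have hdep : |((k : ℝ) - W.E.k0) - i * W.E.n| ≤ a' * W.E.n := by
    have h0 : 0 ≤ i * W.E.n := mul_nonneg hin.i_nn hnn
    have h1 := Nat.floor_le h0
    have h2 := Nat.lt_floor_add_one (i * W.E.n)
    rw [hM.k_eq]
    push_cast
    rw [abs_le]
    constructor <;> linarith
  have hpre' : (W.addG i q k NL ivN tsN thN Z.u Z.v).Pre Y p Y.M.p0 Y.M.d0 Ls ε a' :=
    cy_t_addG_pre W hin.pre haa' i j q k NL ivN tsN thN Z.u Z.v hstr' hiall hj hin.first hdep h5 h6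
      (fun l l' x x' hx hx' hcn => h7 l l' x x' (hth_ne l x hx) hx' hcn)
  refine ⟨W.addG i q k NL ivN tsN thN Z.u Z.v, rfl, rfl, ?_, ⟨rfl, rfl, rfl, rfl, rfl, rfl⟩, rfl,
    ⟨id, Function.injective_id, fun l => ⟨rfl, rfl, fun x => Or.inl rfl⟩⟩, ?_, hpre', cy_td8_keep W i q k NL ivN tsN thN Z.u Z.v hiall, ?_⟩
  · rw [hEeq]
    exact cy_fw_ins_cls Y.M H.gen.root (gn_cls_mono Y.M H.gen.scale (Nat.le_succ C) hin.cls) (Nat.succ_le_succ hin.cls.2.2.1) hM.cut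
      (sgS k fun I => ⋃ G, Z.S I G) rfl (Nat.zero_le _) (fun I => gn_mask_ind (hSm I))
  · rw [hEeq]
    exact Z.val
  · refine cy_td8_hv W i q k NL ivN tsN thN Z.u Z.v (C + 10) hqlen fun l => lt_of_le_of_lt ?_ (h9 l)
    refine mul_le_mul_of_nonneg_right (gn_s_anti W.E ?_) (mul_nonneg hE.ka_pos.le (hT.wt_pos _ _ (hokN l)).le)
    push_cast
    have : (0 : ℝ) ≤ C := Nat.cast_nonneg _
    linarith

/-- **MOVE C** (constants only) -/
theorem cy_t_C (Y : SfCy) (H : CyHyp Y) (Ls D0 Dst Ds D1 : ℝ) (C0 : ℕ) (hS : CySelP Y D0 Dst Ds D1 C0) (hAs : CyAsmP Y Ls D0 Dst Ds D1 C0) : CyStepC Y Ls := by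
  intro h hh
  obtain ⟨ε0, hε0, HS⟩ := hS h hh
  refine ⟨ε0, hε0, fun a' ha' => ?_⟩
  obtain ⟨ξ1, aA, hξ1, haA, HA⟩ := hAs h ε0 a' hh hε0 ha'
  obtain ⟨ξ', hξ'def⟩ : ∃ ξ', ξ' = min ξ1 a' := ⟨_, rfl⟩
  have hξ' : 0 < ξ' := by rw [hξ'def]; exact lt_min hξ1 ha'
  have hξ'1 : ξ' ≤ ξ1 := by rw [hξ'def]; exact min_le_left _ _
  have hξ'2 : ξ' ≤ a' := by rw [hξ'def]; exact min_le_right _ _
  obtain ⟨aS, ξS, τS, haS, hξS, hτS, HS⟩ := HS ξ' hξ'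
  refine ⟨min aA aS, min ξ1 ξS, τS, lt_min haA haS, lt_min hξ1 hξS, hτS, fun C => ?_⟩
  obtain ⟨nA, HA⟩ := HA C
  obtain ⟨AS, nS, HS⟩ := HS C
  refine ⟨C + 10, fun A' => ⟨max AS A', max nA nS, ?_⟩⟩
  intro A p W i j ε a ξ τ k q hA hn hε hεε ha haa hξ hξξ hτ hττ hM hF
  have hZ := HS A p W i j a ξ τ Ls ε k q ((le_max_left _ _).trans hA) ((le_max_right _ _).trans hn) ha (haa.trans (min_le_right _ _)) hξ
    (hξξ.trans (min_le_right _ _)) hτ hττ hM hF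
  obtain ⟨W', g1, g2, g3, g4, g5, g6, g7, g8, g9, g10⟩ := HA A p W i j ε a ξ ξ' τ k q ((le_max_left _ _).trans hn) hε hεε ha
    (haa.trans (min_le_left _ _)) hξ (hξξ.trans (min_le_left _ _)) hξ' hξ'1 hτ hM hF hZ
  refine ⟨W', g1, g2, gn_cls_mono Y.M H.gen.scale (by omega) (gn_cls_anti Y.M H.gen.scale ((le_max_right _ _).trans hA) g3), g4, g5, g6, ?_, g8, g9, g10⟩
  have hv0 : 0 ≤ W.E.val := le_trans (by positivity) hM.inn.val
  exact le_trans (mul_le_mul_of_nonneg_right (gn_s_anti W.E hξ'2) hv0) g7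

/-- **STEP** from the truncated rate -/
theorem cy_t_main (Y : SfCy) (H : CyHyp Y) (hΓ : 0 < Y.M.Gam) (hR : CyTrRate Y) : ∃ Ls : ℝ, 0 < Ls ∧ CyStep Y Ls := by
  have hη := H.eta.1
  obtain ⟨D0, hD0def⟩ : ∃ D0 : ℝ, D0 = 13 / Y.η := ⟨_, rfl⟩
  have hD0 : 0 < D0 := by rw [hD0def]; positivity
  have hD0' : 13 ≤ Y.η * D0 := by
    rw [hD0def, mul_div_cancel₀ _ hη.ne']
  obtain ⟨Dst, Ds, C0, hDst, hDs, hCh⟩ := cy_s_chart H D0 hD0
  obtain ⟨D1, hD1, hP⟩ := cy_s_piece H (cy_s_tiny H hR) Ds hDs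
  have hU := cy_s_upper H Ds D1 hP C0
  refine ⟨Dst + D1 + Ds + 3, by positivity, ?_⟩
  exact cy_t_step Y _ (cy_t_A Y H hΓ) (cy_t_B Y H hΓ)
    (cy_t_C Y H _ D0 Dst Ds D1 C0 (cy_t_sel Y H hΓ D0 Dst Ds D1 C0 hD0' hDst hD1 hCh hU) (cy_t_asm Y H hΓ _ D0 Dst Ds D1 C0 hDst hDs hD1 le_rfl))

end Claimed.Agent.R256
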