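-- KEEP
import Claimed.Agent.R256.Cyl.Fwd

/-!
# Row 256 (LS paper), CYL, unit TOP, file A : SMALL TOOLS          (helper129; prefix `cy_tp_`)

`SameRoot`, `CySubLab` are transitive; the setup `Y.af` in a FIXED frame sees only the root and is monotone in the package and in the tail order; meshes have gaps; `Ext` is monotone in the accuracy.
-/

set_option autoImplicit false

namespace Claimed.Agent.R256

open MeasureTheory

theorem cy_tp_root_trans {P : PkSys} {E E' E'' : Xp P} (h1 : Mdl.SameRoot E E') (h2 : Mdl.SameRoot E' E'') : Mdl.SameRoot E E'' :=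
  ⟨h2.1.trans h1.1, h2.2.1.trans h1.2.1, h2.2.2.1.trans h1.2.2.1, h2.2.2.2.1.trans h1.2.2.2.1, h2.2.2.2.2.1.trans h1.2.2.2.2.1,
    h2.2.2.2.2.2.trans h1.2.2.2.2.2⟩

theorem cy_tp_sub_trans {P : PkSys} {E E' E'' : Xp P} (h1 : CySubLab E E') (h2 : CySubLab E' E'') : CySubLab E E'' := by
  obtain ⟨φ, hφ, H1⟩ := h1
  obtain ⟨ψ, hψ, H2⟩ := h2
  refine ⟨φ ∘ ψ, hφ.comp hψ, fun l => ⟨?_, ?_, fun x => ?_⟩⟩
  · rw [(H2 l).1, (H1 (ψ l)).1]; rfl
  · rw [(H2 l).2.1, (H1 (ψ l)).2.1]; rfl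
  · rcases (H2 l).2.2 x with h | h
    · rcases (H1 (ψ l)).2.2 x with h' | h'
      · left; rw [h, h']; rfl
      · right; rw [h, h']
    · right; exact h

theorem cy_tp_sub_pick {P : PkSys} (E : Xp P) {L' : ℕ} (φ : Fin L' → Fin E.L) (hφ : Function.Injective φ) : CySubLab E (E.pick φ) :=
  ⟨φ, hφ, fun _ => ⟨rfl, rfl, fun _ => Or.inl rfl⟩⟩

theorem cy_tp_sub_st {P : PkSys} (E : Xp P) (st' : List (Stg P)) : CySubLab E (E.withSt st') :=
  ⟨id, Function.injective_id, fun _ => ⟨rfl, rfl, fun _ => Or.inl rfl⟩⟩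

theorem cy_tp_s_eq {P : PkSys} {E E' : Xp P} (hn : E'.n = E.n) : E'.s = E.s := by
  unfold Xp.s
  rw [hn]

/-! ## the setup in a fixed frame -/

theorem cy_tp_base_meas {X : Type} [MeasurableSpace X] {co : X → Cy5} (hco : Measurable fun x => cyVec (co x)) (Q : CyT) (l c : ℝ) :
    MeasurableSet {x : X | c < cyBaseSz Q l (co x)} := by
  have mX : Measurable fun x => (co x).X := hco.fst
  have mB : Measurable fun x => (co x).B := hco.snd.fst
  have mY : Measurable fun x => (co x).Y := hco.snd.snd.fst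
  refine measurableSet_lt measurable_const ?_
  unfold cyBaseSz cyBase cyTilt
  simp only []
  fun_prop

theorem cy_tp_nor_meas {X : Type} [MeasurableSpace X] {co : X → Cy5} (hco : Measurable fun x => cyVec (co x)) (Q : CyT) (l c : ℝ) :
    MeasurableSet {x : X | c < cyNorSz Q l (co x)} := by
  have mX : Measurable fun x => (co x).X := hco.fst
  have mB : Measurable fun x => (co x).B := hco.snd.fst
  have mY : Measurable fun x => (co x).Y := hco.snd.snd.fst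
  have mN : Measurable fun x => (co x).N := hco.snd.snd.snd.fst
  have mD : Measurable fun x => (co x).D := hco.snd.snd.snd.snd
  refine measurableSet_lt measurable_const ?_
  unfold cyNorSz cyNor cyVel cyPos
  simp only []
  fun_prop

/-- `CySet` in a fixed frame sees only the root and the scale; it is monotone in the package and in the tail order -/
theorem cy_tp_set {P : PkSys} {co : ℝ → P.X → Cy5} (hco : ∀ T, Measurable fun x => cyVec (co T x)) {η : ℝ} {jt : Prop} {C A C' A' : ℕ} {E E' : Xp P} {Q0 : CyT}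
    (hs : CySet P co η jt C A E Q0) (hroot : Mdl.SameRoot E E') (hn : E'.n = E.n) (hC : C ≤ C') (hA : A' ≤ A) :
    CySet P co η jt C' A' E' Q0 := by
  obtain ⟨h1, h2, h3, h4, h5, h6⟩ := hroot
  have hss : E'.s = E.s := cy_tp_s_eq hn
  have hCr : (C : ℝ) ≤ C' := by exact_mod_cast hC
  have hAr : (A' : ℝ) ≤ A := by exact_mod_cast hA
  have p1 : E.s ^ (C' : ℝ) ≤ E.s ^ (C : ℝ) := gn_s_anti E hCr
  have p2 : E.s ^ (-(C : ℝ)) ≤ E.s ^ (-(C' : ℝ)) := gn_s_anti E (by linarith)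
  have p3 : E.s ^ (A : ℝ) ≤ E.s ^ (A' : ℝ) := gn_s_anti E hAr
  have p4 : 0 < E.s ^ (A : ℝ) := Real.rpow_pos_of_pos (gn_s_pos E) _
  have p5 : 0 < E.s ^ (-(C : ℝ)) := Real.rpow_pos_of_pos (gn_s_pos E) _
  have he : 0 ≤ E.e := by
    have := (gn_ms_nonneg _ _ _ _ _).trans hs.tail
    exact nonneg_of_mul_nonneg_right this p4
  have hW : 0 ≤ E.ka * cyWt η Q0 := nonneg_of_mul_nonneg_right (he.trans hs.ek_hi) p5
  refine ⟨hs.r_pos, hs.f_pos, ?_, ?_, ?_, ?_, ?_, ?_⟩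
  · rw [h4, h5, hss]
    exact (mul_le_mul_of_nonneg_right p1 hW).trans hs.ek_lo
  · rw [h4, h5, hss]
    exact hs.ek_hi.trans (mul_le_mul_of_nonneg_right p2 hW)
  · rw [h1, h2, h3, h6, hss]
    refine le_antisymm ?_ (gn_ms_nonneg _ _ _ _ _)
    refine le_trans ?_ (le_of_eq hs.supp)
    refine gn_ms_mono _ _ _ (cy_tp_base_meas (hco _) _ _ _) (cy_tp_base_meas (hco _) _ _ _) ?_ _
    intro x hx
    exact lt_of_le_of_lt p2 hx
  · rw [h1, h2, h3, h4, h6, hss]
    refine le_trans ?_ (hs.tail.trans (mul_le_mul_of_nonneg_right p3 he))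
    refine gn_ms_mono _ _ _ (cy_tp_nor_meas (hco _) _ _ _) (cy_tp_nor_meas (hco _) _ _ _) ?_ _
    intro x hx
    exact lt_of_le_of_lt p2 hx
  · intro S hS
    rw [h1, h2, h3, h4, h6, hss]
    refine (hs.dens S hS).trans ?_
    gcongr
  · intro hj S hS
    rw [h1, h2, h3, h4, h6, hss]
    refine (hs.densJ hj S hS).trans ?_
    gcongr

/-- the setup in a fixed frame -/
theorem cy_tp_af {Y : SfCy} (H : CyHyp Y) {C A C' A' : ℕ} {p : Y.M.Par} {E E' : Xp (Y.M.sys p)} {Q0 : CyT} (h : Y.af C A p E Q0)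
    (hroot : Mdl.SameRoot E E') (hn : E'.n = E.n) (hC : C ≤ C') (hA : A' ≤ A) : Y.af C' A' p E' Q0 := by
  obtain ⟨hp, hs, hh⟩ := (H.af_def C A p E Q0).1 h
  refine (H.af_def C' A' p E' Q0).2 ⟨hp, cy_tp_set (H.co_meas p hp) hs hroot hn hC hA, fun hy => ?_⟩
  obtain ⟨a1, a2⟩ := hh hy
  have hss : E'.s = E.s := cy_tp_s_eq hn
  have hCr : (C : ℝ) ≤ C' := by exact_mod_cast hC
  rw [hroot.1, hss]
  exact ⟨(gn_s_anti E hCr).trans a1, a2.trans (gn_s_anti E (by linarith))⟩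

/-! ## meshes -/

theorem cy_tp_gap (G : Finset ℝ) (hG : ∀ i ∈ G, 0 ≤ i) : ∃ h : ℝ, 0 < h ∧ CyGap G h := by
  classical
  set S : Finset ℝ := (((G ×ˢ G).image fun q => q.2 - q.1) ∪ G ∪ {1}).filter fun t => 0 < t with hS
  have h1 : (1 : ℝ) ∈ S := by
    rw [hS, Finset.mem_filter]
    exact ⟨by simp, one_pos⟩
  have hne : S.Nonempty := ⟨1, h1⟩
  refine ⟨S.min' hne, (Finset.mem_filter.1 (S.min'_mem hne)).2, fun i hi j hj hij => ?_, fun i hi => ?_⟩
  · refine Finset.min'_le _ _ ?_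
    rw [hS, Finset.mem_filter]
    refine ⟨?_, by linarith⟩
    refine Finset.mem_union_left _ (Finset.mem_union_left _ ?_)
    exact Finset.mem_image.2 ⟨(i, j), Finset.mem_product.2 ⟨hi, hj⟩, rfl⟩
  · rcases (hG i hi).eq_or_lt with h0 | h0
    · exact Or.inl h0.symm
    · refine Or.inr (Finset.min'_le _ _ ?_)
      rw [hS, Finset.mem_filter]
      exact ⟨Finset.mem_union_left _ (Finset.mem_union_right _ hi), h0⟩

theorem cy_tp_gap_sub {G G' : Finset ℝ} {h : ℝ} (hg : CyGap G h) (hs : G' ⊆ G) : CyGap G' h :=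
  ⟨fun i hi j hj => hg.1 i (hs hi) j (hs hj), fun i hi => hg.2 i (hs hi)⟩

/-! ## `Ext` is monotone in the accuracy -/

theorem cy_tp_ext_mono {Y : SfCy} (hT : ∀ p, Y.M.gd p → (Y.M.sys p).Tight) {p : Y.M.Par} (hp : Y.M.gd p) {W : SfMD (Y.M.sys p)} {pe de Ls ε a a' : ℝ}
    (h : W.Ext Y p pe de Ls ε a) (ha : a ≤ a') : W.Ext Y p pe de Ls ε a' := by
  refine cy_ext_of (cy_fw_pre_mono (cy_pre_of h) ha) (fun i hi => cy_fw_prep_mono hT hp h.str.valid ⟨h.en i hi, h.reg i hi⟩ ha) (fun i hi => ?_)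
  refine le_trans ?_ (h.read i hi)
  have h1 : W.E.s ^ a' ≤ W.E.s ^ a := gn_s_anti W.E ha
  have h2 : 0 ≤ W.E.e := h.str.valid.e_pos.le
  have h3 : 0 ≤ W.E.s ^ (-(de * i)) := (Real.rpow_pos_of_pos (gn_s_pos W.E) _).le
  exact mul_le_mul_of_nonneg_right (mul_le_mul_of_nonneg_right h1 h2) h3

end Claimed.Agent.R256
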