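-- KEEP
import Claimed.Agent.R256.Cyl.TopA

/-!
# Row 256 (LS paper), CYL, unit TOP, file B : THE BACKWARD CHAIN          (helper129; prefix `cy_tp_`)

`CyTpChain Y Ls h ε r` : `r` backward steps (`CyStep`) in a row: the gates `R` (`r` points below all the gates of `W`) are inserted in decreasing order.   Induction on `r`; the accuracies and the near-extremality are chosen backwards.
-/

set_option autoImplicit false

namespace Claimed.Agent.R256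

open MeasureTheory

/-- one backward step at a fixed mesh size and a fixed truncation -/
def CyTpOne (Y : SfCy) (Ls h ε : ℝ) : Prop :=
  ∀ a' : ℝ, 0 < a' → ∃ a τ : ℝ, 0 < a ∧ 0 < τ ∧ ∀ C : ℕ, ∃ C' : ℕ, ∀ A' : ℕ, ∃ A n0 : ℕ,
    ∀ (p : Y.M.Par) (W : SfMD (Y.M.sys p)) (i j : ℝ), n0 ≤ W.E.n → Y.M.Cls C A p W.E → W.G.card ≤ C →
      0 ≤ i → i < j → j ∈ W.G → (∀ k ∈ W.G, j ≤ k) → CyGap (insert i W.G) h →
      W.Pre Y p Y.M.p0 Y.M.d0 Ls ε a → 2 ^ ((Y.M.Gam - τ) * W.E.n) ≤ W.E.val →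
      ∃ W' : SfMD (Y.M.sys p), W'.G = insert i W.G ∧ W'.Q0 = W.Q0 ∧ Y.M.Cls C' A' p W'.E ∧ Mdl.SameRoot W.E W'.E ∧ W'.E.n = W.E.n ∧
        CySubLab W.E W'.E ∧ W.E.s ^ a' * W.E.val ≤ W'.E.val ∧ W'.Pre Y p Y.M.p0 Y.M.d0 Ls ε a'

/-- `r` backward steps -/
def CyTpChain (Y : SfCy) (Ls h ε : ℝ) (r : ℕ) : Prop :=
  ∀ a' : ℝ, 0 < a' → ∃ a τ : ℝ, 0 < a ∧ 0 < τ ∧ ∀ C : ℕ, ∃ C' : ℕ, ∀ A' : ℕ, ∃ A n0 : ℕ,
    ∀ (p : Y.M.Par) (W : SfMD (Y.M.sys p)) (R : Finset ℝ), n0 ≤ W.E.n → Y.M.Cls C A p W.E → W.G.card ≤ C → R.card = r →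
      W.G.Nonempty → (∀ i ∈ R, 0 ≤ i ∧ ∀ k ∈ W.G, i < k) → CyGap (R ∪ W.G) h →
      W.Pre Y p Y.M.p0 Y.M.d0 Ls ε a → 2 ^ ((Y.M.Gam - τ) * W.E.n) ≤ W.E.val →
      ∃ W' : SfMD (Y.M.sys p), W'.G = R ∪ W.G ∧ W'.Q0 = W.Q0 ∧ Y.M.Cls C' A' p W'.E ∧ Mdl.SameRoot W.E W'.E ∧ W'.E.n = W.E.n ∧
        CySubLab W.E W'.E ∧ W.E.s ^ a' * W.E.val ≤ W'.E.val ∧ W'.Pre Y p Y.M.p0 Y.M.d0 Ls ε a'

theorem cy_tp_b_eqns_cite : True := by
  have := @CyTpOne.eq_1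
  have := @CyTpChain.eq_1
  trivial

theorem cy_tp_one {Y : SfCy} {Ls : ℝ} (hS : CyStep Y Ls) (h : ℝ) (hh : 0 < h) : ∃ ε0 : ℝ, 0 < ε0 ∧ CyTpOne Y Ls h ε0 := by
  obtain ⟨ε0, hε0, H⟩ := hS h hh
  refine ⟨ε0, hε0, fun a' ha' => ?_⟩
  obtain ⟨a, τ, ha, hτ, H⟩ := H a' ha'
  refine ⟨a, τ, ha, hτ, fun C => ?_⟩
  obtain ⟨C', H⟩ := H C
  refine ⟨C', fun A' => ?_⟩
  obtain ⟨A, n0, H⟩ := H A'
  refine ⟨A, n0, fun p W i j hn hE hc h1 h2 h3 h4 h5 h6 h7 => ?_⟩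
  obtain ⟨W', g1, g2, g3, g4, g5, g6, g7, g8, -, -⟩ := H p W i j ε0 hn hE hc hε0 le_rfl h1 h2 h3 h4 h5 h6 h7
  exact ⟨W', g1, g2, g3, g4, g5, g6, g7, g8⟩

theorem cy_tp_chain_zero (Y : SfCy) (Ls h ε : ℝ) : CyTpChain Y Ls h ε 0 := by
  intro a' ha'
  refine ⟨a', 1, ha', one_pos, fun C => ⟨C, fun A' => ⟨A', 0, fun p W R _ hE _ hR _ _ _ hpre _ => ?_⟩⟩⟩
  have hR0 : R = ∅ := Finset.card_eq_zero.1 hR
  refine ⟨W, by rw [hR0, Finset.empty_union], rfl, hE, ⟨rfl, rfl, rfl, rfl, rfl, rfl⟩, rfl, ⟨id, Function.injective_id, fun _ => ⟨rfl, rfl, fun _ => Or.inl rfl⟩⟩, ?_, hpre⟩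
  have h1 : W.E.s ^ a' ≤ 1 := Real.rpow_le_one (gn_s_pos W.E).le (gn_s_le_one W.E) ha'.le
  have h2 := gn_val_nonneg W.E hE.2.1
  nlinarith

theorem cy_tp_chain_succ {Y : SfCy} (H : CyHyp Y) {Ls h ε : ℝ} (h1 : CyTpOne Y Ls h ε) {r : ℕ} (ih : CyTpChain Y Ls h ε r) : CyTpChain Y Ls h ε (r + 1) := by
  classical
  intro a' ha'
  obtain ⟨a2, τ2, ha2, hτ2, I⟩ := ih (a' / 2) (by positivity)
  have hb : 0 < min a2 (min (τ2 / 2) (a' / 2)) := lt_min ha2 (lt_min (by positivity) (by positivity))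
  obtain ⟨a, τ1, ha, hτ1, S⟩ := h1 (min a2 (min (τ2 / 2) (a' / 2))) hb
  set b := min a2 (min (τ2 / 2) (a' / 2)) with hbdef
  have b1 : b ≤ a2 := min_le_left _ _
  have b2 : b ≤ τ2 / 2 := (min_le_right _ _).trans (min_le_left _ _)
  have b3 : b ≤ a' / 2 := (min_le_right _ _).trans (min_le_right _ _)
  refine ⟨a, min τ1 (τ2 / 2), ha, lt_min hτ1 (by positivity), fun C => ?_⟩
  obtain ⟨C1, S⟩ := S C
  obtain ⟨C', I⟩ := I (max C1 (C + 1))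
  refine ⟨C', fun A' => ?_⟩
  obtain ⟨A2, n2, I⟩ := I A'
  obtain ⟨A, n1, S⟩ := S A2
  refine ⟨A, max n1 n2, fun p W R hn hE hcard hR hne hlow hgap hpre hval => ?_⟩
  have hRne : R.Nonempty := by
    rw [← Finset.card_pos, hR]
    exact Nat.succ_pos _
  set i := R.max' hRne with hi
  set j := W.G.min' hne with hj
  have hiR : i ∈ R := R.max'_mem hRne
  have hjG : j ∈ W.G := W.G.min'_mem hne
  have hn0 : (0 : ℝ) ≤ (W.E.n : ℝ) := Nat.cast_nonneg _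
  have hsub : insert i W.G ⊆ R ∪ W.G := by
    intro x hx
    rcases Finset.mem_insert.1 hx with rfl | hx
    · exact Finset.mem_union_left _ hiR
    · exact Finset.mem_union_right _ hx
  obtain ⟨W1, hG1, hQ1, hcls1, hroot1, hn1, hsub1, hloss1, hpre1⟩ := S p W i j ((le_max_left _ _).trans hn) hE hcard (hlow i hiR).1 ((hlow i hiR).2 j hjG) hjG
    (fun k hk => W.G.min'_le k hk) (cy_tp_gap_sub hgap hsub) hpre (le_trans (gn_two_mono (by nlinarith [min_le_left τ1 (τ2 / 2)])) hval)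
  have hU : R.erase i ∪ W1.G = R ∪ W.G := by
    rw [hG1]
    ext x
    simp only [Finset.mem_union, Finset.mem_erase, Finset.mem_insert]
    constructor
    · rintro (⟨_, hx⟩ | rfl | hx)
      · exact Or.inl hx
      · exact Or.inl hiR
      · exact Or.inr hx
    · rintro (hx | hx)
      · by_cases hxi : x = i
        · exact Or.inr (Or.inl hxi)
        · exact Or.inl ⟨hxi, hx⟩
      · exact Or.inr (Or.inr hx)
  have hs1 : W1.E.s = W.E.s := cy_tp_s_eq hn1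
  have hval1 : 2 ^ ((Y.M.Gam - τ2) * W1.E.n) ≤ W1.E.val := by
    refine le_trans ?_ hloss1
    rw [hn1, gn_s_rpow]
    refine le_trans ?_ (mul_le_mul_of_nonneg_left hval (gn_two_pos _).le)
    rw [← gn_two_add]
    refine gn_two_mono ?_
    nlinarith [min_le_right τ1 (τ2 / 2)]
  obtain ⟨W2, hG2, hQ2, hcls2, hroot2, hn2, hsub2, hloss2, hpre2⟩ := I p W1 (R.erase i) (by rw [hn1]; exact (le_max_right _ _).trans hn)
    (gn_cls_mono Y.M H.gen.scale (le_max_left _ _) hcls1)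
    (by
      rw [hG1]
      exact (Finset.card_insert_le _ _).trans ((Nat.succ_le_succ hcard).trans (le_max_right _ _)))
    (by rw [Finset.card_erase_of_mem hiR, hR]; rfl)
    (by rw [hG1]; exact Finset.insert_nonempty _ _)
    (fun x hx => by
      have hxR := Finset.mem_of_mem_erase hx
      refine ⟨(hlow x hxR).1, fun k hk => ?_⟩
      rw [hG1] at hk
      rcases Finset.mem_insert.1 hk with rfl | hk
      · exact lt_of_le_of_ne (R.le_max' x hxR) (Finset.ne_of_mem_erase hx)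
      · exact (hlow x hxR).2 k hk)
    (by rw [hU]; exact hgap) (cy_fw_pre_mono hpre1 b1) hval1
  refine ⟨W2, hG2.trans hU, hQ2.trans hQ1, hcls2, cy_tp_root_trans hroot1 hroot2, hn2.trans hn1, cy_tp_sub_trans hsub1 hsub2, ?_, cy_fw_pre_mono hpre2 (by linarith)⟩
  rw [hs1] at hloss2
  have hsp : 0 < W.E.s ^ (a' / 2) := Real.rpow_pos_of_pos (gn_s_pos W.E) _
  have e1 : W.E.s ^ a' = W.E.s ^ (a' / 2) * W.E.s ^ (a' / 2) := by
    rw [← Real.rpow_add (gn_s_pos W.E)]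
    congr 1
    ring
  have e2 : W.E.s ^ (a' / 2) ≤ W.E.s ^ b := gn_s_anti W.E b3
  have hv0 := gn_val_nonneg W.E hE.2.1
  calc W.E.s ^ a' * W.E.val = W.E.s ^ (a' / 2) * (W.E.s ^ (a' / 2) * W.E.val) := by rw [e1]; ring
    _ ≤ W.E.s ^ (a' / 2) * (W.E.s ^ b * W.E.val) := mul_le_mul_of_nonneg_left (mul_le_mul_of_nonneg_right e2 hv0) hsp.le
    _ ≤ W.E.s ^ (a' / 2) * W1.E.val := mul_le_mul_of_nonneg_left hloss1 hsp.le
    _ ≤ W2.E.val := hloss2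

theorem cy_tp_chain {Y : SfCy} (H : CyHyp Y) {Ls h ε : ℝ} (h1 : CyTpOne Y Ls h ε) (r : ℕ) : CyTpChain Y Ls h ε r := by
  induction r with
  | zero => exact cy_tp_chain_zero Y Ls h ε
  | succ r ih => exact cy_tp_chain_succ H h1 ih

end Claimed.Agent.R256
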