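-- KEEP
import Claimed.Agent.R256.Cyl.TopB

/-!
# Row 256 (LS paper), CYL, unit TOP, file C : THE BASE OF THE CHAIN          (helper129; prefix `cy_tp_`)

* `cyTpNz E`            the labels whose weight is not identically `0`; the other labels read nothing (`cy_tp_nz_val`, `cy_tp_nz_tw`).
* `cyTpW0 E Q0 r1 f1`   the document with the single gate `1` = the final assignment of `E`, frame `Q0` with the terminal widths (`cy_tp_w0_str`, `cy_tp_w0_pre`).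
* `cy_tp_heavy`         an experiment with `val ≥ 2^(-n/2)` has a label that is heavy at the floor `s^5 κ`.
* `cy_tp_frame`         POLY for that label + FRM: the frame may be given the terminal widths.
-/

set_option autoImplicit false

namespace Claimed.Agent.R256

open MeasureTheory

open Classical in
/-- the labels with a weight that is not identically zero -/
noncomputable def cyTpNz {P : PkSys} (E : Xp P) : Finset (Fin E.L) := Finset.univ.filter fun l => ∃ x, E.th l x ≠ 0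

/-- the document with the single gate `1` -/
def cyTpW0 {P : PkSys} (E : Xp P) (Q0 : CyT) (r1 f1 : ℝ) : SfMD P where
  E := E
  Q0 := { Q0 with r := r1, f := f1 }
  G := {1}
  k := fun _ => E.kf
  pos := fun _ => E.st.length
  gb := fun _ => E.bT
  Lb := fun _ => Fin E.L
  fLb := fun _ => inferInstance
  iv := fun _ => E.iv
  ts := fun _ => E.ts
  th := fun _ => E.th
  r := fun _ => r1
  f := fun _ => f1

theorem cy_tp_c_eqns_cite : True := by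
  have := @cyTpNz.eq_1
  have := @cyTpW0.eq_1
  trivial

variable {P : PkSys}

theorem cy_tp_nz_tr (E : Xp P) (l : Fin E.L) (hl : l ∉ cyTpNz E) : E.tr l = 0 := by
  classical
  have h0 : ∀ x, E.th l x = 0 := by
    intro x
    by_contra hx
    exact hl (Finset.mem_filter.2 ⟨Finset.mem_univ _, x, hx⟩)
  have hm : E.m l = 0 := by
    unfold Xp.m PkSys.en
    simp [h0]
  unfold Xp.tr
  rw [hm, Real.zero_rpow (by norm_num), zero_div]

theorem cy_tp_nz_val (E : Xp P) : (E.pick (E.sel (cyTpNz E))).val = E.val := by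
  rw [gn_pick_sel_val]
  have : ∑ l ∈ cyTpNz E, E.tr l = ∑ l, E.tr l :=
    Finset.sum_subset (Finset.subset_univ _) fun l _ hl => cy_tp_nz_tr E l hl
  rw [this]
  rfl

theorem cy_tp_nz_tw (E : Xp P) (hE : E.Valid) : (E.pick (E.sel (cyTpNz E))).tw ≤ E.tw := by
  have h1 : (E.pick (E.sel (cyTpNz E))).tw = ∑ l ∈ cyTpNz E, E.w l := by
    rw [← gn_sel_sum E (cyTpNz E) E.w]
    rfl
  rw [h1]
  exact Finset.sum_le_sum_of_subset_of_nonneg (Finset.subset_univ _) fun l _ _ => (hE.w_pos l).le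

theorem cy_tp_nz_ne (E : Xp P) (l : Fin (E.pick (E.sel (cyTpNz E))).L) : ∃ x, (E.pick (E.sel (cyTpNz E))).th l x ≠ 0 := by
  classical
  exact (Finset.mem_filter.1 (gn_sel_mem E (cyTpNz E) l)).2

/-- the structure of the base document -/
theorem cy_tp_w0_str (E : Xp P) (hE : E.Valid) (hL : 0 < E.L) (tq : P.Tst → CyT) (Q0 : CyT) {r1 f1 : ℝ} (hr : 0 < r1) (hf : 0 < f1) (hne : ∀ l, ∃ x, E.th l x ≠ 0)
    (hw : ∀ l, (tq (E.ts l)).r = r1 ∧ (tq (E.ts l)).f = f1) : (cyTpW0 E Q0 r1 f1).Str tq where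
  valid := hE
  gate := ⟨Finset.mem_singleton_self _, fun i hi => by rw [Finset.mem_singleton.1 hi]; norm_num⟩
  k_one := ⟨rfl, rfl, rfl⟩
  k_rg := fun _ _ => ⟨Nat.le_add_right _ _, le_rfl⟩
  k_mono := fun i hi j hj hij => by
    rw [Finset.mem_singleton.1 hi, Finset.mem_singleton.1 hj] at hij
    exact absurd hij (lt_irrefl _)
  stage := fun i hi h1 => by
    rw [Finset.mem_singleton.1 hi] at h1
    exact absurd h1 (lt_irrefl _)
  zero_one := fun i hi h1 => by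
    rw [Finset.mem_singleton.1 hi] at h1
    exact absurd h1 (lt_irrefl _)
  final := ⟨Equiv.refl _, fun _ => ⟨rfl, rfl, rfl⟩⟩
  meas := fun _ _ l => hE.th_meas l
  ne := fun _ _ l => hne l
  lb_ne := fun _ => ⟨⟨0, hL⟩⟩
  nn := fun _ _ l x => hE.th_nn l x
  sum_le := fun _ _ m x => hE.th_sum m x
  supp := fun _ _ l x hx => hE.th_supp l x hx
  iv_in := fun _ _ l => (gn_mem_ivs E.k0 E.i0 E.kf (E.iv l)).2 (hE.iv_in l)
  ok := fun _ _ l => hE.ts_ok l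
  width := fun _ _ l => hw l
  frame := ⟨rfl, rfl, fun _ _ => ⟨hr, hf⟩⟩

/-- (i), (iv) for the base document -/
theorem cy_tp_w0_pre {Y : SfCy} {p : Y.M.Par} (E : Xp (Y.M.sys p)) (hE : E.Valid) (hL : 0 < E.L) (Q0 : CyT) {r1 f1 : ℝ} (hr : 0 < r1) (hf : 0 < f1) (hne : ∀ l, ∃ x, E.th l x ≠ 0)
    (hw : ∀ l, (Y.tq p (E.ts l)).r = r1 ∧ (Y.tq p (E.ts l)).f = f1) {pe de τ a : ℝ} (hτ : τ ≤ a) (ha : 0 ≤ a)
    (hc : E.tw ≤ E.e / E.ka * E.s ^ (-(pe + de) - τ)) (Ls ε : ℝ) : (cyTpW0 E Q0 r1 f1).Pre Y p pe de Ls ε a where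
  str := cy_tp_w0_str E hE hL (Y.tq p) Q0 hr hf hne hw
  depth := fun i hi => by
    rw [Finset.mem_singleton.1 hi]
    have h1 : (((cyTpW0 E Q0 r1 f1).k 1 : ℕ) : ℝ) = (E.k0 : ℝ) + E.n := by
      show ((E.k0 + E.n : ℕ) : ℝ) = _
      push_cast
      ring
    have h2 : (cyTpW0 E Q0 r1 f1).E = E := rfl
    rw [h1, h2]
    have h3 : (E.k0 : ℝ) + E.n - E.k0 - 1 * E.n = 0 := by ring
    rw [h3, abs_zero]
    exact mul_nonneg ha (Nat.cast_nonneg _)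
  cnt := fun i hi => by
    rw [Finset.mem_singleton.1 hi]
    have h1 : ∑ l, (Y.M.sys p).wt ((cyTpW0 E Q0 r1 f1).ts 1 l) = E.tw := rfl
    have h2 : (cyTpW0 E Q0 r1 f1).E = E := rfl
    rw [h1, h2]
    refine hc.trans ?_
    have hek : 0 ≤ E.e / E.ka := (div_pos hE.e_pos hE.ka_pos).le
    have h3 : E.s ^ (-a) * (E.e / E.ka) * E.s ^ (-((pe + de) * 1)) = E.e / E.ka * E.s ^ (-(pe + de) - a) := by
      have : E.s ^ (-(pe + de) - a) = E.s ^ (-a) * E.s ^ (-((pe + de) * 1)) := by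
        rw [← Real.rpow_add (gn_s_pos E)]
        congr 1
        ring
      rw [this]
      ring
    rw [h3]
    exact mul_le_mul_of_nonneg_left (gn_s_anti E (by linarith)) hek
  wr := fun i j hij => by
    obtain ⟨hi, hj, hlt, -⟩ := hij
    rw [Finset.mem_singleton.1 hi, Finset.mem_singleton.1 hj] at hlt
    exact absurd hlt (lt_irrefl _)
  mm := fun i j hij => by
    obtain ⟨hi, hj, hlt, -⟩ := hij
    rw [Finset.mem_singleton.1 hi, Finset.mem_singleton.1 hj] at hlt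
    exact absurd hlt (lt_irrefl _)

/-- a heavy label -/
theorem cy_tp_heavy (hT : P.Tight) (E : Xp P) (hE : E.Valid) (hn : 1 ≤ E.n) (hv : 2 ^ (-((E.n : ℝ) / 2)) ≤ E.val) :
    ∃ l, E.s ^ (5 : ℝ) * (E.ka * E.w l) < E.m l := by
  by_contra hcon
  push Not at hcon
  have h1 := gn_val_le_ratio hT E hE (Real.rpow_pos_of_pos (gn_s_pos E) _).le hcon
  rw [gn_s_rpow, gn_two_sqrt, ← gn_two_add] at h1
  have h2 := hv.trans h1
  have h3 : (1 : ℝ) ≤ E.n := by exact_mod_cast hn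
  have h4 : (2 : ℝ) ^ (3 * (E.n : ℝ) / 2 + -(5 * (E.n : ℝ)) / 2) < 2 ^ (-((E.n : ℝ) / 2)) :=
    Real.rpow_lt_rpow_of_exponent_lt (by norm_num) (by linarith)
  linarith

/-- the stack of a member of the class -/
theorem cy_tp_stok {M : Mdl} {C A : ℕ} {p : M.Par} {E : Xp (M.sys p)} (hE : M.Cls C A p E) : StOk E.k0 E.kf C C E.st :=
  ⟨hE.2.2.1, hE.2.1.st_dep, hE.2.1.st_mono, hE.2.2.2.1.2.2, fun σ hσ i => ⟨hE.2.1.st_meas σ hσ i, hE.2.1.st_bd σ hσ i⟩⟩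

/-- **the frame with the terminal widths** -/
theorem cy_tp_frame {Y : SfCy} (H : CyHyp Y) (hF : CyFrm Y) (C : ℕ) :
    ∃ C1 Ap np : ℕ, ∀ (A : ℕ) (p : Y.M.Par) (E : Xp (Y.M.sys p)) (r1 f1 : ℝ), Ap ≤ A → np ≤ E.n → Y.M.Cls C A p E →
      (∀ l, (Y.tq p (E.ts l)).r = r1 ∧ (Y.tq p (E.ts l)).f = f1) → 2 ^ (-((E.n : ℝ) / 2)) ≤ E.val →
      0 < r1 ∧ 0 < f1 ∧ ∃ Q0 : CyT, Y.af C1 A p E { Q0 with r := r1, f := f1 } := by
  obtain ⟨D', Ap, np, HP⟩ := H.poly C 5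
  obtain ⟨C1, HF⟩ := hF C D'
  refine ⟨C1, Ap, max np 1, fun A p E r1 f1 hA hn hE hw hv => ?_⟩
  have hT := H.gen.tight p hE.1
  obtain ⟨Q0, hQ0⟩ := (H.af_iff C A p E hE.1).1 hE.2.2.2.2
  obtain ⟨l, hl⟩ := cy_tp_heavy hT E hE.2.1 ((le_max_right _ _).trans hn) hv
  have hok := (H.ok p (E.ts l) E.kf).1 (hE.2.1.ts_ok l)
  rw [(hw l).1, (hw l).2] at hok
  have hset := ((H.af_def C A p E Q0).1 hQ0).2.1
  have hb := HP p E Q0 ((le_max_left _ _).trans hn) (gn_cls_anti Y.M H.gen.scale hA hE) (cy_tp_af H hQ0 ⟨rfl, rfl, rfl, rfl, rfl, rfl⟩ rfl le_rfl hA)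
    E.kf (E.iv l) E.bT E.st (E.ts l) (Nat.le_add_right _ _) le_rfl (hE.2.1.iv_in l) hE.2.2.2.1.2.1 (cy_tp_stok hE) (hE.2.1.ts_ok l)
    (lt_of_lt_of_le hl (gn_m_le_ms hT E hE.2.1 l))
  obtain ⟨-, b1, b2, b3, b4⟩ := hb
  have e1 : (cyNrm (tmL E.k0 E.i0) E.k0 Q0 (tmL E.kf (E.iv l)) (Y.tq p (E.ts l))).r = r1 / Q0.r := by
    rw [← (hw l).1]; rfl
  have e2 : (cyNrm (tmL E.k0 E.i0) E.k0 Q0 (tmL E.kf (E.iv l)) (Y.tq p (E.ts l))).f = f1 / Q0.f := by
    rw [← (hw l).2]; rfl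
  rw [e1] at b1 b2
  rw [e2] at b3 b4
  have e3 : (E.s ^ (D' : ℝ))⁻¹ = E.s ^ (-(D' : ℝ)) := (Real.rpow_neg (gn_s_pos E).le _).symm
  rw [e3] at b2 b4
  refine ⟨hok.1, hok.2.1, Q0, HF A p E Q0 r1 f1 hQ0 ((le_div_iff₀ hset.r_pos).1 b1) ((div_le_iff₀ hset.r_pos).1 b2) ((le_div_iff₀ hset.f_pos).1 b3)
    ((div_le_iff₀ hset.f_pos).1 b4)⟩

end Claimed.Agent.R256
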