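-- KEEP
import Claimed.Agent.R256.Cyl.TopC

/-!
# Row 256 (LS paper), CYL, unit TOP : Prop. cyl:matched-chain FROM STEP, FWD, POLY, FRM          (helper129; prefix `cy_tp_`)

EXIT `cy_tp_main : CyHyp Y → (∃ Ls > 0, CyStep Y Ls) → CyForward Y → CyFrm Y → CyMatched Y`   (= the contract `cy_matched` of `Cyl/Contract.lean`).      NO `sorry` in `TopA`, `TopB`, `TopC`, `Top`.
 1. labels with the weight `0` are dropped (`cyTpNz`);  2. a heavy label + POLY + FRM: the frame gets the terminal widths (`cy_tp_frame`);  3. the base document `cyTpW0` (single gate `1`);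
 4. the gates `F \ {1}` are inserted in decreasing order (`cy_tp_chain`);  5. forward preparation of ALL the gates (`CyForward` with `is = -1`);  6. the setup in the fixed frame sees only the root (`cy_tp_af`).
-/

set_option autoImplicit false

namespace Claimed.Agent.R256

open MeasureTheory

/-- **TOP** -/
theorem cy_tp_main (Y : SfCy) (H : CyHyp Y) (hS : ∃ Ls : ℝ, 0 < Ls ∧ CyStep Y Ls) (hW : CyForward Y) (hF : CyFrm Y) : CyMatched Y := by
  classical
  obtain ⟨Ls, hLs, hS⟩ := hS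
  refine ⟨Ls, hLs, fun F hF01 => ?_⟩
  -- the mesh
  have hG0 : ∀ i ∈ insert (1 : ℝ) F, 0 ≤ i := by
    intro i hi
    rcases Finset.mem_insert.1 hi with rfl | hi
    · exact zero_le_one
    · exact (hF01 i hi).1
  obtain ⟨h, hh, hgap⟩ := cy_tp_gap (insert 1 F) hG0
  obtain ⟨ε0, hε0, hone⟩ := cy_tp_one hS h hh
  refine ⟨ε0, hε0, fun a ha => ?_⟩
  set R : Finset ℝ := F.erase 1 with hR
  have hRU : R ∪ {1} = insert 1 F := by
    ext x
    simp only [hR, Finset.mem_union, Finset.mem_erase, Finset.mem_singleton, Finset.mem_insert]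
    constructor
    · rintro (⟨_, hx⟩ | hx)
      · exact Or.inr hx
      · exact Or.inl hx
    · rintro (hx | hx)
      · exact Or.inr hx
      · by_cases h1 : x = 1
        · exact Or.inr h1
        · exact Or.inl ⟨h1, hx⟩
  -- the accuracies
  obtain ⟨a1, τF, ha1, hτF, HW⟩ := hW h (a / 2) hh (by positivity)
  have hb : 0 < min a1 (min (τF / 2) (a / 2)) := lt_min ha1 (lt_min (by positivity) (by positivity))
  obtain ⟨ac, τc, hac, hτc, HC⟩ := cy_tp_chain H hone R.card (min a1 (min (τF / 2) (a / 2))) hb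
  set b := min a1 (min (τF / 2) (a / 2)) with hbdef
  have b1 : b ≤ a1 := min_le_left _ _
  have b2 : b ≤ τF / 2 := (min_le_right _ _).trans (min_le_left _ _)
  have b3 : b ≤ a / 2 := (min_le_right _ _).trans (min_le_right _ _)
  set τ := min (min τc (τF / 2)) (min ac (1 / 2)) with hτdef
  have t1 : τ ≤ τc := (min_le_left _ _).trans (min_le_left _ _)
  have t2 : τ ≤ τF / 2 := (min_le_left _ _).trans (min_le_right _ _)
  have t3 : τ ≤ ac := (min_le_right _ _).trans (min_le_left _ _)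
  have t4 : τ ≤ 1 / 2 := (min_le_right _ _).trans (min_le_right _ _)
  refine ⟨τ, lt_min (lt_min hτc (by positivity)) (lt_min hac (by norm_num)), fun C => ?_⟩
  -- the packages
  obtain ⟨C1, Ap, np, HFr⟩ := cy_tp_frame H hF C
  obtain ⟨C3, HC⟩ := HC (max C 1)
  obtain ⟨C5, HW⟩ := HW (max C3 (R.card + 1))
  refine ⟨max C5 C1, fun A' => ?_⟩
  obtain ⟨A5, n5, HW⟩ := HW A'
  obtain ⟨A3, n3, HC⟩ := HC A5
  refine ⟨max (max A3 Ap) A', max (max n3 n5) np, fun p E r1 f1 hn hE hw hcnt hval => ?_⟩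
  set A := max (max A3 Ap) A' with hA
  have hA3 : A3 ≤ A := (le_max_left _ _).trans (le_max_left _ _)
  have hAp : Ap ≤ A := (le_max_right _ _).trans (le_max_left _ _)
  have hA' : A' ≤ A := le_max_right _ _
  have hn3 : n3 ≤ E.n := ((le_max_left _ _).trans (le_max_left _ _)).trans hn
  have hn5 : n5 ≤ E.n := ((le_max_right _ _).trans (le_max_left _ _)).trans hn
  have hnp : np ≤ E.n := (le_max_right _ _).trans hn
  have hn0 : (0 : ℝ) ≤ (E.n : ℝ) := Nat.cast_nonneg _
  have hΓ0 := Y.M.bs_gam_nonneg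
  have hT := H.gen.tight
  -- the frame
  obtain ⟨hr1, hf1, Q0, hQ0⟩ := HFr A p E r1 f1 hAp hnp hE hw (le_trans (gn_two_mono (by nlinarith)) hval)
  -- the base
  set E0 := E.pick (E.sel (cyTpNz E)) with hE0
  have hinj := gn_sel_inj E (cyTpNz E)
  have hE0c : Y.M.Cls C A p E0 := gn_cls_pick Y.M H.gen.root hE _ hinj
  have hv0 : E0.val = E.val := cy_tp_nz_val E
  have hL0 : 0 < E0.L := cy_fw_label E0 (by rw [hv0]; exact lt_of_lt_of_le (gn_two_pos _) hval)
  have hpre0 : (cyTpW0 E0 Q0 r1 f1).Pre Y p Y.M.p0 Y.M.d0 Ls ε0 ac :=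
    cy_tp_w0_pre E0 hE0c.2.1 hL0 Q0 hr1 hf1 (cy_tp_nz_ne E) (fun l => hw _) t3 hac.le ((cy_tp_nz_tw E hE.2.1).trans hcnt) Ls ε0
  -- the chain
  obtain ⟨W1, hG1, hQ1, hcls1, hroot1, hn1, hsub1, hloss1, hpre1⟩ := HC p (cyTpW0 E0 Q0 r1 f1) R hn3
    (gn_cls_mono Y.M H.gen.scale (le_max_left _ _) (gn_cls_anti Y.M H.gen.scale hA3 hE0c)) (le_max_right _ _) rfl (Finset.singleton_nonempty _)
    (fun i hi => by
      have hiF := Finset.mem_of_mem_erase hi
      refine ⟨(hF01 i hiF).1, fun k hk => ?_⟩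
      rw [Finset.mem_singleton.1 hk]
      exact lt_of_le_of_ne (hF01 i hiF).2 (Finset.ne_of_mem_erase hi))
    (by
      have : (cyTpW0 E0 Q0 r1 f1).G = {1} := rfl
      rw [this, hRU]
      exact hgap)
    hpre0 (by
      show 2 ^ ((Y.M.Gam - τc) * (E.n : ℝ)) ≤ E0.val
      rw [hv0]
      exact le_trans (gn_two_mono (by nlinarith)) hval)
  have hG1' : W1.G = insert 1 F := by
    rw [hG1]
    exact hRU
  have hn1' : W1.E.n = E.n := hn1
  have hroot1' : Mdl.SameRoot E W1.E := hroot1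
  have hs1 : W1.E.s = E.s := cy_tp_s_eq hn1'
  have hloss1' : E.s ^ b * E.val ≤ W1.E.val := by
    have : (cyTpW0 E0 Q0 r1 f1).E.s ^ b * (cyTpW0 E0 Q0 r1 f1).E.val = E.s ^ b * E.val := by
      rw [← hv0]
      rfl
    rw [← this]
    exact hloss1
  have hval1 : 2 ^ ((Y.M.Gam - τF) * W1.E.n) ≤ W1.E.val := by
    refine le_trans ?_ hloss1'
    rw [hn1', gn_s_rpow]
    refine le_trans ?_ (mul_le_mul_of_nonneg_left hval (gn_two_pos _).le)
    rw [← gn_two_add]
    exact gn_two_mono (by nlinarith)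
  -- the forward preparation
  obtain ⟨st', pos', -, -, hcls2, hloss2, hext⟩ := HW p W1 Ls ε0 (-1) (by rw [hn1']; exact hn5)
    (gn_cls_mono Y.M H.gen.scale (le_max_left _ _) hcls1)
    (by
      rw [hG1]
      refine (Finset.card_union_le _ _).trans ?_
      exact le_max_right _ _)
    (by rw [hG1']; exact hgap) (cy_fw_pre_mono hpre1 b1) hval1
    (fun i hi his => by
      rw [hG1'] at hi
      have := hG0 i hi
      linarith)
  refine ⟨{ W1 with E := W1.E.withSt st', pos := pos' }, hG1', gn_cls_mono Y.M H.gen.scale (le_max_left _ _) hcls2, ?_, hroot1', hn1', ?_, ?_,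
    cy_tp_ext_mono hT hE.1 hext (by linarith)⟩
  · have hQ : W1.Q0 = { Q0 with r := r1, f := f1 } := hQ1
    show Y.af (max C5 C1) A' p (W1.E.withSt st') W1.Q0
    rw [hQ]
    exact cy_tp_af H hQ0 hroot1' hn1' (le_max_right _ _) hA'
  · exact cy_tp_sub_trans (cy_tp_sub_trans (cy_tp_sub_pick E _ hinj) hsub1) (cy_tp_sub_st _ _)
  · show E.s ^ a * E.val ≤ (W1.E.withSt st').val
    rw [hs1] at hloss2
    have hsp : 0 < E.s ^ (a / 2) := Real.rpow_pos_of_pos (gn_s_pos E) _
    have e1 : E.s ^ a = E.s ^ (a / 2) * E.s ^ (a / 2) := by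
      rw [← Real.rpow_add (gn_s_pos E)]
      congr 1
      ring
    have e2 : E.s ^ (a / 2) ≤ E.s ^ b := gn_s_anti E b3
    have hv := gn_val_nonneg E hE.2.1
    calc E.s ^ a * E.val = E.s ^ (a / 2) * (E.s ^ (a / 2) * E.val) := by rw [e1]; ring
      _ ≤ E.s ^ (a / 2) * (E.s ^ b * E.val) := mul_le_mul_of_nonneg_left (mul_le_mul_of_nonneg_right e2 hv) hsp.le
      _ ≤ E.s ^ (a / 2) * W1.E.val := mul_le_mul_of_nonneg_left hloss1' hsp.le
      _ ≤ (W1.E.withSt st').val := hloss2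

end Claimed.Agent.R256
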