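-- KEEP
import Claimed.Agent.R256.Cyl.Defs
import Claimed.Agent.R256.Cyl.Frm
import Claimed.Agent.R256.Cyl.InstCl
import Claimed.Agent.R256.Cyl.InstHy
import Claimed.Agent.R256.Hyb.Jit
import Claimed.Agent.R256.Cyl.Fwd
import Claimed.Agent.R256.Cyl.Top
import Claimed.Agent.R256.Cyl.Fcr
import Claimed.Agent.R256.Cyl.StepD

/-!
# Row 256 (LS paper), CYL = sec. 2A : THE EXIT THEOREMS          (chief helper255; prefix `cy_`)

Definitions, bundle, exits as `Prop`s: `Cyl/Defs.lean` (ALL UNITS IMPORT `Cyl.Defs`, NEVER THIS FILE).   This file imports the units and links them.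
 `cyHypCl`, `cy_jit_cl`  ← `Cyl/InstCl.lean` (helper180)      | `cyHypHy` ← `Cyl/InstHy.lean`, `cy_jit_hy` ← `Hyb/Jit*.lean` (helper82), `Cyl/HyJitF.lean` (helper86)      | `cy_frm` ← `Cyl/Frm.lean` (helper152, proved)
 `cy_trrate` ← `Cyl/Fcr*.lean` (helper120)      | `cy_forward` ← `Cyl/Fwd.lean` (helper129)      | `cy_step` ← `Cyl/Step*.lean` (helper255)      | `cy_extr`, `cy_matched`: leaves EXTR, TOP (prove in place)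
-/

set_option autoImplicit false

namespace Claimed.Agent.R256

open MeasureTheory

/-- **INST-CL** -/
noncomputable def cyHypCl (η : ℝ) (h0 : 0 < η) (h1 : η < 1) : CyHyp (sfCl η) := cyClHyp η h0 h1

theorem cy_jit_cl (η : ℝ) (_h0 : 0 < η) (_h1 : η < 1) : CyJit (sfCl η) := cy_cl_jit η

/-- **INST-HY** -/
noncomputable def cyHypHy (η : ℝ) (h0 : 0 < η) (h1 : η < 1) : CyHyp (sfHy η) := cyHyHyp η h0 h1

theorem cy_jit_hy (η : ℝ) (_h0 : 0 < η) (_h1 : η < 1) : CyJit (sfHy η) := hj_main η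

theorem cy_ex_round {x : ℝ} (hx : 0 < x) : ∃ a : ℤ, x ≤ (2 : ℝ) ^ a ∧ (2 : ℝ) ^ a ≤ 2 * x := by
  obtain ⟨n, h1, h2⟩ := exists_mem_Ioc_zpow hx (one_lt_two : (1 : ℝ) < 2)
  refine ⟨n + 1, h2, ?_⟩
  rw [zpow_add_one₀ (two_ne_zero : (2 : ℝ) ≠ 0)]
  linarith

theorem cy_ex_in {Q : CyT} {l r' f' : ℝ} {z : Cy5} (hl : 0 ≤ l) (hr : 0 ≤ Q.r) (h1 : Q.r ≤ r') (h2 : Q.f ≤ f') (hz : cyIn Q l z) :
    cyIn { Q with r := r', f := f' } l z := by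
  obtain ⟨z1, z2, z3, z4, z5⟩ := hz
  refine ⟨z1.trans h1, z2.trans (mul_le_mul_of_nonneg_left h1 hl), ?_, ?_, ?_⟩
  · show |cyTilt Q z| ≤ l * r' ^ 2
    exact z3.trans (mul_le_mul_of_nonneg_left (pow_le_pow_left₀ hr h1 2) hl)
  · show |cyVel Q z| ≤ f'
    exact z4.trans h2
  · show |cyPos Q z| ≤ l * f'
    exact z5.trans (mul_le_mul_of_nonneg_left h2 hl)

theorem cy_ex_rng {x0 : ℝ} (hx0 : 0 < x0) (N : ℕ) : ∃ a0 : ℤ, ∀ a : ℤ, ((2 : ℝ) ^ N)⁻¹ * x0 ≤ (2 : ℝ) ^ a → (2 : ℝ) ^ a ≤ (2 : ℝ) ^ N * x0 →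
    a ∈ Finset.Icc (a0 - N + 1) (a0 + N + 1) := by
  obtain ⟨a0, h1, h2⟩ := exists_mem_Ioc_zpow hx0 (one_lt_two : (1 : ℝ) < 2)
  refine ⟨a0, fun a ha1 ha2 => ?_⟩
  rw [Finset.mem_Icc]
  constructor
  · have t : (2 : ℝ) ^ (a0 - (N : ℤ)) < (2 : ℝ) ^ a := by
      calc (2 : ℝ) ^ (a0 - (N : ℤ)) = ((2 : ℝ) ^ N)⁻¹ * 2 ^ a0 := by
            rw [zpow_sub₀ (two_ne_zero : (2 : ℝ) ≠ 0), zpow_natCast, div_eq_mul_inv, mul_comm]
        _ < ((2 : ℝ) ^ N)⁻¹ * x0 := mul_lt_mul_of_pos_left h1 (by positivity)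
        _ ≤ _ := ha1
    have := (zpow_lt_zpow_iff_right₀ (one_lt_two : (1 : ℝ) < 2)).mp t
    omega
  · have t : (2 : ℝ) ^ a ≤ (2 : ℝ) ^ ((N : ℤ) + (a0 + 1)) := by
      calc (2 : ℝ) ^ a ≤ (2 : ℝ) ^ N * x0 := ha2
        _ ≤ (2 : ℝ) ^ N * 2 ^ (a0 + 1) := mul_le_mul_of_nonneg_left h2 (by positivity)
        _ = _ := by rw [zpow_add₀ (two_ne_zero : (2 : ℝ) ≠ 0) (N : ℤ) (a0 + 1), zpow_natCast]
    have := (zpow_le_zpow_iff_right₀ (one_lt_two : (1 : ℝ) < 2)).mp t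
    omega

theorem cy_ex_gen {P : PkSys} (E : Xp P) (hE : E.Valid) (ts' : Fin E.L → P.Tst)
    (hok : ∀ l, P.ok (ts' l) E.kf) (hw1 : ∀ l, E.w l ≤ P.wt (ts' l)) (hw2 : ∀ l, P.wt (ts' l) ≤ 16 * E.w l)
    (hsupp : ∀ l, P.cell (E.ts l) (tmL E.kf (E.iv l)) E.kf ⊆ P.cell (ts' l) (tmL E.kf (E.iv l)) E.kf)
    (cls : Fin E.L → ℤ × ℤ) (T : Finset (ℤ × ℤ)) (hT : ∀ l, cls l ∈ T) (hTne : T.Nonempty) :
    ∃ (t : ℤ × ℤ) (E' : Xp P), E'.Valid ∧ Mdl.SameRoot E E' ∧ E'.n = E.n ∧ E'.st = E.st ∧ E'.bT = E.bT ∧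
      (∀ l', ∃ l, cls l = t ∧ E'.ts l' = ts' l ∧ E'.m l' = E.m l) ∧ E.val ≤ 4 * T.card * E'.val := by
  classical
  have hV : ({ E with ts := ts' } : Xp P).Valid :=
    ⟨hE.e_pos, hE.ka_pos, hE.budget, hE.plat, hE.reg, hE.st_dep, hE.st_mono, hE.st_meas, hE.st_bd, hE.iv_in, hok,
      fun l => lt_of_lt_of_le (hE.w_pos l) (hw1 l), hE.th_meas, hE.th_nn, fun l x hx => hsupp l (hE.th_supp l x hx), hE.th_sum⟩
  have htr : ∀ l, E.tr l ≤ 4 * ({ E with ts := ts' } : Xp P).tr l := by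
    intro l
    show E.m l ^ (3 / 2 : ℝ) / Real.sqrt (E.w l) ≤ 4 * (E.m l ^ (3 / 2 : ℝ) / Real.sqrt (P.wt (ts' l)))
    have h0 := hE.w_pos l
    have h0' : 0 < P.wt (ts' l) := lt_of_lt_of_le h0 (hw1 l)
    have h1 : Real.sqrt (P.wt (ts' l)) ≤ 4 * Real.sqrt (E.w l) := by
      calc Real.sqrt (P.wt (ts' l)) ≤ Real.sqrt (16 * E.w l) := Real.sqrt_le_sqrt (hw2 l)
        _ = 4 * Real.sqrt (E.w l) := by
          rw [Real.sqrt_mul (by norm_num), show (16 : ℝ) = 4 ^ 2 by norm_num, Real.sqrt_sq (by norm_num)]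
    have h2 : 0 < Real.sqrt (E.w l) := Real.sqrt_pos.mpr h0
    have h3 : 0 < Real.sqrt (P.wt (ts' l)) := Real.sqrt_pos.mpr h0'
    have h4 : 0 ≤ E.m l ^ (3 / 2 : ℝ) := Real.rpow_nonneg (gn_m_nonneg' E hE l) _
    rw [div_le_iff₀ h2, mul_assoc, div_mul_eq_mul_div, mul_div_assoc', le_div_iff₀ h3]
    nlinarith
  have hsum : ∑ t ∈ T, ∑ l ∈ Finset.univ.filter (fun l => cls l = t), ({ E with ts := ts' } : Xp P).tr l
      = ∑ l, ({ E with ts := ts' } : Xp P).tr l := Finset.sum_fiberwise_of_maps_to (fun l _ => hT l) _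
  have hc0 : (0 : ℝ) < T.card := by exact_mod_cast hTne.card_pos
  obtain ⟨t, ht, hle⟩ := Finset.exists_le_of_sum_le hTne (f := fun _ => (∑ l, ({ E with ts := ts' } : Xp P).tr l) / T.card)
    (g := fun t => ∑ l ∈ Finset.univ.filter (fun l => cls l = t), ({ E with ts := ts' } : Xp P).tr l) (by
      rw [hsum, Finset.sum_const, nsmul_eq_mul, mul_div_cancel₀ _ hc0.ne'])
  refine ⟨t, ({ E with ts := ts' } : Xp P).pick (({ E with ts := ts' } : Xp P).sel (Finset.univ.filter (fun l => cls l = t))),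
    gn_pick_valid' _ hV _ (gn_sel_inj _ _), ⟨rfl, rfl, rfl, rfl, rfl, rfl⟩, rfl, rfl, rfl, ?_, ?_⟩
  · intro l'
    refine ⟨({ E with ts := ts' } : Xp P).sel (Finset.univ.filter (fun l => cls l = t)) l', ?_, rfl, rfl⟩
    have := gn_sel_mem ({ E with ts := ts' } : Xp P) (Finset.univ.filter (fun l => cls l = t)) l'
    exact (Finset.mem_filter.mp this).2
  · rw [gn_pick_sel_val]
    show 2 ^ ((E.n : ℝ) / 2) / (E.e * Real.sqrt E.ka) * (∑ l, E.tr l) ≤ 4 * T.card * (2 ^ ((E.n : ℝ) / 2) / (E.e * Real.sqrt E.ka) * _)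
    have hc : 0 ≤ (2 : ℝ) ^ ((E.n : ℝ) / 2) / (E.e * Real.sqrt E.ka) := by
      have := hE.e_pos
      positivity
    have e1 : ∑ l, E.tr l ≤ 4 * ∑ l, ({ E with ts := ts' } : Xp P).tr l := by
      rw [Finset.mul_sum]
      exact Finset.sum_le_sum fun l _ => htr l
    rw [div_le_iff₀ hc0] at hle
    have e2 := mul_le_mul_of_nonneg_left (e1.trans (mul_le_mul_of_nonneg_left hle (by norm_num))) hc
    refine e2.trans (le_of_eq ?_)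
    ring

/-- **EXTR** -/
theorem cy_extr (Y : SfCy) (H : CyHyp Y) (hΓ : 0 < Y.M.Gam) : CyExtr Y := by
  intro ξ τ hξ hτ
  obtain ⟨C, hext⟩ := gn_ext Y.M _ H.gen hΓ (ξ / 2) (τ / 2) (half_pos hξ) (half_pos hτ)
  refine ⟨C, fun A n0 => ?_⟩
  obtain ⟨D, hD⟩ := exists_nat_gt (Y.M.p0 + ξ)
  obtain ⟨D', A1, n1, hpoly⟩ := H.poly C D
  obtain ⟨n2, hn2⟩ := gn_absorb_poly (2 * D') 4 (τ / 2) (half_pos hτ)
  obtain ⟨n3, hn3⟩ := gn_absorb 16 (ξ / 2) (half_pos hξ)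
  obtain ⟨p, E, hn, hcls, hhom, hval⟩ := hext (max A A1) (max (max n0 n1) (max (max n2 n3) 1))
  have hn0 : n0 ≤ E.n := le_trans (le_trans (le_max_left _ _) (le_max_left _ _)) hn
  have hn1 : n1 ≤ E.n := le_trans (le_trans (le_max_right _ _) (le_max_left _ _)) hn
  have hn2' : n2 ≤ E.n := le_trans (le_trans (le_trans (le_max_left _ _) (le_max_left _ _)) (le_max_right _ _)) hn
  have hn3' : n3 ≤ E.n := le_trans (le_trans (le_trans (le_max_right _ _) (le_max_left _ _)) (le_max_right _ _)) hn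
  have hn4 : 1 ≤ E.n := le_trans (le_trans (le_max_right _ _) (le_max_right _ _)) hn
  have hclsA : Y.M.Cls C A p E := gn_cls_anti Y.M H.gen.scale (le_max_left _ _) hcls
  have hclsA1 : Y.M.Cls C A1 p E := gn_cls_anti Y.M H.gen.scale (le_max_right _ _) hcls
  have hgd : Y.M.gd p := hcls.1
  have hE : E.Valid := hcls.2.1
  have hT := H.gen.tight p hgd
  obtain ⟨Q0, haf⟩ := (H.af_iff C A1 p E hgd).mp hclsA1.2.2.2.2
  have hset := ((H.af_def C A1 p E Q0).mp haf).2.1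
  have hs0 := gn_s_pos E
  have hs1 : E.s < 1 := by
    unfold Xp.s
    exact pow_lt_one₀ (by norm_num) (by norm_num) (by omega)
  have hok : ∀ l, 0 < (Y.tq p (E.ts l)).r ∧ 0 < (Y.tq p (E.ts l)).f ∧ Y.dl p E.kf ≤ (Y.tq p (E.ts l)).f :=
    fun l => (H.ok p _ _).mp (hE.ts_ok l)
  choose a ha using fun l => cy_ex_round (hok l).1
  choose c hc using fun l => cy_ex_round (hok l).2.1
  obtain ⟨ts', hts'⟩ : ∃ ts' : Fin E.L → (Y.M.sys p).Tst,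
      ∀ l, ts' l = H.mkT p { Y.tq p (E.ts l) with r := (2 : ℝ) ^ a l, f := (2 : ℝ) ^ c l } := ⟨_, fun _ => rfl⟩
  have htq : ∀ l, Y.tq p (ts' l) = { Y.tq p (E.ts l) with r := (2 : ℝ) ^ a l, f := (2 : ℝ) ^ c l } := fun l => by
    rw [hts', H.tq_mk]
  have hpa : ∀ l, (0 : ℝ) < (2 : ℝ) ^ a l := fun l => zpow_pos (by norm_num) _
  have hpc : ∀ l, (0 : ℝ) < (2 : ℝ) ^ c l := fun l => zpow_pos (by norm_num) _
  have hok' : ∀ l, (Y.M.sys p).ok (ts' l) E.kf := by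
    intro l
    rw [H.ok, htq]
    exact ⟨hpa l, hpc l, (hok l).2.2.trans (hc l).1⟩
  have hw1 : ∀ l, E.w l ≤ (Y.M.sys p).wt (ts' l) := by
    intro l
    unfold Xp.w
    rw [H.wt, H.wt, htq]
    have := cy_frm_wt H.eta one_pos (hpa l) (hpc l) (hok l).1 (hok l).2.1 (by rw [one_mul]; exact (ha l).1) (by rw [one_mul]; exact (hc l).1)
    rw [one_pow, one_mul] at this
    exact this
  have hw2 : ∀ l, (Y.M.sys p).wt (ts' l) ≤ 16 * E.w l := by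
    intro l
    unfold Xp.w
    rw [H.wt, H.wt, htq]
    have := cy_frm_wt H.eta two_pos (hok l).1 (hok l).2.1 (hpa l) (hpc l) (ha l).2 (hc l).2
    rw [show (2 : ℝ) ^ 4 = 16 by norm_num] at this
    exact this
  have hsupp : ∀ l, (Y.M.sys p).cell (E.ts l) (tmL E.kf (E.iv l)) E.kf ⊆ (Y.M.sys p).cell (ts' l) (tmL E.kf (E.iv l)) E.kf := by
    intro l x hx
    rw [H.cell] at hx ⊢
    rw [htq]
    exact cy_ex_in (by positivity) (hok l).1.le (ha l).1 (hc l).1 hx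
  have hka := hE.ka_pos
  have hw0 : ∀ l, 0 < (Y.M.sys p).wt (ts' l) := fun l => lt_of_lt_of_le (hE.w_pos l) (hw1 l)
  have h16 : 16 * E.s ^ (ξ / 2) ≤ 1 := by
    rw [gn_s_rpow, gn_two_neg, ← div_eq_mul_inv, div_le_one (gn_two_pos _)]
    exact hn3 E.n hn3'
  have hlo : ∀ l, E.ka * (Y.M.sys p).wt (ts' l) * E.s ^ (Y.M.p0 + ξ) ≤ E.m l := by
    intro l
    refine le_trans ?_ (hhom l).1
    have e1 : E.s ^ (Y.M.p0 + ξ) = E.s ^ (Y.M.p0 + ξ / 2) * E.s ^ (ξ / 2) := by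
      rw [← Real.rpow_add hs0]
      congr 1
      ring
    have hp : 0 < E.s ^ (Y.M.p0 + ξ / 2) := Real.rpow_pos_of_pos hs0 _
    have hq : 0 < E.s ^ (ξ / 2) := Real.rpow_pos_of_pos hs0 _
    rw [e1]
    calc E.ka * (Y.M.sys p).wt (ts' l) * (E.s ^ (Y.M.p0 + ξ / 2) * E.s ^ (ξ / 2))
        ≤ E.ka * (16 * E.w l) * (E.s ^ (Y.M.p0 + ξ / 2) * E.s ^ (ξ / 2)) :=
          mul_le_mul_of_nonneg_right (mul_le_mul_of_nonneg_left (hw2 l) hka.le) (by positivity)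
      _ = E.ka * E.w l * E.s ^ (Y.M.p0 + ξ / 2) * (16 * E.s ^ (ξ / 2)) := by ring
      _ ≤ E.ka * E.w l * E.s ^ (Y.M.p0 + ξ / 2) * 1 :=
          mul_le_mul_of_nonneg_left h16 (mul_nonneg (mul_nonneg hka.le (hE.w_pos l).le) hp.le)
      _ = _ := mul_one _
  have hhi : ∀ l, E.m l ≤ E.ka * (Y.M.sys p).wt (ts' l) * E.s ^ (Y.M.p0 - ξ) := by
    intro l
    refine (hhom l).2.trans ?_
    exact mul_le_mul (mul_le_mul_of_nonneg_left (hw1 l) hka.le) (gn_s_anti E (by linarith)) (Real.rpow_pos_of_pos hs0 _).le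
      (mul_nonneg hka.le (hw0 l).le)
  have hbd : ∀ l, CyBdd (E.s ^ (D' : ℝ)) (cyNrm (tmL E.k0 E.i0) E.k0 Q0 (tmL E.kf (E.iv l)) (Y.tq p (ts' l))) := by
    intro l
    refine hpoly p E Q0 hn1 hclsA1 haf E.kf (E.iv l) E.bT E.st (ts' l) (Nat.le_add_right _ _) le_rfl (hE.iv_in l) hcls.2.2.2.1.2.1
      ⟨hcls.2.2.1, hE.st_dep, hE.st_mono, hcls.2.2.2.1.2.2, fun σ hσ i => ⟨hE.st_meas σ hσ i, hE.st_bd σ hσ i⟩⟩ (hok' l) ?_
    have e1 : E.s ^ (D : ℝ) < E.s ^ (Y.M.p0 + ξ) := Real.rpow_lt_rpow_of_exponent_gt hs0 hs1 hD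
    calc E.s ^ (D : ℝ) * (E.ka * (Y.M.sys p).wt (ts' l)) < E.s ^ (Y.M.p0 + ξ) * (E.ka * (Y.M.sys p).wt (ts' l)) :=
          mul_lt_mul_of_pos_right e1 (mul_pos hka (hw0 l))
      _ = E.ka * (Y.M.sys p).wt (ts' l) * E.s ^ (Y.M.p0 + ξ) := by ring
      _ ≤ E.m l := hlo l
      _ ≤ _ := gn_m_le_ms hT E hE l
      _ ≤ _ := gn_ms_mono _ _ _ (hT.cellM _ _ _) (hT.cellM _ _ _) (hsupp l) _
  have esD : E.s ^ (D' : ℝ) = ((2 : ℝ) ^ (D' * E.n))⁻¹ := by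
    rw [Real.rpow_natCast]
    unfold Xp.s
    rw [← pow_mul, inv_pow, mul_comm]
  obtain ⟨a0, ha0⟩ := cy_ex_rng hset.r_pos (D' * E.n)
  obtain ⟨c0, hc0⟩ := cy_ex_rng hset.f_pos (D' * E.n)
  have hTm : ∀ l, (a l, c l) ∈ Finset.Icc (a0 - ((D' * E.n : ℕ) : ℤ) + 1) (a0 + ((D' * E.n : ℕ) : ℤ) + 1) ×ˢ
      Finset.Icc (c0 - ((D' * E.n : ℕ) : ℤ) + 1) (c0 + ((D' * E.n : ℕ) : ℤ) + 1) := by
    intro l
    obtain ⟨-, b1, b2, b3, b4⟩ := hbd l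
    rw [htq, esD] at b1 b2 b3 b4
    rw [inv_inv] at b2 b4
    have b1' : ((2 : ℝ) ^ (D' * E.n))⁻¹ ≤ (2 : ℝ) ^ a l / Q0.r := b1
    have b2' : (2 : ℝ) ^ a l / Q0.r ≤ (2 : ℝ) ^ (D' * E.n) := b2
    have b3' : ((2 : ℝ) ^ (D' * E.n))⁻¹ ≤ (2 : ℝ) ^ c l / Q0.f := b3
    have b4' : (2 : ℝ) ^ c l / Q0.f ≤ (2 : ℝ) ^ (D' * E.n) := b4
    rw [le_div_iff₀ hset.r_pos] at b1'
    rw [div_le_iff₀ hset.r_pos] at b2'
    rw [le_div_iff₀ hset.f_pos] at b3'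
    rw [div_le_iff₀ hset.f_pos] at b4'
    exact Finset.mem_product.mpr ⟨ha0 _ b1' b2', hc0 _ b3' b4'⟩
  have hcard : ((Finset.Icc (a0 - ((D' * E.n : ℕ) : ℤ) + 1) (a0 + ((D' * E.n : ℕ) : ℤ) + 1) ×ˢ
      Finset.Icc (c0 - ((D' * E.n : ℕ) : ℤ) + 1) (c0 + ((D' * E.n : ℕ) : ℤ) + 1)).card : ℝ) = ((2 * D' * E.n + 1 : ℕ) : ℝ) ^ 2 := by
    rw [Finset.card_product, Int.card_Icc, Int.card_Icc]
    have e1 : (a0 + ((D' * E.n : ℕ) : ℤ) + 1 + 1 - (a0 - ((D' * E.n : ℕ) : ℤ) + 1)).toNat = 2 * D' * E.n + 1 := by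
      have : a0 + ((D' * E.n : ℕ) : ℤ) + 1 + 1 - (a0 - ((D' * E.n : ℕ) : ℤ) + 1) = ((2 * D' * E.n + 1 : ℕ) : ℤ) := by
        push_cast
        ring
      rw [this, Int.toNat_natCast]
    have e2 : (c0 + ((D' * E.n : ℕ) : ℤ) + 1 + 1 - (c0 - ((D' * E.n : ℕ) : ℤ) + 1)).toNat = 2 * D' * E.n + 1 := by
      have : c0 + ((D' * E.n : ℕ) : ℤ) + 1 + 1 - (c0 - ((D' * E.n : ℕ) : ℤ) + 1) = ((2 * D' * E.n + 1 : ℕ) : ℤ) := by
        push_cast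
        ring
      rw [this, Int.toNat_natCast]
    rw [e1, e2, Nat.cast_mul, sq]
  have hTne : (Finset.Icc (a0 - ((D' * E.n : ℕ) : ℤ) + 1) (a0 + ((D' * E.n : ℕ) : ℤ) + 1) ×ˢ
      Finset.Icc (c0 - ((D' * E.n : ℕ) : ℤ) + 1) (c0 + ((D' * E.n : ℕ) : ℤ) + 1)).Nonempty := by
    rw [← Finset.card_pos]
    have : (0 : ℝ) < ((Finset.Icc (a0 - ((D' * E.n : ℕ) : ℤ) + 1) (a0 + ((D' * E.n : ℕ) : ℤ) + 1) ×ˢ
      Finset.Icc (c0 - ((D' * E.n : ℕ) : ℤ) + 1) (c0 + ((D' * E.n : ℕ) : ℤ) + 1)).card : ℝ) := by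
      rw [hcard]
      positivity
    exact_mod_cast this
  obtain ⟨t, E', hV', hroot, hn', hst', hbT', hlab, hvv⟩ := cy_ex_gen E hE ts' hok' hw1 hw2 hsupp (fun l => (a l, c l)) _ hTm hTne
  rw [hcard] at hvv
  have hs' : E'.s = E.s := by
    unfold Xp.s
    rw [hn']
  refine ⟨p, E', (2 : ℝ) ^ t.1, (2 : ℝ) ^ t.2, by rw [hn']; exact hn0, ⟨hgd, hV', by rw [hst']; exact hclsA.2.2.1, ?_,
    H.gen.root C A p E E' hclsA.2.2.2.2 hroot hn'⟩, ?_, ?_, ?_⟩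
  · refine ⟨by rw [hroot.2.2.2.2.2]; exact hclsA.2.2.2.1.1, by rw [hbT']; exact hclsA.2.2.2.1.2.1, ?_⟩
    rw [hst']
    exact hclsA.2.2.2.1.2.2
  · intro l'
    obtain ⟨l, -, h2, h3⟩ := hlab l'
    unfold Xp.w
    rw [h2, h3, hs', hroot.2.2.2.2.1]
    exact ⟨hlo l, hhi l⟩
  · rw [hn']
    have hv0 := gn_val_nonneg E' hV'
    have e1 : (4 : ℝ) * ((2 * D' * E.n + 1 : ℕ) : ℝ) ^ 2 ≤ 2 ^ (τ / 2 * E.n) := by
      refine le_trans ?_ (hn2 E.n hn2')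
      have h1 : (1 : ℝ) ≤ ((2 * D' * E.n + 1 : ℕ) : ℝ) := by
        exact_mod_cast Nat.le_add_left 1 _
      exact mul_le_mul_of_nonneg_left (pow_le_pow_right₀ h1 (by norm_num)) (by norm_num)
    have e2 : (2 : ℝ) ^ ((Y.M.Gam - τ / 2) * E.n) = 2 ^ (τ / 2 * E.n) * 2 ^ ((Y.M.Gam - τ) * E.n) := by
      rw [← gn_two_add]
      congr 1
      ring
    have e3 : (2 : ℝ) ^ (τ / 2 * E.n) * 2 ^ ((Y.M.Gam - τ) * E.n) ≤ 2 ^ (τ / 2 * E.n) * E'.val := by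
      rw [← e2]
      exact hval.trans (hvv.trans (mul_le_mul_of_nonneg_right e1 hv0))
    exact le_of_mul_le_mul_left e3 (gn_two_pos _)
  · intro l'
    obtain ⟨l, h1, h2, -⟩ := hlab l'
    rw [h2, htq, ← h1]
    exact ⟨rfl, rfl⟩

/-- **FCR** -/
theorem cy_trrate (Y : SfCy) (H : CyHyp Y) (J : CyJit Y) : CyTrRate Y := by
  intro Ds hDs
  obtain ⟨D1, hD1, h1⟩ := cy_fc_main Y H J Ds hDs
  refine ⟨D1, hD1, fun C ε hε => ?_⟩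
  obtain ⟨ε1, A, n0, hε1, h2⟩ := h1 C ε hε
  refine ⟨ε1, A, n0, hε1, fun p E Qs b hp hn hE hst hgen hr hf hb he1 he2 hPl => ?_⟩
  refine h2 p E Qs b hp hn hE hst hgen hr hf hb he1 he2 (fun hy => (hPl hy).1) ?_
  cases hy : Y.hyb with
  | true => exact (hPl hy).2
  | false =>
    rw [H.H_cl hy p]
    simp

/-- **STEP** -/
theorem cy_step (Y : SfCy) (H : CyHyp Y) (J : CyJit Y) (hΓ : 0 < Y.M.Gam) : ∃ Ls : ℝ, 0 < Ls ∧ CyStep Y Ls :=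
  cy_t_main Y H hΓ (cy_trrate Y H J)

/-- **FWD** -/
theorem cy_forward (Y : SfCy) (H : CyHyp Y) (hΓ : 0 < Y.M.Gam) : CyForward Y := cy_fw_main Y H hΓ

/-- **FWD with visible gates** -/
theorem cy_forwardV (Y : SfCy) (H : CyHyp Y) (hΓ : 0 < Y.M.Gam) : CyForwardV Y := cy_fw_mainV Y H hΓ

/-- **TOP** -/
theorem cy_matched (Y : SfCy) (H : CyHyp Y) (J : CyJit Y) (hΓ : 0 < Y.M.Gam) : CyMatched Y :=
  cy_tp_main Y H (cy_step Y H J hΓ) (cy_forward Y H hΓ) (cy_frm Y H)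

end Claimed.Agent.R256
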