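-- KEEP
import Claimed.Agent.R256.Cyl.Frm
import Claimed.Agent.R256.Cyl.Nrm
import Claimed.Agent.R256.Cyl.TopA

/-!
# Row 256 (LS paper), CYL : FRM2 = FULL polynomial change of the frame (centre + shear + widths)          (architect helper163; prefix `cy_f2_`; request of helper105 for GE, msg 35040)

`q = cyNrm T0 k0 Q0 T0 Q1 : SfTest` = the parameters of the NEW frame `Q1` in the OLD frame `Q0` (both at the root cut `(T0, k0)`).   The normalised coordinates change by the triangular polynomial map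
`cyPh q : CyU → CyU`,   `u' = cyPh q u`:
 `u'₁ = (u₁ - x)/r`,  `u'₂ = (u₂ - b)/r`,  `u'₃ = (u₃ - y - 2x(u₂ - b))/r²`,  `u'₄ = (u₄ - c - αu₁ - βu₁² - K(u₃ - 2u₁u₂))/f`,  `u'₅ = (u₅ - d - αu₂ - βu₃ + Ku₂²)/f`
with the Jacobians `r⁻⁴` (base) and `r⁻⁴f⁻²` (all).      EXITS:
* `cy_frm2`  `Y.af C A p E Q0`, `1 ≤ E.n`, `CyBdd (s^D) q`  ⟹  `Y.af (2C+6D+3) A p E Q1`      (`1 ≤ E.n` is NECESSARY: at `s = 1` a shifted unit box is not in the unit box)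
* `cy_frm3`  a test that is heavy on the root state at a polynomial floor is a frame.
LEAVES: F2-A `cy_f2_u` (done);  F2-B `cy_f2_phB_vol`, `cy_f2_ph_vol`;  F2-C `cy_f2_base_le`, `cy_f2_nor_le`;  F2-D1 `cy_f2_set_ek`;  F2-D2 `cy_f2_base_pt`, `cy_f2_nor_pt`;  F2-D3 `cy_f2_set_dens`, `cy_f2_set_densJ`;  F2-E `cy_f2_planck`;  F2-F `cy_frm3`.
-/

set_option autoImplicit false

namespace Claimed.Agent.R256

open MeasureTheory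

/-- change of the normalised base coordinates -/
noncomputable def cyPhB (q : SfTest) (u : ℝ × ℝ × ℝ) : ℝ × ℝ × ℝ :=
  ((u.1 - q.x) / q.r, (u.2.1 - q.b) / q.r, (u.2.2 - q.y - 2 * q.x * (u.2.1 - q.b)) / q.r ^ 2)

/-- change of the normalised normal coordinates over the base point `u` -/
noncomputable def cyPhN (q : SfTest) (u : ℝ × ℝ × ℝ) (w : ℝ × ℝ) : ℝ × ℝ :=
  ((w.1 - q.c - q.al * u.1 - q.be * u.1 ^ 2 - q.K * (u.2.2 - 2 * u.1 * u.2.1)) / q.f,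
    (w.2 - q.d - q.al * u.2.1 - q.be * u.2.2 + q.K * u.2.1 ^ 2) / q.f)

/-- change of the normalised coordinates -/
noncomputable def cyPh (q : SfTest) (u : CyU) : CyU := (cyPhB q u.1, cyPhN q u.1 u.2)

theorem cy_f2_eqns_cite : True := by
  have := @cyPhB.eq_1
  have := @cyPhN.eq_1
  have := @cyPh.eq_1
  trivial

/-! ## F2-A : algebra -/

/-- **F2-A**.   PLAN: `unfold cyU cyPh cyPhB cyPhN cyNrm SfFrame.tst sfFrameOf sfTestAt SfFrame.bc SfFrame.yc SfTest.beAt cyBase cyNor cyTilt cyVel cyPos`; `simp only [Prod.mk.injEq, sub_self, zero_mul, add_zero]`; five identities by `field_simp; ring`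
(`l = 2⁻¹^k0 > 0`: generalise it first).   Alternative: `sf_frame_aux_five` at `φ = sfFrameOf T0 l Q0`, `Q = sfTestAt T0 Q1`, `z = sfRayAt T0 z` + `cy_nr_ray`. -/
theorem cy_f2_u (T0 : ℝ) (k0 : ℕ) (Q0 Q1 : CyT) (hr : 0 < Q0.r) (hf : 0 < Q0.f) (hr1 : 0 < Q1.r) (hf1 : 0 < Q1.f) (z : Cy5) :
    cyU Q1 ((2 : ℝ)⁻¹ ^ k0) z = cyPh (cyNrm T0 k0 Q0 T0 Q1) (cyU Q0 ((2 : ℝ)⁻¹ ^ k0) z) := by
  obtain ⟨l, hl, hl0⟩ : ∃ l : ℝ, l = (2 : ℝ)⁻¹ ^ k0 ∧ 0 < l := ⟨_, rfl, by positivity⟩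
  rw [← hl]
  have hr' := hr.ne'
  have hf' := hf.ne'
  have hr1' := hr1.ne'
  have hf1' := hf1.ne'
  have hl' := hl0.ne'
  unfold cyU cyPh cyPhB cyPhN cyNrm SfFrame.tst sfFrameOf sfTestAt SfFrame.bc SfFrame.yc SfTest.beAt cyBase cyNor cyTilt cyVel cyPos
  simp only [Prod.mk.injEq, sub_self, zero_mul, add_zero, ← hl]
  refine ⟨⟨?_, ?_, ?_⟩, ?_, ?_⟩
  · field_simp
    ring
  · field_simp
    ring
  · field_simp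
    ring
  · field_simp
    ring
  · field_simp
    ring

/-! ## F2-B : Jacobians -/

theorem cy_f2_phB_meas (q : SfTest) : Measurable (cyPhB q) := by
  unfold cyPhB
  fun_prop

theorem cy_f2_ph_meas (q : SfTest) : Measurable (cyPh q) := by
  unfold cyPh cyPhB cyPhN
  fun_prop

/-- **F2-B1**.   PLAN: as `cy_nr_th_vol`: `cy_nr_j_skew` on `ℝ × (ℝ × ℝ)` with `f y = r⁻¹ * (y + (-x))` (`cy_nr_j_line_map`) and, for every `u₁`, `cy_nr_j_plane r⁻¹ (r²)⁻¹ (-b)` with `g u₂ = -y - 2x(u₂ - b)`; rewrite `cyPhB q` in that form by `funext`, `div_eq_inv_mul`, `ring`. -/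
theorem cy_f2_phB_vol (q : SfTest) (hr : 0 < q.r) (S : Set (ℝ × ℝ × ℝ)) (hS : MeasurableSet S) :
    volume (cyPhB q ⁻¹' S) = ENNReal.ofReal (q.r ^ 4) * volume S := by
  have hr1 : 0 < q.r⁻¹ := inv_pos.mpr hr
  have hr2 : 0 < (q.r ^ 2)⁻¹ := by positivity
  have key := cy_nr_j_skew (volume : Measure ℝ) (volume : Measure (ℝ × ℝ)) (fun y => q.r⁻¹ * (y + (-q.x))) (by fun_prop)
    (fun _ p => (q.r⁻¹ * (p.1 + (-q.b)), (q.r ^ 2)⁻¹ * (p.2 + (-q.y - 2 * q.x * (p.1 - q.b))))) (by fun_prop) _ _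
    (cy_nr_j_line_map q.r⁻¹ (-q.x) hr1)
    (fun _ A hA => cy_nr_j_plane q.r⁻¹ (q.r ^ 2)⁻¹ (-q.b) hr1 hr2 (fun x => -q.y - 2 * q.x * (x - q.b)) (by fun_prop) A hA) S hS
  have e : cyPhB q = fun p : ℝ × ℝ × ℝ =>
      (q.r⁻¹ * (p.1 + (-q.x)), (q.r⁻¹ * (p.2.1 + (-q.b)), (q.r ^ 2)⁻¹ * (p.2.2 + (-q.y - 2 * q.x * (p.2.1 - q.b))))) := by
    funext p
    unfold cyPhB
    simp only [div_eq_inv_mul, Prod.mk.injEq]
    exact ⟨by ring, by ring, by ring⟩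
  rw [e, Measure.volume_eq_prod ℝ (ℝ × ℝ), key]
  congr 1
  rw [← ENNReal.ofReal_mul (by positivity), ← ENNReal.ofReal_mul (by positivity)]
  congr 1
  rw [inv_inv, inv_inv]
  ring

/-- **F2-B2**.   PLAN: as `cy_nr_th5_vol`: `cy_nr_j_skew` on `(ℝ × ℝ × ℝ) × (ℝ × ℝ)` with `f = cyPhB q` (`Measure.map f volume = ofReal (r⁴) • volume` from F2-B1) and `G u = cyPhN q u`; for fixed `u` the map `cyPhN q u` is
`(w₁,w₂) ↦ (f⁻¹(w₁ + c₁), f⁻¹(w₂ + c₂))`: `cy_nr_j_plane f⁻¹ f⁻¹ c₁` with the constant `g = c₂`. -/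
theorem cy_f2_ph_vol (q : SfTest) (hr : 0 < q.r) (hf : 0 < q.f) (S : Set CyU) (hS : MeasurableSet S) :
    volume (cyPh q ⁻¹' S) = ENNReal.ofReal (q.r ^ 4 * q.f ^ 2) * volume S := by
  have hmap : Measure.map (cyPhB q) volume = ENNReal.ofReal (q.r ^ 4) • (volume : Measure (ℝ × ℝ × ℝ)) := by
    ext A hA
    rw [Measure.map_apply (cy_f2_phB_meas q) hA, cy_f2_phB_vol q hr A hA, Measure.smul_apply, smul_eq_mul]
  have hf1 : 0 < q.f⁻¹ := inv_pos.mpr hf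
  have key := cy_nr_j_skew (volume : Measure (ℝ × ℝ × ℝ)) (volume : Measure (ℝ × ℝ)) (cyPhB q) (cy_f2_phB_meas q)
    (fun u p => (q.f⁻¹ * (p.1 + (-q.c - q.al * u.1 - q.be * u.1 ^ 2 - q.K * (u.2.2 - 2 * u.1 * u.2.1))),
      q.f⁻¹ * (p.2 + (-q.d - q.al * u.2.1 - q.be * u.2.2 + q.K * u.2.1 ^ 2)))) (by fun_prop) _ _ hmap
    (fun u A hA => cy_nr_j_plane q.f⁻¹ q.f⁻¹ (-q.c - q.al * u.1 - q.be * u.1 ^ 2 - q.K * (u.2.2 - 2 * u.1 * u.2.1)) hf1 hf1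
      (fun _ => -q.d - q.al * u.2.1 - q.be * u.2.2 + q.K * u.2.1 ^ 2) measurable_const A hA) S hS
  have e : cyPh q = fun p : CyU => (cyPhB q p.1,
      (q.f⁻¹ * (p.2.1 + (-q.c - q.al * p.1.1 - q.be * p.1.1 ^ 2 - q.K * (p.1.2.2 - 2 * p.1.1 * p.1.2.1))),
        q.f⁻¹ * (p.2.2 + (-q.d - q.al * p.1.2.1 - q.be * p.1.2.2 + q.K * p.1.2.1 ^ 2)))) := by
    funext p
    unfold cyPh cyPhN
    simp only [div_eq_inv_mul, Prod.mk.injEq, true_and]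
    exact ⟨by ring, by ring⟩
  rw [e, Measure.volume_eq_prod (ℝ × ℝ × ℝ) (ℝ × ℝ), key]
  congr 1
  rw [← ENNReal.ofReal_mul (by positivity), ← ENNReal.ofReal_mul (by positivity)]
  congr 1
  rw [inv_inv]
  ring

/-! ## F2-C : sizes -/

/-- division by a width `≥ 1/v` -/
theorem cy_f2_div_le {a r v B : ℝ} (hv : 1 ≤ v) (hr : v⁻¹ ≤ r) (ha : |a| ≤ B) : |a / r| ≤ B * v := by
  have hv0 : 0 < v := by linarith
  have hr0 : 0 < r := lt_of_lt_of_le (inv_pos.2 hv0) hr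
  have h1 : r⁻¹ ≤ v := by
    rw [inv_le_comm₀ hr0 hv0]
    exact hr
  rw [abs_div, abs_of_pos hr0, div_eq_mul_inv]
  exact mul_le_mul ha h1 (inv_pos.2 hr0).le ((abs_nonneg _).trans ha)

/-- the eight parameters of a test are bounded by its size -/
theorem cy_f2_size {q : SfTest} {v : ℝ} (hq : q.size ≤ v) :
    |q.x| ≤ v ∧ |q.b| ≤ v ∧ |q.y| ≤ v ∧ |q.c| ≤ v ∧ |q.d| ≤ v ∧ |q.al| ≤ v ∧ |q.be| ≤ v ∧ |q.K| ≤ v := by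
  unfold SfTest.size at hq
  simp only [max_le_iff] at hq
  obtain ⟨h1, h2, h3, h4, h5, h6, h7, h8⟩ := hq
  exact ⟨h1, h2, h3, h4, h5, h6, h7, h8⟩

/-- **F2-C1**.   `|u'₁|, |u'₂| ≤ (W + v) v ≤ 2Wv²`,  `|u'₃| ≤ (W + v + 2v(W + v)) v² ≤ 6Wv⁴`.   (`|a / r| ≤ |a| v` from `v⁻¹ ≤ r`; the eight parameters are `≤ v` by `le_max_*` chains from `SfTest.size`.) -/
theorem cy_f2_base_le (q : SfTest) (v W : ℝ) (hv : 1 ≤ v) (hW : 1 ≤ W) (hq : q.size ≤ v) (hr : v⁻¹ ≤ q.r) (u : ℝ × ℝ × ℝ)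
    (hu : max |u.1| (max |u.2.1| |u.2.2|) ≤ W) :
    max |(cyPhB q u).1| (max |(cyPhB q u).2.1| |(cyPhB q u).2.2|) ≤ 6 * v ^ 4 * W := by
  obtain ⟨hx, hb, hy, -, -, -, -, -⟩ := cy_f2_size hq
  simp only [max_le_iff] at hu
  obtain ⟨hu1, hu2, hu3⟩ := hu
  have hv0 : 0 < v := by linarith
  have hv2 : 1 ≤ v ^ 2 := one_le_pow₀ hv
  have hvv : v ≤ v ^ 2 := by nlinarith
  have hWv : 0 ≤ (W - 1) * (v ^ 2 - 1) := mul_nonneg (by linarith) (by linarith)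
  have hWv' : 0 ≤ (W - 1) * (v - 1) := mul_nonneg (by linarith) (by linarith)
  have hWvv : 0 ≤ W * (v ^ 2 - v) := mul_nonneg (by linarith) (by linarith)
  have a1 : |u.1 - q.x| ≤ W + v := (abs_sub _ _).trans (add_le_add hu1 hx)
  have a2 : |u.2.1 - q.b| ≤ W + v := (abs_sub _ _).trans (add_le_add hu2 hb)
  have a3 : |q.x * (u.2.1 - q.b)| ≤ v * (W + v) := by
    rw [abs_mul]
    exact mul_le_mul hx a2 (abs_nonneg _) hv0.le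
  have a4 : |u.2.2 - q.y - 2 * q.x * (u.2.1 - q.b)| ≤ W + v + 2 * (v * (W + v)) := by
    have := abs_le.1 a3
    have := abs_le.1 hu3
    have := abs_le.1 hy
    rw [abs_le]
    constructor <;> nlinarith
  have hr2 : (v ^ 2)⁻¹ ≤ q.r ^ 2 := by
    rw [← inv_pow]
    exact pow_le_pow_left₀ (inv_pos.2 hv0).le hr 2
  have b1 := cy_f2_div_le hv hr a1
  have b2 := cy_f2_div_le hv hr a2
  have b3 := cy_f2_div_le hv2 hr2 a4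
  have c0 : W + v + 2 * (v * (W + v)) ≤ 6 * (v ^ 2 * W) := by nlinarith
  have c1 : (W + v) * v ≤ 6 * v ^ 4 * W := by
    have : (W + v) * v ≤ 2 * (v ^ 2 * W) := by nlinarith
    have h4 : v ^ 2 * W ≤ v ^ 4 * W := by
      have : v ^ 4 = v ^ 2 * v ^ 2 := by ring
      rw [this]
      nlinarith [mul_nonneg (mul_nonneg (sq_nonneg v) (by linarith : (0 : ℝ) ≤ W)) (by linarith : (0 : ℝ) ≤ v ^ 2 - 1)]
    nlinarith [mul_nonneg (pow_nonneg hv0.le 4) (by linarith : (0 : ℝ) ≤ W)]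
  have c3 : (W + v + 2 * (v * (W + v))) * v ^ 2 ≤ 6 * v ^ 4 * W := by
    calc (W + v + 2 * (v * (W + v))) * v ^ 2 ≤ 6 * (v ^ 2 * W) * v ^ 2 := mul_le_mul_of_nonneg_right c0 (by positivity)
      _ = 6 * v ^ 4 * W := by ring
  exact max_le (b1.trans c1) (max_le (b2.trans c1) (b3.trans c3))

/-- **F2-C2**.   `|u'₄| ≤ (W + v + vW + vW² + v(W + 2W²)) v ≤ 7v²W²`,  `|u'₅| ≤ (W + v + vW + vW + vW²) v ≤ 5v²W²`. -/
theorem cy_f2_nor_le (q : SfTest) (v W : ℝ) (hv : 1 ≤ v) (hW : 1 ≤ W) (hq : q.size ≤ v) (hf : v⁻¹ ≤ q.f) (u : ℝ × ℝ × ℝ) (w : ℝ × ℝ)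
    (hu : max |u.1| (max |u.2.1| |u.2.2|) ≤ W) (hw : max |w.1| |w.2| ≤ W) :
    max |(cyPhN q u w).1| |(cyPhN q u w).2| ≤ 7 * v ^ 2 * W ^ 2 := by
  obtain ⟨-, -, -, hc, hd, hal, hbe, hK⟩ := cy_f2_size hq
  simp only [max_le_iff] at hu hw
  obtain ⟨hu1, hu2, hu3⟩ := hu
  obtain ⟨hw1, hw2⟩ := hw
  have hv0 : 0 < v := by linarith
  have hW0 : 0 < W := by linarith
  have hWW : W ≤ W ^ 2 := by nlinarith
  have hW2 : 1 ≤ W ^ 2 := one_le_pow₀ hW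
  have p1 : |q.al * u.1| ≤ v * W := by
    rw [abs_mul]
    exact mul_le_mul hal hu1 (abs_nonneg _) hv0.le
  have p2 : |q.be * u.1 ^ 2| ≤ v * W ^ 2 := by
    rw [abs_mul, abs_pow]
    exact mul_le_mul hbe (pow_le_pow_left₀ (abs_nonneg _) hu1 2) (by positivity) hv0.le
  have p3 : |u.1 * u.2.1| ≤ W * W := by
    rw [abs_mul]
    exact mul_le_mul hu1 hu2 (abs_nonneg _) hW0.le
  have p4 : |u.2.2 - 2 * u.1 * u.2.1| ≤ W + 2 * (W * W) := by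
    have := abs_le.1 p3
    have := abs_le.1 hu3
    rw [abs_le]
    constructor <;> nlinarith
  have p5 : |q.K * (u.2.2 - 2 * u.1 * u.2.1)| ≤ v * (W + 2 * (W * W)) := by
    rw [abs_mul]
    exact mul_le_mul hK p4 (abs_nonneg _) hv0.le
  have p6 : |q.al * u.2.1| ≤ v * W := by
    rw [abs_mul]
    exact mul_le_mul hal hu2 (abs_nonneg _) hv0.le
  have p7 : |q.be * u.2.2| ≤ v * W := by
    rw [abs_mul]
    exact mul_le_mul hbe hu3 (abs_nonneg _) hv0.le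
  have p8 : |q.K * u.2.1 ^ 2| ≤ v * W ^ 2 := by
    rw [abs_mul, abs_pow]
    exact mul_le_mul hK (pow_le_pow_left₀ (abs_nonneg _) hu2 2) (by positivity) hv0.le
  have a1 : |w.1 - q.c - q.al * u.1 - q.be * u.1 ^ 2 - q.K * (u.2.2 - 2 * u.1 * u.2.1)| ≤ W + v + v * W + v * W ^ 2 + v * (W + 2 * (W * W)) := by
    have := abs_le.1 p1
    have := abs_le.1 p2
    have := abs_le.1 p5
    have := abs_le.1 hw1
    have := abs_le.1 hc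
    rw [abs_le]
    constructor <;> linarith
  have a2 : |w.2 - q.d - q.al * u.2.1 - q.be * u.2.2 + q.K * u.2.1 ^ 2| ≤ W + v + v * W + v * W + v * W ^ 2 := by
    have := abs_le.1 p6
    have := abs_le.1 p7
    have := abs_le.1 p8
    have := abs_le.1 hw2
    have := abs_le.1 hd
    rw [abs_le]
    constructor <;> linarith
  have b1 := cy_f2_div_le hv hf a1
  have b2 := cy_f2_div_le hv hf a2
  have k1 : W ≤ v * W ^ 2 := by nlinarith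
  have k2 : v ≤ v * W ^ 2 := by nlinarith
  have k3 : v * W ≤ v * W ^ 2 := mul_le_mul_of_nonneg_left hWW hv0.le
  have c1 : (W + v + v * W + v * W ^ 2 + v * (W + 2 * (W * W))) * v ≤ 7 * v ^ 2 * W ^ 2 := by
    calc (W + v + v * W + v * W ^ 2 + v * (W + 2 * (W * W))) * v ≤ (7 * (v * W ^ 2)) * v :=
          mul_le_mul_of_nonneg_right (by
            have e : v * (W + 2 * (W * W)) = v * W + 2 * (v * W ^ 2) := by ring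
            linarith) hv0.le
      _ = 7 * v ^ 2 * W ^ 2 := by ring
  have c2 : (W + v + v * W + v * W + v * W ^ 2) * v ≤ 7 * v ^ 2 * W ^ 2 := by
    calc (W + v + v * W + v * W + v * W ^ 2) * v ≤ (7 * (v * W ^ 2)) * v :=
          mul_le_mul_of_nonneg_right (by linarith [mul_pos hv0 (pow_pos hW0 2)]) hv0.le
      _ = 7 * v ^ 2 * W ^ 2 := by ring
  exact max_le (b1.trans c1) (b2.trans c2)

/-! ## F2-D : the setup -/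

section

variable {P : PkSys} {co : ℝ → P.X → Cy5} {η : ℝ} {jt : Prop} {C D A : ℕ} {E : Xp P} {Q0 Q1 : CyT}

/-- the new widths are positive -/
theorem cy_f2_pos (h : CySet P co η jt C A E Q0) (hb : CyBdd (E.s ^ (D : ℝ)) (cyNrm (tmL E.k0 E.i0) E.k0 Q0 (tmL E.k0 E.i0) Q1)) :
    0 < Q1.r ∧ 0 < Q1.f := by
  have hs : 0 < E.s ^ (D : ℝ) := Real.rpow_pos_of_pos (gn_s_pos E) _
  obtain ⟨-, h1, -, h2, -⟩ := hb
  have a1 : 0 < Q1.r / Q0.r := lt_of_lt_of_le hs h1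
  have a2 : 0 < Q1.f / Q0.f := lt_of_lt_of_le hs h2
  constructor
  · have := mul_pos a1 h.r_pos
    rwa [div_mul_cancel₀ _ h.r_pos.ne'] at this
  · have := mul_pos a2 h.f_pos
    rwa [div_mul_cancel₀ _ h.f_pos.ne'] at this

/-- **F2-D1**: `e/κ` in the new units.   PLAN: `hb` gives `s^D Q0.r ≤ Q1.r ≤ s^-D Q0.r`, the same for `f` (`(cyNrm ..).r = Q1.r / Q0.r` by `rfl`; `(s^D)⁻¹ = s^-D`); `cy_frm_wt` twice with `u = s^-D`: the weights differ by `s^(∓4D)`;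
`0 ≤ E.e`, `0 ≤ E.ka` as in `cy_frm_set`; `gn_s_anti`, `Real.rpow_add`.   Copy the first two bullets of `cy_frm_set`. -/
theorem cy_f2_set_ek (hη : 0 < η ∧ η < 1) (h : CySet P co η jt C A E Q0)
    (hb : CyBdd (E.s ^ (D : ℝ)) (cyNrm (tmL E.k0 E.i0) E.k0 Q0 (tmL E.k0 E.i0) Q1)) :
    E.s ^ ((2 * C + 6 * D + 3 : ℕ) : ℝ) * (E.ka * cyWt η Q1) ≤ E.e ∧ E.e ≤ E.s ^ (-((2 * C + 6 * D + 3 : ℕ) : ℝ)) * (E.ka * cyWt η Q1) := by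
  have hs0 := gn_s_pos E
  have hs1 := gn_s_le_one E
  have hρ : 0 < E.s ^ (D : ℝ) := Real.rpow_pos_of_pos hs0 _
  have hp : ∀ y : ℝ, 0 < E.s ^ y := fun y => Real.rpow_pos_of_pos hs0 y
  have hanti : ∀ {y y' : ℝ}, y ≤ y' → E.s ^ y' ≤ E.s ^ y := fun h => Real.rpow_le_rpow_of_exponent_ge hs0 hs1 h
  have hr0 := h.r_pos
  have hf0 := h.f_pos
  obtain ⟨-, b1, b2, b3, b4⟩ := hb
  have b1' : E.s ^ (D : ℝ) ≤ Q1.r / Q0.r := b1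
  have b2' : Q1.r / Q0.r ≤ (E.s ^ (D : ℝ))⁻¹ := b2
  have b3' : E.s ^ (D : ℝ) ≤ Q1.f / Q0.f := b3
  have b4' : Q1.f / Q0.f ≤ (E.s ^ (D : ℝ))⁻¹ := b4
  have hr1 : 0 < Q1.r := by
    have := mul_pos (lt_of_lt_of_le hρ b1') hr0
    rwa [div_mul_cancel₀ _ hr0.ne'] at this
  have hf1 : 0 < Q1.f := by
    have := mul_pos (lt_of_lt_of_le hρ b3') hf0
    rwa [div_mul_cancel₀ _ hf0.ne'] at this
  have hu : 0 < (E.s ^ (D : ℝ))⁻¹ := inv_pos.2 hρ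
  have c1 : Q1.r ≤ (E.s ^ (D : ℝ))⁻¹ * Q0.r := (div_le_iff₀ hr0).1 b2'
  have c2 : Q1.f ≤ (E.s ^ (D : ℝ))⁻¹ * Q0.f := (div_le_iff₀ hf0).1 b4'
  have c3 : Q0.r ≤ (E.s ^ (D : ℝ))⁻¹ * Q1.r := by
    rw [le_div_iff₀ hr0] at b1'
    rw [← div_eq_inv_mul, le_div_iff₀ hρ]
    linarith
  have c4 : Q0.f ≤ (E.s ^ (D : ℝ))⁻¹ * Q1.f := by
    rw [le_div_iff₀ hf0] at b3'
    rw [← div_eq_inv_mul, le_div_iff₀ hρ]
    linarith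
  have hwa : cyWt η Q1 ≤ ((E.s ^ (D : ℝ))⁻¹) ^ 4 * cyWt η Q0 := cy_frm_wt hη hu hr0 hf0 hr1 hf1 c1 c2
  have hwb : cyWt η Q0 ≤ ((E.s ^ (D : ℝ))⁻¹) ^ 4 * cyWt η Q1 := cy_frm_wt hη hu hr1 hf1 hr0 hf0 c3 c4
  have e4 : ((E.s ^ (D : ℝ))⁻¹) ^ 4 = E.s ^ (-(4 * (D : ℝ))) := by
    rw [← Real.rpow_neg hs0.le, ← Real.rpow_natCast, ← Real.rpow_mul hs0.le]
    congr 1
    push_cast
    ring
  rw [e4] at hwa hwb
  have he : 0 ≤ E.e := by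
    have t := (gn_ms_nonneg _ _ _ _ _).trans h.tail
    exact nonneg_of_mul_nonneg_right t (hp _)
  have hw0 : 0 < cyWt η Q0 := by
    unfold cyWt
    positivity
  have hw1 : 0 < cyWt η Q1 := by
    unfold cyWt
    positivity
  have hka : 0 ≤ E.ka := by
    have t := he.trans h.ek_hi
    have t2 := nonneg_of_mul_nonneg_right t (hp _)
    exact nonneg_of_mul_nonneg_left t2 hw0
  have hD0 : (0 : ℝ) ≤ D := Nat.cast_nonneg _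
  have hC0 : (0 : ℝ) ≤ C := Nat.cast_nonneg _
  constructor
  · refine le_trans ?_ h.ek_lo
    calc E.s ^ ((2 * C + 6 * D + 3 : ℕ) : ℝ) * (E.ka * cyWt η Q1)
        ≤ E.s ^ ((2 * C + 6 * D + 3 : ℕ) : ℝ) * (E.ka * (E.s ^ (-(4 * (D : ℝ))) * cyWt η Q0)) :=
          mul_le_mul_of_nonneg_left (mul_le_mul_of_nonneg_left hwa hka) (hp _).le
      _ = (E.s ^ ((2 * C + 6 * D + 3 : ℕ) : ℝ) * E.s ^ (-(4 * (D : ℝ)))) * (E.ka * cyWt η Q0) := by ring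
      _ ≤ E.s ^ (C : ℝ) * (E.ka * cyWt η Q0) := by
          refine mul_le_mul_of_nonneg_right ?_ (mul_nonneg hka hw0.le)
          rw [← Real.rpow_add hs0]
          refine hanti ?_
          push_cast
          linarith
  · refine h.ek_hi.trans ?_
    calc E.s ^ (-(C : ℝ)) * (E.ka * cyWt η Q0)
        ≤ E.s ^ (-(C : ℝ)) * (E.ka * (E.s ^ (-(4 * (D : ℝ))) * cyWt η Q1)) :=
          mul_le_mul_of_nonneg_left (mul_le_mul_of_nonneg_left hwb hka) (hp _).le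
      _ = (E.s ^ (-(C : ℝ)) * E.s ^ (-(4 * (D : ℝ)))) * (E.ka * cyWt η Q1) := by ring
      _ ≤ E.s ^ (-((2 * C + 6 * D + 3 : ℕ) : ℝ)) * (E.ka * cyWt η Q1) := by
          refine mul_le_mul_of_nonneg_right ?_ (mul_nonneg hka hw1.le)
          rw [← Real.rpow_add hs0]
          refine hanti ?_
          push_cast
          linarith

/-- powers of the scale used in F2-D2 -/
theorem cy_f2_aux_pw (hn : 1 ≤ E.n) : (8 : ℝ) ≤ E.s ^ (-(3 : ℝ)) ∧ (1 : ℝ) ≤ (E.s ^ (D : ℝ))⁻¹ ∧ (1 : ℝ) ≤ E.s ^ (-(C : ℝ)) ∧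
    (E.s ^ (D : ℝ))⁻¹ = E.s ^ (-(D : ℝ)) := by
  have hs := gn_s_pos E
  have hs1 := gn_s_le_one E
  have hn' : (1 : ℝ) ≤ E.n := by exact_mod_cast hn
  have hinv : (E.s ^ (D : ℝ))⁻¹ = E.s ^ (-(D : ℝ)) := (Real.rpow_neg hs.le _).symm
  refine ⟨?_, ?_, ?_, hinv⟩
  · rw [gn_s_rpow]
    have h8 : (8 : ℝ) = 2 ^ (3 : ℝ) := by
      rw [show (3 : ℝ) = ((3 : ℕ) : ℝ) by norm_num, Real.rpow_natCast]
      norm_num
    rw [h8]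
    exact gn_two_mono (by linarith)
  · rw [hinv]
    exact Real.one_le_rpow_of_pos_of_le_one_of_nonpos hs hs1 (by simp)
  · exact Real.one_le_rpow_of_pos_of_le_one_of_nonpos hs hs1 (by simp)


/-- **F2-D2a**: pointwise.   PLAN: `cy_f2_u` (`cyBase Q1 l z = cyPhB q (cyBase Q0 l z)` = first component), `cy_f2_base_le` with `v = s^-D`, `W = s^-C`; `6 ≤ 2³ ≤ s^-3` (`E.s = 2⁻¹^n`, `1 ≤ n`); `s^-(C+4D+3) ≤ s^-(2C+6D+3)`. -/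
theorem cy_f2_base_pt (hn : 1 ≤ E.n) (h : CySet P co η jt C A E Q0)
    (hb : CyBdd (E.s ^ (D : ℝ)) (cyNrm (tmL E.k0 E.i0) E.k0 Q0 (tmL E.k0 E.i0) Q1)) (z : Cy5)
    (hz : cyBaseSz Q0 ((2 : ℝ)⁻¹ ^ E.k0) z ≤ E.s ^ (-(C : ℝ))) :
    cyBaseSz Q1 ((2 : ℝ)⁻¹ ^ E.k0) z ≤ E.s ^ (-((2 * C + 6 * D + 3 : ℕ) : ℝ)) := by
  have hs := gn_s_pos E
  obtain ⟨h8, hv, hW, hinv⟩ := cy_f2_aux_pw (C := C) (D := D) hn
  obtain ⟨hr1, hf1⟩ := cy_f2_pos h hb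
  have hu := congrArg Prod.fst (cy_f2_u (tmL E.k0 E.i0) E.k0 Q0 Q1 h.r_pos h.f_pos hr1 hf1 z)
  have hu' : cyBase Q1 ((2 : ℝ)⁻¹ ^ E.k0) z = cyPhB (cyNrm (tmL E.k0 E.i0) E.k0 Q0 (tmL E.k0 E.i0) Q1) (cyBase Q0 ((2 : ℝ)⁻¹ ^ E.k0) z) := hu
  have h1 := cy_f2_base_le (cyNrm (tmL E.k0 E.i0) E.k0 Q0 (tmL E.k0 E.i0) Q1) _ _ hv hW hb.1 (by rw [inv_inv]; exact hb.2.1)
    (cyBase Q0 ((2 : ℝ)⁻¹ ^ E.k0) z) hz
  unfold cyBaseSz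
  rw [hu']
  refine h1.trans ?_
  rw [hinv, ← Real.rpow_natCast (E.s ^ (-(D : ℝ))) 4, ← Real.rpow_mul hs.le]
  have p1 : 0 ≤ E.s ^ (-(D : ℝ) * ((4 : ℕ) : ℝ)) := Real.rpow_nonneg hs.le _
  have p2 : 0 ≤ E.s ^ (-(C : ℝ)) := Real.rpow_nonneg hs.le _
  calc 6 * E.s ^ (-(D : ℝ) * ((4 : ℕ) : ℝ)) * E.s ^ (-(C : ℝ))
      ≤ E.s ^ (-(3 : ℝ)) * E.s ^ (-(D : ℝ) * ((4 : ℕ) : ℝ)) * E.s ^ (-(C : ℝ)) :=
        mul_le_mul_of_nonneg_right (mul_le_mul_of_nonneg_right (by linarith) p1) p2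
    _ = E.s ^ (-(3 : ℝ) + -(D : ℝ) * ((4 : ℕ) : ℝ) + -(C : ℝ)) := by rw [Real.rpow_add hs, Real.rpow_add hs]
    _ ≤ E.s ^ (-((2 * C + 6 * D + 3 : ℕ) : ℝ)) := by
        refine gn_s_anti E ?_
        push_cast
        have c0 : (0 : ℝ) ≤ C := Nat.cast_nonneg _
        have d0 : (0 : ℝ) ≤ D := Nat.cast_nonneg _
        linarith

/-- **F2-D2b**: pointwise.   PLAN: `cy_f2_u`, `cy_f2_nor_le` with `v = s^-D`, `W = s^-C`; `7 ≤ 2³ ≤ s^-3`; `s^-(2C+2D+3) ≤ s^-(2C+6D+3)`. -/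
theorem cy_f2_nor_pt (hn : 1 ≤ E.n) (h : CySet P co η jt C A E Q0)
    (hb : CyBdd (E.s ^ (D : ℝ)) (cyNrm (tmL E.k0 E.i0) E.k0 Q0 (tmL E.k0 E.i0) Q1)) (z : Cy5)
    (hz : cyBaseSz Q0 ((2 : ℝ)⁻¹ ^ E.k0) z ≤ E.s ^ (-(C : ℝ))) (hz' : cyNorSz Q0 ((2 : ℝ)⁻¹ ^ E.k0) z ≤ E.s ^ (-(C : ℝ))) :
    cyNorSz Q1 ((2 : ℝ)⁻¹ ^ E.k0) z ≤ E.s ^ (-((2 * C + 6 * D + 3 : ℕ) : ℝ)) := by
  have hs := gn_s_pos E
  obtain ⟨h8, hv, hW, hinv⟩ := cy_f2_aux_pw (C := C) (D := D) hn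
  obtain ⟨hr1, hf1⟩ := cy_f2_pos h hb
  have hu := congrArg Prod.snd (cy_f2_u (tmL E.k0 E.i0) E.k0 Q0 Q1 h.r_pos h.f_pos hr1 hf1 z)
  have hu' : cyNor Q1 ((2 : ℝ)⁻¹ ^ E.k0) z = cyPhN (cyNrm (tmL E.k0 E.i0) E.k0 Q0 (tmL E.k0 E.i0) Q1) (cyBase Q0 ((2 : ℝ)⁻¹ ^ E.k0) z)
      (cyNor Q0 ((2 : ℝ)⁻¹ ^ E.k0) z) := hu
  have h1 := cy_f2_nor_le (cyNrm (tmL E.k0 E.i0) E.k0 Q0 (tmL E.k0 E.i0) Q1) _ _ hv hW hb.1 (by rw [inv_inv]; exact hb.2.2.2.1)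
    (cyBase Q0 ((2 : ℝ)⁻¹ ^ E.k0) z) (cyNor Q0 ((2 : ℝ)⁻¹ ^ E.k0) z) hz hz'
  unfold cyNorSz
  rw [hu']
  refine h1.trans ?_
  rw [hinv, ← Real.rpow_natCast (E.s ^ (-(D : ℝ))) 2, ← Real.rpow_mul hs.le, ← Real.rpow_natCast (E.s ^ (-(C : ℝ))) 2, ← Real.rpow_mul hs.le]
  have p1 : 0 ≤ E.s ^ (-(D : ℝ) * ((2 : ℕ) : ℝ)) := Real.rpow_nonneg hs.le _
  have p2 : 0 ≤ E.s ^ (-(C : ℝ) * ((2 : ℕ) : ℝ)) := Real.rpow_nonneg hs.le _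
  calc 7 * E.s ^ (-(D : ℝ) * ((2 : ℕ) : ℝ)) * E.s ^ (-(C : ℝ) * ((2 : ℕ) : ℝ))
      ≤ E.s ^ (-(3 : ℝ)) * E.s ^ (-(D : ℝ) * ((2 : ℕ) : ℝ)) * E.s ^ (-(C : ℝ) * ((2 : ℕ) : ℝ)) :=
        mul_le_mul_of_nonneg_right (mul_le_mul_of_nonneg_right (by linarith) p1) p2
    _ = E.s ^ (-(3 : ℝ) + -(D : ℝ) * ((2 : ℕ) : ℝ) + -(C : ℝ) * ((2 : ℕ) : ℝ)) := by rw [Real.rpow_add hs, Real.rpow_add hs]
    _ ≤ E.s ^ (-((2 * C + 6 * D + 3 : ℕ) : ℝ)) := by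
        refine gn_s_anti E ?_
        push_cast
        have c0 : (0 : ℝ) ≤ C := Nat.cast_nonneg _
        have d0 : (0 : ℝ) ≤ D := Nat.cast_nonneg _
        linarith

/-- base support -/
theorem cy_f2_set_supp (hn : 1 ≤ E.n) (hm : Measurable fun x => cyVec (co (tmL E.k0 E.i0) x)) (h : CySet P co η jt C A E Q0)
    (hb : CyBdd (E.s ^ (D : ℝ)) (cyNrm (tmL E.k0 E.i0) E.k0 Q0 (tmL E.k0 E.i0) Q1)) :
    P.ms (tmL E.k0 E.i0) E.k0 E.b0 {x | E.s ^ (-((2 * C + 6 * D + 3 : ℕ) : ℝ)) < cyBaseSz Q1 ((2 : ℝ)⁻¹ ^ E.k0) (co (tmL E.k0 E.i0) x)} E.v = 0 := by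
  refine le_antisymm ?_ (gn_ms_nonneg _ _ _ _ _)
  rw [← h.supp]
  refine gn_ms_mono _ _ _ (measurableSet_lt measurable_const (cy_frm_meas_base hm _ _))
    (measurableSet_lt measurable_const (cy_frm_meas_base hm _ _)) ?_ _
  intro x hx
  by_contra hcon
  exact absurd hx (not_lt.mpr (cy_f2_base_pt hn h hb _ (not_lt.mp hcon)))

/-- normal tails -/
theorem cy_f2_set_tail (hn : 1 ≤ E.n) (hm : Measurable fun x => cyVec (co (tmL E.k0 E.i0) x)) (h : CySet P co η jt C A E Q0)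
    (hb : CyBdd (E.s ^ (D : ℝ)) (cyNrm (tmL E.k0 E.i0) E.k0 Q0 (tmL E.k0 E.i0) Q1)) :
    P.ms (tmL E.k0 E.i0) E.k0 E.b0 {x | E.s ^ (-((2 * C + 6 * D + 3 : ℕ) : ℝ)) < cyNorSz Q1 ((2 : ℝ)⁻¹ ^ E.k0) (co (tmL E.k0 E.i0) x)} E.v
      ≤ E.s ^ (A : ℝ) * E.e := by
  have m1 := measurableSet_lt (measurable_const (a := E.s ^ (-(C : ℝ)))) (cy_frm_meas_base hm Q0 ((2 : ℝ)⁻¹ ^ E.k0))
  have m2 := measurableSet_lt (measurable_const (a := E.s ^ (-(C : ℝ)))) (cy_frm_meas_nor hm Q0 ((2 : ℝ)⁻¹ ^ E.k0))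
  have hfin := gn_mu_finite (P := P) (tmL E.k0 E.i0) E.k0 E.b0 E.v
  have hU : P.ms (tmL E.k0 E.i0) E.k0 E.b0 ({x | E.s ^ (-(C : ℝ)) < cyBaseSz Q0 ((2 : ℝ)⁻¹ ^ E.k0) (co (tmL E.k0 E.i0) x)} ∪
      {x | E.s ^ (-(C : ℝ)) < cyNorSz Q0 ((2 : ℝ)⁻¹ ^ E.k0) (co (tmL E.k0 E.i0) x)}) E.v ≤ E.s ^ (A : ℝ) * E.e := by
    have t1 := h.supp
    have t2 := h.tail
    rw [gn_ms_eq_mu _ _ _ m1] at t1
    rw [gn_ms_eq_mu _ _ _ m2] at t2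
    rw [gn_ms_eq_mu _ _ _ (m1.union m2)]
    refine (measureReal_union_le _ _).trans ?_
    rw [t1, zero_add]
    exact t2
  refine le_trans ?_ hU
  refine gn_ms_mono _ _ _ (measurableSet_lt measurable_const (cy_frm_meas_nor hm _ _)) (m1.union m2) ?_ _
  intro x hx
  by_contra hcon
  rw [Set.mem_union, not_or] at hcon
  exact absurd hx (not_lt.mpr (cy_f2_nor_pt hn h hb _ (not_lt.mp hcon.1) (not_lt.mp hcon.2)))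

/-- the numerology of the two density bounds -/
theorem cy_f2_set_dens_num (h : CySet P co η jt C A E Q0) (J : ℝ) (hJ : J ≤ E.s ^ (-(6 * (D : ℝ)))) :
    E.s ^ (-(C : ℝ)) * E.e * J ≤ E.s ^ (-((2 * C + 6 * D + 3 : ℕ) : ℝ)) * E.e := by
  have hs0 := gn_s_pos E
  have he : 0 ≤ E.e := by
    have t := (gn_ms_nonneg _ _ _ _ _).trans h.tail
    have : 0 < E.s ^ (A : ℝ) := Real.rpow_pos_of_pos hs0 _
    exact nonneg_of_mul_nonneg_right t this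
  have hp : ∀ y : ℝ, 0 < E.s ^ y := fun y => Real.rpow_pos_of_pos hs0 y
  calc E.s ^ (-(C : ℝ)) * E.e * J ≤ E.s ^ (-(C : ℝ)) * E.e * E.s ^ (-(6 * (D : ℝ))) :=
        mul_le_mul_of_nonneg_left hJ (mul_nonneg (hp _).le he)
    _ = E.s ^ (-(C : ℝ) + -(6 * (D : ℝ))) * E.e := by
        rw [Real.rpow_add hs0]
        ring
    _ ≤ E.s ^ (-((2 * C + 6 * D + 3 : ℕ) : ℝ)) * E.e := by
        refine mul_le_mul_of_nonneg_right (gn_s_anti E ?_) he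
        push_cast
        have : (0 : ℝ) ≤ C := Nat.cast_nonneg _
        linarith

/-- powers of a width ratio -/
theorem cy_f2_set_dens_pw (x : ℝ) (hx0 : 0 ≤ x) (hx : x ≤ (E.s ^ (D : ℝ))⁻¹) (m : ℕ) : x ^ m ≤ E.s ^ (-((m : ℝ) * (D : ℝ))) := by
  have hs0 := gn_s_pos E
  calc x ^ m ≤ ((E.s ^ (D : ℝ))⁻¹) ^ m := pow_le_pow_left₀ hx0 hx m
    _ = E.s ^ (-((m : ℝ) * (D : ℝ))) := by
        rw [← Real.rpow_neg hs0.le, ← Real.rpow_natCast, ← Real.rpow_mul hs0.le]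
        congr 1
        ring

/-- **F2-D3a**: marginal base density.   PLAN: as the `dens` bullet of `cy_frm_set`: `{x | cyBase Q1 l (co x) ∈ S} = {x | cyBase Q0 l (co x) ∈ cyPhB q ⁻¹' S}` (`cy_f2_u`, first component; `cy_f2_pos`), `h.dens _ (cy_f2_phB_meas q hS)`, `cy_f2_phB_vol`;
`q.r⁴ ≤ s^-4D`; `ENNReal.ofReal_mul`, `mul_assoc`; `0 ≤ E.e`. -/
theorem cy_f2_set_dens (h : CySet P co η jt C A E Q0)
    (hb : CyBdd (E.s ^ (D : ℝ)) (cyNrm (tmL E.k0 E.i0) E.k0 Q0 (tmL E.k0 E.i0) Q1)) (S : Set (ℝ × ℝ × ℝ)) (hS : MeasurableSet S) :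
    ENNReal.ofReal (P.ms (tmL E.k0 E.i0) E.k0 E.b0 {x | cyBase Q1 ((2 : ℝ)⁻¹ ^ E.k0) (co (tmL E.k0 E.i0) x) ∈ S} E.v)
      ≤ ENNReal.ofReal (E.s ^ (-((2 * C + 6 * D + 3 : ℕ) : ℝ)) * E.e) * volume S := by
  obtain ⟨hr1, hf1⟩ := cy_f2_pos h hb
  have hs0 := gn_s_pos E
  obtain ⟨q, hq⟩ : ∃ q, q = cyNrm (tmL E.k0 E.i0) E.k0 Q0 (tmL E.k0 E.i0) Q1 := ⟨_, rfl⟩
  rw [← hq] at hb
  have hqr : 0 < q.r := lt_of_lt_of_le (Real.rpow_pos_of_pos hs0 _) hb.2.1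
  have e1 : {x | cyBase Q1 ((2 : ℝ)⁻¹ ^ E.k0) (co (tmL E.k0 E.i0) x) ∈ S}
      = {x | cyBase Q0 ((2 : ℝ)⁻¹ ^ E.k0) (co (tmL E.k0 E.i0) x) ∈ cyPhB q ⁻¹' S} := by
    ext x
    have e2 := congrArg Prod.fst (cy_f2_u (tmL E.k0 E.i0) E.k0 Q0 Q1 h.r_pos h.f_pos hr1 hf1 (co (tmL E.k0 E.i0) x))
    rw [← hq] at e2
    have e3 : cyBase Q1 ((2 : ℝ)⁻¹ ^ E.k0) (co (tmL E.k0 E.i0) x) = cyPhB q (cyBase Q0 ((2 : ℝ)⁻¹ ^ E.k0) (co (tmL E.k0 E.i0) x)) := e2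
    simp only [Set.mem_ofPred_eq, Set.mem_preimage, e3]
  rw [e1]
  refine (h.dens _ (cy_f2_phB_meas q hS)).trans ?_
  rw [cy_f2_phB_vol q hqr S hS, ← mul_assoc, ← ENNReal.ofReal_mul' (by positivity)]
  refine mul_le_mul' (ENNReal.ofReal_le_ofReal ?_) le_rfl
  refine cy_f2_set_dens_num h _ ?_
  refine (cy_f2_set_dens_pw q.r hqr.le hb.2.2.1 4).trans (gn_s_anti E ?_)
  push_cast
  have : (0 : ℝ) ≤ D := Nat.cast_nonneg _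
  linarith

/-- **F2-D3b**: joint density.   PLAN: the same with `cyPh q`, `cy_f2_ph_meas`, `cy_f2_ph_vol`; `q.r⁴ q.f² ≤ s^-6D`   (`(cyBase .., cyNor ..) = cyU ..` by `rfl`). -/
theorem cy_f2_set_densJ (h : CySet P co η jt C A E Q0)
    (hb : CyBdd (E.s ^ (D : ℝ)) (cyNrm (tmL E.k0 E.i0) E.k0 Q0 (tmL E.k0 E.i0) Q1)) (hj : jt) (S : Set ((ℝ × ℝ × ℝ) × (ℝ × ℝ))) (hS : MeasurableSet S) :
    ENNReal.ofReal (P.ms (tmL E.k0 E.i0) E.k0 E.b0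
        {x | (cyBase Q1 ((2 : ℝ)⁻¹ ^ E.k0) (co (tmL E.k0 E.i0) x), cyNor Q1 ((2 : ℝ)⁻¹ ^ E.k0) (co (tmL E.k0 E.i0) x)) ∈ S} E.v)
      ≤ ENNReal.ofReal (E.s ^ (-((2 * C + 6 * D + 3 : ℕ) : ℝ)) * E.e) * volume S := by
  obtain ⟨hr1, hf1⟩ := cy_f2_pos h hb
  have hs0 := gn_s_pos E
  obtain ⟨q, hq⟩ : ∃ q, q = cyNrm (tmL E.k0 E.i0) E.k0 Q0 (tmL E.k0 E.i0) Q1 := ⟨_, rfl⟩
  rw [← hq] at hb
  have hqr : 0 < q.r := lt_of_lt_of_le (Real.rpow_pos_of_pos hs0 _) hb.2.1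
  have hqf : 0 < q.f := lt_of_lt_of_le (Real.rpow_pos_of_pos hs0 _) hb.2.2.2.1
  have e1 : {x | (cyBase Q1 ((2 : ℝ)⁻¹ ^ E.k0) (co (tmL E.k0 E.i0) x), cyNor Q1 ((2 : ℝ)⁻¹ ^ E.k0) (co (tmL E.k0 E.i0) x)) ∈ S}
      = {x | (cyBase Q0 ((2 : ℝ)⁻¹ ^ E.k0) (co (tmL E.k0 E.i0) x), cyNor Q0 ((2 : ℝ)⁻¹ ^ E.k0) (co (tmL E.k0 E.i0) x)) ∈ cyPh q ⁻¹' S} := by
    ext x
    have e2 := cy_f2_u (tmL E.k0 E.i0) E.k0 Q0 Q1 h.r_pos h.f_pos hr1 hf1 (co (tmL E.k0 E.i0) x)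
    rw [← hq] at e2
    have e3 : (cyBase Q1 ((2 : ℝ)⁻¹ ^ E.k0) (co (tmL E.k0 E.i0) x), cyNor Q1 ((2 : ℝ)⁻¹ ^ E.k0) (co (tmL E.k0 E.i0) x))
        = cyPh q (cyBase Q0 ((2 : ℝ)⁻¹ ^ E.k0) (co (tmL E.k0 E.i0) x), cyNor Q0 ((2 : ℝ)⁻¹ ^ E.k0) (co (tmL E.k0 E.i0) x)) := e2
    simp only [Set.mem_ofPred_eq, Set.mem_preimage, e3]
  rw [e1]
  refine (h.densJ hj _ (cy_f2_ph_meas q hS)).trans ?_
  rw [cy_f2_ph_vol q hqr hqf S hS, ← mul_assoc, ← ENNReal.ofReal_mul' (by positivity)]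
  refine mul_le_mul' (ENNReal.ofReal_le_ofReal ?_) le_rfl
  refine cy_f2_set_dens_num h _ ?_
  have a4 := cy_f2_set_dens_pw q.r hqr.le hb.2.2.1 4
  have a2 := cy_f2_set_dens_pw q.f hqf.le hb.2.2.2.2 2
  refine (mul_le_mul a4 a2 (by positivity) (Real.rpow_pos_of_pos hs0 _).le).trans (le_of_eq ?_)
  rw [← Real.rpow_add hs0]
  congr 1
  push_cast
  ring

/-- **the setup in the new frame** -/
theorem cy_f2_set (hη : 0 < η ∧ η < 1) (hn : 1 ≤ E.n) (hm : Measurable fun x => cyVec (co (tmL E.k0 E.i0) x)) (h : CySet P co η jt C A E Q0)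
    (hb : CyBdd (E.s ^ (D : ℝ)) (cyNrm (tmL E.k0 E.i0) E.k0 Q0 (tmL E.k0 E.i0) Q1)) : CySet P co η jt (2 * C + 6 * D + 3) A E Q1 :=
  ⟨(cy_f2_pos h hb).1, (cy_f2_pos h hb).2, (cy_f2_set_ek hη h hb).1, (cy_f2_set_ek hη h hb).2, cy_f2_set_supp hn hm h hb, cy_f2_set_tail hn hm h hb,
    cy_f2_set_dens h hb, cy_f2_set_densJ h hb⟩

end

/-! ## F2-E : the Planck parameter -/

/-- **F2-E**.   PLAN: `f1 = a f0` with `ρ ≤ a ≤ ρ⁻¹`, `ρ = s^D`: `h/f1² = (h/f0²)/a²`; `s^(C+2D) ≤ .. ≤ s^-(C+2D)`; monotonicity in the exponent (`Real.rpow_le_rpow_of_exponent_ge`).   Copy the end of `cy_frm`. -/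
theorem cy_f2_planck {s h f0 f1 : ℝ} {C D : ℕ} (hs0 : 0 < s) (hs1 : s ≤ 1) (hf0 : 0 < f0) (h1 : s ^ (D : ℝ) ≤ f1 / f0) (h2 : f1 / f0 ≤ (s ^ (D : ℝ))⁻¹)
    (g1 : s ^ (C : ℝ) ≤ h / f0 ^ 2) (g2 : h / f0 ^ 2 ≤ s ^ (-(C : ℝ))) :
    s ^ ((2 * C + 6 * D + 3 : ℕ) : ℝ) ≤ h / f1 ^ 2 ∧ h / f1 ^ 2 ≤ s ^ (-((2 * C + 6 * D + 3 : ℕ) : ℝ)) := by
  have hp : ∀ y : ℝ, 0 < s ^ y := fun y => Real.rpow_pos_of_pos hs0 y
  have hanti : ∀ {y y' : ℝ}, y ≤ y' → s ^ y' ≤ s ^ y := fun h => Real.rpow_le_rpow_of_exponent_ge hs0 hs1 h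
  have hρ := hp (D : ℝ)
  obtain ⟨a, ha⟩ : ∃ a : ℝ, a = f1 / f0 := ⟨_, rfl⟩
  obtain ⟨x, hx⟩ : ∃ x : ℝ, x = h / f0 ^ 2 := ⟨_, rfl⟩
  rw [← ha] at h1 h2
  rw [← hx] at g1 g2
  have ha0 : 0 < a := lt_of_lt_of_le hρ h1
  have hx0 : 0 < x := lt_of_lt_of_le (hp _) g1
  have hf1 : f1 = a * f0 := by rw [ha]; field_simp
  have e : h / f1 ^ 2 = x / a ^ 2 := by
    rw [hf1, hx]
    field_simp
  rw [e]
  have hD0 : (0 : ℝ) ≤ D := Nat.cast_nonneg _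
  have hC0 : (0 : ℝ) ≤ C := Nat.cast_nonneg _
  have e2 : (s ^ (D : ℝ)) ^ 2 = s ^ (2 * (D : ℝ)) := by
    rw [← Real.rpow_natCast, ← Real.rpow_mul hs0.le]
    congr 1
    push_cast
    ring
  have q1 : (s ^ (D : ℝ)) ^ 2 ≤ a ^ 2 := pow_le_pow_left₀ hρ.le h1 2
  have q2 : a ^ 2 ≤ ((s ^ (D : ℝ))⁻¹) ^ 2 := pow_le_pow_left₀ ha0.le h2 2
  rw [inv_pow] at q2
  rw [e2] at q1 q2
  constructor
  · rw [le_div_iff₀ (pow_pos ha0 2)]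
    calc s ^ ((2 * C + 6 * D + 3 : ℕ) : ℝ) * a ^ 2 ≤ s ^ ((2 * C + 6 * D + 3 : ℕ) : ℝ) * (s ^ (2 * (D : ℝ)))⁻¹ :=
          mul_le_mul_of_nonneg_left q2 (hp _).le
      _ = s ^ (((2 * C + 6 * D + 3 : ℕ) : ℝ) - 2 * (D : ℝ)) := by rw [Real.rpow_sub hs0, div_eq_mul_inv]
      _ ≤ s ^ (C : ℝ) := hanti (by push_cast; linarith)
      _ ≤ x := g1
  · rw [div_le_iff₀ (pow_pos ha0 2)]
    calc x ≤ s ^ (-(C : ℝ)) := g2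
      _ ≤ s ^ (-((2 * C + 6 * D + 3 : ℕ) : ℝ) + 2 * (D : ℝ)) := hanti (by push_cast; linarith)
      _ = s ^ (-((2 * C + 6 * D + 3 : ℕ) : ℝ)) * s ^ (2 * (D : ℝ)) := Real.rpow_add hs0 _ _
      _ ≤ s ^ (-((2 * C + 6 * D + 3 : ℕ) : ℝ)) * a ^ 2 := mul_le_mul_of_nonneg_left q1 (hp _).le

/-- **FRM2: full polynomial change of the frame** -/
theorem cy_frm2 (Y : SfCy) (H : CyHyp Y) (C D A : ℕ) (p : Y.M.Par) (E : Xp (Y.M.sys p)) (Q0 Q1 : CyT) (hn : 1 ≤ E.n) (haf : Y.af C A p E Q0)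
    (hb : CyBdd (E.s ^ (D : ℝ)) (cyNrm (tmL E.k0 E.i0) E.k0 Q0 (tmL E.k0 E.i0) Q1)) : Y.af (2 * C + 6 * D + 3) A p E Q1 := by
  obtain ⟨hgd, hset, hhy⟩ := (H.af_def C A p E Q0).mp haf
  refine (H.af_def _ A p E Q1).mpr ⟨hgd, cy_f2_set H.eta hn (H.co_meas p hgd _) hset hb, fun hy => ?_⟩
  obtain ⟨g1, g2⟩ := hhy hy
  exact cy_f2_planck (gn_s_pos E) (gn_s_le_one E) hset.f_pos hb.2.2.2.1 hb.2.2.2.2 g1 g2

/-- **FRM3: a test that is heavy on the root state at a polynomial floor is a frame.**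
PLAN: `D', A0, n0'` from `H.poly C D`; `C' = 2C + 6D' + 3`, `n0 = max n0' 1`.   `hE.1 : gd p`; `Q0` from `(H.af_iff C A p E hE.1).1 hE.2.2.2.2`; `gn_cls_anti Y.M H.gen.scale hA hE`, `cy_tp_af H haf ⟨rfl,..⟩ rfl le_rfl hA` bring the tail order down to `A0`;
`H.poly` at `k = E.k0`, `i = E.i0`, `b = E.b0` (`hE.2.2.2.1.1 : b0 ≤ C`), `st' = []` (`StOk` of the empty list; `Xp.run _ _ [] v = v` by `rfl`; `ancI k0 k0 i0 = i0`: `Nat.sub_self`, `pow_zero`, `Nat.div_one`; `E.k0 ≤ E.kf`: `Nat.le_add_right`); then `cy_frm2`. -/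
theorem cy_frm3 (Y : SfCy) (H : CyHyp Y) (C D : ℕ) : ∃ C' A0 n0 : ℕ, ∀ (A : ℕ) (p : Y.M.Par) (E : Xp (Y.M.sys p)) (Q : (Y.M.sys p).Tst), n0 ≤ E.n → A0 ≤ A →
    Y.M.Cls C A p E → (Y.M.sys p).ok Q E.k0 →
    E.s ^ (D : ℝ) * (E.ka * (Y.M.sys p).wt Q) < (Y.M.sys p).ms (tmL E.k0 E.i0) E.k0 E.b0 ((Y.M.sys p).cell Q (tmL E.k0 E.i0) E.k0) E.v →
    Y.af C' A p E (Y.tq p Q) := by
  obtain ⟨D', A0, n0', HP⟩ := H.poly C D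
  refine ⟨2 * C + 6 * D' + 3, A0, max n0' 1, ?_⟩
  intro A p E Q hn hA hE hok hheavy
  obtain ⟨Q0, haf⟩ := (H.af_iff C A p E hE.1).1 hE.2.2.2.2
  have hcls : Y.M.Cls C A0 p E := gn_cls_anti Y.M H.gen.scale hA hE
  have haf0 : Y.af C A0 p E Q0 := cy_tp_af H haf ⟨rfl, rfl, rfl, rfl, rfl, rfl⟩ rfl le_rfl hA
  have hb := HP p E Q0 ((le_max_left _ _).trans hn) hcls haf0 E.k0 E.i0 E.b0 [] Q le_rfl (Nat.le_add_right _ _) (gn_anc_self _ _) hE.2.2.2.1.1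
    ⟨Nat.zero_le _, fun σ hσ => absurd hσ (List.not_mem_nil), List.Pairwise.nil, fun σ hσ => absurd hσ (List.not_mem_nil),
      fun σ hσ => absurd hσ (List.not_mem_nil)⟩ hok hheavy
  exact cy_frm2 Y H C D' A p E Q0 (Y.tq p Q) ((le_max_right _ _).trans hn) haf hb

end Claimed.Agent.R256
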