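-- KEEP
import Claimed.Agent.R256.Hyb.Defs

/-!
# Row 256 (LS paper), CYL, unit INST-HY, `cy_jit_hy` : FIBRE HALF F1-F4          (chief helper82; this file helper86; prefix `cy_hjf_`)      0 sorry

Exact covariance of the fibre calculus of `Hyb/Defs.lean` under the phase space translations transported by the free flow.   Pure fibre calculus: no `Om`, no `Lp`, no integrability hypothesis (all identities are pointwise).
* `hyTau c dl T = (c + T dl, dl)`      the shift of a row `(D, N)` at the time `T`  (`c` = shift of the position at the time `0`, `dl` = shift of the velocity)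
* `φ.chi c dl T ρ = σ ρ.2 / H (c + T dl) + T σ dl² / (2H)`      the phase
* `φ.shF c dl T f ρ = e^{-i chi_T(ρ - tau_T)} f(ρ - tau_T)`      the shifted row function;   `‖shF f ρ‖ = ‖f (ρ - tau_T)‖` (`cy_hjf_sh_norm`)
* `HyStg.sh c dl σ`      the stage with the masks `M i (ρ - tau_(tmL σ.k i))`
* F1 `cy_hjf_pk`, F2 `cy_hjf_kr`, F3 `cy_hjf_tr : tr T k T' k' (shF T f) = shF T' (tr T k T' k' f)`, F4 `cy_hjf_br : br k' i (l.map sh) T k (shF T f) = shF (tmL k' i) (br k' i l T k f)`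
-/

set_option autoImplicit false

namespace Claimed.Agent.R256

open MeasureTheory
open scoped ComplexConjugate

/-- the shift of the rows `(D, N)` at the time `T` : `c` = shift of the position at the time `0`, `dl` = shift of the velocity -/
def hyTau (c dl T : ℝ) : ℝ × ℝ := (c + T * dl, dl)

/-- the phase of the shifted packets -/
noncomputable def HyF.chi (φ : HyF) (c dl T : ℝ) (ρ : ℝ × ℝ) : ℝ := φ.sg * ρ.2 / φ.H * (c + T * dl) + T * φ.sg * dl ^ 2 / (2 * φ.H)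

/-- the shifted row function at the time `T` -/
noncomputable def HyF.shF (φ : HyF) {E : Type} [NormedAddCommGroup E] [NormedSpace ℂ E] (c dl T : ℝ) (f : ℝ × ℝ → E) (ρ : ℝ × ℝ) : E :=
  Complex.exp (-(Complex.I * ((φ.chi c dl T (ρ - hyTau c dl T) : ℝ) : ℂ))) • f (ρ - hyTau c dl T)

/-- the shifted fibre stage -/
noncomputable def HyStg.sh (c dl : ℝ) (σ : HyStg) : HyStg := ⟨σ.k, fun i ρ => σ.M i (ρ - hyTau c dl (tmL σ.k i))⟩

theorem cy_hjf_eqns_cite : True := by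
  have := @hyTau.eq_1
  have := @HyF.chi.eq_1
  have := @HyF.shF.eq_1
  have := @HyStg.sh.eq_1
  trivial

/-- **F1** covariance of the packets -/
theorem cy_hjf_pk (φ : HyF) (h : φ.Ok) (c dl T : ℝ) (k : ℕ) (ρ : ℝ × ℝ) (u : ℝ) :
    φ.pk T k (ρ + hyTau c dl T) (u + φ.sg * dl / φ.H)
      = φ.pk T k ρ u * Complex.exp (Complex.I * ((u * c : ℝ) : ℂ)) * Complex.exp (-(Complex.I * ((φ.chi c dl T ρ : ℝ) : ℂ))) := by
  have hH : φ.H ≠ 0 := h.H_pos.ne'
  have hs : φ.sg ≠ 0 := (lt_of_lt_of_le zero_lt_one h.sg_lo).ne'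
  unfold HyF.pk hyTau HyF.chi
  simp only [Prod.fst_add, Prod.snd_add]
  have e1 : u + φ.sg * dl / φ.H - φ.sg * (ρ.2 + dl) / φ.H = u - φ.sg * ρ.2 / φ.H := by ring
  have e2 : (u - φ.sg * ρ.2 / φ.H) * (ρ.1 + (c + T * dl)) - T * φ.H * (u + φ.sg * dl / φ.H) ^ 2 / (2 * φ.sg)
      = ((u - φ.sg * ρ.2 / φ.H) * ρ.1 - T * φ.H * u ^ 2 / (2 * φ.sg)) + u * c - (φ.sg * ρ.2 / φ.H * (c + T * dl) + T * φ.sg * dl ^ 2 / (2 * φ.H)) := by
    field_simp
    ring
  have e3 : ∀ a b x : ℝ, Complex.exp (Complex.I * ((a + b - x : ℝ) : ℂ))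
      = Complex.exp (Complex.I * (a : ℂ)) * Complex.exp (Complex.I * (b : ℂ)) * Complex.exp (-(Complex.I * (x : ℂ))) := by
    intro a b x
    rw [← Complex.exp_add, ← Complex.exp_add]
    congr 1
    push_cast
    ring
  rw [e1, e2, e3]
  ring

theorem cy_hjf_conj_exp (x : ℝ) : conj (Complex.exp (Complex.I * (x : ℂ))) = Complex.exp (-(Complex.I * (x : ℂ))) := by
  rw [← Complex.exp_conj, map_mul, Complex.conj_I, Complex.conj_ofReal, neg_mul]

theorem cy_hjf_conj_exp' (x : ℝ) : conj (Complex.exp (-(Complex.I * (x : ℂ)))) = Complex.exp (Complex.I * (x : ℂ)) := by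
  rw [← cy_hjf_conj_exp, Complex.conj_conj]

theorem cy_hjf_exp_cancel (x : ℝ) : Complex.exp (Complex.I * (x : ℂ)) * Complex.exp (-(Complex.I * (x : ℂ))) = 1 := by
  rw [← Complex.exp_add, add_neg_cancel, Complex.exp_zero]

theorem cy_hjf_norm_exp (x : ℝ) : ‖Complex.exp (-(Complex.I * (x : ℂ)))‖ = 1 := by
  have e : -(Complex.I * (x : ℂ)) = ((-x : ℝ) : ℂ) * Complex.I := by push_cast; ring
  rw [e, Complex.norm_exp_ofReal_mul_I]

/-- **F2** covariance of the kernels -/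
theorem cy_hjf_kr (φ : HyF) (h : φ.Ok) (c dl T : ℝ) (k : ℕ) (T' : ℝ) (k' : ℕ) (ρ' ρ : ℝ × ℝ) :
    φ.kr T k T' k' (ρ' + hyTau c dl T') (ρ + hyTau c dl T)
      = Complex.exp (-(Complex.I * ((φ.chi c dl T' ρ' : ℝ) : ℂ))) * Complex.exp (Complex.I * ((φ.chi c dl T ρ : ℝ) : ℂ)) * φ.kr T k T' k' ρ' ρ := by
  unfold HyF.kr
  rw [← integral_add_right_eq_self (fun u => φ.pk T' k' (ρ' + hyTau c dl T') u * conj (φ.pk T k (ρ + hyTau c dl T) u)) (φ.sg * dl / φ.H),
    ← integral_const_mul]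
  refine integral_congr_ae (Filter.Eventually.of_forall fun u => ?_)
  beta_reduce
  rw [cy_hjf_pk φ h, cy_hjf_pk φ h, map_mul, map_mul, cy_hjf_conj_exp, cy_hjf_conj_exp']
  have := cy_hjf_exp_cancel (u * c)
  linear_combination (φ.pk T' k' ρ' u * conj (φ.pk T k ρ u) * Complex.exp (-(Complex.I * ((φ.chi c dl T' ρ' : ℝ) : ℂ))) * Complex.exp (Complex.I * ((φ.chi c dl T ρ : ℝ) : ℂ))) * this

section vec

variable {E : Type} [NormedAddCommGroup E] [NormedSpace ℂ E]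

theorem cy_hjf_sh_norm (φ : HyF) (c dl T : ℝ) (f : ℝ × ℝ → E) (ρ : ℝ × ℝ) : ‖φ.shF c dl T f ρ‖ = ‖f (ρ - hyTau c dl T)‖ := by
  unfold HyF.shF
  rw [norm_smul, cy_hjf_norm_exp, one_mul]

/-- the shift commutes with scalar multipliers -/
theorem cy_hjf_sh_smul (φ : HyF) (c dl T : ℝ) (a : ℝ × ℝ → ℂ) (f : ℝ × ℝ → E) :
    φ.shF c dl T (fun ρ => a ρ • f ρ) = fun ρ => a (ρ - hyTau c dl T) • φ.shF c dl T f ρ := by
  funext ρ
  unfold HyF.shF
  rw [smul_comm]

/-- **F3** covariance of the transfers -/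
theorem cy_hjf_tr (φ : HyF) (h : φ.Ok) (c dl T : ℝ) (k : ℕ) (T' : ℝ) (k' : ℕ) (f : ℝ × ℝ → E) :
    φ.tr T k T' k' (φ.shF c dl T f) = φ.shF c dl T' (φ.tr T k T' k' f) := by
  funext ρ'
  obtain ⟨ρ1, hρ1⟩ : ∃ ρ1, ρ1 = ρ' - hyTau c dl T' := ⟨_, rfl⟩
  have hρ' : ρ' = ρ1 + hyTau c dl T' := by rw [hρ1, sub_add_cancel]
  unfold HyF.tr HyF.shF HyF.nu
  rw [← hρ1]
  beta_reduce
  rw [integral_smul_measure, integral_smul_measure, smul_comm]
  congr 1
  rw [← integral_smul, ← integral_add_right_eq_self (μ := (volume : Measure (ℝ × ℝ)))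
      (fun x : ℝ × ℝ => φ.kr T k T' k' ρ' x • Complex.exp (-(Complex.I * ((φ.chi c dl T (x - hyTau c dl T) : ℝ) : ℂ))) • f (x - hyTau c dl T)) (hyTau c dl T)]
  refine integral_congr_ae (Filter.Eventually.of_forall fun ρ => ?_)
  beta_reduce
  rw [add_sub_cancel_right, hρ', cy_hjf_kr φ h, smul_smul, smul_smul]
  congr 1
  have := cy_hjf_exp_cancel (φ.chi c dl T ρ)
  linear_combination (Complex.exp (-(Complex.I * ((φ.chi c dl T' ρ1 : ℝ) : ℂ))) * φ.kr T k T' k' ρ1 ρ) * this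

/-- **F4** covariance of the rows of a branch -/
theorem cy_hjf_br (φ : HyF) (h : φ.Ok) (c dl : ℝ) (k' i : ℕ) (l : List HyStg) (T : ℝ) (k : ℕ) (f : ℝ × ℝ → E) :
    φ.br k' i (l.map (HyStg.sh c dl)) T k (φ.shF c dl T f) = φ.shF c dl (tmL k' i) (φ.br k' i l T k f) := by
  induction l generalizing T k f with
  | nil =>
    simp only [List.map_nil, HyF.br]
    exact cy_hjf_tr φ h c dl T k _ _ f
  | cons σ l ih =>
    simp only [List.map_cons, HyF.br]
    rw [← ih]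
    congr 1
    rw [cy_hjf_sh_smul, cy_hjf_tr φ h]
    rfl

end vec

end Claimed.Agent.R256
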