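-- KEEP
import Claimed.Agent.R256.Cyl.TopXA
import Claimed.Agent.R256.Soft.MDocGlue

/-!
# Row 256 (LS paper), CYL, unit TOP-X : Prop. cyl:matched-chain IN THE FORM `SfDocMat` (frame = input, polynomial labels)          (helper129; prefix `cy_tx_`)

EXIT `cy_tx_main : CyHyp Y → CyStep Y Ls → CyForward Y → CyFrm Y → SfDocMat Y Ls`.      NO `sorry` in `TopXA`, `TopX`.
 1. the terminal labels that are light at the floor `s^5 κ` are dropped (`cyTxHv`; loss `2^-n` of the value);  2. a heavy label + POLY + FRM: the GIVEN frame gets the terminal widths (`cy_tx_frame`);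
 3. the base document `cyTpW0`: its labels are polynomial in the new frame (`cy_tx_gate`);  4. `cy_tx_chain`;  5. forward preparation (labels are static);  6. `cy_tp_af`.
-/

set_option autoImplicit false

namespace Claimed.Agent.R256

open MeasureTheory

open Classical in
/-- the labels that are heavy at the floor `s^5 κ` -/
noncomputable def cyTxHv {P : PkSys} (E : Xp P) : Finset (Fin E.L) := Finset.univ.filter fun l => E.s ^ (5 : ℝ) * (E.ka * E.w l) < E.m l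

theorem cy_tx_eqns_cite : True := by
  have := @cyTxHv.eq_1
  trivial

section

variable {P : PkSys}

theorem cy_tx_hv_mem (E : Xp P) (l : Fin (E.pick (E.sel (cyTxHv E))).L) :
    (E.pick (E.sel (cyTxHv E))).s ^ (5 : ℝ) * ((E.pick (E.sel (cyTxHv E))).ka * (E.pick (E.sel (cyTxHv E))).w l) < (E.pick (E.sel (cyTxHv E))).m l := by
  classical
  exact (Finset.mem_filter.1 (gn_sel_mem E (cyTxHv E) l)).2

/-- the light labels carry at most `2^-n` of the value -/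
theorem cy_tx_hv_val (hT : P.Tight) (E : Xp P) (hE : E.Valid) : E.val ≤ (E.pick (E.sel (cyTxHv E))).val + 2 ^ (-(E.n : ℝ)) := by
  classical
  rw [gn_val_split E (cyTxHv E)]
  refine add_le_add le_rfl ?_
  have h1 := gn_val_le_ratio hT (E.pick (E.sel (cyTxHv E)ᶜ)) (gn_pick_valid' E hE _ (gn_sel_inj E _)) (ρ := E.s ^ (5 : ℝ))
    (Real.rpow_pos_of_pos (gn_s_pos E) _).le (fun l => by
      have h2 := gn_sel_mem E (cyTxHv E)ᶜ l
      rw [Finset.mem_compl] at h2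
      have h3 : ¬ (E.s ^ (5 : ℝ) * (E.ka * E.w (E.sel (cyTxHv E)ᶜ l)) < E.m (E.sel (cyTxHv E)ᶜ l)) := fun h4 =>
        h2 (Finset.mem_filter.2 ⟨Finset.mem_univ _, h4⟩)
      exact not_lt.1 h3)
  refine h1.trans ?_
  have e : ((E.pick (E.sel (cyTxHv E)ᶜ)).n : ℝ) = E.n := rfl
  rw [e, gn_s_rpow, gn_two_sqrt, ← gn_two_add]
  exact gn_two_mono (by linarith)

/-- the loss of the value is a small power of `s` -/
theorem cy_tx_hv_loss (hT : P.Tight) (E : Xp P) (hE : E.Valid) {c : ℝ} (hc : 1 ≤ c * E.n) (hn : 2 ≤ E.n) (hv : 2 ^ (-((E.n : ℝ) / 2)) ≤ E.val) :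
    E.s ^ c * E.val ≤ (E.pick (E.sel (cyTxHv E))).val := by
  have h1 := cy_tx_hv_val hT E hE
  have hn' : (2 : ℝ) ≤ E.n := by exact_mod_cast hn
  have h2 : E.s ^ c ≤ 1 / 2 := by
    rw [gn_s_rpow]
    calc (2 : ℝ) ^ (-(c * E.n)) ≤ 2 ^ (-(1 : ℝ)) := gn_two_mono (by linarith)
      _ = 1 / 2 := by rw [Real.rpow_neg_one]; norm_num
  have h3 : (2 : ℝ) ^ (-((E.n : ℝ) / 2)) ≤ 1 / 2 := by
    calc (2 : ℝ) ^ (-((E.n : ℝ) / 2)) ≤ 2 ^ (-(1 : ℝ)) := gn_two_mono (by linarith)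
      _ = 1 / 2 := by rw [Real.rpow_neg_one]; norm_num
  have h4 : (2 : ℝ) ^ (-(E.n : ℝ)) = 2 ^ (-((E.n : ℝ) / 2)) * 2 ^ (-((E.n : ℝ) / 2)) := by
    rw [← gn_two_add]
    congr 1
    ring
  have h5 : 0 < (2 : ℝ) ^ (-((E.n : ℝ) / 2)) := gn_two_pos _
  have hv0 : 0 ≤ E.val := h5.le.trans hv
  have h6 : (2 : ℝ) ^ (-(E.n : ℝ)) ≤ 1 / 2 * E.val := by
    rw [h4]
    exact mul_le_mul h3 hv h5.le (by norm_num)
  have h7 : E.s ^ c * E.val ≤ 1 / 2 * E.val := mul_le_mul_of_nonneg_right h2 hv0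
  linarith

theorem cy_tx_hv_ne (E : Xp P) (hE : E.Valid) (l : Fin (E.pick (E.sel (cyTxHv E))).L) : ∃ x, (E.pick (E.sel (cyTxHv E))).th l x ≠ 0 := by
  by_contra hcon
  push Not at hcon
  have hm : (E.pick (E.sel (cyTxHv E))).m l = 0 := by
    unfold Xp.m PkSys.en
    simp [hcon]
  have h1 := cy_tx_hv_mem E l
  rw [hm] at h1
  have h2 : 0 ≤ (E.pick (E.sel (cyTxHv E))).s ^ (5 : ℝ) * ((E.pick (E.sel (cyTxHv E))).ka * (E.pick (E.sel (cyTxHv E))).w l) :=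
    mul_nonneg (Real.rpow_pos_of_pos (gn_s_pos _) _).le (mul_nonneg hE.ka_pos.le (hE.w_pos _).le)
  linarith

theorem cy_tx_sel_tw (E : Xp P) (hE : E.Valid) (S : Finset (Fin E.L)) : (E.pick (E.sel S)).tw ≤ E.tw := by
  have h1 : (E.pick (E.sel S)).tw = ∑ l ∈ S, E.w l := by
    rw [← gn_sel_sum E S E.w]
    rfl
  rw [h1]
  exact Finset.sum_le_sum_of_subset_of_nonneg (Finset.subset_univ _) fun l _ _ => (hE.w_pos l).le

/-- the labels of the base document are heavy on the entering state -/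
theorem cy_tx_w0_hv (hT : P.Tight) (E : Xp P) (hE : E.Valid) (h : ∀ l, E.s ^ (5 : ℝ) * (E.ka * E.w l) < E.m l) (Q0 : CyT) (r1 f1 : ℝ) :
    CyHv (cyTpW0 E Q0 r1 f1) 1 5 := by
  intro l
  have h1 := lt_of_lt_of_le (h l) (gn_m_le_ms hT E hE l)
  have e : (cyTpW0 E Q0 r1 f1).pre 1 ((cyTpW0 E Q0 r1 f1).iv 1 l) = E.fin (E.iv l) := by
    show Xp.run E.kf (E.iv l) (E.st.take E.st.length) E.v = Xp.run E.kf (E.iv l) E.st E.v
    rw [List.take_length]
  rw [e]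
  have e5 : ((5 : ℕ) : ℝ) = 5 := by norm_num
  rw [e5]
  exact h1

end

/-- **the given frame with the terminal widths** -/
theorem cy_tx_frame {Y : SfCy} (H : CyHyp Y) (hF : CyFrm Y) (C : ℕ) :
    ∃ C1 Ap np : ℕ, ∀ (A : ℕ) (p : Y.M.Par) (E : Xp (Y.M.sys p)) (Q0 : CyT) (r1 f1 : ℝ), Ap ≤ A → np ≤ E.n → Y.M.Cls C A p E → Y.af C A p E Q0 →
      (∀ l, (Y.tq p (E.ts l)).r = r1 ∧ (Y.tq p (E.ts l)).f = f1) → 2 ^ (-((E.n : ℝ) / 2)) ≤ E.val →
      0 < r1 ∧ 0 < f1 ∧ Y.af C1 A p E { Q0 with r := r1, f := f1 } := by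
  obtain ⟨D', Ap, np, HP⟩ := H.poly C 5
  obtain ⟨C1, HF⟩ := hF C D'
  refine ⟨C1, Ap, max np 1, fun A p E Q0 r1 f1 hA hn hE hQ0 hw hv => ?_⟩
  have hT := H.gen.tight p hE.1
  obtain ⟨l, hl⟩ := cy_tp_heavy hT E hE.2.1 ((le_max_right _ _).trans hn) hv
  have hok := (H.ok p (E.ts l) E.kf).1 (hE.2.1.ts_ok l)
  rw [(hw l).1, (hw l).2] at hok
  have hset := ((H.af_def C A p E Q0).1 hQ0).2.1
  have hb := HP p E Q0 ((le_max_left _ _).trans hn) (gn_cls_anti Y.M H.gen.scale hA hE) (cy_tp_af H hQ0 ⟨rfl, rfl, rfl, rfl, rfl, rfl⟩ rfl le_rfl hA)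
    E.kf (E.iv l) E.bT E.st (E.ts l) (Nat.le_add_right _ _) le_rfl (hE.2.1.iv_in l) hE.2.2.2.1.2.1 (cy_tp_stok hE) (hE.2.1.ts_ok l)
    (lt_of_lt_of_le hl (gn_m_le_ms hT E hE.2.1 l))
  obtain ⟨-, b1, b2, b3, b4⟩ := hb
  have e1 : (cyNrm (tmL E.k0 E.i0) E.k0 Q0 (tmL E.kf (E.iv l)) (Y.tq p (E.ts l))).r = r1 / Q0.r := by
    rw [← (hw l).1]; rfl
  have e2 : (cyNrm (tmL E.k0 E.i0) E.k0 Q0 (tmL E.kf (E.iv l)) (Y.tq p (E.ts l))).f = f1 / Q0.f := by
    rw [← (hw l).2]; rfl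
  rw [e1] at b1 b2
  rw [e2] at b3 b4
  have e3 : (E.s ^ (D' : ℝ))⁻¹ = E.s ^ (-(D' : ℝ)) := (Real.rpow_neg (gn_s_pos E).le _).symm
  rw [e3] at b2 b4
  exact ⟨hok.1, hok.2.1, HF A p E Q0 r1 f1 hQ0 ((le_div_iff₀ hset.r_pos).1 b1) ((div_le_iff₀ hset.r_pos).1 b2) ((le_div_iff₀ hset.f_pos).1 b3)
    ((div_le_iff₀ hset.f_pos).1 b4)⟩

/-- **TOP-X** -/
theorem cy_tx_main (Y : SfCy) (H : CyHyp Y) {Ls : ℝ} (hS : CyStep Y Ls) (hW : CyForward Y) (hF : CyFrm Y) : SfDocMat Y Ls := by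
  classical
  intro F hF01
  -- the mesh
  have hG0 : ∀ i ∈ insert (1 : ℝ) F, 0 ≤ i := by
    intro i hi
    rcases Finset.mem_insert.1 hi with rfl | hi
    · exact zero_le_one
    · exact (hF01 i hi).1
  obtain ⟨h, hh, hgap⟩ := cy_tp_gap (insert 1 F) hG0
  obtain ⟨ε0, hε0, hone⟩ := cy_tx_one H hS h hh
  refine ⟨ε0, hε0, fun a ha => ?_⟩
  set R : Finset ℝ := F.erase 1 with hR
  have hRU : R ∪ {1} = insert 1 F := by
    ext x
    simp only [hR, Finset.mem_union, Finset.mem_erase, Finset.mem_singleton, Finset.mem_insert]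
    constructor
    · rintro (⟨_, hx⟩ | hx)
      · exact Or.inr hx
      · exact Or.inl hx
    · rintro (hx | hx)
      · exact Or.inr hx
      · by_cases h1 : x = 1
        · exact Or.inr h1
        · exact Or.inl ⟨h1, hx⟩
  -- the accuracies
  obtain ⟨a1, τF, ha1, hτF, HW⟩ := hW h (a / 3) hh (by positivity)
  have hb : 0 < min a1 (min (τF / 3) (a / 3)) := lt_min ha1 (lt_min (by positivity) (by positivity))
  obtain ⟨ac, τc, hac, hτc, HC⟩ := cy_tx_chain H hone R.card (min a1 (min (τF / 3) (a / 3))) hb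
  set b := min a1 (min (τF / 3) (a / 3)) with hbdef
  have b1 : b ≤ a1 := min_le_left _ _
  have b2 : b ≤ τF / 3 := (min_le_right _ _).trans (min_le_left _ _)
  have b3 : b ≤ a / 3 := (min_le_right _ _).trans (min_le_right _ _)
  set c := min (τc / 2) (min (τF / 3) (a / 3)) with hcdef
  have hc : 0 < c := lt_min (by positivity) (lt_min (by positivity) (by positivity))
  have c1 : c ≤ τc / 2 := min_le_left _ _
  have c2 : c ≤ τF / 3 := (min_le_right _ _).trans (min_le_left _ _)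
  have c3 : c ≤ a / 3 := (min_le_right _ _).trans (min_le_right _ _)
  set τ := min (min (τc / 2) (τF / 3)) (min ac (1 / 2)) with hτdef
  have t1 : τ ≤ τc / 2 := (min_le_left _ _).trans (min_le_left _ _)
  have t2 : τ ≤ τF / 3 := (min_le_left _ _).trans (min_le_right _ _)
  have t3 : τ ≤ ac := (min_le_right _ _).trans (min_le_left _ _)
  have t4 : τ ≤ 1 / 2 := (min_le_right _ _).trans (min_le_right _ _)
  refine ⟨τ, lt_min (lt_min (by positivity) (by positivity)) (lt_min hac (by norm_num)), fun C => ?_⟩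
  -- the packages
  obtain ⟨C1, Ap, np, HFr⟩ := cy_tx_frame H hF C
  obtain ⟨D0, Ap0, np0, HG0⟩ := cy_tx_gate H (max C C1) 5
  obtain ⟨C3, HC⟩ := HC (max (max (max C C1) D0) 1)
  obtain ⟨C5, HW⟩ := HW (max C3 (R.card + 1))
  refine ⟨max C5 C3, fun A' => ?_⟩
  obtain ⟨A5, n5, HW⟩ := HW A'
  obtain ⟨A3, n3, HC⟩ := HC (max A5 A')
  refine ⟨max (max A3 Ap) Ap0, max (max (max n3 n5) (max np np0)) (max 2 ⌈1 / c⌉₊), fun p E Q0 r1 f1 hn hE haf hw hcnt hval => ?_⟩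
  set A := max (max A3 Ap) Ap0 with hA
  set C2 := max (max (max C C1) D0) 1 with hC2
  have hA3 : A3 ≤ A := (le_max_left _ _).trans (le_max_left _ _)
  have hAp : Ap ≤ A := (le_max_right _ _).trans (le_max_left _ _)
  have hAp0 : Ap0 ≤ A := le_max_right _ _
  have hn3 : n3 ≤ E.n := (((le_max_left _ _).trans (le_max_left _ _)).trans (le_max_left _ _)).trans hn
  have hn5 : n5 ≤ E.n := (((le_max_right _ _).trans (le_max_left _ _)).trans (le_max_left _ _)).trans hn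
  have hnp : np ≤ E.n := (((le_max_left _ _).trans (le_max_right _ _)).trans (le_max_left _ _)).trans hn
  have hnp0 : np0 ≤ E.n := (((le_max_right _ _).trans (le_max_right _ _)).trans (le_max_left _ _)).trans hn
  have hn2 : 2 ≤ E.n := ((le_max_left _ _).trans (le_max_right _ _)).trans hn
  have hnc : 1 ≤ c * E.n := by
    have h1 : ⌈1 / c⌉₊ ≤ E.n := ((le_max_right _ _).trans (le_max_right _ _)).trans hn
    have h2 : 1 / c ≤ (E.n : ℝ) := (Nat.le_ceil _).trans (by exact_mod_cast h1)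
    rw [div_le_iff₀ hc] at h2
    linarith
  have hn0 : (0 : ℝ) ≤ (E.n : ℝ) := Nat.cast_nonneg _
  have hΓ0 := Y.M.bs_gam_nonneg
  have hT := H.gen.tight
  have hvh : (2 : ℝ) ^ (-((E.n : ℝ) / 2)) ≤ E.val := le_trans (gn_two_mono (by nlinarith)) hval
  -- the frame
  obtain ⟨hr1, hf1, hQ0⟩ := HFr A p E Q0 r1 f1 hAp hnp hE haf hw hvh
  -- the base
  set E0 := E.pick (E.sel (cyTxHv E)) with hE0
  have hinj := gn_sel_inj E (cyTxHv E)
  have hE0c : Y.M.Cls C A p E0 := gn_cls_pick Y.M H.gen.root hE _ hinj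
  have hv0 : E.s ^ c * E.val ≤ E0.val := cy_tx_hv_loss (hT p hE.1) E hE.2.1 hnc hn2 hvh
  have hvpos : 0 < E.val := lt_of_lt_of_le (gn_two_pos _) hval
  have hL0 : 0 < E0.L := cy_fw_label E0 (lt_of_lt_of_le (mul_pos (Real.rpow_pos_of_pos (gn_s_pos E) _) hvpos) hv0)
  have hpre0 : (cyTpW0 E0 Q0 r1 f1).Pre Y p Y.M.p0 Y.M.d0 Ls ε0 ac :=
    cy_tp_w0_pre E0 hE0c.2.1 hL0 Q0 hr1 hf1 (cy_tx_hv_ne E hE.2.1) (fun l => hw _) t3 hac.le ((cy_tx_sel_tw E hE.2.1 _).trans hcnt) Ls ε0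
  have haf0 : Y.af (max C C1) A p E0 { Q0 with r := r1, f := f1 } := cy_tp_af H hQ0 ⟨rfl, rfl, rfl, rfl, rfl, rfl⟩ rfl (le_max_right _ _) le_rfl
  have hcls0 : Y.M.Cls (max C C1) A p E0 := gn_cls_mono Y.M H.gen.scale (le_max_left _ _) hE0c
  have hbd0 : CyBD Y p (cyTpW0 E0 Q0 r1 f1) C2 := by
    intro i hi l
    have hi1 : i = 1 := Finset.mem_singleton.1 hi
    subst hi1
    exact cy_tx_bdd_s _ (HG0 p (cyTpW0 E0 Q0 r1 f1) 1 hnp0 (gn_cls_anti Y.M H.gen.scale hAp0 hcls0)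
      (cy_tp_af H haf0 ⟨rfl, rfl, rfl, rfl, rfl, rfl⟩ rfl le_rfl hAp0) hpre0.str hi (cy_tx_w0_hv (hT p hE.1) E0 hE0c.2.1 (cy_tx_hv_mem E) Q0 r1 f1) l)
      ((le_max_right _ _).trans (le_max_left _ _))
  have hval0 : 2 ^ ((Y.M.Gam - τc) * (E.n : ℝ)) ≤ E0.val := by
    refine le_trans ?_ hv0
    rw [gn_s_rpow]
    refine le_trans ?_ (mul_le_mul_of_nonneg_left hval (gn_two_pos _).le)
    rw [← gn_two_add]
    exact gn_two_mono (by nlinarith)
  -- the chain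
  obtain ⟨W1, hG1, hQ1, hcls1, haf1, hbd1, hroot1, hn1, hsub1, hloss1, hpre1⟩ := HC p (cyTpW0 E0 Q0 r1 f1) R hn3
    (gn_cls_mono Y.M H.gen.scale ((le_max_left _ _).trans (le_max_left _ _)) (gn_cls_anti Y.M H.gen.scale hA3 hcls0))
    (cy_tp_af H haf0 ⟨rfl, rfl, rfl, rfl, rfl, rfl⟩ rfl ((le_max_left _ _).trans (le_max_left _ _)) hA3) hbd0
    (le_max_right _ _) rfl (Finset.singleton_nonempty _)
    (fun i hi => by
      have hiF := Finset.mem_of_mem_erase hi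
      refine ⟨(hF01 i hiF).1, fun k hk => ?_⟩
      rw [Finset.mem_singleton.1 hk]
      exact lt_of_le_of_ne (hF01 i hiF).2 (Finset.ne_of_mem_erase hi))
    (by
      have : (cyTpW0 E0 Q0 r1 f1).G = {1} := rfl
      rw [this, hRU]
      exact hgap)
    hpre0 hval0
  have hG1' : W1.G = insert 1 F := by
    rw [hG1]
    exact hRU
  have hn1' : W1.E.n = E.n := hn1
  have hroot1' : Mdl.SameRoot E W1.E := hroot1
  have hs1 : W1.E.s = E.s := cy_tp_s_eq hn1'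
  have hsb : 0 < E.s ^ b := Real.rpow_pos_of_pos (gn_s_pos E) _
  have hloss1' : E.s ^ b * (E.s ^ c * E.val) ≤ W1.E.val := by
    have h1 : E.s ^ b * E0.val ≤ W1.E.val := hloss1
    exact (mul_le_mul_of_nonneg_left hv0 hsb.le).trans h1
  have hval1 : 2 ^ ((Y.M.Gam - τF) * W1.E.n) ≤ W1.E.val := by
    refine le_trans ?_ hloss1'
    rw [hn1', gn_s_rpow, gn_s_rpow]
    refine le_trans ?_ (mul_le_mul_of_nonneg_left (mul_le_mul_of_nonneg_left hval (gn_two_pos _).le) (gn_two_pos _).le)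
    rw [← gn_two_add, ← gn_two_add]
    exact gn_two_mono (by nlinarith)
  -- the forward preparation
  obtain ⟨st', pos', -, -, hcls2, hloss2, hext⟩ := HW p W1 Ls ε0 (-1) (by rw [hn1']; exact hn5)
    (gn_cls_mono Y.M H.gen.scale (le_max_left _ _) (gn_cls_anti Y.M H.gen.scale (le_max_left _ _) hcls1))
    (by
      rw [hG1]
      refine (Finset.card_union_le _ _).trans ?_
      exact le_max_right _ _)
    (by rw [hG1']; exact hgap) (cy_fw_pre_mono hpre1 b1) hval1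
    (fun i hi his => by
      rw [hG1'] at hi
      have := hG0 i hi
      linarith)
  refine ⟨{ W1 with E := W1.E.withSt st', pos := pos' }, hG1', hQ1, gn_cls_mono Y.M H.gen.scale (le_max_left _ _) hcls2, ?_, hroot1', hn1', ?_, ?_,
    cy_tp_ext_mono hT hE.1 hext (by linarith), ?_⟩
  · show Y.af (max C5 C3) A' p (W1.E.withSt st') W1.Q0
    exact cy_tp_af H haf1 ⟨rfl, rfl, rfl, rfl, rfl, rfl⟩ rfl (le_max_right _ _) (le_max_right _ _)
  · exact cy_tp_sub_trans (cy_tp_sub_trans (cy_tp_sub_pick E _ hinj) hsub1) (cy_tp_sub_st _ _)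
  · show E.s ^ a * E.val ≤ (W1.E.withSt st').val
    rw [hs1] at hloss2
    have hsp : 0 < E.s ^ (a / 3) := Real.rpow_pos_of_pos (gn_s_pos E) _
    have e1 : E.s ^ a = E.s ^ (a / 3) * (E.s ^ (a / 3) * E.s ^ (a / 3)) := by
      rw [← Real.rpow_add (gn_s_pos E), ← Real.rpow_add (gn_s_pos E)]
      congr 1
      ring
    have e2 : E.s ^ (a / 3) ≤ E.s ^ b := gn_s_anti E b3
    have e3 : E.s ^ (a / 3) ≤ E.s ^ c := gn_s_anti E c3
    have hv := hvpos.le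
    calc E.s ^ a * E.val = E.s ^ (a / 3) * (E.s ^ (a / 3) * (E.s ^ (a / 3) * E.val)) := by rw [e1]; ring
      _ ≤ E.s ^ (a / 3) * (E.s ^ b * (E.s ^ c * E.val)) := by
          refine mul_le_mul_of_nonneg_left ?_ hsp.le
          exact mul_le_mul e2 (mul_le_mul_of_nonneg_right e3 hv) (mul_nonneg hsp.le hv) hsb.le
      _ ≤ E.s ^ (a / 3) * W1.E.val := mul_le_mul_of_nonneg_left hloss1' hsp.le
      _ ≤ (W1.E.withSt st').val := hloss2
  · intro i hi l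
    exact cy_tx_bdd_s W1.E (hbd1 i hi l) (le_max_right _ _)

end Claimed.Agent.R256
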